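import Crest.Agent.R326.SpecB

/-!
# Error analysis of the fixed-point arithmetic
-/

set_option autoImplicit false

namespace Crest.Agent.R326

open Finset

variable {h p : ℕ}

theorem Ap.mono {r z} {E E' : ℝ} (H : Ap h p r z E) (hE : E ≤ E') : Ap h p r z E' := by
  obtain ⟨g, h1, h2⟩ := H
  exact ⟨g, h1, h2.trans hE⟩

theorem Ap.congr {r z z'} {E D : ℝ} (H : Ap h p r z E) (hz : ‖z - z'‖ ≤ D) :
    Ap h p r z' (E + 2 ^ p * D) := by
  obtain ⟨g, h1, h2⟩ := H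
  refine ⟨g, h1, ?_⟩
  have : (g : ℂ) - 2 ^ p * z' = (g - 2 ^ p * z) + 2 ^ p * (z - z') := by ring
  rw [this]
  refine (norm_add_le _ _).trans (add_le_add h2 ?_)
  rw [norm_mul, norm_pow, Complex.norm_two]
  gcongr

theorem Ap.mod {r z} {E : ℝ} (H : Ap h p r z E) : Ap h p (r % Qm h) z E := by
  obtain ⟨g, h1, h2⟩ := H
  exact ⟨g, by rw [ZMod.natCast_mod, h1], h2⟩

theorem Lv.mono {e e' r z} (H : Lv h p e r z) (he : e ≤ e') : Lv h p e' r z :=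
  have : (2 : ℝ) ^ e ≤ 2 ^ e' := pow_le_pow_right₀ (by norm_num) he
  ⟨H.1.mono this, H.2.trans this⟩

theorem App.mono {e e' V ok ok' X x} (H : App h p e V ok X x) (he : e ≤ e')
    (hok : ∀ a < V, ok' a → ok a) : App h p e' V ok' X x :=
  ⟨H.1, H.2.1, fun a ha h' => (H.2.2 a ha (hok a ha h')).mono he⟩

theorem App.congr {e V ok X x y} (H : App h p e V ok X x) (hxy : ∀ a < V, ok a → x a = y a) :
    App h p e V ok X y :=
  ⟨H.1, H.2.1, fun a ha h' => hxy a ha h' ▸ H.2.2 a ha h'⟩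

theorem Ap.add {r r' z z'} {E E' : ℝ} (H : Ap h p r z E) (H' : Ap h p r' z' E') :
    Ap h p ((r + r') % Qm h) (z + z') (E + E') := by
  obtain ⟨g, h1, h2⟩ := H
  obtain ⟨g', h1', h2'⟩ := H'
  refine ⟨g + g', by rw [cast_addQ, h1, h1', map_add], ?_⟩
  have : ((g + g' : GaussianInt) : ℂ) - 2 ^ p * (z + z') =
      (g - 2 ^ p * z) + (g' - 2 ^ p * z') := by rw [map_add]; ring
  rw [this]
  exact (norm_add_le _ _).trans (add_le_add h2 h2')

theorem Ap.sub {r r' z z'} {E E' : ℝ} (H : Ap h p r z E) (H' : Ap h p r' z' E') (hr : r' ≤ Qm h) :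
    Ap h p ((r + (Qm h - r')) % Qm h) (z - z') (E + E') := by
  obtain ⟨g, h1, h2⟩ := H
  obtain ⟨g', h1', h2'⟩ := H'
  refine ⟨g - g', by rw [cast_subQ hr, h1, h1', map_sub], ?_⟩
  have : ((g - g' : GaussianInt) : ℂ) - 2 ^ p * (z - z') =
      (g - 2 ^ p * z) - (g' - 2 ^ p * z') := by rw [map_sub]; ring
  rw [this]
  exact (norm_sub_le _ _).trans (add_le_add h2 h2')

/-- a natural number close to `2 ^ p * z` -/
theorem Ap.of_nat {r : ℕ} {z : ℂ} {E : ℝ} (H : ‖(r : ℂ) - 2 ^ p * z‖ ≤ E) : Ap h p r z E :=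
  ⟨r, by simp, by simpa using H⟩

theorem Ap.nat (n : ℕ) : Ap h p (n * 2 ^ p) n 0 := Ap.of_nat (by simp [mul_comm])

theorem Ap.zero : Ap h p 0 0 0 := Ap.of_nat (by simp)

theorem Ap.one : Ap h p (2 ^ p) 1 0 := Ap.of_nat (by simp)

theorem Lv.zero (e : ℕ) : Lv h p e 0 0 := ⟨Ap.zero.mono (by positivity), by simp⟩

theorem Lv.one : Lv h p 0 (2 ^ p) 1 := ⟨Ap.one.mono (by simp), by simp⟩

theorem Lv.nat {n e : ℕ} (hn : n ≤ 2 ^ e) : Lv h p e (n * 2 ^ p) n :=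
  ⟨(Ap.nat n).mono (by positivity), by simpa using (by exact_mod_cast hn : (n : ℝ) ≤ 2 ^ e)⟩

theorem Ap.inv_two_pow {k : ℕ} (hk : k ≤ p) : Ap h p (2 ^ (p - k)) (1 / 2 ^ k) 0 := by
  refine Ap.of_nat (le_of_eq ?_)
  obtain ⟨d, rfl⟩ := Nat.exists_eq_add_of_le hk
  rw [norm_eq_zero, Nat.add_sub_cancel_left]
  push_cast
  rw [pow_add]
  field_simp
  ring

theorem Ap.inv_nat {s : ℕ} (hs : 0 < s) : Ap h p (2 ^ p / s) (1 / s) 1 := by
  refine Ap.of_nat ?_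
  have hs' : (0 : ℝ) < s := by exact_mod_cast hs
  have h1 : ((2 ^ p / s : ℕ) : ℂ) - 2 ^ p * (1 / s) =
      ((((2 ^ p / s : ℕ) : ℝ) - 2 ^ p / s : ℝ) : ℂ) := by push_cast; ring
  rw [h1, Complex.norm_real, Real.norm_eq_abs, abs_le]
  have h2 : ((2 ^ p / s : ℕ) : ℝ) ≤ 2 ^ p / s := by exact_mod_cast Nat.cast_div_le
  have h3 : (2 : ℝ) ^ p / s < ((2 ^ p / s : ℕ) : ℝ) + 1 := by
    rw [div_lt_iff₀ hs']
    have := Nat.lt_div_mul_add (a := 2 ^ p) hs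
    have h4 : ((2 ^ p : ℕ) : ℝ) < ((2 ^ p / s * s + s : ℕ) : ℝ) := by exact_mod_cast this
    push_cast at h4
    linarith
  constructor <;> linarith

theorem Lv.inv_nat {s : ℕ} (hs : 0 < s) : Lv h p 0 (2 ^ p / s) (1 / s) := by
  refine ⟨(Ap.inv_nat hs).mono (by simp), ?_⟩
  have : (1 : ℝ) ≤ s := by exact_mod_cast hs
  simpa using inv_le_one_of_one_le₀ this

theorem cast_offQ (h k : ℕ) : ((offQ h k : ℕ) : ZMod (Qm h)) = 2 ^ k + 2 ^ k * IQ h := by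
  simp [offQ, IQ]

theorem offQ_lt {k : ℕ} (hk : k < h) : offQ h k < Qm h := by
  unfold offQ Qm
  have h1 : 2 ^ k * 2 ≤ 2 ^ h := by rw [← pow_succ]; exact Nat.pow_le_pow_right (by norm_num) hk
  have h2 : 0 < 2 ^ k := by positivity
  rw [two_mul, pow_add]
  nlinarith

/-- decoding: the residue of a small Gaussian integer, shifted by the offset -/
theorem decode {r : ℕ} {g : GaussianInt} (hh : 1 ≤ h) (hr : (r : ZMod (Qm h)) = encG h g)
    (hg : ‖(g : ℂ)‖ < 2 ^ (h - 1)) :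
    (((r + offQ h (h - 1)) % Qm h % 2 ^ h : ℕ) : ℤ) = g.re + 2 ^ (h - 1) ∧
    (((r + offQ h (h - 1)) % Qm h / 2 ^ h : ℕ) : ℤ) = g.im + 2 ^ (h - 1) := by
  have hre : |g.re| < 2 ^ (h - 1) := by
    have := (Complex.abs_re_le_norm (g : ℂ)).trans_lt hg
    rw [← GaussianInt.intCast_re] at this
    exact_mod_cast this
  have him : |g.im| < 2 ^ (h - 1) := by
    have := (Complex.abs_im_le_norm (g : ℂ)).trans_lt hg
    rw [← GaussianInt.intCast_im] at this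
    exact_mod_cast this
  rw [abs_lt] at hre him
  obtain ⟨u, hu⟩ := Int.eq_ofNat_of_zero_le (show 0 ≤ g.re + 2 ^ (h - 1) by omega)
  obtain ⟨v, hv⟩ := Int.eq_ofNat_of_zero_le (show 0 ≤ g.im + 2 ^ (h - 1) by omega)
  have h2 : (2 : ℤ) ^ h = 2 ^ (h - 1) * 2 := by rw [← pow_succ]; congr 1; omega
  have hu' : u < 2 ^ h := by zify; omega
  have hv' : v < 2 ^ h := by zify; omega
  have key : (r + offQ h (h - 1)) % Qm h = u + 2 ^ h * v := by
    have hlt : u + 2 ^ h * v < Qm h := by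
      unfold Qm; rw [two_mul, pow_add]; nlinarith
    rw [← Nat.mod_eq_of_lt hlt]
    apply (ZMod.natCast_eq_natCast_iff' _ _ _).1
    have e1 : (u : ZMod (Qm h)) = g.re + 2 ^ (h - 1) := by
      exact_mod_cast congrArg (Int.cast : ℤ → ZMod (Qm h)) hu.symm
    have e2 : (v : ZMod (Qm h)) = g.im + 2 ^ (h - 1) := by
      exact_mod_cast congrArg (Int.cast : ℤ → ZMod (Qm h)) hv.symm
    push_cast
    rw [hr, cast_offQ, encG_apply, e1, e2, IQ]
    ring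
  rw [key, Nat.add_mul_mod_self_left, Nat.mod_eq_of_lt hu',
    Nat.add_mul_div_left _ _ (by positivity), Nat.div_eq_of_lt hu', zero_add]
  exact ⟨hu.symm, hv.symm⟩

theorem mulRound_lt (h p x y : ℕ) : mulRound h p x y < Qm h := Nat.mod_lt _ (Qm_pos h)

theorem abs_ediv_sub (t : ℤ) (p : ℕ) : |((t / 2 ^ p : ℤ) : ℝ) - t / 2 ^ p| ≤ 1 := by
  have h1 := Int.mul_ediv_add_emod t (2 ^ p)
  have h2 := Int.emod_nonneg t (show (2 : ℤ) ^ p ≠ 0 by positivity)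
  have h3 := Int.emod_lt_of_pos t (show (0 : ℤ) < 2 ^ p by positivity)
  have h4 : (0 : ℝ) < 2 ^ p := by positivity
  have h5 : (t : ℝ) = 2 ^ p * ((t / 2 ^ p : ℤ) : ℝ) + ((t % 2 ^ p : ℤ) : ℝ) := by
    exact_mod_cast h1.symm
  have h6 : (0 : ℝ) ≤ ((t % 2 ^ p : ℤ) : ℝ) := by exact_mod_cast h2
  have h7 : ((t % 2 ^ p : ℤ) : ℝ) < 2 ^ p := by exact_mod_cast h3
  have h8 : ((t / 2 ^ p : ℤ) : ℝ) - t / 2 ^ p = -(((t % 2 ^ p : ℤ) : ℝ) / 2 ^ p) := by
    rw [h5]; field_simp; ring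
  rw [h8, abs_neg, abs_of_nonneg (by positivity), div_le_one h4]
  exact h7.le

/-- the rounded product codes a Gaussian integer within `2` of the quotient -/
theorem mulRound_enc {x y : ℕ} {g g' : GaussianInt} (hp : p + 1 ≤ h)
    (hx : (x : ZMod (Qm h)) = encG h g) (hy : (y : ZMod (Qm h)) = encG h g')
    (hb : ‖(g : ℂ)‖ * ‖(g' : ℂ)‖ < 2 ^ (h - 1)) :
    ∃ w : GaussianInt, ((mulRound h p x y : ℕ) : ZMod (Qm h)) = encG h w ∧
      ‖(w : ℂ) - g * g' / 2 ^ p‖ ≤ 2 := by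
  obtain ⟨d1, d2⟩ := decode (h := h) (r := x * y) (g := g * g') (by omega)
    (by rw [Nat.cast_mul, hx, hy, map_mul]) (by rw [map_mul, norm_mul]; exact hb)
  have h2 : (2 : ℤ) ^ (h - 1) = 2 ^ (h - 1 - p) * 2 ^ p := by rw [← pow_add]; congr 1; omega
  refine ⟨⟨(g * g').re / 2 ^ p, (g * g').im / 2 ^ p⟩, ?_, ?_⟩
  · have e1 : (((x * y + offQ h (h - 1)) % Qm h % 2 ^ h / 2 ^ p : ℕ) : ℤ) =
        (g * g').re / 2 ^ p + 2 ^ (h - 1 - p) := by
      rw [Int.natCast_div, d1, h2]; push_cast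
      rw [Int.add_mul_ediv_right _ _ (by positivity)]
    have e2 : (((x * y + offQ h (h - 1)) % Qm h / 2 ^ h / 2 ^ p : ℕ) : ℤ) =
        (g * g').im / 2 ^ p + 2 ^ (h - 1 - p) := by
      rw [Int.natCast_div, d2, h2]; push_cast
      rw [Int.add_mul_ediv_right _ _ (by positivity)]
    have e1' := congrArg (Int.cast : ℤ → ZMod (Qm h)) e1
    have e2' := congrArg (Int.cast : ℤ → ZMod (Qm h)) e2
    rw [Int.cast_natCast] at e1' e2'
    rw [mulRound, cast_subQ (offQ_lt (show h - 1 - p < h by omega)).le, Nat.cast_add, Nat.cast_mul, e1', e2',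
      cast_offQ, encG_apply]
    push_cast
    rw [IQ]
    ring
  · refine (Complex.norm_le_abs_re_add_abs_im _).trans ?_
    have h1 := abs_ediv_sub (g * g').re p
    have h3 := abs_ediv_sub (g * g').im p
    have e : (g : ℂ) * g' / 2 ^ p = ((g * g' : GaussianInt) : ℂ) / ((2 ^ p : ℝ) : ℂ) := by
      rw [map_mul]; push_cast; rfl
    rw [e, Complex.sub_re, Complex.sub_im, Complex.div_ofReal_re, Complex.div_ofReal_im,
      ← GaussianInt.intCast_re, ← GaussianInt.intCast_im, ← GaussianInt.intCast_re,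
      ← GaussianInt.intCast_im]
    linarith

theorem norm_le_of_ap {g : GaussianInt} {z : ℂ} {E : ℝ} (H : ‖(g : ℂ) - 2 ^ p * z‖ ≤ E) :
    ‖(g : ℂ)‖ ≤ 2 ^ p * ‖z‖ + E := by
  have : (g : ℂ) = 2 ^ p * z + (g - 2 ^ p * z) := by ring
  rw [this]
  refine (norm_add_le _ _).trans (add_le_add (le_of_eq ?_) H)
  rw [norm_mul, norm_pow, Complex.norm_two]

/-- the error of the rounded product -/
theorem Ap.mulRound {x y z z'} {E E' : ℝ} (hp : p + 1 ≤ h) (H : Ap h p x z E) (H' : Ap h p y z' E')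
    (hb : (2 ^ p * ‖z‖ + E) * (2 ^ p * ‖z'‖ + E') < 2 ^ (h - 1)) :
    Ap h p (mulRound h p x y) (z * z') (‖z'‖ * E + ‖z‖ * E' + E * E' / 2 ^ p + 2) := by
  obtain ⟨g, h1, h2⟩ := H
  obtain ⟨g', h1', h2'⟩ := H'
  have hE : 0 ≤ E := (norm_nonneg _).trans h2
  obtain ⟨w, hw, hw2⟩ := mulRound_enc hp h1 h1' (lt_of_le_of_lt
    (mul_le_mul (norm_le_of_ap h2) (norm_le_of_ap h2') (norm_nonneg _) (by positivity)) hb)
  refine ⟨w, hw, ?_⟩
  have e : (w : ℂ) - 2 ^ p * (z * z') = z' * (g - 2 ^ p * z) + z * (g' - 2 ^ p * z') +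
      (g - 2 ^ p * z) * (g' - 2 ^ p * z') / 2 ^ p + (w - g * g' / 2 ^ p) := by
    field_simp; ring
  rw [e]
  refine (norm_add_le _ _).trans (add_le_add ((norm_add_le _ _).trans (add_le_add
    ((norm_add_le _ _).trans (add_le_add ?_ ?_)) ?_)) hw2)
  · rw [norm_mul]; gcongr
  · rw [norm_mul]; gcongr
  · rw [norm_div, norm_mul, norm_pow, Complex.norm_two]; gcongr

theorem Lv.mulRound {x y z z' e e'} (H : Lv h p e x z) (H' : Lv h p e' y z')
    (hh : 2 * p + e + e' + 4 ≤ h) : Lv h p (e + e' + 3) (mulRound h p x y) (z * z') := by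
  have h1 : (1 : ℝ) ≤ 2 ^ p := one_le_pow₀ (by norm_num)
  have h2 : (1 : ℝ) ≤ 2 ^ e := one_le_pow₀ (by norm_num)
  have h3 : (1 : ℝ) ≤ 2 ^ e' := one_le_pow₀ (by norm_num)
  have h4 := H.2
  have h5 := H'.2
  have h6 : (1 : ℝ) ≤ 2 ^ e * 2 ^ e' := by nlinarith
  refine ⟨(H.1.mulRound (by omega) H'.1 ?_).mono ?_, ?_⟩
  · calc (2 ^ p * ‖z‖ + 2 ^ e) * (2 ^ p * ‖z'‖ + 2 ^ e')
        ≤ (2 ^ p * 2 ^ e + 2 ^ p * 2 ^ e) * (2 ^ p * 2 ^ e' + 2 ^ p * 2 ^ e' : ℝ) := by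
          gcongr <;> nlinarith
      _ = 2 ^ (2 * p + e + e' + 2) := by ring
      _ < 2 ^ (h - 1) := pow_lt_pow_right₀ (by norm_num) (by omega)
  · have a1 : ‖z'‖ * 2 ^ e ≤ 2 ^ e * 2 ^ e' := by nlinarith
    have a2 : ‖z‖ * 2 ^ e' ≤ 2 ^ e * 2 ^ e' := by gcongr
    have a3 : (2 : ℝ) ^ e * 2 ^ e' / 2 ^ p ≤ 2 ^ e * 2 ^ e' := div_le_self (by positivity) h1
    rw [pow_add, pow_add]
    linarith
  · rw [norm_mul, pow_add, pow_add]
    have : ‖z‖ * ‖z'‖ ≤ 2 ^ e * 2 ^ e' := by gcongr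
    linarith

theorem roundRe_eq {r c : ℕ} {E : ℝ} (hp : 1 ≤ p) (hh : p + 1 ≤ h) (H : Ap h p r c E)
    (hE : E < 2 ^ (p - 1)) (hc : 2 ^ p * (c : ℝ) + E < 2 ^ (h - 1)) : roundRe h p r = c := by
  obtain ⟨g, h1, h2⟩ := H
  obtain ⟨d1, -⟩ := decode (by omega) h1 ((norm_le_of_ap h2).trans_lt (by simpa using hc))
  have h3 : |g.re - 2 ^ p * (c : ℤ)| < 2 ^ (p - 1) := by
    have := ((Complex.abs_re_le_norm _).trans h2).trans_lt hE
    have e : ((g : ℂ) - 2 ^ p * c).re = ((g.re - 2 ^ p * (c : ℤ) : ℤ) : ℝ) := by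
      have : (2 : ℂ) ^ p * c = ((2 ^ p * c : ℝ) : ℂ) := by push_cast; rfl
      rw [Complex.sub_re, this, Complex.ofReal_re, ← GaussianInt.intCast_re]
      push_cast; rfl
    rw [e] at this
    exact_mod_cast this
  rw [abs_lt] at h3
  have h4 : (2 : ℤ) ^ (h - 1) = 2 ^ (h - 1 - p) * 2 ^ p := by rw [← pow_add]; congr 1; omega
  have h5 : (2 : ℤ) ^ p = 2 ^ (p - 1) * 2 := by rw [← pow_succ]; congr 1; omega
  have key : ((r + offQ h (h - 1)) % Qm h % 2 ^ h + 2 ^ (p - 1)) / 2 ^ p = c + 2 ^ (h - 1 - p) := by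
    apply Nat.div_eq_of_lt_le
    · zify at d1 ⊢; rw [d1, h4]; nlinarith
    · zify at d1 ⊢; rw [d1, h4]; nlinarith
  rw [roundRe, key, Nat.add_sub_cancel]

theorem closed_lt {l0 σ n a V : ℕ} {ok : ℕ → Prop} (hc : Closed l0 σ n a ok)
    (hV : ∀ i < a, 2 ^ (l0 + σ * i) * n ∣ V) : Closed l0 σ n a fun b => b < V ∧ ok b :=
  fun i hi b k hk hb => ⟨setDig_lt (by positivity) hk (hV i hi) hb.1, hc i hi b k hk hb.2⟩

/-- an exact operator with Gaussian entries raises the level by the logarithm of its norm -/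
theorem App.exact {e V l0 σ n a δ : ℕ} {ok ok' : ℕ → Prop} {X Y : List ℕ} {x : ℕ → ℂ}
    (M : ℕ → ℕ → ℕ → GaussianInt) (hn : 0 < n) (hc : Closed l0 σ n a ok)
    (hV : ∀ i < a, 2 ^ (l0 + σ * i) * n ∣ V) (hok : ∀ b < V, ok b → ok' b)
    (hM : ∀ i < a, ∀ j < n, ∑ k ∈ range n, ‖(M i j k : ℂ)‖ ≤ 2 ^ δ)
    (hX : App h p e V ok X x)
    (hY : ExQ h V ok' (liftS l0 σ n (fun i j k => encG h (M i j k)) a) X Y) :
    App h p (e + δ * a) V ok Y (liftS l0 σ n (fun i j k => (M i j k : ℂ)) a x) := by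
  classical
  have hc' := closed_lt hc hV
  have hg : ∀ b, ∃ g : GaussianInt, b < V ∧ ok b →
      (X.getD b 0 : ZMod (Qm h)) = encG h g ∧ ‖(g : ℂ) - 2 ^ p * x b‖ ≤ 2 ^ e := fun b => by
    by_cases hb : b < V ∧ ok b
    · obtain ⟨g, hg⟩ := (hX.2.2 b hb.1 hb.2).1
      exact ⟨g, fun _ => hg⟩
    · exact ⟨0, fun h' => absurd h' hb⟩
  choose g hg using hg
  have hpow : ((2 : ℝ) ^ δ) ^ a * 2 ^ e = 2 ^ (e + δ * a) := by rw [← pow_mul, pow_add, mul_comm]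
  refine ⟨hY.1, hY.2.1, fun b hb hob => ⟨⟨liftS l0 σ n M a g b, ?_, ?_⟩, ?_⟩⟩
  · refine (hY.2.2 b hb (hok b hb hob)).trans ?_
    rw [liftS_map]
    exact liftS_local hc' _ (fun b hb => (hg b hb).1) b ⟨hb, hob⟩
  · have e1 := liftS_map GaussianInt.toComplex l0 σ n a M g b
    have e2 := congrFun (liftS_sub l0 σ n a (fun i j k => (M i j k : ℂ))
      (fun b => (g b : ℂ)) ((2 : ℂ) ^ p • x)) b
    rw [liftS_smul] at e2
    simp only [Pi.sub_apply, Pi.smul_apply, smul_eq_mul] at e2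
    rw [e1, ← e2, ← hpow]
    exact norm_liftS_le hn hc' (by positivity) hM (by positivity) (fun b hb => (hg b hb).2) b
      ⟨hb, hob⟩
  · rw [← hpow]
    exact norm_liftS_le hn hc' (by positivity) hM (by positivity)
      (fun b hb => (hX.2.2 b hb.1 hb.2).2) b ⟨hb, hob⟩

theorem closed_okPh {l0 K a g l r : ℕ} (hK : 3 ≤ K) (hl : l + r ≤ K + 1) :
    Closed (l0 + l) (2 * K - 2) (2 ^ r) a (okPh l0 K a g) := by
  intro i _ b k hk hb j hj
  have := hb j hj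
  rcases le_or_gt i j with hij | hij
  · have h1 : (2 * K - 2) * i ≤ (2 * K - 2) * j := Nat.mul_le_mul_left _ hij
    rwa [dig_setDig_high (by positivity) hk (two_pow_mul_dvd (by omega))]
  · have h1 : (2 * K - 2) * (j + 1) ≤ (2 * K - 2) * i := Nat.mul_le_mul_left _ hij
    rw [Nat.mul_succ] at h1
    rwa [dig_setDig_low (by positivity) (two_pow_mul_dvd (by omega))]

theorem norm_ee (m : ℤ) (M : ℕ) : ‖ee m M‖ = 1 := by
  have : (2 * Real.pi * Complex.I * m / M : ℂ) = ((2 * Real.pi * m / M : ℝ) : ℂ) * Complex.I := by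
    push_cast; ring
  rw [ee, this, Complex.norm_exp_ofReal_mul_I]

theorem ee_add (m m' : ℤ) (M : ℕ) : ee (m + m') M = ee m M * ee m' M := by
  rw [ee, ee, ee, ← Complex.exp_add]; congr 1; push_cast; ring

theorem ee_zero (M : ℕ) : ee 0 M = 1 := by simp [ee]

theorem ee_neg (m : ℤ) (M : ℕ) : ee (-m) M = (ee m M)⁻¹ := by
  rw [ee, ee, ← Complex.exp_neg]; congr 1; push_cast; ring

theorem ee_mul_self (k : ℤ) {M : ℕ} (hM : 0 < M) : ee (k * M) M = 1 := by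
  have : (M : ℂ) ≠ 0 := by exact_mod_cast hM.ne'
  rw [ee, ← Complex.exp_int_mul_two_pi_mul_I k]
  congr 1; push_cast; field_simp

theorem ee_congr {m m' : ℤ} {M : ℕ} (hM : 0 < M) (h : m ≡ m' [ZMOD M]) : ee m M = ee m' M := by
  obtain ⟨k, hk⟩ := h.dvd
  rw [show m' = m + k * M by linarith, ee_add, ee_mul_self k hM, mul_one]

theorem ee_nat_mul (m : ℤ) (k M : ℕ) : ee (m * k) M = ee m M ^ k := by
  rw [ee, ee, ← Complex.exp_nat_mul]; congr 1; push_cast; ring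

theorem ee_mul_mul (m : ℤ) {c : ℕ} (hc : 0 < c) (M : ℕ) : ee (c * m) (c * M) = ee m M := by
  have : (c : ℂ) ≠ 0 := by exact_mod_cast hc.ne'
  rw [ee, ee]; congr 1; push_cast
  rcases eq_or_ne (M : ℂ) 0 with h0 | h0
  · simp [h0]
  · field_simp

theorem one_le_mu (W : ℕ) : 1 ≤ mu W :=
  Real.one_le_rpow (by linarith [Nat.cast_nonneg (α := ℝ) W]) (by norm_num)

theorem tauE_pos : 0 < tauE := by unfold tauE; norm_num

theorem tauE_lt_one : tauE < 1 := by unfold tauE; norm_num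

theorem one_le_hcost (W K a g : ℕ) : 1 ≤ hcost W K a g := by
  have := one_le_mu W
  have h1 : (0 : ℝ) ≤ ((g : ℝ) + 1) * ((a : ℝ) + 1) ^ tauE := by positivity
  have h2 : (0 : ℝ) ≤ ((g : ℝ) * a + W.size) / K := by positivity
  unfold hcost; linarith

theorem mu_le_hcost (W K a g : ℕ) : mu W ≤ hcost W K a g := by
  have h1 : (0 : ℝ) ≤ ((g : ℝ) + 1) * ((a : ℝ) + 1) ^ tauE := by positivity
  have h2 : (0 : ℝ) ≤ ((g : ℝ) * a + W.size) / K := by positivity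
  unfold hcost; linarith

end Crest.Agent.R326
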