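import Crest.Agent.R326.Loops

/-!
# The tactic `pv`; schoolbook arithmetic
-/

set_option autoImplicit false

namespace Crest.Agent.R326

variable {W : ℕ} {fn : Option Tm}

/-- normal form of an environment after `skip` -/
macro "pv_env" : tactic => `(tactic|
  (simp only [List.take_succ_cons, List.take_zero, List.drop_succ_cons, List.drop_zero,
      List.nil_append, List.cons_append, Nat.reduceAdd, Nat.zero_add, List.map_cons, List.map_nil]
   rfl))

/-- extensible: one step of symbolic evaluation -/
syntax "pv_step" : tactic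

macro_rules
  | `(tactic| pv_step) => `(tactic| first
    | with_reducible intro _
    | with_reducible (show Ev _ _ _ _ _ _ _; assumption)
    | ((with_reducible apply Pv.varS); rfl)
    | ((with_reducible apply Pv.var); rfl)
    | with_reducible exact Pv.nil
    | ((with_reducible apply Pv.constS); assumption; decide)
    | with_reducible apply Pv.const
    | with_reducible apply Pv.lett
    | ((with_reducible apply Pv.skip); pv_env;
        (simp only [List.length_cons, List.length_append, List.length_map, List.length_nil]; omega))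
    | with_reducible apply Pv.add
    | with_reducible apply Pv.sub
    | with_reducible apply Pv.xor
    | with_reducible apply Pv.shl
    | with_reducible apply Pv.shr
    | with_reducible apply Pv.pow2
    | with_reducible apply Pv.low
    | with_reducible apply Pv.bits
    | ((with_reducible apply Pv.ifLt); assumption)
    | with_reducible apply Pv.ifEq
    | ((with_reducible apply Pv.cndLt); assumption)
    | with_reducible apply Pv.cndEq
    | with_reducible apply Pv.rev
    | with_reducible apply Pv.app
    | with_reducible apply Pv.cons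
    | with_reducible apply Pv.zeros
    | with_reducible apply Pv.take
    | with_reducible apply Pv.drop
    | with_reducible apply Pv.nth
    | with_reducible apply Pv.len
    | with_reducible apply Pv.repl
    | with_reducible apply Pv.call
    | with_reducible apply Pvs.cons
    | with_reducible exact Pvs.nil)

/-- symbolic evaluation; leaves the side conditions and the terms it does not know -/
macro "pv" : tactic => `(tactic| repeat' pv_step)

/-- body of the schoolbook product -/
def mulB : Tm := .unp 2 (.ifEq (.var 1) (.const 0) (.const 0)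
  (.add (.shl (.self (.cons (.var 0) (.shr (.var 1) (.const 1)))) (.const 1))
    (.cndEq (.low (.var 1) (.const 1)) (.const 0) (.const 0) (.var 0))))

theorem mulB_ev (hW : 8 ≤ W) (x k : ℕ) : ∀ y, y < 2 ^ k → x * y < 2 ^ W →
    Ev W (some mulB) [[x, y]] mulB [[]] [x * y] (300 * (k + 1)) := by
  induction k with
  | zero =>
    intro y hy _
    obtain rfl : y = 0 := by simpa using hy
    refine (Ev.unp [x, 0] hW rfl (by norm_num)
      (Ev.ifEqT (Pv.varS rfl) (Pv.constS hW (by norm_num)) rfl
        (Pv.constS hW (by norm_num)))).mono ?_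
    simp; norm_num
  | succ k ih =>
    intro y hy hxy
    by_cases h0 : y = 0
    · subst h0
      refine (Ev.unp [x, 0] hW rfl (by norm_num)
        (Ev.ifEqT (Pv.varS rfl) (Pv.constS hW (by norm_num)) rfl
          (Pv.constS hW (by norm_num)))).mono ?_
      have : (0 : ℝ) ≤ k := by positivity
      simp; linarith
    · have h2 : x * (y / 2 ^ 1) * 2 ^ 1 + (if y % 2 ^ 1 = 0 then 0 else x) = x * y := by
        have := Nat.div_add_mod y 2
        rcases Nat.mod_two_eq_zero_or_one y with h | h <;> simp [h] <;> nlinarith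
      have h1 := ih (y / 2 ^ 1) (by rw [pow_succ] at hy; omega) (by omega)
      refine (Ev.unp [x, y] hW rfl (by norm_num)
        (Ev.ifEqF (Pv.varS rfl) (Pv.constS hW (by norm_num)) h0
          (Pv.add (Pv.shl (Pv.self (by pv; omega) h1) (by pv) (by omega) (by omega))
            (by pv; omega) (by omega)))).cast rfl (by rw [h2]) |>.mono ?_
      simp; linarith

/-- schoolbook product -/
def Tm.mul (a b : Tm) : Tm := .fix mulB (.app a b)

theorem Pv.mul {e a b x y} {c1 c2 : ℝ} (hW : 8 ≤ W) (ha : Pv W fn e a [x] c1)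
    (hb : Pv W fn e b [y] c2) (h : x * y < 2 ^ W) :
    Pv W fn e (.mul a b) [x * y] (c1 + c2 + 330 * (W + 1)) := by
  refine Ev.intro fun h0 => ?_
  have hy : y < 2 ^ W := (hb h0).2.1 y (by simp)
  refine (Pv.fix (Pv.app ha hb) (mulB_ev hW x W y hy h)).mono ?_
  have : (0 : ℝ) ≤ W := by positivity
  simp; linarith

/-- the product, when the second factor is short -/
theorem Pv.mul_short {e a b x y} {c1 c2 : ℝ} (k : ℕ) (hW : 8 ≤ W) (ha : Pv W fn e a [x] c1)
    (hb : Pv W fn e b [y] c2) (hy : y < 2 ^ k) (h : x * y < 2 ^ W) :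
    Pv W fn e (.mul a b) [x * y] (c1 + c2 + 330 * (k + 1)) := by
  refine (Pv.fix (Pv.app ha hb) (mulB_ev hW x k y hy h)).mono ?_
  have : (0 : ℝ) ≤ k := by positivity
  simp; linarith

/-- body of the schoolbook division -/
def divB : Tm := .unp 2 (.ifLt (.var 0) (.var 1) (.app (.const 0) (.var 0))
  (.lett (.self (.cons (.shr (.var 0) (.const 1)) (.var 1)))
    (.lett (.nth (.var 0) (.const 0)) (.lett (.nth (.var 1) (.const 1))
      (.lett (.add (.add (.var 0) (.var 0)) (.low (.var 3) (.const 1)))
        (.ifLt (.var 0) (.var 5) (.app (.add (.var 2) (.var 2)) (.var 0))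
          (.app (.add (.add (.var 2) (.var 2)) (.const 1)) (.sub (.var 0) (.var 5)))))))))

theorem div_step (x y : ℕ) (hy : 0 < y) :
    (if x / 2 % y + x / 2 % y + x % 2 < y then
      [x / 2 / y + x / 2 / y] ++ [x / 2 % y + x / 2 % y + x % 2]
    else [x / 2 / y + x / 2 / y + 1] ++ [x / 2 % y + x / 2 % y + x % 2 - y]) = [x / y, x % y] := by
  have h1 := Nat.div_add_mod (x / 2) y
  have h2 := Nat.div_add_mod x 2
  have h3 := Nat.mod_lt (x / 2) hy
  have h4 := Nat.mod_lt x (show 0 < 2 by norm_num)
  generalize x / 2 / y = q at *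
  generalize x / 2 % y = r at *
  split_ifs with h
  · have := (Nat.div_mod_unique (a := x) (c := r + r + x % 2) (d := q + q) hy).2
      ⟨by nlinarith, h⟩
    simp [this.1, this.2]
  · have := (Nat.div_mod_unique (a := x) (c := r + r + x % 2 - y) (d := q + q + 1) hy).2
      ⟨by zify [not_lt.1 h] at *; nlinarith, by omega⟩
    simp [this.1, this.2]

theorem divB_ev (hW : 8 ≤ W) (y : ℕ) (hy : 0 < y) (k : ℕ) : ∀ x, x < 2 ^ k → x < 2 ^ W →
    Ev W (some divB) [[x, y]] divB [[]] [x / y, x % y] (600 * (k + 1)) := by
  have base : ∀ x (k : ℕ), x < y →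
      Ev W (some divB) [[x, y]] divB [[]] [x / y, x % y] (600 * (k + 1)) := by
    intro x k hxy
    refine (Ev.unp [x, y] hW rfl (by norm_num)
      (Ev.ifLtT hW (Pv.varS rfl) (Pv.varS rfl) hxy (by pv))).cast rfl ?_ |>.mono ?_
    · simp [Nat.div_eq_of_lt hxy, Nat.mod_eq_of_lt hxy]
    · have : (0 : ℝ) ≤ k := by positivity
      simp; linarith
  induction k with
  | zero => intro x hx _; exact base x 0 (by omega)
  | succ k ih =>
    intro x hx hxW
    by_cases h0 : x < y
    · exact base x (k + 1) h0
    · have h1 := ih (x / 2 ^ 1) (by rw [pow_succ] at hx; omega) (by omega)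
      have h2 := Nat.mod_le (x / 2) y
      have h3 := Nat.div_le_self (x / 2) y
      have h4 : x / 2 % y + x / 2 % y + x % 2 < y ∨ x / 2 / y + x / 2 / y + 1 ≤ x := by
        have := div_step x y hy
        split_ifs at this with h
        · exact Or.inl h
        · right
          have h5 := Nat.div_le_self x y
          simp at this
          omega
      refine (Ev.unp [x, y] hW rfl (by norm_num)
        (Ev.ifLtF hW (Pv.varS rfl) (Pv.varS rfl) h0
          (Pv.lett (Pv.self (by pv; omega) h1) (by pv <;> simp at * <;> omega)))).cast rfl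
          ?_ |>.mono ?_
      · simpa using div_step x y hy
      · have := congrArg List.length (div_step x y hy)
        simp only [pow_one, List.getD_cons_zero, List.getD_cons_succ, this]
        norm_num; linarith

/-- quotient and remainder -/
def Tm.divMod (a b : Tm) : Tm := .fix divB (.app a b)
/-- quotient -/
def Tm.div (a b : Tm) : Tm := .nth (.divMod a b) (.const 0)
/-- remainder -/
def Tm.mod (a b : Tm) : Tm := .nth (.divMod a b) (.const 1)

theorem Pv.divMod {e a b x y} {c1 c2 : ℝ} (hW : 8 ≤ W) (ha : Pv W fn e a [x] c1)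
    (hb : Pv W fn e b [y] c2) (hy : 0 < y) :
    Pv W fn e (.divMod a b) [x / y, x % y] (c1 + c2 + 630 * (W + 1)) := by
  refine Ev.intro fun h0 => ?_
  have hx : x < 2 ^ W := (ha h0).2.1 x (by simp)
  refine (Pv.fix (Pv.app ha hb) (divB_ev hW y hy W x hx hx)).mono ?_
  have : (0 : ℝ) ≤ W := by positivity
  simp; linarith

theorem Pv.div {e a b x y} {c1 c2 : ℝ} (hW : 8 ≤ W) (ha : Pv W fn e a [x] c1)
    (hb : Pv W fn e b [y] c2) (hy : 0 < y) :
    Pv W fn e (.div a b) [x / y] (c1 + c2 + 700 * (W + 1)) := by
  refine (Pv.nth (Pv.divMod hW ha hb hy) (Pv.constS hW (by norm_num))).mono ?_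
  have : (0 : ℝ) ≤ W := by positivity
  simp; linarith

theorem Pv.mod {e a b x y} {c1 c2 : ℝ} (hW : 8 ≤ W) (ha : Pv W fn e a [x] c1)
    (hb : Pv W fn e b [y] c2) (hy : 0 < y) :
    Pv W fn e (.mod a b) [x % y] (c1 + c2 + 720 * (W + 1)) := by
  refine (Pv.nth (Pv.divMod hW ha hb hy) (Pv.constS hW (by norm_num))).mono ?_
  have : (0 : ℝ) ≤ W := by positivity
  simp; linarith

/-- body of the binary length -/
def sizeB : Tm := .ifEq (.var 0) (.const 0) (.const 0)
  (.add (.self (.shr (.var 0) (.const 1))) (.const 1))

theorem size_half {x : ℕ} (h : x ≠ 0) : (x / 2).size + 1 = x.size := by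
  apply le_antisymm
  · by_contra hc
    have h1 : x < 2 ^ (x / 2).size := Nat.size_le.1 (by omega)
    rcases Nat.eq_zero_or_pos (x / 2).size with h2 | h2
    · rw [h2] at h1; omega
    · have h3 : 2 ^ ((x / 2).size - 1) ≤ x / 2 := Nat.lt_size.1 (by omega)
      have h4 : 2 ^ (x / 2).size = 2 * 2 ^ ((x / 2).size - 1) := by
        rw [← pow_succ']; congr 1; omega
      omega
  · refine Nat.size_le.2 ?_
    have := Nat.lt_size_self (x / 2)
    rw [pow_succ]; omega

theorem sizeB_ev (hW : 8 ≤ W) (k : ℕ) : ∀ x, x < 2 ^ k → x < 2 ^ W →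
    Ev W (some sizeB) [[x]] sizeB [[x]] [x.size] (40 * (k + 1)) := by
  induction k with
  | zero =>
    intro x hx _
    obtain rfl : x = 0 := by simpa using hx
    refine (Ev.ifEqT (Pv.varS rfl) (Pv.constS hW (by norm_num)) rfl
      (Pv.constS hW (by norm_num))).mono ?_
    norm_num
  | succ k ih =>
    intro x hx hxW
    by_cases h0 : x = 0
    · subst h0
      refine (Ev.ifEqT (Pv.varS rfl) (Pv.constS hW (by norm_num)) rfl
        (Pv.constS hW (by norm_num))).mono ?_
      have : (0 : ℝ) ≤ k := by positivity
      push_cast; linarith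
    · have h1 := ih (x / 2 ^ 1) (by rw [pow_succ] at hx; omega) (by omega)
      have h2 := size_half h0
      have h3 : x.size ≤ W := Nat.size_le.2 hxW
      have h4 : W < 2 ^ W := Nat.lt_two_pow_self
      refine (Ev.ifEqF (Pv.varS rfl) (Pv.constS hW (by norm_num)) h0
        (Pv.add (Pv.self (by pv; omega) h1) (by pv) (by simp; omega))).cast rfl
        (by simp [h2]) |>.mono ?_
      simp; linarith

/-- number of binary digits -/
def Tm.size (a : Tm) : Tm := .fix sizeB a

theorem Pv.size {e a x} {c : ℝ} (hW : 8 ≤ W) (ha : Pv W fn e a [x] c) :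
    Pv W fn e (.size a) [x.size] (c + 44 * (W + 1)) := by
  refine Ev.intro fun h0 => ?_
  have hx : x < 2 ^ W := (ha h0).2.1 x (by simp)
  refine (Pv.fix ha (sizeB_ev hW W x hx hx)).mono ?_
  have : (0 : ℝ) ≤ W := by positivity
  simp; linarith

/-- `a ^ k` -/
def Tm.pow (a k : Tm) : Tm :=
  .lett a (.iter (.skip 0 1 k) (.const 1) (.mul (.var 1) (.var 2)))

theorem Pv.pow {e a k x y} {c1 c2 : ℝ} (hW : 8 ≤ W) (ha : Pv W fn e a [x] c1)
    (hk : Pv W fn e k [y] c2) (hx : 0 < x) (h : x ^ y < 2 ^ W) :
    Pv W fn e (.pow a k) [x ^ y] (c1 + c2 + 360 * y * (W + 1) + 30) := by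
  refine (Pv.lett ha (Pv.iter (fun i => [x ^ i]) (L := 1) (Ev.skip01 hk)
    (Pv.constS hW (by norm_num)) (fun i hi => ?_) (by simp) (c := 4 + 330 * (W + 1)))).mono ?_
  · refine (Pv.mul hW (Pv.varS rfl) (Pv.varS rfl) ?_).cast (by rw [pow_succ]) (by linarith)
    rw [← pow_succ]
    exact (Nat.pow_le_pow_right hx hi).trans_lt h
  · have h1 : (0 : ℝ) ≤ W := by positivity
    have h2 : (0 : ℝ) ≤ y := by positivity
    simp; nlinarith

macro_rules
  | `(tactic| pv_step) => `(tactic| first
    | ((with_reducible apply Pv.mul); assumption)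
    | ((with_reducible apply Pv.divMod); assumption)
    | ((with_reducible apply Pv.div); assumption)
    | ((with_reducible apply Pv.mod); assumption)
    | ((with_reducible apply Pv.size); assumption)
    | ((with_reducible apply Pv.pow); assumption)
    | with_reducible apply Pv.tab
    | ((with_reducible apply Pv.map1); assumption)
    | ((with_reducible apply Pv.map2); assumption)
    | with_reducible apply Pv.sum)

end Crest.Agent.R326
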