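import Crest.Agent.R326.Base

/-!
# Bit operations in the symbol-level language
-/

set_option autoImplicit false

namespace Crest.Agent.R326

namespace BitOps

/-! ### Arithmetic on lists of bits -/

/-- value of a list of bits, least significant first -/
def val (l : List Bool) : ℕ := l.foldr (fun b v => 2 * v + b.toNat) 0

@[simp] theorem val_nil : val [] = 0 := rfl
@[simp] theorem val_cons (b : Bool) (l : List Bool) : val (b :: l) = 2 * val l + b.toNat := rfl

theorem val_lt (l : List Bool) : val l < 2 ^ l.length := by
  induction l with
  | nil => simp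
  | cons b l ih => cases b <;> simp [pow_succ] <;> omega

theorem val_append_false (l : List Bool) : val (l ++ [false]) = val l := by
  induction l with
  | nil => simp
  | cons b l ih => simp [ih]

theorem val_append_true_pos (l : List Bool) : val (l ++ [true]) ≠ 0 := by
  induction l with
  | nil => simp
  | cons b l ih => simp only [List.cons_append, val_cons]; omega

theorem bits_val (l : List Bool) : (val (l ++ [true])).bits = l ++ [true] := by
  induction l with
  | nil => simp
  | cons b l ih =>
    cases b
    · simp only [List.cons_append, val_cons, Bool.toNat_false, Nat.add_zero]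
      rw [Nat.bit0_bits _ (val_append_true_pos l), ih]
    · simp only [List.cons_append, val_cons, Bool.toNat_true]
      rw [Nat.bit1_bits, ih]

theorem bodd_div (x : ℕ) : x.bodd.toNat + 2 * (x / 2) = x := by
  have := Nat.bodd_add_div2 x
  rwa [Nat.div2_val] at this

theorem bits_ne_zero {x : ℕ} (hx : x ≠ 0) : x.bits = x.bodd :: (x / 2).bits := by
  have h := bodd_div x
  cases hb : x.bodd
  · rw [hb] at h
    simp only [Bool.toNat_false, Nat.zero_add] at h
    conv_lhs => rw [← h]
    exact Nat.bit0_bits _ (by omega)
  · rw [hb] at h
    simp only [Bool.toNat_true] at h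
    conv_lhs => rw [← h, Nat.add_comm]
    exact Nat.bit1_bits _

theorem val_bits (x : ℕ) : val x.bits = x := by
  induction x using Nat.strong_induction_on with
  | _ x ih =>
    by_cases hx : x = 0
    · simp [hx]
    · rw [bits_ne_zero hx, val_cons, ih _ (by omega)]
      have := bodd_div x
      omega

theorem val_replicate_append (n : ℕ) (l : List Bool) :
    val (List.replicate n false ++ l) = val l * 2 ^ n := by
  induction n with
  | zero => simp
  | succ n ih => simp [List.replicate_succ, ih, pow_succ]; ring

/-- output bits of a bit-serial transducer -/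
def outs (f : Bool → Bool → Bool → Bool × Bool) : ℕ → ℕ → ℕ → Bool → List Bool
  | 0, _, _, _ => []
  | n + 1, x, y, q => (f x.bodd y.bodd q).1 :: outs f n (x / 2) (y / 2) (f x.bodd y.bodd q).2

/-- final state of a bit-serial transducer -/
def car (f : Bool → Bool → Bool → Bool × Bool) : ℕ → ℕ → ℕ → Bool → Bool
  | 0, _, _, q => q
  | n + 1, x, y, q => car f n (x / 2) (y / 2) (f x.bodd y.bodd q).2

theorem length_outs (f : Bool → Bool → Bool → Bool × Bool) (n : ℕ) :
    ∀ x y q, (outs f n x y q).length = n := by
  induction n with
  | zero => intro x y q; rfl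
  | succ n ih => intro x y q; simp [outs, ih]

/-- full adder -/
def fa (a b q : Bool) : Bool × Bool := (xor (xor a b) q, (a && b) || (a && q) || (b && q))

/-- full subtractor -/
def fs (a b q : Bool) : Bool × Bool := (xor (xor a b) q, (!a && (b || q)) || (b && q))

/-- exclusive or -/
def fx (a b q : Bool) : Bool × Bool := (xor a b, q)

theorem val_fa (n : ℕ) : ∀ (x y : ℕ) (q : Bool), x + y + q.toNat < 2 ^ n →
    val (outs fa n x y q) = x + y + q.toNat := by
  induction n with
  | zero => intro x y q h; simp only [outs, val_nil]; omega
  | succ n ih =>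
    intro x y q h
    have hx := bodd_div x
    have hy := bodd_div y
    rw [pow_succ] at h
    have h1 := ih (x / 2) (y / 2) (fa x.bodd y.bodd q).2
    simp only [outs, val_cons]
    revert hx hy h h1
    cases x.bodd <;> cases y.bodd <;> cases q <;> simp [fa] <;> omega

theorem val_fs (n : ℕ) : ∀ (x y : ℕ) (q : Bool), x < 2 ^ n → y < 2 ^ n →
    val (outs fs n x y q) + y + q.toNat = x + 2 ^ n * (car fs n x y q).toNat := by
  induction n with
  | zero => intro x y q h h'; simp only [outs, car, val_nil]; omega
  | succ n ih =>
    intro x y q h h'
    have hx := bodd_div x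
    have hy := bodd_div y
    rw [pow_succ] at h h'
    have h1 := ih (x / 2) (y / 2) (fs x.bodd y.bodd q).2 (by omega) (by omega)
    simp only [outs, car, val_cons]
    rw [pow_succ, Nat.mul_comm (2 ^ n) 2, Nat.mul_assoc]
    generalize 2 ^ n * (car fs n (x / 2) (y / 2) (fs x.bodd y.bodd q).2).toNat = t at h1 ⊢
    revert hx hy h1
    cases x.bodd <;> cases y.bodd <;> cases q <;> simp [fs] <;> omega

theorem val_fx (n : ℕ) : ∀ (x y : ℕ) (q : Bool), x < 2 ^ n → y < 2 ^ n →
    val (outs fx n x y q) = x ^^^ y := by
  induction n with
  | zero =>
    intro x y q h h'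
    obtain rfl : x = 0 := by omega
    obtain rfl : y = 0 := by omega
    simp [outs]
  | succ n ih =>
    intro x y q h h'
    have hx := bodd_div x
    have hy := bodd_div y
    rw [pow_succ] at h h'
    have h1 := ih (x / 2) (y / 2) (fx x.bodd y.bodd q).2 (by omega) (by omega)
    have h2 := @Nat.xor_div_two x y
    have h3 := @Nat.xor_mod_two_eq x y
    simp only [outs, val_cons]
    rw [h1, ← h2]
    generalize x ^^^ y = t at h3 ⊢
    revert hx hy
    cases x.bodd <;> cases y.bodd <;> simp [fx] <;> omega

/-- value of a list of bits, most significant first, appended to `u` -/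
def mval (u : ℕ) (m : List Bool) : ℕ := m.foldl (fun u b => 2 * u + b.toNat) u

@[simp] theorem mval_nil (u : ℕ) : mval u [] = u := rfl
@[simp] theorem mval_cons (u : ℕ) (b : Bool) (m : List Bool) :
    mval u (b :: m) = mval (2 * u + b.toNat) m := rfl

theorem le_mval (m : List Bool) : ∀ u, u ≤ mval u m := by
  induction m with
  | nil => intro u; simp
  | cons b m ih => intro u; have := ih (2 * u + b.toNat); simp only [mval_cons]; omega

theorem mval_reverse (l : List Bool) : mval 0 l.reverse = val l := by
  simp [mval, val, List.foldl_reverse]

/-! ### Basic routines -/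

variable {fn : Option P}

theorem cast {p : P} {s s' t : St} {n m : ℕ} (h : Exec fn p s s' n) (e : s' = t) (hn : n ≤ m) :
    Exec fn p s t m := e ▸ h.mono hn

/-- bits as symbols -/
def B (l : List Bool) : List Sym := l.map some

@[simp] theorem B_nil : B [] = [] := rfl
@[simp] theorem B_cons (b : Bool) (l : List Bool) : B (b :: l) = some b :: B l := rfl
@[simp] theorem B_append (l l' : List Bool) : B (l ++ l') = B l ++ B l' := by simp [B]
@[simp] theorem length_B (l : List Bool) : (B l).length = l.length := by simp [B]

/-- what may follow the bits of a word -/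
def Rest (r : List Sym) : Prop := r = [] ∨ ∃ r', r = none :: r'

theorem enc_split (v : List ℕ) : ∃ r, Rest r ∧ enc v = B (v.headD 0).bits ++ r ∧
    (v.headD 0).size + r.length = sz v := by
  cases v with
  | nil => exact ⟨[], Or.inl rfl, by simp, by simp⟩
  | cons a v =>
    refine ⟨none :: enc v, Or.inr ⟨_, rfl⟩, by simp [encW, B], ?_⟩
    simp [length_enc]; omega

theorem enc_replicate (n : ℕ) : enc (List.replicate n 0) = List.replicate n none := by
  induction n with
  | zero => rfl
  | succ n ih => simp [List.replicate_succ, ih, encW]

theorem wordB {k : ℕ} {pf pt : P} {s s' s'' : St} {n m : ℕ} {b : Bool} {l : List Sym}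
    (h : s k = some b :: l) (h1 : Exec fn (cond b pt pf) (Function.update s k l) s' n)
    (h2 : Exec fn (.word k pf pt) s' s'' m) : Exec fn (.word k pf pt) s s'' (n + m + 1) := by
  cases b
  · exact Exec.wordF h h1 h2
  · exact Exec.wordT h h1 h2

theorem wordR {k : ℕ} {pf pt : P} {s : St} (h : Rest (s k)) :
    Exec fn (.word k pf pt) s (Function.update s k (s k).tail) 1 := by
  rcases h with h | ⟨r, h⟩
  · refine cast (Exec.wordE h) ?_ le_rfl
    rw [h, List.tail_nil, ← h, Function.update_eq_self]
  · rw [h]; exact Exec.wordS h

/-- empty a stack -/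
def clear (i : ℕ) : P := .wh i (.case i .nop .nop .nop .nop)

theorem exec_clear (i : ℕ) (l : List Sym) : ∀ s : St, s i = l →
    Exec fn (clear i) s (Function.update s i []) (3 * l.length + 1) := by
  induction l with
  | nil =>
    intro s h
    refine cast (Exec.whE h) ?_ le_rfl
    rw [← h, Function.update_eq_self]
  | cons a l ih =>
    intro s h
    have h1 : Exec fn (.case i .nop .nop .nop .nop) s (Function.update s i l) 2 := by
      rcases a with _ | _ | _
      · exact Exec.caseS h Exec.nop
      · exact Exec.caseF h Exec.nop
      · exact Exec.caseT h Exec.nop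
    refine cast (Exec.whC (by simp [h]) h1 (ih _ (by simp))) (by simp) ?_
    simp only [List.length_cons]; omega

/-- move the bits of the first word of stack `i` to stack `j` (reversed) -/
def mv (i j : ℕ) : P := .word i (.push j (some false)) (.push j (some true))

theorem exec_mv {i j : ℕ} (hij : i ≠ j) {r : List Sym} (hr : Rest r) (l : List Bool) :
    ∀ s : St, s i = B l ++ r → Exec fn (mv i j) s
      (Function.update (Function.update s i r.tail) j (B l.reverse ++ s j)) (2 * l.length + 1) := by
  induction l with
  | nil =>
    intro s h
    simp only [B_nil, List.nil_append] at h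
    refine cast (wordR (h ▸ hr)) ?_ le_rfl
    rw [h]
    funext k
    by_cases hk : k = j
    · subst hk; simp [Function.update_of_ne hij.symm]
    · simp [Function.update_of_ne hk]
  | cons b l ih =>
    intro s h
    have h1 : Exec fn (cond b (.push j (some true)) (.push j (some false)))
        (Function.update s i (B l ++ r))
        (Function.update (Function.update s i (B l ++ r)) j (some b :: s j)) 1 := by
      cases b <;> exact cast Exec.push (by simp [Function.update_of_ne hij.symm]) le_rfl
    refine cast (wordB h h1 (ih _ (by simp [Function.update_of_ne hij]))) ?_ ?_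
    · funext k
      by_cases hk : k = j
      · subst hk; simp
      · by_cases hk' : k = i
        · subst hk'; simp [Function.update_of_ne hk]
        · simp [Function.update_of_ne hk, Function.update_of_ne hk']
    · simp only [List.length_cons]; omega

/-- repeat `p` once for every separator on stack `c` -/
def rep (c : ℕ) (p : P) : P := .wh c (.case c .nop p .nop .nop)

theorem repS {c : ℕ} {p : P} {s s' s'' : St} {n m : ℕ} {l : List Sym} (h : s c = none :: l)
    (h1 : Exec fn p (Function.update s c l) s' n) (h2 : Exec fn (rep c p) s' s'' m) :
    Exec fn (rep c p) s s'' (n + m + 2) :=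
  (Exec.whC (by simp [h]) (Exec.caseS h h1) h2).mono (by omega)

/-- repeat a program that pushes the symbols `w` on stack `j` -/
theorem exec_rep_push {i j : ℕ} (hij : i ≠ j) {p : P} {w : List Sym} {c : ℕ}
    (hp : ∀ s : St, Exec fn p s (Function.update s j (w ++ s j)) c) (n : ℕ) :
    ∀ s : St, s i = List.replicate n none → Exec fn (rep i p) s
      (Function.update (Function.update s i []) j ((List.replicate n w).flatten ++ s j))
      ((c + 2) * n + 1) := by
  induction n with
  | zero =>
    intro s h
    refine cast (Exec.whE h) ?_ le_rfl
    simp only [List.replicate_zero] at h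
    simp [← h]
  | succ n ih =>
    intro s h
    refine cast (repS h (hp _) (ih _ (by simp [Function.update_of_ne hij]))) ?_ ?_
    · funext k
      by_cases hk : k = j
      · subst hk
        simp only [Function.update_self, Function.update_of_ne hij.symm]
        rw [List.replicate_succ', List.flatten_append]
        simp
      · by_cases hk' : k = i
        · subst hk'; simp [Function.update_of_ne hk]
        · simp [Function.update_of_ne hk, Function.update_of_ne hk']
    · rw [Nat.mul_succ]; omega

theorem push1 (j : ℕ) (a : Sym) (s : St) :
    Exec fn (.push j a) s (Function.update s j ([a] ++ s j)) 1 := Exec.push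

theorem push2 (j : ℕ) (a : Sym) (s : St) :
    Exec fn (.seq (.push j a) (.push j a)) s (Function.update s j ([a, a] ++ s j)) 2 :=
  cast (Exec.seq Exec.push Exec.push) (by simp) le_rfl

theorem flatten1 (n : ℕ) (a : Sym) : (List.replicate n [a]).flatten = List.replicate n a := by
  simp

theorem flatten2 (n : ℕ) (a : Sym) :
    (List.replicate n [a, a]).flatten = List.replicate (2 * n) a := by
  induction n with
  | zero => rfl
  | succ n ih => rw [List.replicate_succ, List.flatten_cons, ih]; rfl

/-- read a bit of the first word of stack `i` (`false` if there is none) -/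
def rd (i : ℕ) (k : Bool → P) : P :=
  .case i (k false) (.seq (.push i none) (k false)) (k false) (k true)

theorem exec_rdB {i : ℕ} {k : Bool → P} {s s' : St} {n : ℕ} {b : Bool} {l : List Sym}
    (hs : s i = some b :: l) (h : Exec fn (k b) (Function.update s i l) s' n) :
    Exec fn (rd i k) s s' (n + 2) := by
  cases b
  · exact (Exec.caseF hs h).mono (by omega)
  · exact (Exec.caseT hs h).mono (by omega)

theorem exec_rd {i : ℕ} {k : Bool → P} {s s' : St} {n x : ℕ} {r : List Sym} (hr : Rest r)
    (hs : s i = B x.bits ++ r)
    (h : Exec fn (k x.bodd) (Function.update s i (B (x / 2).bits ++ r)) s' n) :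
    Exec fn (rd i k) s s' (n + 2) := by
  by_cases hx : x = 0
  · subst hx
    simp only [Nat.zero_bits, B_nil, List.nil_append, Nat.zero_div, Nat.bodd_zero] at hs h
    rcases hr with rfl | ⟨r, rfl⟩
    · rw [← hs, Function.update_eq_self] at h
      exact (Exec.caseE hs h).mono (by omega)
    · refine (Exec.caseS hs (Exec.seq Exec.push ?_)).mono (n := 1 + n + 1) (by omega)
      simpa using h
  · rw [bits_ne_zero hx] at hs
    exact exec_rdB hs h

/-! ### Six consecutive stacks -/

/-- the state `s` with new contents of the stacks `d, …, d + 5` -/
def mk (s : St) (d : ℕ) (a b c e f g : List Sym) : St := fun k =>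
  if k = d then a else if k = d + 1 then b else if k = d + 2 then c else if k = d + 3 then e
  else if k = d + 4 then f else if k = d + 5 then g else s k

section mk
variable (s : St) (d : ℕ) (a b c e f g l : List Sym)

@[simp] theorem mk0 : mk s d a b c e f g d = a := by simp [mk]
@[simp] theorem mk1 : mk s d a b c e f g (d + 1) = b := by simp [mk]
@[simp] theorem mk2 : mk s d a b c e f g (d + 2) = c := by simp [mk]
@[simp] theorem mk3 : mk s d a b c e f g (d + 3) = e := by simp [mk]
@[simp] theorem mk4 : mk s d a b c e f g (d + 4) = f := by simp [mk]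
@[simp] theorem mk5 : mk s d a b c e f g (d + 5) = g := by simp [mk]
@[simp] theorem up0 : Function.update (mk s d a b c e f g) d l = mk s d l b c e f g := by
  funext k; simp only [mk, Function.update_apply]; split_ifs <;> rfl
@[simp] theorem up1 : Function.update (mk s d a b c e f g) (d + 1) l = mk s d a l c e f g := by
  funext k; simp only [mk, Function.update_apply]; split_ifs <;> first | rfl | omega
@[simp] theorem up2 : Function.update (mk s d a b c e f g) (d + 2) l = mk s d a b l e f g := by
  funext k; simp only [mk, Function.update_apply]; split_ifs <;> first | rfl | omega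
@[simp] theorem up3 : Function.update (mk s d a b c e f g) (d + 3) l = mk s d a b c l f g := by
  funext k; simp only [mk, Function.update_apply]; split_ifs <;> first | rfl | omega
@[simp] theorem up4 : Function.update (mk s d a b c e f g) (d + 4) l = mk s d a b c e l g := by
  funext k; simp only [mk, Function.update_apply]; split_ifs <;> first | rfl | omega
@[simp] theorem up5 : Function.update (mk s d a b c e f g) (d + 5) l = mk s d a b c e f l := by
  funext k; simp only [mk, Function.update_apply]; split_ifs <;> first | rfl | omega

theorem mk_self : mk s d (s d) (s (d + 1)) (s (d + 2)) (s (d + 3)) (s (d + 4)) (s (d + 5)) = s := by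
  funext k; simp only [mk]; split_ifs <;> simp [*]

end mk

/-! ### Conversion to unary -/

/-- double the number of separators on stack `d` -/
def dbl (d : ℕ) : P :=
  .seq (rep d (.seq (.push (d + 2) none) (.push (d + 2) none))) (rep (d + 2) (.push d none))

theorem exec_dbl (s : St) (d u : ℕ) (b e f g : List Sym) :
    Exec fn (dbl d) (mk s d (List.replicate u none) b [] e f g)
      (mk s d (List.replicate (2 * u) none) b [] e f g) (10 * u + 2) := by
  refine cast (Exec.seq (exec_rep_push (by omega) (push2 _ _) u _ (by simp))
    (exec_rep_push (by omega) (push1 _ _) (2 * u) _ (by simp [flatten2]))) (by simp) (by omega)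

/-- the main loop of the conversion -/
def unL (d : ℕ) : P := .word (d + 1) (dbl d) (.seq (dbl d) (.push d none))

theorem exec_unL (s : St) (d : ℕ) (e f g : List Sym) (m : List Bool) : ∀ u : ℕ,
    Exec fn (unL d) (mk s d (List.replicate u none) (B m) [] e f g)
      (mk s d (List.replicate (mval u m) none) [] [] e f g)
      (10 * (mval u m - u) + 4 * m.length + 1) := by
  induction m with
  | nil =>
    intro u
    exact cast (Exec.wordE (by simp)) (by simp) (by omega)
  | cons b m ih =>
    intro u
    have h1 : Exec fn (cond b (.seq (dbl d) (.push d none)) (dbl d))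
        (Function.update (mk s d (List.replicate u none) (B (b :: m)) [] e f g) (d + 1) (B m))
        (mk s d (List.replicate (2 * u + b.toNat) none) (B m) [] e f g) (10 * u + 3) := by
      rw [up1]
      cases b
      · exact cast (exec_dbl s d u _ e f g) (by simp) (by omega)
      · exact cast (Exec.seq (exec_dbl s d u _ e f g) Exec.push) (by simp [List.replicate_succ])
          (by omega)
    refine cast (wordB (by simp) h1 (ih _)) (by simp) ?_
    have := le_mval m (2 * u + b.toNat)
    simp only [mval_cons, List.length_cons]
    omega

/-- conversion to unary -/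
def un (d : ℕ) : P := .seq (mv d (d + 1)) (.seq (clear d) (unL d))

theorem exec_un (d : ℕ) (s : St) (v : List ℕ) (hv : s d = enc v) (h1 : s (d + 1) = [])
    (h2 : s (d + 2) = []) :
    Exec fn (un d) s (Function.update s d (List.replicate (v.headD 0) none))
      (10 * (sz v + v.headD 0 + 1)) := by
  obtain ⟨r, hr, he, hl⟩ := enc_split v
  have hs := mk_self s d
  rw [hv, h1, h2, he] at hs
  rw [← hs]
  have h3 := exec_unL (fn := fn) s d (s (d + 3)) (s (d + 4)) (s (d + 5)) (v.headD 0).bits.reverse 0
  rw [mval_reverse, val_bits] at h3
  generalize v.headD 0 = x at *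
  refine cast (Exec.seq (exec_mv (by omega) hr x.bits _ (by simp))
    (Exec.seq (exec_clear d r.tail _ (by simp)) (by simpa using h3))) (by simp) ?_
  simp only [Nat.size_eq_bits_len, List.length_tail]
  omega

/-! ### Binary operations -/

/-- strip stack `i` to the bits of its first word; one token on stack `d + 3` per bit -/
def cntL (i d : ℕ) : P :=
  .word i (.seq (.push (d + 2) (some false)) (.push (d + 3) none))
    (.seq (.push (d + 2) (some true)) (.push (d + 3) none))

theorem exec_cntL0 (s : St) (d : ℕ) (b f g : List Sym) {r : List Sym} (hr : Rest r)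
    (l : List Bool) : ∀ (c : List Sym) (n : ℕ),
    Exec fn (cntL d d) (mk s d (B l ++ r) b c (List.replicate n none) f g)
      (mk s d r.tail b (B l.reverse ++ c) (List.replicate (n + l.length) none) f g)
      (3 * l.length + 1) := by
  induction l with
  | nil => intro c n; exact cast (wordR (by simpa using hr)) (by simp) le_rfl
  | cons a l ih =>
    intro c n
    have h1 : Exec fn (cond a (.seq (.push (d + 2) (some true)) (.push (d + 3) none))
        (.seq (.push (d + 2) (some false)) (.push (d + 3) none)))
        (Function.update (mk s d (B (a :: l) ++ r) b c (List.replicate n none) f g) d (B l ++ r))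
        (mk s d (B l ++ r) b (some a :: c) (List.replicate (n + 1) none) f g) 2 := by
      cases a <;> exact cast (Exec.seq Exec.push Exec.push) (by simp [List.replicate_succ]) le_rfl
    refine cast (wordB (by simp) h1 (ih _ _)) ?_ (by simp only [List.length_cons]; omega)
    simp [Nat.add_assoc, Nat.add_comm 1]

theorem exec_cntL1 (s : St) (d : ℕ) (b f g : List Sym) {r : List Sym} (hr : Rest r)
    (l : List Bool) : ∀ (c : List Sym) (n : ℕ),
    Exec fn (cntL (d + 1) d) (mk s d b (B l ++ r) c (List.replicate n none) f g)
      (mk s d b r.tail (B l.reverse ++ c) (List.replicate (n + l.length) none) f g)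
      (3 * l.length + 1) := by
  induction l with
  | nil => intro c n; exact cast (wordR (by simpa using hr)) (by simp) le_rfl
  | cons a l ih =>
    intro c n
    have h1 : Exec fn (cond a (.seq (.push (d + 2) (some true)) (.push (d + 3) none))
        (.seq (.push (d + 2) (some false)) (.push (d + 3) none)))
        (Function.update (mk s d b (B (a :: l) ++ r) c (List.replicate n none) f g) (d + 1)
          (B l ++ r))
        (mk s d b (B l ++ r) (some a :: c) (List.replicate (n + 1) none) f g) 2 := by
      cases a <;> exact cast (Exec.seq Exec.push Exec.push) (by simp [List.replicate_succ]) le_rfl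
    refine cast (wordB (by simp) h1 (ih _ _)) ?_ (by simp only [List.length_cons]; omega)
    simp [Nat.add_assoc, Nat.add_comm 1]

/-- strip an operand and count its bits -/
def prep (i d : ℕ) : P := .seq (cntL i d) (.seq (clear i) (mv (d + 2) i))

theorem exec_prep0 (s : St) (d : ℕ) (b f g : List Sym) {r : List Sym} (hr : Rest r)
    (l : List Bool) (n : ℕ) :
    Exec fn (prep d d) (mk s d (B l ++ r) b [] (List.replicate n none) f g)
      (mk s d (B l) b [] (List.replicate (n + l.length) none) f g)
      (5 * l.length + 3 * r.length + 3) := by
  refine cast (Exec.seq (exec_cntL0 s d b f g hr l [] n) (Exec.seq (exec_clear d r.tail _ (by simp))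
    (exec_mv (by omega) (Or.inl rfl) l.reverse _ (by simp)))) (by simp) ?_
  simp only [List.length_tail, List.length_reverse]
  omega

theorem exec_prep1 (s : St) (d : ℕ) (b f g : List Sym) {r : List Sym} (hr : Rest r)
    (l : List Bool) (n : ℕ) :
    Exec fn (prep (d + 1) d) (mk s d b (B l ++ r) [] (List.replicate n none) f g)
      (mk s d b (B l) [] (List.replicate (n + l.length) none) f g)
      (5 * l.length + 3 * r.length + 3) := by
  refine cast (Exec.seq (exec_cntL1 s d b f g hr l [] n)
    (Exec.seq (exec_clear (d + 1) r.tail _ (by simp))
    (exec_mv (by omega) (Or.inl rfl) l.reverse _ (by simp)))) (by simp) ?_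
  simp only [List.length_tail, List.length_reverse]
  omega

/-- one step of a bit-serial transducer -/
def serB (f : Bool → Bool → Bool → Bool × Bool) (d : ℕ) : P :=
  rd d fun a => rd (d + 1) fun b => rd (d + 4) fun q =>
    .seq (.push (d + 5) (some (f a b q).1)) (.push (d + 4) (some (f a b q).2))

theorem exec_ser (f : Bool → Bool → Bool → Bool × Bool) (s : St) (d : ℕ) (c : List Sym) (n : ℕ) :
    ∀ (x y : ℕ) (q : Bool) (o : List Sym), x < 2 ^ n → y < 2 ^ n →
    Exec fn (rep (d + 3) (serB f d))
      (mk s d (B x.bits) (B y.bits) c (List.replicate n none) [some q] o)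
      (mk s d [] [] c [] [some (car f n x y q)] (B (outs f n x y q).reverse ++ o))
      (10 * n + 1) := by
  induction n with
  | zero =>
    intro x y q o hx hy
    obtain rfl : x = 0 := by omega
    obtain rfl : y = 0 := by omega
    exact cast (Exec.whE (by simp)) (by simp [car, outs]) le_rfl
  | succ n ih =>
    intro x y q o hx hy
    rw [pow_succ] at hx hy
    have h1 : Exec fn (serB f d)
        (Function.update (mk s d (B x.bits) (B y.bits) c (List.replicate (n + 1) none) [some q] o)
          (d + 3) (List.replicate n none))
        (mk s d (B (x / 2).bits) (B (y / 2).bits) c (List.replicate n none)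
          [some (f x.bodd y.bodd q).2] (some (f x.bodd y.bodd q).1 :: o)) 8 :=
      exec_rd (x := x) (r := []) (Or.inl rfl) (by simp)
        (exec_rd (x := y) (r := []) (Or.inl rfl) (by simp)
          (exec_rdB (b := q) (l := []) (by simp)
            (cast (Exec.seq Exec.push Exec.push) (by simp) le_rfl)))
    refine cast (repS (by simp [List.replicate_succ]) h1 (ih _ _ _ _ (by omega) (by omega)))
      (by simp [car, outs]) (by omega)

/-- normalise the bits on stack `d + 5` (most significant on top) and move them to stack `d` -/
def finL (d : ℕ) : P := .word (d + 5) .nop (.seq (.push d (some true)) (mv (d + 5) d))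

theorem exec_finL (s : St) (d : ℕ) (a b c e f : List Sym) (m : List Bool) :
    Exec fn (finL d) (mk s d a b c e f (B m)) (mk s d (B (val m.reverse).bits ++ a) b c e f [])
      (2 * m.length + 3) := by
  induction m with
  | nil => exact cast (Exec.wordE (by simp)) (by simp) (by omega)
  | cons x m ih =>
    cases x
    · refine cast (Exec.wordF (l := B m) (by simp) Exec.nop (by simpa [finL] using ih)) ?_ ?_
      · simp [val_append_false]
      · simp only [List.length_cons]; omega
    · refine cast (Exec.wordT (l := B m) (by simp)
        (Exec.seq Exec.push (exec_mv (by omega) (Or.inl rfl) m _ (by simp)))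
        (Exec.wordE (by simp))) ?_ ?_
      · simp [bits_val]
      · simp only [List.length_cons]; omega

/-- output routine -/
def fin (d : ℕ) : P := .seq (.push d none) (finL d)

theorem exec_fin (s : St) (d : ℕ) (b c e f : List Sym) (l : List Bool) :
    Exec fn (fin d) (mk s d [] b c e f (B l.reverse)) (mk s d (enc [val l]) b c e f [])
      (2 * l.length + 4) := by
  have := exec_finL (fn := fn) s d [none] b c e f l.reverse
  refine cast (Exec.seq Exec.push (by simpa using this)) ?_ (by omega)
  simp [encW, B]

/-- run a transducer on the two operands; `post` reads the final state -/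
def ser (f : Bool → Bool → Bool → Bool × Bool) (post : Bool → P) (d : ℕ) : P :=
  .seq (.push (d + 3) none) (.seq (prep d d) (.seq (prep (d + 1) d)
    (.seq (.push (d + 4) (some false)) (.seq (rep (d + 3) (serB f d))
      (.seq (rd (d + 4) post) (fin d))))))

theorem exec_serAll (f : Bool → Bool → Bool → Bool × Bool) (post : Bool → P) (s : St) (d : ℕ)
    (x y : ℕ) {r r' : List Sym} (hr : Rest r) (hr' : Rest r') (l : List Bool)
    (hl : l.length ≤ 1 + x.size + y.size)
    (hp : Exec fn (post (car f (1 + x.size + y.size) x y false))
      (mk s d [] [] [] [] [] (B (outs f (1 + x.size + y.size) x y false).reverse))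
      (mk s d [] [] [] [] [] (B l.reverse)) (3 * (1 + x.size + y.size) + 2)) :
    Exec fn (ser f post d) (mk s d (B x.bits ++ r) (B y.bits ++ r') [] [] [] [])
      (mk s d (enc [val l]) [] [] [] [] [])
      (20 * (x.size + y.size + r.length + r'.length + 2)) := by
  have hx : x < 2 ^ (1 + x.size + y.size) :=
    (Nat.lt_size_self x).trans_le (Nat.pow_le_pow_right (by norm_num) (by omega))
  have hy : y < 2 ^ (1 + x.size + y.size) :=
    (Nat.lt_size_self y).trans_le (Nat.pow_le_pow_right (by norm_num) (by omega))
  have h0 := exec_prep0 (fn := fn) s d (B y.bits ++ r') [] [] hr x.bits 1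
  have h1 := exec_prep1 (fn := fn) s d (B x.bits) [] [] hr' y.bits (1 + x.bits.length)
  have h2 := exec_ser (fn := fn) f s d [] _ x y false [] hx hy
  simp only [Nat.size_eq_bits_len] at h0 h1
  refine cast (Exec.seq Exec.push (Exec.seq (by simpa using h0) (Exec.seq h1
    (Exec.seq Exec.push (Exec.seq (by simpa using h2)
      (Exec.seq (exec_rdB (l := []) (by simp; rfl) (by simpa using hp))
        (exec_fin s d [] [] [] [] l))))))) rfl (by omega)

/-- left shift -/
def shl (d : ℕ) : P :=
  .seq (un (d + 1)) (.seq (rep (d + 1) (.push (d + 5) (some false)))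
    (.seq (mv d (d + 5)) (.seq (clear d) (fin d))))

/-- right shift -/
def shr (d : ℕ) : P :=
  .seq (un (d + 1)) (.seq (rep (d + 1) (rd d fun _ => .nop))
    (.seq (mv d (d + 5)) (.seq (clear d) (fin d))))

theorem exec_drop (s : St) (d : ℕ) (c e f g : List Sym) {r : List Sym} (hr : Rest r) (n : ℕ) :
    ∀ x : ℕ, Exec fn (rep (d + 1) (rd d fun _ => .nop))
      (mk s d (B x.bits ++ r) (List.replicate n none) c e f g)
      (mk s d (B (x / 2 ^ n).bits ++ r) [] c e f g) (5 * n + 1) := by
  induction n with
  | zero => intro x; exact cast (Exec.whE (by simp)) (by simp) le_rfl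
  | succ n ih =>
    intro x
    refine cast (repS (l := List.replicate n none) (by simp [List.replicate_succ])
      (exec_rd (x := x) hr (by simp) Exec.nop) (by simpa using ih (x / 2))) ?_ (by omega)
    rw [Nat.div_div_eq_div_mul, pow_succ']

/-- the programs -/
def prog : Op → ℕ → P
  | .add, d => ser fa (fun _ => .nop) d
  | .sub, d => ser fs (fun q => cond q (clear (d + 5)) .nop) d
  | .lt, d => ser fs (fun q => .seq (clear (d + 5)) (.push (d + 5) (some q))) d
  | .xor, d => ser fx (fun _ => .nop) d
  | .shl, d => shl d
  | .shr, d => shr d

theorem exec_prog (op : Op) (s : St) (d : ℕ) (va vb : List ℕ) :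
    Exec fn (prog op d) (mk s d (enc va) (enc vb) [] [] [] [])
      (mk s d (enc [op.ev (va.headD 0) (vb.headD 0)]) [] [] [] [] [])
      (20 * (sz va + sz vb + op.extra (vb.headD 0) + 2)) := by
  obtain ⟨r, hr, he, hl⟩ := enc_split va
  obtain ⟨r', hr', he', hl'⟩ := enc_split vb
  have hun := exec_un (fn := fn) (d + 1) (mk s d (enc va) (enc vb) [] [] [] []) vb (by simp)
    (mk2 ..) (mk3 ..)
  rw [up1] at hun
  generalize va.headD 0 = x at *
  generalize vb.headD 0 = y at *
  have hx : x < 2 ^ (x.size + y.size) :=
    (Nat.lt_size_self x).trans_le (Nat.pow_le_pow_right (by norm_num) (by omega))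
  have hy : y < 2 ^ (x.size + y.size) :=
    (Nat.lt_size_self y).trans_le (Nat.pow_le_pow_right (by norm_num) (by omega))
  have hp : 2 ^ (1 + x.size + y.size) = 2 * 2 ^ (x.size + y.size) := by ring
  have hs := val_fs (1 + x.size + y.size) x y false (by omega) (by omega)
  have hs' := val_lt (outs fs (1 + x.size + y.size) x y false)
  rw [length_outs] at hs'
  cases op with
  | add =>
    rw [he, he']
    refine cast (exec_serAll fa _ s d x y hr hr' _ (length_outs ..).le (Exec.nop.mono (by omega)))
      ?_ (by simp only [Op.extra]; omega)
    rw [val_fa _ _ _ _ (by simp; omega)]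
    simp [Op.ev]
  | xor =>
    rw [he, he']
    refine cast (exec_serAll fx _ s d x y hr hr' _ (length_outs ..).le (Exec.nop.mono (by omega)))
      ?_ (by simp only [Op.extra]; omega)
    rw [val_fx _ _ _ _ (by omega) (by omega)]
    simp [Op.ev]
  | sub =>
    rw [he, he']
    cases hc : car fs (1 + x.size + y.size) x y false
    · rw [hc] at hs
      refine cast (exec_serAll fs _ s d x y hr hr' _ (length_outs ..).le
        (by rw [hc]; exact Exec.nop.mono (by omega))) ?_ (by simp only [Op.extra]; omega)
      have : val (outs fs (1 + x.size + y.size) x y false) = x - y := by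
        simp at hs; omega
      simp [Op.ev, this]
    · rw [hc] at hs
      refine cast (exec_serAll fs _ s d x y hr hr' [] (by simp)
        (by rw [hc]; exact cast (exec_clear (d + 5) _ _ (mk5 ..)) (by simp)
              (by simp [length_outs]))) ?_ (by simp only [Op.extra]; omega)
      have : x - y = 0 := by simp at hs; omega
      simp [Op.ev, this]
  | lt =>
    rw [he, he']
    refine cast (exec_serAll fs _ s d x y hr hr' [car fs (1 + x.size + y.size) x y false]
      (by simp; omega)
      (cast (Exec.seq (exec_clear (d + 5) _ _ (mk5 ..)) Exec.push) (by simp)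
        (by simp [length_outs]))) ?_ (by simp only [Op.extra]; omega)
    have : (car fs (1 + x.size + y.size) x y false).toNat = if x < y then 1 else 0 := by
      revert hs
      cases car fs (1 + x.size + y.size) x y false <;> simp <;> omega
    simp [Op.ev, this]
  | shl =>
    have h1 := exec_fin (fn := fn) s d [] [] [] [] (List.replicate y false ++ x.bits)
    rw [val_replicate_append, val_bits] at h1
    refine cast (Exec.seq hun (Exec.seq (exec_rep_push (by omega) (push1 _ _) y _ (by simp))
      (Exec.seq (exec_mv (by omega) hr x.bits _ (by simp [he]))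
        (Exec.seq (exec_clear d r.tail _ (by simp)) (by simpa [B, Op.ev] using h1))))) rfl ?_
    simp only [Op.extra, List.length_tail, Nat.size_eq_bits_len]
    omega
  | shr =>
    have h1 := exec_fin (fn := fn) s d [] [] [] [] (x / 2 ^ y).bits
    rw [val_bits] at h1
    have h2 : (x / 2 ^ y).size ≤ x.size := Nat.size_le_size (Nat.div_le_self _ _)
    rw [he] at hun ⊢
    refine cast (Exec.seq hun (Exec.seq (exec_drop s d [] [] [] [] hr y x)
      (Exec.seq (exec_mv (by omega) hr (x / 2 ^ y).bits _ (by simp))
        (Exec.seq (exec_clear d r.tail _ (by simp)) (by simpa [Op.ev] using h1))))) rfl ?_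
    simp only [Op.extra, List.length_tail, Nat.size_eq_bits_len]
    omega

end BitOps

open BitOps

theorem bin_spec : BinSpec := by
  refine ⟨prog, 20, fun op d fn s va vb ha hb h => ?_⟩
  have hs := mk_self s d
  rw [ha, hb, h (d + 2) (by omega), h (d + 3) (by omega), h (d + 4) (by omega),
    h (d + 5) (by omega)] at hs
  have := exec_prog (fn := fn) op s d va vb
  conv => enter [3]; rw [← hs]
  conv => enter [4]; rw [← hs]
  exact BitOps.cast this (by simp) (by omega)

theorem unary_spec : UnarySpec := by
  refine ⟨un, 10, fun d fn s v hv h => ?_⟩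
  rw [enc_replicate]
  exact exec_un d s v hv (h _ (by omega)) (h _ (by omega))

end Crest.Agent.R326
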