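import Crest.Agent.R326.CompA

/-!
# The compiler from the list language to the symbol-level language
-/

set_option autoImplicit false

namespace Crest.Agent.R326

open Function Crest.LogicCS.IntMul Crest.DTime

namespace Cmp

/-- the code of a recursive function: argument and result on stack `0` -/
def bodyCode (p : P) : P := .seq (move 0 1 2) (.seq p (.seq (clear 1) (move 2 0 3)))

/-- call `q` on the argument on stack `d`, leave the result there -/
def call (d : ℕ) (q : P) : P := .seq (move d 0 (d + 1)) (.seq (.scope q) (move 0 d (d + 1)))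

/-- the compiler: `rho` gives the stack of each variable, the result goes to stack `d` -/
def comp (B : Op → ℕ → P) (U : ℕ → P) : Tm → List ℕ → ℕ → P
  | .var i, rho, d => copy (rho.getD i 0) d (d + 1)
  | .nil, _, _ => .nop
  | .const c, _, d => pushL d (encW c)
  | .bin op a b, rho, d => .seq (comp B U a rho d) (.seq (comp B U b rho (d + 1)) (B op d))
  | .unary a, rho, d => .seq (comp B U a rho d) (U d)
  | .lett a b, rho, d => .seq (comp B U a rho d) (.seq (comp B U b (d :: rho) (d + 1))
      (.seq (clear d) (move (d + 1) d (d + 2))))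
  | .skip j k a, rho, d => comp B U a (rho.take j ++ rho.drop (j + k)) d
  | .ite c a b, rho, d => .seq (comp B U c rho d)
      (.case d (comp B U b rho d) (.seq (clear d) (comp B U b rho d))
        (.seq (clear d) (comp B U a rho d)) (.seq (clear d) (comp B U a rho d)))
  | .pop i, rho, d => ifne (rho.getD i 0) (mw (rho.getD i 0) d (d + 1))
  | .push i a, rho, d => .seq (comp B U a rho d) (revw d (rho.getD i 0) (d + 1))
  | .set i a, rho, d => .seq (comp B U a rho d)
      (.seq (clear (rho.getD i 0)) (move d (rho.getD i 0) (d + 1)))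
  | .wh i a, rho, d => .wh (rho.getD i 0) (.seq (comp B U a rho d) (clear d))
  | .fix body a, rho, d => .seq (comp B U a rho d)
      (call d (.fix (bodyCode (comp B U body [1] 2))))
  | .self a, rho, d => .seq (comp B U a rho d) (call d .self)

/-- the stacks `rho` hold the environment `e` -/
def Rel (s : St) (rho : List ℕ) (e : Env) : Prop := List.Forall₂ (fun k x => s k = enc x) rho e

theorem Rel.congr {s s' : St} {rho : List ℕ} {e : Env} (h : Rel s rho e)
    (hs : ∀ k ∈ rho, s' k = s k) : Rel s' rho e := by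
  induction h with
  | nil => exact .nil
  | cons h1 _ ih =>
    exact .cons ((hs _ (by simp)).trans h1) (ih fun k hk => hs k (by simp [hk]))

theorem Rel.get {s : St} {rho : List ℕ} {e : Env} (h : Rel s rho e) {i : ℕ} {x : List ℕ}
    (hx : e[i]? = some x) : s (rho.getD i 0) = enc x ∧ rho.getD i 0 ∈ rho := by
  induction h generalizing i with
  | nil => simp at hx
  | cons h1 _ ih =>
    cases i with
    | zero =>
      simp only [List.getElem?_cons_zero, Option.some.injEq] at hx
      subst hx
      simp [h1]
    | succ i =>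
      simp only [List.getElem?_cons_succ] at hx
      have := ih hx
      simp only [List.getD_cons_succ, List.mem_cons]
      exact ⟨this.1, Or.inr this.2⟩

theorem Rel.set {s s' : St} {rho : List ℕ} {e : Env} (h : Rel s rho e) (hn : rho.Nodup) {i : ℕ}
    {x y : List ℕ} (hx : e[i]? = some x) (h1 : s' (rho.getD i 0) = enc y)
    (h2 : ∀ k ∈ rho, k ≠ rho.getD i 0 → s' k = s k) : Rel s' rho (e.set i y) := by
  induction h generalizing i with
  | nil => simp at hx
  | @cons a b l1 l2 h3 h4 ih =>
    rw [List.nodup_cons] at hn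
    cases i with
    | zero =>
      simp only [List.getD_cons_zero] at h1 h2
      refine .cons h1 (Rel.congr h4 fun k hk => h2 k (by simp [hk]) ?_)
      rintro rfl
      exact hn.1 hk
    | succ i =>
      simp only [List.getElem?_cons_succ] at hx
      simp only [List.getD_cons_succ] at h1 h2
      have hm := (Rel.get h4 hx).2
      refine .cons ((h2 a (by simp) ?_).trans h3) (ih hn.2 hx h1 fun k hk => h2 k (by simp [hk]))
      rintro rfl
      exact hn.1 hm

theorem Rel.append {s : St} {r1 r2 : List ℕ} {e1 e2 : Env} (h1 : Rel s r1 e1) (h2 : Rel s r2 e2) :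
    Rel s (r1 ++ r2) (e1 ++ e2) := List.rel_append h1 h2

theorem Rel.split {s : St} {rho : List ℕ} {e1 e2 : Env} (h : Rel s rho (e1 ++ e2)) :
    Rel s (rho.take e1.length) e1 ∧ Rel s (rho.drop e1.length) e2 :=
  ⟨List.forall₂_take_append _ _ _ h, List.forall₂_drop_append _ _ _ h⟩

theorem Rel.length_eq {s : St} {rho : List ℕ} {e : Env} (h : Rel s rho e) :
    rho.length = e.length := List.Forall₂.length_eq h

/-- the layout of the stacks before a term is run -/
structure Pre (s : St) (rho : List ℕ) (d : ℕ) : Prop where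
  nodup : rho.Nodup
  pos : ∀ k ∈ rho, 1 ≤ k
  lt : ∀ k ∈ rho, k < d
  one : 1 ≤ d
  zero : s 0 = []
  top : ∀ k, d ≤ k → s k = []

/-- the stacks after a term is run -/
structure Post (s s' : St) (rho : List ℕ) (d : ℕ) (e' : Env) (v : List ℕ) : Prop where
  rel : Rel s' rho e'
  val : s' d = enc v
  out : ∀ k, k ∉ rho → k ≠ d → s' k = s k

theorem Post.zero {s s' : St} {rho d e' v} (h : Post s s' rho d e' v) (hp : Pre s rho d) :
    s' 0 = [] := by
  rw [h.out 0 (fun hk => by have := hp.pos 0 hk; omega) (by have := hp.one; omega), hp.zero]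

theorem Post.top {s s' : St} {rho d e' v} (h : Post s s' rho d e' v) (hp : Pre s rho d) (k : ℕ)
    (hk : d + 1 ≤ k) : s' k = [] := by
  rw [h.out k (fun hk' => by have := hp.lt k hk'; omega) (by omega), hp.top k (by omega)]

/-- after a term, clear its value and start again -/
theorem Post.again {s s' : St} {rho d e' v} (h : Post s s' rho d e' v) (hp : Pre s rho d) :
    Pre (update s' d []) rho d ∧ Rel (update s' d []) rho e' := by
  refine ⟨⟨hp.nodup, hp.pos, hp.lt, hp.one, ?_, fun k hk => ?_⟩, h.rel.congr fun k hk => ?_⟩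
  · rw [update_of_ne (by have := hp.one; omega), h.zero hp]
  · rcases eq_or_lt_of_le hk with rfl | hk
    · simp
    · rw [update_of_ne (by omega), h.top hp k hk]
  · rw [update_of_ne (hp.lt k hk).ne]

theorem Post.trans_again {s s' s'' : St} {rho d e' e'' v v'} (h : Post s s' rho d e' v)
    (h' : Post (update s' d []) s'' rho d e'' v') : Post s s'' rho d e'' v' :=
  ⟨h'.rel, h'.val, fun k h1 h2 => by rw [h'.out k h1 h2, update_of_ne h2, h.out k h1 h2]⟩

/-- replace the value -/
theorem Post.newVal {s s' : St} {rho d e' v} (h : Post s s' rho d e' v) (hp : Pre s rho d)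
    (r : List ℕ) : Post s (update s' d (enc r)) rho d e' r :=
  ⟨h.rel.congr fun k hk => update_of_ne (hp.lt k hk).ne _ _, by simp,
    fun k h1 h2 => by rw [update_of_ne h2, h.out k h1 h2]⟩

variable {fn : Option P}

theorem body_ok {p : P} {v v' r : List ℕ} {n : ℕ}
    (h : ∀ s, Pre s [1] 2 → Rel s [1] [v] → ∃ s', Exec fn p s s' n ∧ Post s s' [1] 2 [v'] r) :
    Exec fn (bodyCode p) (St.only0 (enc v)) (St.only0 (enc r))
      (n + 6 * sz v + 3 * sz v' + 6 * sz r + 5) := by
  have h1 := move_ok (fn := fn) (a := 0) (b := 1) (t := 2) (by omega) (by omega) (by omega)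
    (St.only0 (enc v)) (by simp [St.only0])
  set s1 := update (update (St.only0 (enc v)) 0 []) 1 (St.only0 (enc v) 0 ++ St.only0 (enc v) 1)
    with hs1
  have hp : Pre s1 [1] 2 := ⟨by simp, by simp, by simp, by omega, by simp [hs1],
    fun k hk => by
      rw [hs1, update_of_ne (by omega), update_of_ne (by omega)]
      simp only [St.only0]
      rw [if_neg (by omega)]⟩
  obtain ⟨s2, h2, hq⟩ := h s1 hp (.cons (by simp [hs1, St.only0]) .nil)
  have hv' : s2 1 = enc v' := (List.forall₂_cons.1 hq.rel).1
  have h3 := clear_ok (fn := fn) 1 _ s2 hv'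
  have h4 := move_ok (fn := fn) (a := 2) (b := 0) (t := 3) (by omega) (by omega) (by omega)
    (update s2 1 []) (by rw [update_of_ne (by omega)]; exact hq.top hp 3 le_rfl)
  refine (Exec.seq h1 (.seq h2 (.seq h3 h4))).cast ?_ ?_
  · funext k
    have h0 := hq.zero hp
    have ht := hq.top hp k
    have hv := hq.val
    rw [update_of_ne (show 2 ≠ 1 by omega), update_of_ne (show 0 ≠ 1 by omega), hv, h0]
    simp only [update_apply, St.only0]
    split_ifs
    · simp
    · rfl
    · rfl
    · exact ht (by omega)
  · simp only [St.only0, if_true, length_enc, update_of_ne (show 2 ≠ 1 by omega), hq.val]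
    omega

theorem call_ok {q : P} {d : ℕ} {s : St} {v r : List ℕ} {n : ℕ} (hd : 1 ≤ d) (h0 : s 0 = [])
    (hv : s d = enc v) (ht : s (d + 1) = [])
    (h : Exec fn q (St.only0 (enc v)) (St.only0 (enc r)) n) :
    Exec fn (call d q) s (update s d (enc r)) (n + 6 * sz v + 6 * sz r + 6) := by
  have h1 := move_ok (fn := fn) (a := d) (b := 0) (t := d + 1) (by omega) (by omega) (by omega)
    s ht
  have h2 : Exec fn (.scope q) (update (update s d []) 0 (s d ++ s 0))
      (update (update (update s d []) 0 (s d ++ s 0)) 0 (enc r)) (n + 2) :=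
    .scope (by simpa [hv, h0] using h)
  have h3 := move_ok (fn := fn) (a := 0) (b := d) (t := d + 1) (by omega) (by omega) (by omega)
    (update (update (update s d []) 0 (s d ++ s 0)) 0 (enc r))
    (by rw [update_of_ne (by omega), update_of_ne (by omega), update_of_ne (by omega), ht])
  refine (Exec.seq h1 (.seq h2 h3)).cast ?_ ?_
  · funext k
    have hd' : d ≠ 0 := by omega
    simp only [update_apply]
    split_ifs <;> simp_all
  · simp only [update_self, hv, length_enc]
    omega

theorem enc_eq_nil {x : List ℕ} : enc x = [] ↔ x = [] := by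
  cases x <;> simp [encW_ne_nil]

theorem test_true {d : ℕ} {s s' : St} {v : List ℕ} {pe ps p : P} {n : ℕ} (hv : s d = enc v)
    (hc : v.headD 0 ≠ 0) (h : Exec fn p (update s d []) s' n) :
    Exec fn (.case d pe ps (.seq (clear d) p) (.seq (clear d) p)) s s' (n + 3 * sz v + 2) := by
  cases v with
  | nil => simp at hc
  | cons x v =>
    simp only [List.headD_cons] at hc
    have hb : x.bits ≠ [] := fun hb => hc (by
      have := Nat.size_eq_bits_len x
      rw [hb] at this
      exact Nat.size_eq_zero.1 this.symm)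
    obtain ⟨b, w, hw⟩ := List.exists_cons_of_ne_nil hb
    have hs : s d = some b :: (w.map some ++ none :: enc v) := by simp [hv, encW, hw]
    have hl : (w.map some ++ none :: enc v).length ≤ sz (x :: v) := by
      have := length_enc (x :: v)
      rw [← hv, hs] at this
      simp only [List.length_cons] at this
      omega
    have h1 := clear_ok (fn := fn) d _ (update s d (w.map some ++ none :: enc v)) (update_self ..)
    rw [update_idem] at h1
    cases b
    · exact (Exec.caseF hs (.seq h1 h)).mono (by omega)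
    · exact (Exec.caseT hs (.seq h1 h)).mono (by omega)

theorem test_false {d : ℕ} {s s' : St} {v : List ℕ} {pf pt p : P} {n : ℕ} (hv : s d = enc v)
    (hc : v.headD 0 = 0) (h : Exec fn p (update s d []) s' n) :
    Exec fn (.case d p (.seq (clear d) p) pf pt) s s' (n + 3 * sz v + 2) := by
  cases v with
  | nil =>
    have hv' : s d = [] := hv
    rw [← hv', update_eq_self] at h
    exact (Exec.caseE hv' h).mono (by omega)
  | cons x v =>
    simp only [List.headD_cons] at hc
    subst hc
    have hs : s d = none :: enc v := by simp [hv, encW]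
    have h1 := clear_ok (fn := fn) d _ (update s d (enc v)) (update_self ..)
    rw [update_idem, length_enc] at h1
    exact (Exec.caseS hs (.seq h1 h)).mono (by simp only [sz_cons]; omega)

theorem le_mul_of {C a x : ℕ} (hC : 20 ≤ C) (h : a ≤ 20 * x) : a ≤ C * x :=
  h.trans (Nat.mul_le_mul_right x hC)

theorem comp_ok {B : Op → ℕ → P} {U : ℕ → P} {C : ℕ} (hC : 20 ≤ C)
    (hB : ∀ (op : Op) (d : ℕ) (fn : Option P) (s : St) (va vb : List ℕ),
      s d = enc va → s (d + 1) = enc vb → (∀ k, d + 2 ≤ k → s k = []) →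
      Exec fn (B op d) s
        (update (update s (d + 1) []) d (enc [op.ev (va.headD 0) (vb.headD 0)]))
        (C * (sz va + sz vb + (op.ev (va.headD 0) (vb.headD 0)).size + op.extra (vb.headD 0) + 2)))
    (hU : ∀ (d : ℕ) (fn : Option P) (s : St) (v : List ℕ),
      s d = enc v → (∀ k, d + 1 ≤ k → s k = []) →
      Exec fn (U d) s (update s d (enc (List.replicate (v.headD 0) 0)))
        (C * (sz v + v.headD 0 + 1)))
    {fn : Option Tm} {e : Env} {t : Tm} {e' : Env} {v : List ℕ} {c : ℕ} (h : EvB fn e t e' v c) :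
    ∀ (rho : List ℕ) (d : ℕ) (s : St), Pre s rho d → Rel s rho e →
      ∃ s', Exec (fn.map fun b => bodyCode (comp B U b [1] 2)) (comp B U t rho d) s s' (C * c) ∧
        Post s s' rho d e' v := by
  induction h with
  | mono _ hc ih =>
    intro rho d s hp hr
    obtain ⟨s', h1, h2⟩ := ih rho d s hp hr
    exact ⟨s', h1.mono (Nat.mul_le_mul_left C hc), h2⟩
  | @var fn e i x hx =>
    intro rho d s hp hr
    obtain ⟨h1, h2⟩ := hr.get hx
    have h3 := hp.lt _ h2
    refine ⟨_, (copy_ok h3.ne (by omega) (by omega) s (hp.top _ (by omega))).mono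
      (le_mul_of hC (by rw [h1, length_enc]; omega)), ?_⟩
    refine ⟨hr.congr fun k hk => update_of_ne (hp.lt k hk).ne _ _, ?_,
      fun k _ hk => update_of_ne hk _ _⟩
    simp [h1, hp.top d le_rfl, -List.getD_eq_getElem?_getD]
  | nil =>
    intro rho d s hp hr
    exact ⟨s, Exec.nop.mono (by omega), hr, hp.top d le_rfl, fun _ _ _ => rfl⟩
  | @const fn e c =>
    intro rho d s hp hr
    refine ⟨_, (pushL_ok d (encW c) s).mono (le_mul_of hC (by rw [length_encW]; omega)), ?_⟩
    refine ⟨hr.congr fun k hk => update_of_ne (hp.lt k hk).ne _ _, ?_,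
      fun k _ hk => update_of_ne hk _ _⟩
    simp [hp.top d le_rfl]
  | @bin fn e op a b e1 e2 va vb c1 c2 _ _ ih1 ih2 =>
    intro rho d s hp hr
    obtain ⟨s1, h1, q1⟩ := ih1 rho d s hp hr
    have hp1 : Pre s1 rho (d + 1) := ⟨hp.nodup, hp.pos, fun k hk => by have := hp.lt k hk; omega,
      by omega, q1.zero hp, q1.top hp⟩
    obtain ⟨s2, h2, q2⟩ := ih2 rho (d + 1) s1 hp1 q1.rel
    have hd : d ∉ rho := fun hk => lt_irrefl _ (hp.lt d hk)
    have h3 := hB op d (fn.map fun b => bodyCode (comp B U b [1] 2)) s2 va vb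
      (by rw [q2.out d hd (by omega), q1.val]) q2.val (q2.top hp1)
    refine ⟨_, (Exec.seq h1 (.seq h2 h3)).mono (by simp only [Nat.mul_add]; omega), ?_, by simp,
      fun k hk hk' => ?_⟩
    · refine q2.rel.congr fun k hk => ?_
      have := hp.lt k hk
      rw [update_of_ne (by omega), update_of_ne (by omega)]
    · rw [update_of_ne hk']
      by_cases hk2 : k = d + 1
      · subst hk2
        rw [update_self, hp.top _ (by omega)]
      · rw [update_of_ne hk2, q2.out k hk hk2, q1.out k hk hk']
  | @unary fn e a e1 v c _ ih =>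
    intro rho d s hp hr
    obtain ⟨s1, h1, q1⟩ := ih rho d s hp hr
    have h2 := hU d (fn.map fun b => bodyCode (comp B U b [1] 2)) s1 v q1.val (q1.top hp)
    exact ⟨_, (Exec.seq h1 h2).mono (by simp only [Nat.mul_add]; omega), q1.newVal hp _⟩
  | @lett fn e a b e1 v v' e2 r c1 c2 _ _ ih1 ih2 =>
    intro rho d s hp hr
    obtain ⟨s1, h1, q1⟩ := ih1 rho d s hp hr
    have hd : d ∉ rho := fun hk => lt_irrefl _ (hp.lt d hk)
    have hp1 : Pre s1 (d :: rho) (d + 1) := by
      refine ⟨List.nodup_cons.2 ⟨hd, hp.nodup⟩, fun k hk => ?_, fun k hk => ?_, by omega,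
        q1.zero hp, q1.top hp⟩
      · rcases List.mem_cons.1 hk with rfl | hk
        exacts [hp.one, hp.pos k hk]
      · rcases List.mem_cons.1 hk with rfl | hk
        · omega
        · have := hp.lt k hk; omega
    obtain ⟨s2, h2, q2⟩ := ih2 (d :: rho) (d + 1) s1 hp1 (.cons q1.val q1.rel)
    obtain ⟨hv', hr2⟩ := List.forall₂_cons.1 q2.rel
    have h3 := clear_ok (fn := fn.map fun b => bodyCode (comp B U b [1] 2)) d _ s2 hv'
    have h4 := move_ok (fn := fn.map fun b => bodyCode (comp B U b [1] 2)) (a := d + 1) (b := d)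
      (t := d + 2) (by omega) (by omega) (by omega) (update s2 d [])
      (by rw [update_of_ne (by omega)]; exact q2.top hp1 _ le_rfl)
    rw [update_of_ne (show d + 1 ≠ d by omega), q2.val] at h4
    refine ⟨_, (Exec.seq h1 (.seq h2 (.seq h3 h4))).mono ?_, ?_, by simp, fun k hk hk' => ?_⟩
    · have := le_mul_of (a := 3 * sz v' + 1 + (6 * sz r + 2)) (x := sz v' + sz r + 1) hC (by omega)
      simp only [Nat.mul_add, length_enc] at this ⊢
      omega
    · refine Rel.congr hr2 fun k hk => ?_
      have := hp.lt k hk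
      rw [update_of_ne (by omega), update_of_ne (by omega), update_of_ne (by omega)]
    · rw [update_of_ne hk']
      by_cases hk2 : k = d + 1
      · subst hk2
        rw [update_self, hp.top _ (by omega)]
      · rw [update_of_ne hk2, update_of_ne hk', q2.out k (by simp [hk, hk']) hk2, q1.out k hk hk']
  | @skip fn j k a A B' C' A' C'' v c hj hk hj' _ ih =>
    intro rho d s hp hr
    subst hk
    obtain ⟨r1, r23⟩ := hr.split
    obtain ⟨r2, r3⟩ := r23.split
    rw [hj] at r1 r2 r3
    rw [List.drop_drop] at r3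
    have hdec : rho = rho.take j ++ ((rho.drop j).take B'.length ++ rho.drop (j + B'.length)) := by
      rw [← List.drop_drop, List.take_append_drop, List.take_append_drop]
    have hsub : (rho.take j ++ rho.drop (j + B'.length)).Sublist rho := by
      conv_rhs => rw [hdec]
      exact (List.Sublist.refl _).append (List.sublist_append_right _ _)
    have hp1 : Pre s (rho.take j ++ rho.drop (j + B'.length)) d :=
      ⟨hp.nodup.sublist hsub, fun k hk => hp.pos k (hsub.subset hk),
        fun k hk => hp.lt k (hsub.subset hk), hp.one, hp.zero, hp.top⟩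
    obtain ⟨s1, h1, q1⟩ := ih _ d s hp1 (r1.append r3)
    refine ⟨s1, h1, ?_, q1.val, fun k hk hk' => q1.out k (fun h => hk (hsub.subset h)) hk'⟩
    obtain ⟨t1, t3⟩ := q1.rel.split
    have hl : (rho.take j).length = A'.length := by rw [r1.length_eq, hj, hj']
    rw [← hl, List.take_left' rfl] at t1
    rw [← hl, List.drop_left' rfl] at t3
    rw [hdec]
    refine t1.append (Rel.append (r2.congr fun k hk => q1.out k ?_ ?_) t3)
    · have hn := hp.nodup
      rw [hdec, List.nodup_append, List.nodup_append] at hn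
      intro hk'
      rcases List.mem_append.1 hk' with h | h
      · exact hn.2.2 k h k (List.mem_append_left _ hk) rfl
      · exact hn.2.1.2.2 k hk k h rfl
    · exact (hp.lt k (List.mem_of_mem_drop (List.mem_of_mem_take hk))).ne
  | @iteT fn e t a b e1 e2 vc v c1 c2 _ hc _ ih1 ih2 =>
    intro rho d s hp hr
    obtain ⟨s1, h1, q1⟩ := ih1 rho d s hp hr
    obtain ⟨s2, h2, q2⟩ := ih2 rho d _ (q1.again hp).1 (q1.again hp).2
    refine ⟨s2, (Exec.seq h1 (test_true q1.val hc h2)).mono ?_, q1.trans_again q2⟩
    have := le_mul_of (a := 3 * sz vc + 2) (x := sz vc + 1) hC (by omega)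
    simp only [Nat.mul_add] at this ⊢
    omega
  | @iteF fn e t a b e1 e2 vc v c1 c2 _ hc _ ih1 ih2 =>
    intro rho d s hp hr
    obtain ⟨s1, h1, q1⟩ := ih1 rho d s hp hr
    obtain ⟨s2, h2, q2⟩ := ih2 rho d _ (q1.again hp).1 (q1.again hp).2
    refine ⟨s2, (Exec.seq h1 (test_false q1.val hc h2)).mono ?_, q1.trans_again q2⟩
    have := le_mul_of (a := 3 * sz vc + 2) (x := sz vc + 1) hC (by omega)
    simp only [Nat.mul_add] at this ⊢
    omega
  | @pop fn e i x hx =>
    intro rho d s hp hr
    obtain ⟨h1, h2⟩ := hr.get hx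
    have h3 := hp.lt _ h2
    cases x with
    | nil =>
      refine ⟨s, (ifne_nil h1).mono (le_mul_of hC (by omega)),
        hr.set hp.nodup hx h1 fun _ _ _ => rfl, hp.top d le_rfl, fun _ _ _ => rfl⟩
    | cons y x =>
      have h4 := mw_ok (fn := fn.map fun b => bodyCode (comp B U b [1] 2)) (b := d) (t := d + 1)
        h3.ne (by omega) (by omega) y (enc x) s h1 (hp.top _ (by omega))
      refine ⟨_, (ifne_cons (by rw [h1]; simp [encW_ne_nil]) h4).mono
        (le_mul_of hC (by simp; omega)), ?_, by simp [hp.top d le_rfl], fun k hk hk' => ?_⟩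
      · refine hr.set hp.nodup hx (by rw [update_of_ne h3.ne, update_self]; rfl) fun k hk hk' => ?_
        rw [update_of_ne (hp.lt k hk).ne, update_of_ne hk']
      · have hk2 : k ≠ rho.getD i 0 := fun h => hk (h ▸ h2)
        rw [update_of_ne hk', update_of_ne hk2]
  | @push fn e i a e1 v x c _ hx ih =>
    intro rho d s hp hr
    obtain ⟨s1, h1, q1⟩ := ih rho d s hp hr
    obtain ⟨h2, h3⟩ := q1.rel.get hx
    have h4 := hp.lt _ h3
    have h5 := revw_ok (fn := fn.map fun b => bodyCode (comp B U b [1] 2)) (t := d + 1)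
      h4.ne' (by omega) (by omega) v s1 q1.val (q1.top hp _ le_rfl)
    refine ⟨_, (Exec.seq h1 h5).mono ?_, ?_, by rw [update_of_ne h4.ne', update_self]; rfl,
      fun k hk hk' => ?_⟩
    · have := le_mul_of (a := 5 * sz v + 1) (x := sz v + 1) hC (by omega)
      simp only [Nat.mul_add] at this ⊢
      omega
    · refine q1.rel.set hp.nodup hx (by rw [update_self, h2, enc_append]) fun k hk hk' => ?_
      rw [update_of_ne hk', update_of_ne (hp.lt k hk).ne]
    · have hk2 : k ≠ rho.getD i 0 := fun h => hk (h ▸ h3)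
      rw [update_of_ne hk2, update_of_ne hk', q1.out k hk hk']
  | @set fn e i a e1 v x c _ hx ih =>
    intro rho d s hp hr
    obtain ⟨s1, h1, q1⟩ := ih rho d s hp hr
    obtain ⟨h2, h3⟩ := q1.rel.get hx
    have h4 := hp.lt _ h3
    have h5 := clear_ok (fn := fn.map fun b => bodyCode (comp B U b [1] 2)) _ _ s1 h2
    have h6 := move_ok (fn := fn.map fun b => bodyCode (comp B U b [1] 2)) (t := d + 1)
      h4.ne' (by omega) (by omega) (update s1 (rho.getD i 0) [])
      (by rw [update_of_ne (by omega)]; exact q1.top hp _ le_rfl)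
    rw [update_of_ne h4.ne', q1.val, update_self, List.append_nil] at h6
    refine ⟨_, (Exec.seq h1 (.seq h5 h6)).mono ?_, ?_,
      by rw [update_of_ne h4.ne', update_self]; rfl, fun k hk hk' => ?_⟩
    · have := le_mul_of (a := 3 * sz x + 1 + (6 * sz v + 2)) (x := sz v + sz x + 1) hC (by omega)
      simp only [Nat.mul_add, length_enc] at this ⊢
      omega
    · refine q1.rel.set hp.nodup hx (by rw [update_self]) fun k hk hk' => ?_
      rw [update_of_ne hk', update_of_ne (hp.lt k hk).ne, update_of_ne hk']
    · have hk2 : k ≠ rho.getD i 0 := fun h => hk (h ▸ h3)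
      rw [update_of_ne hk2, update_of_ne hk', update_of_ne hk2, q1.out k hk hk']
  | @whN fn e i a hx =>
    intro rho d s hp hr
    exact ⟨s, (Exec.whE (hr.get hx).1).mono (by omega), hr, hp.top d le_rfl, fun _ _ _ => rfl⟩
  | @whC fn e i a y x e1 e2 v c1 c2 hx _ _ ih1 ih2 =>
    intro rho d s hp hr
    obtain ⟨s1, h1, q1⟩ := ih1 rho d s hp hr
    obtain ⟨s2, h2, q2⟩ := ih2 rho d _ (q1.again hp).1 (q1.again hp).2
    have h3 := clear_ok (fn := fn.map fun b => bodyCode (comp B U b [1] 2)) _ _ s1 q1.val
    refine ⟨s2, (Exec.whC (by rw [(hr.get hx).1]; simp [encW_ne_nil]) (.seq h1 h3) h2).mono ?_,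
      q1.trans_again q2⟩
    have := le_mul_of (a := 3 * sz v + 2) (x := sz v + 1) hC (by omega)
    simp only [Nat.mul_add, length_enc] at this ⊢
    omega
  | @fix fn e body a e1 v v' r c1 c2 _ _ ih1 ih2 =>
    intro rho d s hp hr
    obtain ⟨s1, h1, q1⟩ := ih1 rho d s hp hr
    have h2 := call_ok (fn := fn.map fun b => bodyCode (comp B U b [1] 2)) hp.one (q1.zero hp)
      q1.val (q1.top hp _ le_rfl) (.fix (body_ok (ih2 [1] 2)))
    refine ⟨_, (Exec.seq h1 h2).mono ?_, q1.newVal hp _⟩
    have := le_mul_of (a := 12 * sz v + 3 * sz v' + 12 * sz r + 13) (x := sz v + sz v' + sz r + 1)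
      hC (by omega)
    simp only [Nat.mul_add] at this ⊢
    omega
  | @self e body a e1 v v' r c1 c2 _ _ ih1 ih2 =>
    intro rho d s hp hr
    obtain ⟨s1, h1, q1⟩ := ih1 rho d s hp hr
    have h2 := call_ok (fn := some (bodyCode (comp B U body [1] 2))) hp.one (q1.zero hp)
      q1.val (q1.top hp _ le_rfl) (.self (body_ok (ih2 [1] 2)))
    refine ⟨_, (Exec.seq h1 h2).mono ?_, q1.newVal hp _⟩
    have := le_mul_of (a := 12 * sz v + 3 * sz v' + 12 * sz r + 13) (x := sz v + sz v' + sz r + 1)
      hC (by omega)
    simp only [Nat.mul_add] at this ⊢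
    omega

theorem sz_le_cost {fn : Option Tm} {e : Env} {t : Tm} {e' : Env} {v : List ℕ} {c : ℕ}
    (h : EvB fn e t e' v c) : sz v ≤ c := by
  induction h with
  | mono _ hc ih => exact ih.trans hc
  | @unary fn e a e1 v c _ _ =>
    have : ∀ n, sz (List.replicate n 0) = n := fun n => by
      induction n with
      | zero => rfl
      | succ n ih => simp [List.replicate_succ, ih]; omega
    rw [this]; omega
  | skip _ _ _ _ ih => exact ih
  | _ => first | (simp; done) | (simp only [sz_cons, sz_nil]; omega) | omega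

theorem length_le_sz (x : List ℕ) : x.length ≤ sz x := by
  induction x with
  | nil => simp
  | cons a x ih => simp only [List.length_cons, sz_cons]; omega

end Cmp

open Cmp in
theorem bridge_spec (hM : MachineSpec) (hB : BinSpec) (hU : UnarySpec) : BridgeSpec := by
  intro f t T h
  obtain ⟨B, CB, hB⟩ := hB
  obtain ⟨U, CU, hU⟩ := hU
  set C := CB + CU + 20 with hC
  obtain ⟨C', M, hM'⟩ := hM f (.seq (comp B U t [1, 2] 3) (revw 3 0 4)) (fun n => (C + 5) * T n + 1)
    fun q => by
      have hsz := sz_le_cost (h q)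
      have hl := length_le_sz (bitsW (f q))
      have hp : Pre (initSt q) [1, 2] 3 := ⟨by simp, by simp, by simp, by omega, by simp [initSt],
        fun k hk => by simp only [initSt]; rw [if_neg (by omega), if_neg (by omega)]⟩
      obtain ⟨s1, h1, q1⟩ := comp_ok (B := B) (U := U) (C := C) (by omega)
        (fun op d fn s va vb a1 a2 a3 => (hB op d fn s va vb a1 a2 a3).mono
          (Nat.mul_le_mul_right _ (by omega)))
        (fun d fn s v a1 a2 => (hU d fn s v a1 a2).mono (Nat.mul_le_mul_right _ (by omega)))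
        (h q) [1, 2] 3 (initSt q) hp (.cons (by simp [initSt]) (.cons (by simp [initSt]) .nil))
      have h2 := revw_ok (fn := none) (a := 3) (b := 0) (t := 4) (by omega) (by omega) (by omega)
        _ s1 q1.val (q1.top hp 4 le_rfl)
      refine ⟨?_, (Exec.seq h1 h2).cast ?_ ?_⟩
      · simp only [bitsW, List.length_map] at hl hsz
        simp only [Nat.add_mul]
        omega
      · funext k
        obtain ⟨a1, a2⟩ := List.forall₂_cons.1 q1.rel
        have a3 := (List.forall₂_cons.1 a2).1
        have a4 := q1.top hp k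
        simp only [update_apply, St.only0]
        split_ifs with b1 b2
        · simp [q1.zero hp, bitsW]
        · rfl
        · by_cases b3 : k = 1
          · rw [b3, a1]; rfl
          · by_cases b4 : k = 2
            · rw [b4, a3]; rfl
            · exact a4 (by omega)
      · simp only [Nat.add_mul]
        omega
  refine ⟨C' * (C + 6), M, fun n => (hM' n).trans ?_⟩
  beta_reduce
  rw [Nat.mul_assoc]
  refine Nat.mul_le_mul_left _ ?_
  simp only [Nat.add_mul, Nat.mul_add]
  omega

end Crest.Agent.R326
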