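import Crest.Agent.R326.SpecB
import Crest.Agent.R19.Jacobsthal

/-!
# Greedy choice of pairwise coprime moduli
-/

set_option autoImplicit false

namespace Crest.Agent.R326

open Finset

/-- number of inverses of `P` modulo `c` -/
def invCnt (P c : ℕ) : ℕ := ∑ o ∈ range c, if P * o % c = 1 then 1 else 0

theorem invCnt_ne_zero {P c : ℕ} (hc : 2 ≤ c) : invCnt P c ≠ 0 ↔ Nat.Coprime P c := by
  unfold invCnt
  rw [Ne, Finset.sum_eq_zero_iff]
  push Not
  constructor
  · rintro ⟨o, -, ho⟩
    have h1 : P * o % c = 1 := by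
      by_contra h
      simp [h] at ho
    refine Nat.coprime_of_mul_modEq_one o ?_
    unfold Nat.ModEq
    rw [h1, Nat.mod_eq_of_lt (by omega)]
  · intro h
    obtain ⟨m, hm, h1⟩ := Nat.exists_mul_mod_eq_one_of_coprime h (by omega)
    exact ⟨m, mem_range.2 hm, by simp [h1]⟩

theorem invCnt_le (P c : ℕ) : invCnt P c ≤ c := by
  unfold invCnt
  calc _ ≤ ∑ _o ∈ range c, 1 := Finset.sum_le_sum fun o _ => by split_ifs <;> omega
    _ = c := by simp

theorem exists_coprime_near {W P : ℕ} (hW : 8 ≤ W) (hP0 : 0 < P) (hP : P < 2 ^ W) (ρ : ℕ) :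
    ∃ h < (W + 1) ^ 171, Nat.Coprime P (ρ + h) := by
  have hc : P.primeFactors.card ≤ W + 1 := by
    have h1 : 2 ^ P.primeFactors.card ≤ ∏ p ∈ P.primeFactors, p :=
      Finset.pow_card_le_prod _ _ _ fun p hp => (Nat.prime_of_mem_primeFactors hp).two_le
    have h2 := Nat.le_of_dvd hP0 (Nat.prod_primeFactors_dvd P)
    have h3 : 2 ^ P.primeFactors.card < 2 ^ W := by omega
    have := (Nat.pow_lt_pow_iff_right (by norm_num : 1 < 2)).1 h3
    omega
  obtain ⟨h, hh, h1⟩ := R19.jacobsthal 1 ρ (W + 1) (by omega) P.primeFactors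
    (fun p hp => ⟨Nat.prime_of_mem_primeFactors hp, fun h =>
      (Nat.prime_of_mem_primeFactors hp).one_lt.ne' (Nat.dvd_one.1 h)⟩) hc
  refine ⟨h, hh, Nat.coprime_of_dvd fun p hp hpP hd => ?_⟩
  exact h1 p (Nat.mem_primeFactors.2 ⟨hp, hpP, hP0.ne'⟩) (by simpa using hd)

/-- one step: sees `[i] :: state :: [base] :: [T] :: [d] :: _` -/
def greedyB : Tm :=
  .lett (.add (.var 2) (.var 0)) (.lett (.nth (.var 2) (.const 0)) (.lett (.nth (.var 3) (.const 1))
    (.lett (.sum (.var 2)
        (.cndEq (.mod (.mul (.var 2) (.var 0)) (.var 4)) (.const 1) (.const 1) (.const 0)))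
      (.ifEq (.var 0) (.const 0) (.var 5)
        (.ifLt (.var 2) (.var 8)
          (.cons (.add (.var 2) (.const 1)) (.cons (.mul (.var 1) (.var 3))
            (.cons (.var 3) (.drop (.const 2) (.var 5)))))
          (.var 5))))))

theorem greedyB_ev {W : ℕ} {fn : Option Tm} {env : Env} (hW : 8 ≤ W) {i cnt P base T d : ℕ}
    {L : List ℕ} (hb : 2 ≤ base) (hc : base + i < 2 ^ W) (hP : P * (base + i) < 2 ^ W)
    (hd : d < 2 ^ W) (hL : L.length ≤ d) :
    Pv W fn ([i] :: (cnt :: P :: L) :: [base] :: [T] :: [d] :: env) greedyB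
      (if invCnt P (base + i) = 0 then cnt :: P :: L else
        if cnt < d then (cnt + 1) :: P * (base + i) :: (base + i) :: L else cnt :: P :: L)
      ((base + i) * (1200 * (W + 1)) + 400 * (W + 1) + 50 * d + 500) := by
  have hLR : (L.length : ℝ) ≤ d := by exact_mod_cast hL
  have hW0 : (0 : ℝ) ≤ W := by positivity
  have hd0 : (0 : ℝ) ≤ d := by positivity
  have hbi : (0 : ℝ) ≤ base + i := by positivity
  have hlen : ((if invCnt P (base + i) = 0 then cnt :: P :: L else
      if cnt < d then (cnt + 1) :: P * (base + i) :: (base + i) :: L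
        else cnt :: P :: L).length : ℝ) ≤ d + 3 := by
    split_ifs <;> simp <;> linarith
  have hin : Pv W fn ([invCnt P (base + i)] :: [P] :: [cnt] :: [base + i] :: [i] ::
      (cnt :: P :: L) :: [base] :: [T] :: [d] :: env)
      (.ifEq (.var 0) (.const 0) (.var 5)
        (.ifLt (.var 2) (.var 8)
          (.cons (.add (.var 2) (.const 1)) (.cons (.mul (.var 1) (.var 3))
            (.cons (.var 3) (.drop (.const 2) (.var 5)))))
          (.var 5)))
      (if invCnt P (base + i) = 0 then cnt :: P :: L else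
        if cnt < d then (cnt + 1) :: P * (base + i) :: (base + i) :: L else cnt :: P :: L)
      (340 * (W + 1) + 20 * d + 200) := by
    split_ifs with h1 h2
    · refine (Ev.ifEqT (Pv.varS rfl) (Pv.constS hW (by norm_num)) h1 (Pv.var rfl)).mono ?_
      simp; linarith
    · refine (Ev.ifEqF (Pv.varS rfl) (Pv.constS hW (by norm_num)) h1
        (Ev.ifLtT hW (Pv.varS rfl) (Pv.varS rfl) h2
          (Pv.cons (Pv.add (Pv.varS rfl) (Pv.constS hW (by norm_num)) (by omega))
            (Pv.cons (Pv.mul hW (Pv.varS rfl) (Pv.varS rfl) hP) (Pv.cons (Pv.varS rfl)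
              (Pv.drop (x := cnt :: P :: L) (N := 2) (Pv.constS hW (by norm_num))
                (Pv.var rfl))))))).mono ?_
      simp; linarith
    · refine (Ev.ifEqF (Pv.varS rfl) (Pv.constS hW (by norm_num)) h1
        (Ev.ifLtF hW (Pv.varS rfl) (Pv.varS rfl) h2 (Pv.var rfl))).mono ?_
      simp; linarith
  have hsum : Pv W fn ([P] :: [cnt] :: [base + i] :: [i] ::
      (cnt :: P :: L) :: [base] :: [T] :: [d] :: env) (.sum (.var 2)
        (.cndEq (.mod (.mul (.var 2) (.var 0)) (.var 4)) (.const 1) (.const 1) (.const 0)))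
      [invCnt P (base + i)] ((base + i) * (1200 * (W + 1)) + 21) := by
    refine (Pv.sum (f := fun o => if P * o % (base + i) = 1 then 1 else 0) (Pv.varS rfl)
        (c := 1100 * (W + 1)) (fun o ho s => ?_) ((invCnt_le P _).trans_lt hc)).mono ?_
    · apply Pv.cast
      · pv
        · exact lt_of_le_of_lt (Nat.mul_le_mul_left _ ho.le) hP
        · omega
      · rfl
      · simp; linarith
    · push_cast
      nlinarith
  refine (Pv.lett (Pv.add (Pv.varS rfl) (Pv.varS rfl) hc)
    (Pv.lett (Pv.nth (Pv.var rfl) (Pv.constS hW (by norm_num)))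
      (Pv.lett (Pv.nth (Pv.var rfl) (Pv.constS hW (by norm_num))) (Pv.lett hsum hin)))).mono ?_
  simp only [List.length_cons, List.length_nil]
  push_cast
  linarith

/-- the invariant of the greedy choice -/
def GInv (W base d i : ℕ) (S : List ℕ) : Prop :=
  ∃ L : List ℕ, S = L.length :: (2 * L.prod) :: L ∧ L.length ≤ d ∧ L.Pairwise Nat.Coprime ∧
    (∀ t ∈ L, Nat.Coprime t 2 ∧ base ≤ t ∧ t < base + i) ∧
    (L.length < d → ∃ i0, i0 ≤ L.length * (W + 1) ^ 171 ∧
      ∀ u, i0 ≤ u → u < i → ¬Nat.Coprime (2 * L.prod) (base + u))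

theorem prod_le_of_lt {L : List ℕ} {M : ℕ} (h : ∀ t ∈ L, t ≤ M) : L.prod ≤ M ^ L.length :=
  List.prod_le_pow_card L M h

theorem greedy_spec : GreedySpec := by
  refine ⟨.drop (.const 2) (.iter (.var 1) (.cons (.const 0) (.const 2)) greedyB), 3000, 3,
    fun W base T d hW hb hT hroom fn env => ?_⟩
  have hM : 1 ≤ base + T := by omega
  have hM2 : 2 ≤ base + T := by omega
  have hdW : d < 2 ^ W := by
    have h1 : d + 2 < 2 ^ (d + 2) := Nat.lt_two_pow_self
    have h2 : 2 ^ (d + 2) ≤ (base + T) ^ (d + 2) := Nat.pow_le_pow_left hM2 _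
    omega
  have hbound : ∀ L : List ℕ, L.length ≤ d → (∀ t ∈ L, t ≤ base + T) →
      2 * L.prod * (base + T) < 2 ^ W := by
    intro L h1 h2
    have h3 := prod_le_of_lt h2
    have h4 : (base + T) ^ L.length * (base + T) ≤ (base + T) ^ (d + 2) := by
      rw [← pow_succ]; exact Nat.pow_le_pow_right hM (by omega)
    have h5 : L.prod * (base + T) ≤ (base + T) ^ L.length * (base + T) :=
      Nat.mul_le_mul_right _ h3
    rw [mul_assoc]; omega
  have hpos : ∀ L : List ℕ, (∀ t ∈ L, base ≤ t) → 0 < 2 * L.prod := fun L h =>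
    Nat.mul_pos (by norm_num) (List.prod_pos fun t ht => by have := h t ht; omega)
  obtain ⟨S, ⟨L, rfl, h1, h2, h3, h4⟩, hp⟩ := Pv.iterInv (W := W) (fn := fn)
    (e := [[base], [T], [d]] ++ env) (n := .var 1) (init := .cons (.const 0) (.const 2))
    (body := greedyB) (N := T) (S0 := [0, 2]) (GInv W base d) (c0 := 2) (c1 := 20)
    (c := (base + T) * (1200 * (W + 1)) + 400 * (W + 1) + 50 * d + 500) (L := d + 2)
    (Pv.varS rfl)
    ((Pv.cons (Pv.constS hW (by norm_num)) (Pv.constS hW (by norm_num))).mono (by norm_num))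
    ⟨[], rfl, Nat.zero_le _, List.Pairwise.nil, by simp, fun _ => ⟨0, by simp, by simp⟩⟩
    (fun i hi S ⟨L, hS, h1, h2, h3, h4⟩ => by
      subst hS
      have hb1 := hbound L h1 fun t ht => by have := h3 t ht; omega
      have hp0 := hpos L fun t ht => (h3 t ht).2.1
      have hb2 : 2 * L.prod * (base + i) < 2 ^ W :=
        lt_of_le_of_lt (Nat.mul_le_mul_left _ (by omega)) hb1
      have hb3 : base + i < 2 ^ W := lt_of_le_of_lt (Nat.le_mul_of_pos_left _ hp0) hb2
      refine ⟨_, ?_, (greedyB_ev (env := env) (T := T) (cnt := L.length) hW hb hb3 hb2 hdW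
        h1).mono ?_⟩
      · have h3' : ∀ t ∈ L, Nat.Coprime t 2 ∧ base ≤ t ∧ t < base + (i + 1) := fun t ht =>
          ⟨(h3 t ht).1, (h3 t ht).2.1, by have := (h3 t ht).2.2; omega⟩
        split_ifs with hz hlt
        · refine ⟨L, rfl, h1, h2, h3', fun hlt => ?_⟩
          obtain ⟨i0, k1, k2⟩ := h4 hlt
          refine ⟨i0, k1, fun u hu hu' => ?_⟩
          rcases Nat.lt_succ_iff_lt_or_eq.1 hu' with hu' | rfl
          · exact k2 u hu hu'
          · exact fun hc => (invCnt_ne_zero (by omega)).2 hc hz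
        · have hc := (invCnt_ne_zero (by omega)).1 hz
          refine ⟨(base + i) :: L, by simp; ring, by simpa using hlt, ?_, ?_, fun _ => ?_⟩
          · refine List.Pairwise.cons (fun t ht => ?_) h2
            exact (Nat.Coprime.coprime_dvd_left
              (Dvd.dvd.mul_left (List.dvd_prod ht) 2) hc).symm
          · intro t ht
            rcases List.mem_cons.1 ht with rfl | ht
            · exact ⟨(Nat.Coprime.coprime_dvd_left (Dvd.intro _ rfl) hc).symm, by omega, by omega⟩
            · exact h3' t ht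
          · obtain ⟨i0, k1, k2⟩ := h4 hlt
            obtain ⟨h, hh, hcop⟩ := exists_coprime_near hW hp0
              (lt_of_le_of_lt (Nat.le_mul_of_pos_right _ (by omega)) hb2) (base + i0)
            refine ⟨i + 1, ?_, fun u hu hu' => by omega⟩
            have : i ≤ i0 + h := by
              by_contra hn
              exact k2 (i0 + h) (by omega) (by omega) (by rwa [← add_assoc])
            rw [List.length_cons, add_mul]
            omega
        · exact ⟨L, rfl, h1, h2, h3', fun h => absurd h hlt⟩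
      · have : (i : ℝ) ≤ T := by exact_mod_cast hi.le
        have : (0 : ℝ) ≤ 1200 * ((W : ℝ) + 1) := by positivity
        nlinarith)
    (fun i _ S ⟨L, hS, h1, _⟩ => by
      subst hS
      have : (L.length : ℝ) ≤ d := by exact_mod_cast h1
      simp; linarith)
  have hlen : L.length = d := by
    by_contra hn
    have hlt : L.length < d := by omega
    obtain ⟨i0, k1, k2⟩ := h4 hlt
    have hb1 := hbound L h1 fun t ht => by have := h3 t ht; omega
    have hp0 := hpos L fun t ht => (h3 t ht).2.1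
    obtain ⟨h, hh, hcop⟩ := exists_coprime_near hW hp0
      (lt_of_le_of_lt (Nat.le_mul_of_pos_right _ (by omega)) hb1) (base + i0)
    have h5 : (L.length + 1) * (W + 1) ^ 171 ≤ d * (W + 1) ^ 171 := Nat.mul_le_mul_right _ hlt
    rw [add_mul] at h5
    exact k2 (i0 + h) (by omega) (by omega) (by rwa [← add_assoc])
  refine ⟨L, ⟨hlen, h2, h3⟩, (Pv.drop (Pv.constS hW (by norm_num)) hp).cast rfl ?_⟩
  simp only [List.length_cons, hlen]
  push_cast
  set Z : ℝ := (base : ℝ) + T + d + W + 1 with hZ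
  have hb0 : (2 : ℝ) ≤ base := by exact_mod_cast hb
  have hW8 : (8 : ℝ) ≤ W := by exact_mod_cast hW
  have hT0 : (0 : ℝ) ≤ T := by positivity
  have hd0 : (0 : ℝ) ≤ d := by positivity
  have z1 : (T : ℝ) ≤ Z := by linarith
  have z2 : (base : ℝ) + T ≤ Z := by linarith
  have z3 : (W : ℝ) + 1 ≤ Z := by linarith
  have z4 : (d : ℝ) ≤ Z := by linarith
  have z5 : (11 : ℝ) ≤ Z := by linarith
  have z6 : ((base : ℝ) + T) * (1200 * (W + 1)) ≤ 1200 * Z ^ 2 := by
    have := mul_le_mul z2 z3 (by linarith) (by linarith)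
    nlinarith
  have z7 : ((base : ℝ) + T) * (1200 * (W + 1)) + 400 * (W + 1) + 50 * d + 500 + 2 * (d + 2) + 22
      ≤ 2000 * Z ^ 2 := by nlinarith
  have z8 := mul_le_mul z1 z7 (by positivity) (by linarith)
  have z9 : Z ≤ Z ^ 3 := by nlinarith
  nlinarith

end Crest.Agent.R326
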