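import Crest.Agent.R326.ConvPar
import Crest.Agent.R326.Greedy

/-!
# The product of polynomials: choice of the parameters
-/

set_option autoImplicit false

namespace Crest.Agent.R326

/-- the parameters `[u] :: [j] :: [2 a] :: [a] :: [K - 1] :: [g] :: [K] :: [l0] :: [b]` are put in
front of the environment `A :: B :: [β] :: _` -/
def convPre (t : Tm) : Tm :=
  .lett (.pow2 (.var 2)) (.lett (.size (.len (.var 1)))
    (.lett (.pow2 (.add (.shr (.var 4) (.const 2)) (.const 1))) (.lett (.add (.var 5) (.const 2))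
      (.lett (.sub (.var 1) (.const 1))
        (.lett (.div (.sub (.var 3) (.var 2)) (.add (.var 0) (.var 0)))
          (.lett (.add (.var 0) (.var 0))
            (.lett (.sub (.add (.var 5) (.const 3)) (.mul (.var 2) (.var 0)))
              (.lett (.pow2 (.sub (.var 3) (.var 4))) t))))))))

theorem convPre_ev {W : ℕ} {fn : Option Tm} {env : Env} {t : Tm} {A B r : List ℕ}
    {β K a j : ℕ} {c : ℝ} (hW : 8 ≤ W) (hK : K = 2 ^ (β / 4 + 1))
    (ha : a = (A.length.size - K) / (K - 1 + (K - 1)))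
    (hj : j = A.length.size + 3 - (K - 1) * (a + a)) (h1 : β + 2 < W) (h2 : 2 ≤ K)
    (h3 : 2 * K < W) (h4 : A.length.size + 3 < W) (h5 : (K - 1) * (a + a) < W)
    (ht : Pv W fn ([2 ^ (K - 1 - (β + 2))] :: [j] :: [a + a] :: [a] :: [K - 1] :: [β + 2] :: [K] ::
      [A.length.size] :: [2 ^ β] :: A :: B :: [β] :: env) t r c) :
    Pv W fn (A :: B :: [β] :: env) (convPre t) r
      (c + 21 * A.length + 9 * r.length + 1200 * (W + 1)) := by
  have hWW : W < 2 ^ W := Nat.lt_two_pow_self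
  have hA : A.length < 2 ^ W :=
    (Nat.lt_size_self _).trans_le (Nat.pow_le_pow_right (by norm_num) (by omega))
  have ha2 : 1 * (a + a) ≤ (K - 1) * (a + a) := Nat.mul_le_mul_right _ (by omega)
  have hK' : 2 ^ (β / 2 ^ 2 + 1) = K := hK.symm
  have hW8 : (8 : ℝ) ≤ W := by exact_mod_cast hW
  refine (Pv.lett (Pv.pow2 (Pv.varS rfl) (by omega))
    (Pv.lett (Pv.size hW (Pv.len (Pv.var rfl) hA))
    (Pv.lett ((Pv.pow2 (Pv.add (Pv.shr (Pv.varS rfl) (Pv.constS hW (by norm_num)) (by omega))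
      (Pv.constS hW (by norm_num)) (by omega)) (by omega)).cast (v' := [K]) (by rw [hK']) le_rfl)
    (Pv.lett (Pv.add (Pv.varS rfl) (Pv.constS hW (by norm_num)) (by omega))
    (Pv.lett (Pv.sub (Pv.varS rfl) (Pv.constS hW (by norm_num)))
    (Pv.lett ((Pv.div hW (Pv.sub (Pv.varS rfl) (Pv.varS rfl))
      (Pv.add (Pv.varS rfl) (Pv.varS rfl) (by omega)) (by omega)).cast (v' := [a]) (by rw [ha])
        le_rfl)
    (Pv.lett (Pv.add (Pv.varS rfl) (Pv.varS rfl) (by omega))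
    (Pv.lett ((Pv.sub (Pv.add (Pv.varS rfl) (Pv.constS hW (by norm_num)) (by omega))
      (Pv.mul hW (Pv.varS rfl) (Pv.varS rfl) (by omega))).cast (v' := [j]) (by rw [hj]) le_rfl)
    (Pv.lett (Pv.pow2 (Pv.sub (Pv.varS rfl) (Pv.varS rfl)) (by omega)) ht))))))))).mono ?_
  simp only [List.length_cons, List.length_nil]
  push_cast
  linarith

/-- the two calls -/
def convMain (tG tC : Tm) (ch cp : ℕ) : Tm :=
  .lett (.call tG [.sub (.pow2 (.var 4)) (.var 0),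
      .sub (.sub (.var 0) (.pow2 (.add (.var 5) (.const 2)))) (.const 4), .var 2])
    (.call tC [.var 10, .var 11, .var 0, .var 7, .var 4, .var 2, .var 6,
      .mul (.const ch) (.var 9), .mul (.const cp) (.var 9)])

theorem conv_spec : GreedySpec → CoreSpec → ConvSpec := by
  rintro ⟨tG, Cg, cg, hG⟩ ⟨tC, C, c0, c1, hC⟩
  obtain ⟨cW, hcW⟩ : ∃ cW, cW = 140 * C + 40 := ⟨_, rfl⟩
  obtain ⟨Ct, hCt⟩ : ∃ Ct, Ct = 16 * (90 * 2 ^ 101 + (7 * cW + 9)) := ⟨_, rfl⟩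
  obtain ⟨β0, hβ0⟩ := exists_cpar c0 c1 cg cW
  refine ⟨convPre (convMain tG tC (34 * C) (7 * C)), C * (64 * Ct + 1) + Cg + 3000, cW, β0,
    fun A B β hβ hAB hl1 hl2 hA hB => ⟨by omega, fun fn env => ⟨convL A B, rfl, ?_⟩⟩⟩
  obtain ⟨K, hK⟩ : ∃ K, K = 2 ^ (β / 4 + 1) := ⟨_, rfl⟩
  obtain ⟨a, ha⟩ : ∃ a, a = (A.length.size - K) / (K - 1 + (K - 1)) := ⟨_, rfl⟩
  obtain ⟨j, hj⟩ : ∃ j, j = A.length.size + 3 - (K - 1) * (a + a) := ⟨_, rfl⟩
  have P := hβ0 β hβ _ K a j hl1 hl2 hK ha hj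
  have htc := tcost_le P hK hl2
  rw [← hCt] at htc
  obtain ⟨l0, hl0⟩ : ∃ l0, l0 = A.length.size := ⟨_, rfl⟩
  obtain ⟨W, hW⟩ : ∃ W, W = cW * 2 ^ β := ⟨_, rfl⟩
  have hβb : β < 2 ^ β := Nat.lt_two_pow_self
  have hWb : W = 140 * (C * 2 ^ β) + 40 * 2 ^ β := by rw [hW, hcW]; ring
  have hCb : C * 1 ≤ C * 2 ^ β := Nat.mul_le_mul_left _ Nat.one_le_two_pow
  have hWW : W < 2 ^ W := Nat.lt_two_pow_self
  obtain ⟨K16, Kl, a1, aK, hLV, jlo, jhi, w1, gK, w2, w3, e1, e2⟩ := P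
  rw [← hW] at w1 w2 w3 htc ⊢
  rw [← hl0] at Kl aK hLV e1 e2 hl1 hl2
  obtain ⟨J, hJ⟩ : ∃ J, J = (W + 1) ^ 171 := ⟨_, rfl⟩
  rw [← hJ] at w2
  have hW8 : 8 ≤ W := by omega
  have hN1 : A.length < 2 ^ l0 := hl0 ▸ Nat.lt_size_self _
  have hN2 : 2 ^ (l0 - 1) ≤ A.length := Nat.lt_size.1 (by omega)
  have hpw : ∀ n, n + 1 ≤ l0 → 2 ^ n ≤ A.length := fun n hn =>
    (Nat.pow_le_pow_right (by norm_num) (by omega)).trans hN2
  obtain ⟨u, hu⟩ : ∃ u, u = 2 ^ (K - 1 - (β + 2)) := ⟨_, rfl⟩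
  obtain ⟨v, hv⟩ : ∃ v, v = 2 ^ (K - 1) := ⟨_, rfl⟩
  have hg4 : 2 ^ (β + 2) = 4 * 2 ^ β := by rw [pow_add]; ring
  have hg16 : 2 ^ (β + 2 + 2) = 4 * 2 ^ (β + 2) := by rw [pow_add]; ring
  have huv : v = u * (4 * 2 ^ β) := by rw [hu, hv, ← hg4, ← pow_add, Nat.sub_add_cancel gK]
  have huv' : u * 4 ≤ v := by rw [huv]; exact Nat.mul_le_mul_left _ (by omega)
  have h2a : 1 * (2 * a) ≤ (K - 1) * (2 * a) := Nat.mul_le_mul_right _ (by omega)
  rw [← hu] at w2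
  have hroomG : 2 * (v - u + (u - 2 ^ (β + 2 + 2) - 4)) ^ (a + a + 2) < 2 ^ W := by
    have k1 : (v - u + (u - 2 ^ (β + 2 + 2) - 4)) ^ (a + a + 2) ≤ v ^ (a + a + 2) :=
      Nat.pow_le_pow_left (by omega) _
    have k2 : 2 * v ^ (a + a + 2) = 2 ^ ((K - 1) * (2 * a) + 2 * (K - 1) + 1) := by
      rw [hv, ← pow_mul, ← pow_succ']; congr 1; ring
    have k3 : 2 ^ ((K - 1) * (2 * a) + 2 * (K - 1) + 1) < 2 ^ W :=
      Nat.pow_lt_pow_right (by norm_num) (by omega)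
    omega
  obtain ⟨ts, ⟨ts1, ts2, ts3⟩, hpG⟩ := hG W (v - u) (u - 2 ^ (β + 2 + 2) - 4) (a + a) hW8
    (by omega) (by rw [← hJ, ← two_mul]; omega) hroomG fn
    ([u] :: [j] :: [a + a] :: [a] :: [K - 1] :: [β + 2] :: [K] :: [l0] :: [2 ^ β] :: A :: B ::
      [β] :: env)
  have hlev : C * ((K - 1) * (2 * a) + j + 2) ≤ 6 * (C * 2 ^ β) := by
    rw [hLV]
    calc C * (l0 + 5) ≤ C * (6 * 2 ^ β) := Nat.mul_le_mul_left _ (by omega)
      _ = _ := by ring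
  have e7 : 7 * C * 2 ^ β = 7 * (C * 2 ^ β) := by ring
  have e34 : 34 * C * 2 ^ β = 34 * (C * 2 ^ β) := by ring
  have hTr : TrOK C W K a j (β + 2) (34 * C * 2 ^ β) (7 * C * 2 ^ β) (7 * C * 2 ^ β) ts := by
    refine ⟨hW8, by omega, a1, by omega, ⟨ts2, fun t ht => (ts3 t ht).1, fun t ht => ?_⟩,
      by omega, fun t ht => ?_, by omega, by omega, ?_, ?_, by omega, by omega⟩
    · have := (ts3 t ht).2
      rw [← hv]; omega
    · have := (ts3 t ht).2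
      rw [← hv]; omega
    · rw [hLV]
      calc C * 2 ^ (l0 + 5) < 2 ^ C * 2 ^ (l0 + 5) :=
            Nat.mul_lt_mul_of_pos_right Nat.lt_two_pow_self (by positivity)
        _ ≤ 2 ^ W := by rw [← pow_add]; exact Nat.pow_le_pow_right (by norm_num) (by omega)
    · have : C * (j + 1) ≤ C * ((K - 1) * (2 * a) + j + 2) := Nat.mul_le_mul_left _ (by omega)
      omega
  have hprod : 2 * A.length ≤ 2 ^ j * ts.prod := by
    have k1 := two_pow_le_prod (k := K - 1) (g := β + 2) (d := 2 * a) (ts := ts) gK (by omega)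
      (by omega) (fun t ht => by rw [← hu, ← hv]; exact (ts3 t ht).2.1)
    have k2 : 2 ^ j * 2 ^ ((K - 1) * (2 * a)) = 8 * 2 ^ l0 := by
      rw [← pow_add, show j + (K - 1) * (2 * a) = l0 + 3 by omega, pow_add]; ring
    have k3 : 2 ^ j * 2 ^ ((K - 1) * (2 * a)) ≤ 2 ^ j * (2 * ts.prod) := Nat.mul_le_mul_left _ k1
    have k4 : 2 ^ j * (2 * ts.prod) = 2 * (2 ^ j * ts.prod) := by ring
    omega
  obtain ⟨Y, rfl, hpC⟩ := hC W A B ts K a j (β + 2) (34 * C * 2 ^ β) (7 * C * 2 ^ β) (2 ^ β) hTr w1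
    (by rw [mul_add]; omega) hAB hprod hA hB fn
    (ts :: [u] :: [j] :: [a + a] :: [a] :: [K - 1] :: [β + 2] :: [K] :: [l0] :: [2 ^ β] :: A :: B ::
      [β] :: env)
  have hmain : Pv W fn ([u] :: [j] :: [a + a] :: [a] :: [K - 1] :: [β + 2] :: [K] :: [l0] ::
      [2 ^ β] :: A :: B :: [β] :: env) (convMain tG tC (34 * C) (7 * C)) (convL A B) _ :=
    Pv.lett (Pv.call (Pvs.cons ((Pv.sub (Pv.pow2 (Pv.varS rfl) (by omega)) (Pv.varS rfl)).cast
        (v' := [v - u]) (by rw [hv]) le_rfl)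
      (Pvs.cons (Pv.sub (Pv.sub (Pv.varS rfl) (Pv.pow2 (Pv.add (Pv.varS rfl)
        (Pv.constS hW8 (by norm_num)) (by omega)) (by omega))) (Pv.constS hW8 (by norm_num)))
      (Pvs.cons (Pv.varS rfl) Pvs.nil))) hpG)
      (Pv.call (Pvs.cons (Pv.var rfl) (Pvs.cons (Pv.var rfl) (Pvs.cons (Pv.var rfl)
        (Pvs.cons (Pv.varS rfl) (Pvs.cons (Pv.varS rfl) (Pvs.cons (Pv.varS rfl)
        (Pvs.cons (Pv.varS rfl)
        (Pvs.cons (Pv.mul hW8 (Pv.const (by omega)) (Pv.varS rfl) (by omega))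
        (Pvs.cons (Pv.mul hW8 (Pv.const (by omega)) (Pv.varS rfl) (by omega)) Pvs.nil)))))))))
        hpC)
  rw [hu, hl0] at hmain
  have he : (K - 1) * (a + a) = (K - 1) * (2 * a) := by ring
  refine (convPre_ev hW8 hK ha hj (by omega) (by omega) (by omega) (by omega) (by omega)
    hmain).mono ?_
  -- the cost
  rw [← hu]
  have hlen : (convL A B).length = 2 * A.length := by simp [convL]
  obtain ⟨N, hN⟩ : ∃ N : ℝ, N = (A.length : ℝ) := ⟨_, rfl⟩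
  obtain ⟨R, hR⟩ : ∃ R : ℝ, R = ((2 : ℝ) ^ β) ^ tauC := ⟨_, rfl⟩
  have hR1 : 1 ≤ R := by
    rw [hR]
    exact Real.one_le_rpow (one_le_pow₀ (by norm_num)) (by unfold tauC; norm_num)
  have hvN : v ≤ A.length := hv ▸ hpw _ (by omega)
  have hWN : (W : ℝ) + 1 ≤ N := by
    have : W + 1 ≤ A.length := by omega
    rw [hN]; exact_mod_cast this
  have haN : (a : ℝ) + a ≤ N := by
    have : a + a ≤ A.length := by omega
    rw [hN]; exact_mod_cast this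
  have hW8' : (8 : ℝ) ≤ W := by exact_mod_cast hW8
  have hc1 : (((v - u : ℕ) : ℝ) + (u - 2 ^ (β + 2 + 2) - 4 : ℕ) + (a + a : ℕ) + W + 1) ^ cg ≤ N := by
    have k1 : v - u + (u - 2 ^ (β + 2 + 2) - 4) + (a + a) + W + 1 ≤ 2 ^ K := by
      have : 2 ^ K = 2 * 2 ^ (K - 1) := by rw [← pow_succ']; congr 1; omega
      omega
    have k2 : (v - u + (u - 2 ^ (β + 2 + 2) - 4) + (a + a) + W + 1) ^ cg ≤ A.length :=
      (Nat.pow_le_pow_left k1 _).trans (by rw [← pow_mul]; exact hpw _ e1)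
    rw [hN]; exact_mod_cast k2
  have hc2 : ((2 : ℝ) ^ (j + 1) + W + 1) ^ c1 ≤ N := by
    have k1 : 2 ^ (j + 1) + W + 1 ≤ 2 ^ (3 * K + 2) := by
      have k3 : 2 ^ (3 * K + 2) = 2 * 2 ^ (3 * K + 1) := by rw [← pow_succ']
      have k4 : 2 ^ (j + 1) ≤ 2 ^ (3 * K + 1) := Nat.pow_le_pow_right (by norm_num) (by omega)
      have k5 : 2 ^ (K - 1) ≤ 2 ^ (3 * K + 1) := Nat.pow_le_pow_right (by norm_num) (by omega)
      omega
    have k2 : (2 ^ (j + 1) + W + 1) ^ c1 ≤ A.length :=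
      (Nat.pow_le_pow_left k1 _).trans (by rw [← pow_mul]; exact hpw _ e2)
    rw [hN]; exact_mod_cast k2
  have hc3 : (2 : ℝ) ^ ((K - 1) * (2 * a) + j + 2) ≤ 64 * N := by
    have k1 : 2 ^ ((K - 1) * (2 * a) + j + 2) ≤ 64 * A.length := by
      rw [hLV, show l0 + 5 = l0 - 1 + 6 by omega, pow_add]
      omega
    rw [hN]; exact_mod_cast k1
  have hN0 : 0 ≤ N := by linarith
  have hCt0 : (0 : ℝ) ≤ Ct := Nat.cast_nonneg _
  have hC0 : (0 : ℝ) ≤ C := Nat.cast_nonneg _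
  have hCg0 : (0 : ℝ) ≤ Cg := Nat.cast_nonneg _
  rw [← hR] at htc ⊢
  have hc4 : (2 : ℝ) ^ ((K - 1) * (2 * a) + j + 2) * tcost W K a j (β + 2) ≤
      64 * N * (Ct * R) := by
    refine le_trans (mul_le_mul_of_nonneg_left htc (by positivity)) ?_
    exact mul_le_mul_of_nonneg_right hc3 (mul_nonneg hCt0 (by linarith))
  have hNR : N ≤ N * R := le_mul_of_one_le_right hN0 hR1
  have k1 : (C : ℝ) * (2 ^ ((K - 1) * (2 * a) + j + 2) * tcost W K a j (β + 2) +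
      ((2 : ℝ) ^ (j + 1) + W + 1) ^ c1) ≤ C * ((64 * Ct + 1) * (N * R)) :=
    mul_le_mul_of_nonneg_left (by linarith) hC0
  have k2 : (Cg : ℝ) * (((v - u : ℕ) : ℝ) + (u - 2 ^ (β + 2 + 2) - 4 : ℕ) + (a + a : ℕ) + W + 1) ^ cg
      ≤ Cg * (N * R) := mul_le_mul_of_nonneg_left (by linarith) hCg0
  simp only [List.length_cons, List.length_nil, hlen, ts1, ← hAB, Nat.cast_add, Nat.cast_mul,
    Nat.cast_ofNat, Nat.cast_one, Nat.cast_zero, ← hN] at k2 ⊢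
  linarith

end Crest.Agent.R326
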