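import Crest.Agent.R326.SpecA

/-!
# Rotation, reversal, negation of a digit, padding
-/

set_option autoImplicit false

namespace Crest.Agent.R326

namespace Perm1

theorem blk_eq (g n y lo r : ℕ) : (g * n + y) * lo + r = g * (lo * n) + (y * lo + r) := by ring

theorem blk_lt {n y lo r : ℕ} (hy : y < n) (hr : r < lo) : y * lo + r < lo * n := by
  have : (y + 1) * lo ≤ n * lo := Nat.mul_le_mul_right _ hy
  rw [Nat.add_mul, one_mul, mul_comm n] at this
  omega

theorem getD_groups {f : ℕ → List ℕ} {G lo n g y r : ℕ} (h : ∀ i < G, (f i).length = lo * n)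
    (hg : g < G) (hy : y < n) (hr : r < lo) :
    ((List.range G).flatMap f).getD ((g * n + y) * lo + r) 0 = (f g).getD (y * lo + r) 0 := by
  rw [blk_eq, getD_flatMap h hg (blk_lt hy hr)]

theorem getD_chunk (X : List ℕ) {lo n y r : ℕ} (g : ℕ) (hy : y < n) (hr : r < lo) :
    (chunk (lo * n) X g).getD (y * lo + r) 0 = X.getD ((g * n + y) * lo + r) 0 := by
  rw [blk_eq, chunk_getD _ _ _ (blk_lt hy hr)]

theorem chunk_len {X : List ℕ} {G S g : ℕ} (h : X.length = G * S) (hg : g < G) :
    (chunk S X g).length = S :=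
  chunk_length (by rw [h]; exact Nat.mul_le_mul_right _ hg)

/-- a permutation of the blocks inside every group -/
theorem pull_groups {f : ℕ → List ℕ} {X : List ℕ} {G lo n : ℕ} {π : ℕ → ℕ} (σ : ℕ → ℕ → ℕ)
    (hX : X.length = G * (lo * n)) (hlo : 0 < lo) (hn : 0 < n)
    (h : ∀ i < G, (f i).length = lo * n) (hσ : ∀ g < G, ∀ y < n, σ g y < n)
    (hf : ∀ g < G, ∀ y < n, ∀ r < lo,
      (f g).getD (y * lo + r) 0 = (chunk (lo * n) X g).getD (σ g y * lo + r) 0)
    (hπ : ∀ a, π a = setDig lo n a (σ (a / (lo * n)) (dig lo n a))) :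
    Pull X.length π X ((List.range G).flatMap f) := by
  refine ⟨by rw [length_flatMap_eq h, hX], fun a ha => ?_⟩
  have hg : a / (lo * n) < G := (Nat.div_lt_iff_lt_mul (by positivity)).2 (hX ▸ ha)
  have hy := dig_lt hn lo a
  have hr := Nat.mod_lt a hlo
  rw [hπ, setDig_eq, ← getD_chunk X _ (hσ _ hg _ hy) hr, ← hf _ hg _ hy _ hr,
    ← getD_groups h hg hy hr, ← addr_eq]

theorem getD_drop (l : List ℕ) (k a : ℕ) : (l.drop k).getD a 0 = l.getD (k + a) 0 := by
  simp [List.getD_eq_getElem?_getD]

theorem getD_take (l : List ℕ) {k a : ℕ} (h : a < k) : (l.take k).getD a 0 = l.getD a 0 := by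
  simp [List.getD_eq_getElem?_getD, h]

theorem getD_app (l l' : List ℕ) (a : ℕ) :
    (l ++ l').getD a 0 = if a < l.length then l.getD a 0 else l'.getD (a - l.length) 0 := by
  split_ifs with h
  · exact List.getD_append _ _ _ _ h
  · exact List.getD_append_right _ _ _ _ (by omega)

/-! ### padding -/

def padT : Tm := .lett (.mul (.var 2) (.var 3)) (.lett (.sub (.mul (.var 3) (.var 5)) (.var 0))
  (.strm1 (.var 3) (.var 2) (.var 1) (.app (.var 0) (.zeros (.var 2)))))

def unpadT : Tm := .lett (.mul (.var 2) (.var 3)) (.lett (.mul (.var 3) (.var 5))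
  (.strm1 (.var 3) (.var 2) (.var 0) (.take (.var 3) (.var 0))))

/-! ### rotation -/

def rotB : Tm := .lett (.mul (.var 8) (.var 1)) (.lett (.take (.var 4) (.var 1))
  (.app (.app (.drop (.var 1) (.var 0)) (.take (.var 1) (.var 0))) (.drop (.var 5) (.var 2))))

def rotT : Tm := .lett (.mul (.var 3) (.var 4)) (.lett (.mul (.var 4) (.var 6))
  (.strm2 (.var 4) (.var 2) (.var 1) (.var 3) (.const 1) rotB))

/-- rotation of the first `U` words by `o` -/
def rotL (U o : ℕ) (x : List ℕ) : List ℕ := (x.take U).drop o ++ (x.take U).take o ++ x.drop U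

theorem rotL_length {U o : ℕ} (x : List ℕ) : (rotL U o x).length = x.length := by
  simp only [rotL, List.length_append, List.length_drop, List.length_take]
  omega

theorem rotL_getD {lo n s t y r : ℕ} {x : List ℕ} (hx : x.length = lo * n) (hs : s ≤ n)
    (ht : t ≤ s) (hr : r < lo) :
    (rotL (lo * s) (lo * t) x).getD (y * lo + r) 0 =
      x.getD ((if y < s then (y + t) % s else y) * lo + r) 0 := by
  have h1 : lo * s ≤ lo * n := Nat.mul_le_mul_left _ hs
  have h2 : lo * t ≤ lo * s := Nat.mul_le_mul_left _ ht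
  have hu : (x.take (lo * s)).length = lo * s := by rw [List.length_take, hx]; omega
  unfold rotL
  rw [getD_app, List.length_append, List.length_drop, List.length_take (l := x.take _), hu,
    Nat.min_eq_left h2, Nat.sub_add_cancel h2]
  by_cases hy : y < s
  · rw [if_pos (blk_lt hy hr), if_pos hy, getD_app, List.length_drop, hu]
    by_cases hyt : y + t < s
    · have h3 := blk_lt hyt hr
      rw [Nat.add_mul, mul_comm t] at h3
      rw [if_pos (by omega), getD_drop, getD_take _ (by omega), Nat.mod_eq_of_lt hyt]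
      congr 1
      ring
    · obtain ⟨d, hd⟩ : ∃ d, y + t = s + d := ⟨y + t - s, by omega⟩
      have h3 : y * lo + lo * t = lo * s + d * lo := by
        rw [mul_comm lo t, ← Nat.add_mul, hd]; ring
      have h4 := blk_lt (show d < t by omega) hr
      rw [if_neg (by omega), getD_take _ (by omega), getD_take _ (by omega), hd,
        Nat.add_mod_left, Nat.mod_eq_of_lt (by omega)]
      congr 1
      omega
  · have h3 : lo * s ≤ y * lo := by rw [mul_comm y]; exact Nat.mul_le_mul_left _ (by omega)
    rw [if_neg (by omega), if_neg hy, getD_drop]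
    congr 1
    omega

/-! ### reversal -/

def revB : Tm := .app (.app (.take (.var 4) (.var 0))
  (.rev (.strm1 (.var 2) (.drop (.var 4) (.var 0)) (.var 8) (.rev (.var 0)))))
  (.drop (.var 3) (.var 0))

def revT : Tm := .lett (.mul (.var 1) (.var 2)) (.lett (.div (.len (.var 1)) (.var 0))
  (.lett (.mul (.var 3) (.var 5)) (.lett (.mul (.var 4) (.var 7)) (.lett (.sub (.var 8) (.var 7))
    (.strm1 (.var 3) (.var 5) (.var 4) revB)))))

/-- the blocks `b, …, c - 1` in the reverse order -/
def revM (lo b c : ℕ) (x : List ℕ) : List ℕ :=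
  ((List.range (c - b)).flatMap fun i => (chunk lo (x.drop (lo * b)) i).reverse).reverse

def revL (lo b c : ℕ) (x : List ℕ) : List ℕ := x.take (lo * b) ++ revM lo b c x ++ x.drop (lo * c)

theorem revM_piece {lo n b c : ℕ} {x : List ℕ} (hx : x.length = lo * n) (hc : c ≤ n) :
    ∀ i < c - b, (chunk lo (x.drop (lo * b)) i).reverse.length = lo := by
  intro i hi
  rw [List.length_reverse, chunk_length]
  rw [List.length_drop, hx, ← Nat.mul_sub, mul_comm]
  exact Nat.mul_le_mul_left _ (by omega)

theorem revM_length {lo n b c : ℕ} {x : List ℕ} (hx : x.length = lo * n) (hc : c ≤ n) :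
    (revM lo b c x).length = (c - b) * lo := by
  rw [revM, List.length_reverse, length_flatMap_eq (revM_piece hx hc)]

theorem revL_length {lo n b c : ℕ} {x : List ℕ} (hx : x.length = lo * n) (hb : b ≤ c)
    (hc : c ≤ n) : (revL lo b c x).length = lo * n := by
  have h1 : lo * c ≤ lo * n := Nat.mul_le_mul_left _ hc
  have h2 : lo * b ≤ lo * c := Nat.mul_le_mul_left _ hb
  simp only [revL, List.length_append, List.length_drop, List.length_take, revM_length hx hc, hx]
  rw [mul_comm (c - b), Nat.mul_sub]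
  omega

theorem revL_getD {lo n b c y r : ℕ} {x : List ℕ} (hx : x.length = lo * n) (hb : b ≤ c)
    (hc : c ≤ n) (hr : r < lo) :
    (revL lo b c x).getD (y * lo + r) 0 =
      x.getD ((if b ≤ y ∧ y < c then b + c - 1 - y else y) * lo + r) 0 := by
  have h1 : lo * c ≤ lo * n := Nat.mul_le_mul_left _ hc
  have h2 : lo * b ≤ lo * c := Nat.mul_le_mul_left _ hb
  have hu : (x.take (lo * b)).length = lo * b := by rw [List.length_take, hx]; omega
  have hm := revM_length (b := b) hx hc
  unfold revL
  rw [getD_app, List.length_append, hu, hm, mul_comm (c - b), Nat.mul_sub, Nat.add_sub_cancel' h2]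
  by_cases hy : y < c
  · rw [if_pos (blk_lt hy hr), getD_app, hu]
    by_cases hyb : y < b
    · rw [if_pos (blk_lt hyb hr), if_neg (by omega), getD_take _ (blk_lt hyb hr)]
    · obtain ⟨d, rfl⟩ : ∃ d, y = b + d := ⟨y - b, by omega⟩
      obtain ⟨e, rfl⟩ : ∃ e, c = b + d + 1 + e := ⟨c - (b + d + 1), by omega⟩
      have h3 : (b + d) * lo + r - lo * b = d * lo + r := by
        rw [Nat.add_mul, mul_comm b]; omega
      have h4 : b + d + 1 + e - b = d + 1 + e := by omega
      have h5 : (d + 1 + e) * lo - 1 - (d * lo + r) = e * lo + (lo - 1 - r) := by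
        rw [Nat.add_mul, Nat.add_mul, one_mul]; omega
      have hp := revM_piece (b := b) hx hc
      have h6 : (chunk lo (x.drop (lo * b)) e).length = lo := by
        simpa using hp e (by omega)
      rw [if_neg (by rw [Nat.add_mul, mul_comm b]; omega), if_pos ⟨by omega, hy⟩, h3, revM,
        List.getD_reverse _ (by
          rw [length_flatMap_eq hp, h4, mul_comm (d + 1 + e)]
          exact blk_lt (y := d) (by omega) hr),
        length_flatMap_eq hp, h4, h5, ← h4, getD_flatMap hp (by omega) (by omega),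
        List.getD_reverse _ (by omega), h6, chunk_getD _ _ _ (by omega), getD_drop]
      congr 1
      rw [show b + (b + d + 1 + e) - 1 - (b + d) = b + e by omega, Nat.add_mul, mul_comm b]
      omega
  · have h3 : lo * c ≤ y * lo := by rw [mul_comm y]; exact Nat.mul_le_mul_left _ (by omega)
    rw [if_neg (by omega), if_neg (by omega), getD_drop]
    congr 1
    omega

end Perm1

open Perm1

theorem pad_spec : PadSpec := by
  refine ⟨padT, unpadT, 1000, fun W X G lo n n' hW hG hlo hn hnn hV => ?_⟩
  have h1 : lo * n ≤ lo * n' := Nat.mul_le_mul_left _ hnn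
  have h2 : lo * n' ≤ G * (lo * n') := Nat.le_mul_of_pos_left _ hG
  have h3 : G ≤ G * (lo * n') := Nat.le_mul_of_pos_right _ (by nlinarith)
  have r1 : ((lo * n : ℕ) : ℝ) ≤ (lo * n' : ℕ) := by exact_mod_cast h1
  have r3 : (G : ℝ) ≤ G * (lo * n' : ℕ) := by exact_mod_cast h3
  have r4 : (G : ℝ) * (lo * n : ℕ) ≤ G * (lo * n' : ℕ) := by gcongr
  have r5 : (0 : ℝ) ≤ G * (lo * n : ℕ) := by positivity
  have rW : (0 : ℝ) ≤ W := by positivity
  refine ⟨fun hX fn env => ?_, fun hX fn env => ?_⟩
  · have hl : ∀ g < G, (chunk (lo * n) X g ++ List.replicate (lo * n' - lo * n) 0).length =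
        lo * n' := fun g hg => by
      rw [List.length_append, chunk_len hX hg, List.length_replicate]; omega
    refine ⟨(List.range G).flatMap fun g =>
      chunk (lo * n) X g ++ List.replicate (lo * n' - lo * n) 0,
      ⟨length_flatMap_eq hl, fun g hg y hy r hr => ?_⟩, ?_⟩
    · rw [getD_groups hl hg hy hr, getD_app, chunk_len hX hg]
      by_cases hyn : y < n
      · rw [if_pos (blk_lt hyn hr), if_pos hyn, getD_chunk X g hyn hr]
      · have : lo * n ≤ y * lo := by rw [mul_comm y]; exact Nat.mul_le_mul_left _ (by omega)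
        rw [if_neg (by omega), if_neg hyn]
        rcases getD_zero_or_mem (List.replicate (lo * n' - lo * n) 0) (y * lo + r - lo * n) with
          h | h
        · exact h
        · exact List.eq_of_mem_replicate h
    · refine (Pv.lett (Pv.mul hW (Pv.varS rfl) (Pv.varS rfl) (by omega))
        (Pv.lett (Pv.sub (Pv.mul hW (Pv.varS rfl) (Pv.varS rfl) (by omega)) (Pv.varS rfl))
          (Pv.strm1 (c := 20 * (lo * n' : ℕ) + 20) (L := (lo * n' : ℕ)) (Pv.varS rfl) (Pv.var rfl)
            (Pv.varS rfl) (fun g hg => ?_) fun g hg => by rw [hl g hg]))).mono ?_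
      · refine (Pv.app (Pv.var rfl) (Pv.zeros (Pv.varS rfl))).mono ?_
        rw [chunk_len hX hg, List.length_replicate, Nat.cast_sub h1]
        have : (0 : ℝ) ≤ (lo * n : ℕ) := by positivity
        linarith
      · rw [length_flatMap_eq hl, hX]
        simp only [List.length_cons, List.length_nil, Nat.cast_mul G, ← Nat.cast_mul lo]
        push_cast [-Nat.cast_mul]
        linarith
  · have hl : ∀ g < G, ((chunk (lo * n') X g).take (lo * n)).length = lo * n := fun g hg => by
      rw [List.length_take, chunk_len hX hg]; omega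
    refine ⟨(List.range G).flatMap fun g => (chunk (lo * n') X g).take (lo * n),
      ⟨length_flatMap_eq hl, fun g hg y hy r hr => ?_⟩, ?_⟩
    · rw [getD_groups hl hg hy hr, getD_take _ (blk_lt hy hr), getD_chunk X g (by omega) hr]
    · refine (Pv.lett (Pv.mul hW (Pv.varS rfl) (Pv.varS rfl) (by omega))
        (Pv.lett (Pv.mul hW (Pv.varS rfl) (Pv.varS rfl) (by omega))
          (Pv.strm1 (c := 43 * (lo * n' : ℕ) + 24) (L := (lo * n' : ℕ)) (Pv.varS rfl) (Pv.var rfl)
            (Pv.varS rfl) (fun g hg => ?_) fun g hg => by rw [hl g hg]; exact r1))).mono ?_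
      · refine (Pv.take (Pv.varS rfl) (Pv.var rfl)).mono ?_
        rw [chunk_len hX hg]
        linarith
      · rw [length_flatMap_eq hl, hX]
        simp only [List.length_cons, List.length_nil, Nat.cast_mul G, ← Nat.cast_mul lo]
        push_cast [-Nat.cast_mul]
        linarith

theorem rot_spec : RotSpec := by
  refine ⟨rotT, 2000, fun W X T G lo n s hW hX hV hG hlo hn hs hT hTs fn env => ?_⟩
  have h1 : lo * s ≤ lo * n := Nat.mul_le_mul_left _ hs
  have h2 : lo * n ≤ G * (lo * n) := Nat.le_mul_of_pos_left _ hG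
  have h3 : G ≤ G * (lo * n) := Nat.le_mul_of_pos_right _ (by positivity)
  have h4 : n ≤ lo * n := Nat.le_mul_of_pos_left _ hlo
  have ht : ∀ g, T.getD g 0 ≤ s := fun g =>
    (getD_zero_or_mem T g).elim (fun h => by omega) (hTs _)
  have r1 : ((lo * s : ℕ) : ℝ) ≤ (lo * n : ℕ) := by exact_mod_cast h1
  have r3 : (G : ℝ) ≤ G * (lo * n : ℕ) := by exact_mod_cast h3
  have r4 : (n : ℝ) ≤ (lo * n : ℕ) := by exact_mod_cast h4
  have rW : (0 : ℝ) ≤ W := by positivity
  have hl : ∀ g < G, (rotL (lo * s) (lo * T.getD g 0) (chunk (lo * n) X g)).length = lo * n :=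
    fun g hg => by rw [rotL_length, chunk_len hX hg]
  refine ⟨(List.range G).flatMap fun g => rotL (lo * s) (lo * T.getD g 0) (chunk (lo * n) X g),
    pull_groups (fun g y => if y < s then (y + T.getD g 0) % s else y) hX hlo hn hl
      (fun g _ y hy => ?_) (fun g hg y _ r hr => rotL_getD (chunk_len hX hg) hs (ht g) hr)
      fun a => ?_, ?_⟩
  · split_ifs with h
    · exact (Nat.mod_lt _ (by omega)).trans_le hs
    · exact hy
  · unfold rotA
    split_ifs with h
    · rfl
    · rw [setDig_dig]
  · refine (Pv.lett (Pv.mul hW (Pv.varS rfl) (Pv.varS rfl) (by omega))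
      (Pv.lett (Pv.mul hW (Pv.varS rfl) (Pv.varS rfl) (by omega))
        (Pv.strm2 (c := 600 * (lo * n : ℕ) + 600) (L := (lo * n : ℕ)) (Pv.varS rfl) (Pv.var rfl)
          (Pv.varS rfl) (Pv.var rfl) (Pv.constS hW (by norm_num)) (fun g hg => ?_)
          fun g hg => by rw [hl g hg]))).mono ?_
    · rw [chunk_one (by omega)]
      have h5 : lo * T.getD g 0 ≤ lo * s := Nat.mul_le_mul_left _ (ht g)
      have r5 : ((lo * T.getD g 0 : ℕ) : ℝ) ≤ (lo * s : ℕ) := by exact_mod_cast h5
      have hc := chunk_len hX hg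
      have hl' := hl g hg
      refine (Pv.lett (Pv.mul_short n hW (Pv.varS rfl) (Pv.varS rfl)
        (((ht g).trans hs).trans_lt Nat.lt_two_pow_self) (by omega))
        (Pv.lett (Pv.take (Pv.varS rfl) (Pv.var rfl))
          (Pv.app (Pv.app (Pv.drop (Pv.varS rfl) (Pv.var rfl)) (Pv.take (Pv.varS rfl) (Pv.var rfl)))
            (Pv.drop (Pv.varS rfl) (Pv.var rfl))))).mono ?_
      unfold rotL at hl'
      rw [hl', hc]
      set x := chunk (lo * n) X g
      have a1 : ((x.take (lo * s)).length : ℝ) ≤ (lo * n : ℕ) := by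
        exact_mod_cast (List.length_take_le _ _).trans h1
      have a2 : (((x.take (lo * s)).drop (lo * T.getD g 0)).length : ℝ) ≤ (lo * n : ℕ) :=
        le_trans (by exact_mod_cast (by simp)) a1
      have a3 : (((x.take (lo * s)).take (lo * T.getD g 0)).length : ℝ) ≤ (lo * n : ℕ) :=
        le_trans (by exact_mod_cast List.length_take_le' _ _) a1
      have a4 : ((x.drop (lo * s)).length : ℝ) ≤ (lo * n : ℕ) := by
        exact_mod_cast (by rw [List.length_drop, hc]; omega)
      simp only [List.length_cons, List.length_nil, List.length_append]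
      push_cast [-Nat.cast_mul]
      linarith
    · rw [length_flatMap_eq hl, hX, hT]
      simp only [List.length_cons, List.length_nil, Nat.cast_mul G]
      push_cast [-Nat.cast_mul]
      linarith

theorem rev_spec : RevSpec := by
  refine ⟨revT, 3000, fun W X lo n b c hW hd hX0 hV hb hc fn env => ?_⟩
  obtain ⟨G, hX⟩ := hd
  rw [mul_comm] at hX
  have hG : 0 < G := Nat.pos_of_ne_zero (by rintro rfl; simp [hX] at hX0)
  have hlo : 0 < lo := Nat.pos_of_ne_zero (by rintro rfl; simp [hX] at hX0)
  have hn : 0 < n := Nat.pos_of_ne_zero (by rintro rfl; simp [hX] at hX0)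
  have h1 : lo * c ≤ lo * n := Nat.mul_le_mul_left _ hc
  have h1' : lo * b ≤ lo * c := Nat.mul_le_mul_left _ hb
  have h2 : lo * n ≤ G * (lo * n) := Nat.le_mul_of_pos_left _ hG
  have h3 : G ≤ G * (lo * n) := Nat.le_mul_of_pos_right _ (by positivity)
  have h4 : c - b ≤ lo * n := (by omega : c - b ≤ n).trans (Nat.le_mul_of_pos_left _ hlo)
  have h5 : (c - b) * lo ≤ lo * n := by rw [mul_comm]; exact Nat.mul_le_mul_left _ (by omega)
  have hG' : X.length / (lo * n) = G := by rw [hX, Nat.mul_div_cancel _ (by positivity)]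
  have r1 : ((lo * c : ℕ) : ℝ) ≤ (lo * n : ℕ) := by exact_mod_cast h1
  have r1' : ((lo * b : ℕ) : ℝ) ≤ (lo * c : ℕ) := by exact_mod_cast h1'
  have r3 : (G : ℝ) ≤ G * (lo * n : ℕ) := by exact_mod_cast h3
  have r4 : ((c - b : ℕ) : ℝ) ≤ (lo * n : ℕ) := by exact_mod_cast h4
  have r5 : ((c - b : ℕ) : ℝ) * lo ≤ (lo * n : ℕ) := by exact_mod_cast h5
  have rW : (0 : ℝ) ≤ W := by positivity
  have hl : ∀ g < G, (revL lo b c (chunk (lo * n) X g)).length = lo * n :=
    fun g hg => revL_length (chunk_len hX hg) hb hc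
  refine ⟨(List.range G).flatMap fun g => revL lo b c (chunk (lo * n) X g),
    pull_groups (fun _ y => if b ≤ y ∧ y < c then b + c - 1 - y else y) hX hlo hn hl
      (fun g _ y hy => ?_) (fun g hg y _ r hr => revL_getD (chunk_len hX hg) hb hc hr)
      fun a => ?_, ?_⟩
  · split_ifs with h <;> omega
  · unfold revA
    split_ifs with h
    · rfl
    · rw [setDig_dig]
  · refine (Pv.lett (Pv.mul hW (Pv.varS rfl) (Pv.varS rfl) (by omega))
      (Pv.lett ((Pv.div hW (Pv.len (Pv.var rfl) hV) (Pv.varS rfl) (by positivity)).cast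
        (by rw [hG']) le_rfl)
      (Pv.lett (Pv.mul hW (Pv.varS rfl) (Pv.varS rfl) (by omega))
      (Pv.lett (Pv.mul hW (Pv.varS rfl) (Pv.varS rfl) (by omega))
      (Pv.lett (Pv.sub (Pv.varS rfl) (Pv.varS rfl))
        (Pv.strm1 (c := 400 * (lo * n : ℕ) + 400) (L := (lo * n : ℕ)) (Pv.varS rfl) (Pv.var rfl)
          (Pv.varS rfl) (fun g hg => ?_) fun g hg => by rw [hl g hg])))))).mono ?_
    · have hc' := chunk_len hX hg
      set x := chunk (lo * n) X g
      have hp := revM_piece (b := b) hc' hc
      refine (Pv.app (Pv.app (Pv.take (Pv.varS rfl) (Pv.var rfl))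
        (Pv.rev (Pv.strm1 (c := 6 * lo + 6) (L := lo) (Pv.varS rfl)
          (Pv.drop (Pv.varS rfl) (Pv.var rfl)) (Pv.varS rfl) (fun i hi => ?_)
          fun i hi => by rw [hp i hi]))) (Pv.drop (Pv.varS rfl) (Pv.var rfl))).mono ?_
      · refine (Pv.rev (Pv.var rfl)).mono ?_
        have := hp i hi
        rw [List.length_reverse] at this
        rw [this]
        linarith
      · have a1 : ((x.take (lo * b)).length : ℝ) ≤ (lo * n : ℕ) := by
          exact_mod_cast (List.length_take_le _ _).trans (h1'.trans h1)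
        have a2 : ((x.drop (lo * b)).length : ℝ) ≤ (lo * n : ℕ) := by
          exact_mod_cast (by rw [List.length_drop, hc']; omega)
        have a4 : ((x.drop (lo * c)).length : ℝ) ≤ (lo * n : ℕ) := by
          exact_mod_cast (by rw [List.length_drop, hc']; omega)
        simp only [List.length_append, List.length_reverse, length_flatMap_eq hp, hc',
          Nat.cast_mul (c - b)]
        push_cast [-Nat.cast_mul]
        rw [Nat.cast_mul (c - b)]
        linarith
    · rw [length_flatMap_eq hl, hX]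
      simp only [List.length_cons, List.length_nil, Nat.cast_mul G]
      push_cast [-Nat.cast_mul]
      linarith

theorem negDig_spec : NegDigSpec := by
  obtain ⟨t, C, h⟩ := rev_spec
  refine ⟨.call t [.var 0, .var 1, .var 2, .const 1, .var 2], C + 30,
    fun W X lo n hW hd hX0 hV fn env => ?_⟩
  have hn : 0 < n := Nat.pos_of_ne_zero (by rintro rfl; simp at hd; simp [hd] at hX0)
  obtain ⟨Y, h1, h2⟩ := h W X lo n 1 n hW hd hX0 hV hn le_rfl fn ([X, [lo], [n]] ++ env)
  refine ⟨Y, h1.congr fun a _ => ?_, (Pv.call (Pvs.cons (Pv.var rfl) (Pvs.cons (Pv.varS rfl)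
    (Pvs.cons (Pv.varS rfl) (Pvs.cons (Pv.constS hW (by norm_num)) (Pvs.cons (Pv.varS rfl)
      Pvs.nil))))) h2).mono ?_⟩
  · have := dig_lt hn lo a
    unfold revA
    split_ifs with h
    · rw [Nat.mod_eq_of_lt (by omega)]
      congr 1
      omega
    · have h0 : dig lo n a = 0 := by omega
      rw [h0, Nat.sub_zero, Nat.mod_self, ← h0, setDig_dig]
  · rw [h1.1]
    have rW : (0 : ℝ) ≤ W := by positivity
    have rX : (0 : ℝ) ≤ X.length := by positivity
    simp only [List.length_cons, List.length_nil]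
    push_cast
    linarith

end Crest.Agent.R326
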