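import Crest.Agent.R326.Approx
import Crest.Agent.R326.Perm1

/-!
# The product of two polynomials through the transform
-/

set_option autoImplicit false

namespace Crest.Agent.R326

open Finset

namespace CoreP

theorem sum_pow_root {ζ : ℂ} {S : ℕ} (hζ : IsPrimitiveRoot ζ S) (n : ℕ) :
    ∑ m ∈ range S, ζ ^ (m * n) = if S ∣ n then (S : ℂ) else 0 := by
  simp only [mul_comm _ n, pow_mul]
  split_ifs with h
  · rw [(hζ.pow_eq_one_iff_dvd n).2 h]
    simp
  · have h1 : ζ ^ n ≠ 1 := fun e => h ((hζ.pow_eq_one_iff_dvd n).1 e)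
    rw [geom_sum_eq h1, ← pow_mul, mul_comm, pow_mul, hζ.pow_eq_one, one_pow, sub_self, zero_div]

theorem dvd_iff_eq {S n w : ℕ} (hn : n < S) (hw : w < S) : S ∣ w + (S - n) % S ↔ w = n := by
  rcases Nat.eq_zero_or_pos n with rfl | h0
  · rw [Nat.sub_zero, Nat.mod_self, Nat.add_zero]
    exact ⟨fun h => Nat.eq_zero_of_dvd_of_lt h hw, fun h => h ▸ dvd_zero _⟩
  · rw [Nat.mod_eq_of_lt (by omega)]
    refine ⟨fun ⟨q, hq⟩ => ?_, fun h => ⟨1, by omega⟩⟩
    rcases q with _ | _ | q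
    · omega
    · omega
    · have : S * (q + 1 + 1) = S * q + S + S := by ring
      omega

theorem dft_conv {ζ : ℂ} {S N n : ℕ} (hζ : IsPrimitiveRoot ζ S) (A B : ℕ → ℕ)
    (hA : ∀ i, N ≤ i → A i = 0) (hB : ∀ i, N ≤ i → B i = 0) (hN : 2 * N ≤ S) (hn : n < 2 * N) :
    ∑ m ∈ range S, (∑ u ∈ range S, (A u : ℂ) * ζ ^ (u * m)) *
        (∑ v ∈ range S, (B v : ℂ) * ζ ^ (v * m)) * ζ ^ (m * ((S - n) % S)) =
      S * (∑ i ∈ range (n + 1), A i * B (n - i) : ℕ) := by
  have h1 : ∀ m, (∑ u ∈ range S, (A u : ℂ) * ζ ^ (u * m)) *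
      (∑ v ∈ range S, (B v : ℂ) * ζ ^ (v * m)) * ζ ^ (m * ((S - n) % S)) =
      ∑ u ∈ range S, ∑ v ∈ range S, (A u : ℂ) * B v * ζ ^ (m * (u + v + (S - n) % S)) := by
    intro m
    rw [sum_mul_sum, sum_mul]
    refine sum_congr rfl fun u _ => ?_
    rw [sum_mul]
    refine sum_congr rfl fun v _ => ?_
    rw [mul_add, mul_add, pow_add, pow_add, mul_comm m u, mul_comm m v]
    ring
  simp only [h1]
  rw [sum_comm]
  have h2 : ∀ u ∈ range S, ∑ m ∈ range S, ∑ v ∈ range S,
      (A u : ℂ) * B v * ζ ^ (m * (u + v + (S - n) % S)) =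
      if u ∈ range (n + 1) then (S : ℂ) * (A u * B (n - u)) else 0 := by
    intro u _
    rw [sum_comm]
    have h3 : ∀ v ∈ range S, ∑ m ∈ range S, (A u : ℂ) * B v * ζ ^ (m * (u + v + (S - n) % S)) =
        if v = n - u then (if u ∈ range (n + 1) then (S : ℂ) * (A u * B (n - u)) else 0)
        else 0 := by
      intro v _
      rw [← mul_sum, sum_pow_root hζ]
      by_cases hu : u < N
      · by_cases hv : v < N
        · simp only [dvd_iff_eq (show n < S by omega) (show u + v < S by omega), mem_range]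
          split_ifs with a b c d e
          · rw [b]; ring
          · omega
          · omega
          · omega
          · simp
          · simp
        · rw [hB v (by omega)]
          split_ifs with a b c d e
          · rw [← b, hB v (by omega)]; simp
          · simp
          · simp
          · rw [← d, hB v (by omega)]; simp
          · simp
          · simp
      · rw [hA u (by omega)]
        simp
    rw [sum_congr rfl h3, sum_ite_eq', if_pos (mem_range.2 (by omega))]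
  rw [sum_congr rfl h2, sum_ite_mem, inter_eq_right.2 (range_mono (by omega)), ← mul_sum]
  push_cast
  rfl

theorem trOK_mono {C C' W K a j g h p e : ℕ} {ts : List ℕ} (H : TrOK C W K a j g h p p ts)
    (hC : C' ≤ C) (he : e ≤ p) : TrOK C' W K a j g h p e ts :=
  { H with
    room := (Nat.mul_le_mul_right _ hC).trans_lt H.room
    hp := (Nat.mul_le_mul_right _ hC).trans H.hp
    lev := by
      have h1 := H.lev
      have h2 := Nat.mul_le_mul_right ((K - 1) * (2 * a) + j + 2) hC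
      omega }

theorem does_call {W : ℕ} {fn : Option Tm} {e : Env} {t : Tm} {as : List Tm} {vs : Env}
    {c c1 : ℝ} {post : List ℕ → Prop} (h : Does W t vs c post) (hs : Pvs W fn e as vs c1) :
    ∃ Y, post Y ∧ Pv W fn e (.call t as) Y (c1 + c + as.length * Y.length) :=
  let ⟨Y, h1, h2⟩ := h fn e; ⟨Y, h1, Pv.call hs h2⟩

theorem prod_take_le {K j : ℕ} {ts : List ℕ} (H : TsOK K ts) (i : ℕ) :
    2 ^ j * (ts.take i).prod ≤ 2 ^ ((K - 1) * ts.length + j) := by
  rw [pow_add, mul_comm]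
  refine Nat.mul_le_mul_right _ ?_
  refine (List.prod_le_pow_card _ (2 ^ (K - 1)) fun x hx =>
    (H.le x (List.mem_of_mem_take hx)).2).trans ?_
  rw [← pow_mul]
  exact Nat.pow_le_pow_right (by norm_num) (Nat.mul_le_mul_left _ (List.length_take_le' _ _))

theorem tcost_facts (W K a j g : ℕ) (hK : 1 ≤ K) :
    1 ≤ tcost W K a j g ∧ mu W ≤ tcost W K a j g ∧
      ((2 * a : ℕ) + 1) * ((K : ℝ) + 1) ^ tauE + j ≤ 2 * tcost W K a j g := by
  have h1 := one_le_hcost W K a g
  have h2 := mu_le_hcost W K a g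
  have h3 := one_le_hcost W (j + 1) 1 g
  have h4 : (1 : ℝ) ≤ K := by exact_mod_cast hK
  have h5 : (0 : ℝ) ≤ ((K : ℝ) + 1) ^ tauE := by positivity
  have h6 : (0 : ℝ) ≤ j := by positivity
  have h7 : (0 : ℝ) ≤ a * ((K : ℝ) + 1) ^ tauE := by positivity
  have h8 : hcost W K a g ≤ K * hcost W K a g := by nlinarith
  have h9 : (j : ℝ) + 1 ≤ (j + 1) * hcost W (j + 1) 1 g := by nlinarith
  unfold tcost
  push_cast
  refine ⟨by linarith, by linarith, by linarith⟩

/-- scaling, padding, layout and transform of one factor -/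
def fwdT (tT tTr : Tm) : Tm :=
  .call tTr [.call tT [.app (.map1 (.var 8) (.var 0) (.shl (.var 0) (.var 9)))
    (.zeros (.sub (.var 9) (.var 8))), .var 1, .var 2, .var 4],
    .var 1, .var 2, .var 3, .var 4, .var 5, .var 6, .var 7]

def coreT (tT tF tTr tZ tR tE : Tm) : Tm :=
  .lett (.iter (.len (.var 2)) (.pow2 (.var 5)) (.mul (.var 1) (.nth (.var 4) (.var 0))))
  (.lett (.len (.var 1))
  (.lett (.div (.pow2 (.var 10)) (.var 1))
  (.lett (.call tF [.call tTr [.call tZ [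
      .call (fwdT tT tTr) [.var 3, .var 5, .var 6, .var 7, .var 8, .var 9, .var 10, .var 11,
        .var 1, .var 2],
      .call (fwdT tT tTr) [.var 4, .var 5, .var 6, .var 7, .var 8, .var 9, .var 10, .var 11,
        .var 1, .var 2], .var 10, .var 11],
      .var 5, .var 6, .var 7, .var 8, .var 9, .var 10, .var 11], .var 5, .var 6, .var 8])
  (.lett (.map1 (.var 3) (.var 0)
      (.call tE [.call tR [.var 0, .var 3, .var 13, .var 14], .var 13, .var 14]))
    (.take (.add (.var 3) (.var 3))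
      (.app (.take (.const 1) (.var 0)) (.rev (.drop (.const 1) (.var 0)))))))))

theorem getD_prep (X : List ℕ) (p S k : ℕ) :
    ((List.range X.length).map (fun i => X.getD i 0 * 2 ^ p) ++
      List.replicate (S - X.length) 0).getD k 0 = X.getD k 0 * 2 ^ p := by
  rw [Perm1.getD_app, List.length_map, List.length_range]
  split_ifs with h
  · exact getD_map_range _ h
  · rw [List.getD_eq_default X _ (by omega), zero_mul]
    exact (getD_zero_or_mem _ _).elim id List.eq_of_mem_replicate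

theorem does_fwdT {tT tTr : Tm} {W K a j g h p b S V e : ℕ} {X ts : List ℕ} {cT cTr : ℝ}
    (hW : 8 ≤ W) (hN : X.length ≤ S) (hX : ∀ r ∈ X, r < 2 ^ b) (hb : b + p ≤ h)
    (hh : 4 * h + 16 ≤ W) (hv : ∀ β, valid K j ts β → ∃ k < S, phi K j ts k = β)
    (hT : ∀ X : List ℕ, X.length = S → Does W tT [X, ts, [K], [j]] cT fun Y => Y.length = V ∧
      (∀ k < S, Y.getD (phi K j ts k) 0 = X.getD k 0) ∧ ∀ a, ¬valid K j ts a → Y.getD a 0 = 0)
    (hTr : ∀ (X : List ℕ) (x : ℕ → ℂ), Supp K j ts x → App h p b V (fun _ => True) X x →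
      Does W tTr [X, ts, [K], [a], [j], [g], [h], [p]] cTr
        fun Y => App h p e V (fun _ => True) Y (dftAll K a j ts x)) :
    Does W (fwdT tT tTr) [X, ts, [K], [a], [j], [g], [h], [p], [X.length], [S]]
      (cT + cTr + 140 * S + 13 * V + 4 * ts.length + 150) fun Y => ∃ x, Supp K j ts x ∧
        (∀ k < S, x (phi K j ts k) = X.getD k 0) ∧
        App h p e V (fun _ => True) Y (dftAll K a j ts x) := by
  intro fn env
  have hlt : ∀ n < 2 ^ b, n * 2 ^ p < 2 ^ h := fun n hn =>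
    calc n * 2 ^ p < 2 ^ b * 2 ^ p := Nat.mul_lt_mul_of_pos_right hn (by positivity)
      _ ≤ 2 ^ h := by rw [← pow_add]; exact Nat.pow_le_pow_right (by norm_num) hb
  have hX' : ∀ k, X.getD k 0 < 2 ^ b := getD_lt (by positivity) hX
  have hl : ((List.range X.length).map (fun i => X.getD i 0 * 2 ^ p) ++
      List.replicate (S - X.length) 0).length = S := by simp; omega
  obtain ⟨Y1, ⟨a1, a2, a3⟩, p1⟩ := does_call (fn := fn)
    (e := [X, ts, [K], [a], [j], [g], [h], [p], [X.length], [S]] ++ env)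
    (as := [.app (.map1 (.var 8) (.var 0) (.shl (.var 0) (.var 9)))
      (.zeros (.sub (.var 9) (.var 8))), .var 1, .var 2, .var 4]) (hT _ hl)
    (Pvs.cons (Pv.app (Pv.map1 (c := 9) hW (Pv.varS rfl) (Pv.var rfl) le_rfl fun i _ =>
      (Pv.shl (Pv.varS rfl) (Pv.varS rfl)
        ((hlt _ (hX' i)).trans_le (Nat.pow_le_pow_right (by norm_num) (by omega)))
        (by omega)).mono (by norm_num)) (Pv.zeros (Pv.sub (Pv.varS rfl) (Pv.varS rfl))))
      (Pvs.cons (Pv.var rfl) (Pvs.cons (Pv.varS rfl) (Pvs.cons (Pv.varS rfl) Pvs.nil))))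
  simp only [getD_prep] at a2
  have hn : ∀ β, ∃ n < 2 ^ b, Y1.getD β 0 = n * 2 ^ p := fun β => by
    by_cases hβ : valid K j ts β
    · obtain ⟨k, hk, rfl⟩ := hv β hβ
      exact ⟨_, hX' k, a2 k hk⟩
    · exact ⟨0, by positivity, by rw [a3 β hβ, zero_mul]⟩
  have hS : Supp K j ts fun β => ((Y1.getD β 0 / 2 ^ p : ℕ) : ℂ) := fun β hβ => by
    simp only [a3 β hβ, Nat.zero_div, Nat.cast_zero]
  have hA : App h p b V (fun _ => True) Y1 fun β => ((Y1.getD β 0 / 2 ^ p : ℕ) : ℂ) := by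
    refine ⟨a1, forall_mem_of_getD fun β _ => ?_, fun β _ _ => ?_⟩
    · obtain ⟨n, h1, h2⟩ := hn β
      rw [h2]
      exact (hlt n h1).trans_le ((Nat.pow_le_pow_right (by norm_num) (by omega)).trans
        (Nat.le_succ _))
    · obtain ⟨n, h1, h2⟩ := hn β
      simp only [h2, Nat.mul_div_cancel _ (Nat.two_pow_pos p)]
      exact Lv.nat h1.le
  obtain ⟨Y2, b1, p2⟩ := does_call
    (as := [_, .var 1, .var 2, .var 3, .var 4, .var 5, .var 6, .var 7]) (hTr Y1 _ hS hA)
    (Pvs.cons p1 (Pvs.cons (Pv.var rfl)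
    (Pvs.cons (Pv.varS rfl) (Pvs.cons (Pv.varS rfl) (Pvs.cons (Pv.varS rfl) (Pvs.cons (Pv.varS rfl)
    (Pvs.cons (Pv.varS rfl) (Pvs.cons (Pv.varS rfl) Pvs.nil))))))))
  refine ⟨Y2, ⟨_, hS, fun k hk => ?_, b1⟩, p2.mono ?_⟩
  · simp only [a2 k hk, Nat.mul_div_cancel _ (Nat.two_pow_pos p)]
  · rw [hl, a1, b1.1]
    have r1 : (X.length : ℝ) ≤ S := by exact_mod_cast hN
    have r2 : (0 : ℝ) ≤ X.length := by positivity
    simp only [List.length_cons, List.length_nil, List.length_map, List.length_range,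
      List.length_replicate, Nat.cast_sub hN]
    push_cast
    linarith

theorem getD_flip {Z : List ℕ} {S n : ℕ} (hZ : Z.length = S) (hn : n < S) :
    (Z.take 1 ++ (Z.drop 1).reverse).getD n 0 = Z.getD ((S - n) % S) 0 := by
  have h1 : (Z.take 1).length = 1 := by rw [List.length_take]; omega
  rw [Perm1.getD_app, h1]
  split_ifs with h
  · obtain rfl : n = 0 := by omega
    rw [Perm1.getD_take _ h, Nat.sub_zero, Nat.mod_self]
  · rw [List.getD_reverse _ (by rw [List.length_drop]; omega), Perm1.getD_drop, List.length_drop,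
      Nat.mod_eq_of_lt (by omega)]
    congr 1
    omega

end CoreP

open CoreP in
theorem core_spec (hCrt : CrtSpec) (hM : CrtMathSpec) (hTr : TransformSpec) (hZ : ZipMulSpec)
    (hMul : MulSpec) : CoreSpec := by
  obtain ⟨tT, tF, Cc, c0, hCrt⟩ := hCrt
  obtain ⟨tTr, Ct, c, c1, hTr⟩ := hTr
  obtain ⟨tZ, Cz, hZ⟩ := hZ
  obtain ⟨_, tR, tE, Cm, hMul⟩ := hMul
  refine ⟨coreT tT tF tTr tZ tR tE, 6 * (Cc + Ct + Cz + Cm + c) + 3000, c0, c1 + 2, ?_⟩
  intro W A B ts K a j g h p b H hc0 hp hAB hN hA hB fn env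
  obtain ⟨m1, m2, -, m4, ζ, hζ, m5⟩ := hM K a j ts (by have := H.hK; omega) H.hts H.hlen
  have hW := H.hW
  have hh := H.hh
  have hlev := H.lev
  have hroom := H.room
  have hlen := H.hlen
  have hCrt' := fun X => hCrt W X ts K j hW H.hK H.hj H.hts hc0
    (by rw [hlen]; exact (trOK_mono (C' := Cc) H (by omega) le_rfl).room)
  have hS1 := fun i => prod_take_le (j := j) H.hts i
  rw [hlen] at hCrt' hS1
  have hTr' := fun X e x => hTr W X ts K a j g h p e x
  set L := (K - 1) * (2 * a) + j + 2 with hL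
  have hS2 : ∀ i, 2 ^ j * (ts.take i).prod ≤ 2 ^ L := fun i =>
    (hS1 i).trans (Nat.pow_le_pow_right (by norm_num) (by omega))
  have hS3 : 2 ^ j * ts.prod ≤ 2 ^ L := by simpa using hS2 ts.length
  have hS0 : 0 < 2 ^ j * ts.prod := Nat.mul_pos (by positivity)
    (List.prod_pos fun t ht => by have := (H.hts.le t ht).1; omega)
  set S := 2 ^ j * ts.prod with hS
  have hV : 2 ^ L < 2 ^ W := lt_of_le_of_lt (Nat.le_mul_of_pos_left _ (by omega)) hroom
  have hLW : L < W := (Nat.pow_lt_pow_iff_right (by norm_num)).1 hV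
  have haL : 2 * a ≤ L := by
    have : 1 * (2 * a) ≤ (K - 1) * (2 * a) := Nat.mul_le_mul_right _ (by have := H.hK; omega)
    omega
  have hWW : W < 2 ^ W := Nat.lt_two_pow_self
  have hp1 : 2 * b + 3 * (c * L) + 8 ≤ p := by
    have h1 : (3 * c + 4) * (b + L) ≤ p := (Nat.mul_le_mul_right _ (by omega)).trans hp
    have h2 : (3 * c + 4) * (b + L) = 3 * (c * b) + 3 * (c * L) + 4 * b + 4 * L := by ring
    omega
  have hsupp : ∀ x, Supp K j ts x → Supp K j ts (dftAll K a j ts x) := fun x hx =>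
    (m4 _ (m4 _ (m4 x hx).1).2.1).2.2
  have hfwd := fun X (hX1 : X.length ≤ S) (hX2 : ∀ r ∈ X, r < 2 ^ b) =>
    does_fwdT (a := a) (g := g) hW hX1 hX2 (by omega) hh (fun β hβ => (m2 β hβ).2)
      (fun X => (hCrt' X).1)
      fun X x => hTr' X b x (trOK_mono H (by omega) (by omega))
  have hfB := hfwd B (by omega) hB
  rw [← hAB] at hfB
  -- the evaluation of the big call
  obtain ⟨A3, ⟨x, x1, x2, x3⟩, pA⟩ := does_call (fn := fn) (e := [2 ^ p / S] :: [A.length] :: [S] ::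
    ([A, B, ts, [K], [a], [j], [g], [h], [p]] ++ env))
    (as := [.var 3, .var 5, .var 6, .var 7, .var 8, .var 9, .var 10, .var 11, .var 1, .var 2])
    (hfwd A (by omega) hA)
    (Pvs.cons (Pv.var rfl) (Pvs.cons (Pv.var rfl)
    (Pvs.cons (Pv.varS rfl) (Pvs.cons (Pv.varS rfl) (Pvs.cons (Pv.varS rfl) (Pvs.cons (Pv.varS rfl)
    (Pvs.cons (Pv.varS rfl) (Pvs.cons (Pv.varS rfl) (Pvs.cons (Pv.varS (i := 1) rfl)
    (Pvs.cons (Pv.varS (i := 2) rfl) Pvs.nil))))))))))
  obtain ⟨B3, ⟨y, y1, y2, y3⟩, pB⟩ := does_call (fn := fn) (e := [2 ^ p / S] :: [A.length] :: [S] ::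
    ([A, B, ts, [K], [a], [j], [g], [h], [p]] ++ env))
    (as := [.var 4, .var 5, .var 6, .var 7, .var 8, .var 9, .var 10, .var 11, .var 1, .var 2]) hfB
    (Pvs.cons (Pv.var rfl) (Pvs.cons (Pv.var rfl)
    (Pvs.cons (Pv.varS rfl) (Pvs.cons (Pv.varS rfl) (Pvs.cons (Pv.varS rfl) (Pvs.cons (Pv.varS rfl)
    (Pvs.cons (Pv.varS rfl) (Pvs.cons (Pv.varS rfl) (Pvs.cons (Pv.varS (i := 1) rfl)
    (Pvs.cons (Pv.varS (i := 2) rfl) Pvs.nil))))))))))
  obtain ⟨Z1, z1, pZ1⟩ := does_call (as := [_, _, .var 10, .var 11])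
    (hZ W A3 B3 _ h p _ _ _ _ _ hW hV (by omega) (by omega) hh x3 y3)
    (Pvs.cons pA (Pvs.cons pB (Pvs.cons (Pv.varS rfl) (Pvs.cons (Pv.varS rfl) Pvs.nil))))
  obtain ⟨Z2, z2, pZ2⟩ := does_call
    (as := [_, .var 5, .var 6, .var 7, .var 8, .var 9, .var 10, .var 11])
    (hTr' Z1 _ _ (trOK_mono H (by omega) (by omega))
      (fun β hβ => by simp only [hsupp x x1 β hβ, zero_mul]) z1)
    (Pvs.cons pZ1 (Pvs.cons (Pv.var rfl)
    (Pvs.cons (Pv.varS rfl) (Pvs.cons (Pv.varS rfl) (Pvs.cons (Pv.varS rfl) (Pvs.cons (Pv.varS rfl)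
    (Pvs.cons (Pv.varS rfl) (Pvs.cons (Pv.varS rfl) Pvs.nil))))))))
  obtain ⟨Z3, ⟨z3, z4⟩, pZ3⟩ := does_call (as := [_, .var 5, .var 6, .var 8]) ((hCrt' Z2).2 z2.1)
    (Pvs.cons pZ2 (Pvs.cons (Pv.var rfl) (Pvs.cons (Pv.varS rfl) (Pvs.cons (Pv.varS rfl) Pvs.nil))))
  have hinv : 2 ^ p / S < Qm h := (Nat.div_le_self _ _).trans_lt
    (Nat.lt_succ_of_le (Nat.pow_le_pow_right (by norm_num) (by omega)))
  have hZ3 : ∀ k < S, Z3.getD k 0 < Qm h := fun k hk => by
    rw [z4 k hk]; exact getD_lt (Qm_pos h) z2.2.1 _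
  have hval : ∀ n < 2 * A.length,
      roundRe h p (mulRound h p (Z3.getD ((S - n) % S) 0) (2 ^ p / S)) =
        ∑ i ∈ range (n + 1), A.getD i 0 * B.getD (n - i) 0 := by
    intro n hn
    have hk := Nat.mod_lt (S - n) hS0
    have h1 := z2.2.2 (phi K j ts ((S - n) % S)) ((m2 _ (m1 _)).1.trans_le
      (Nat.pow_le_pow_right (by norm_num) (by rw [hlen]; omega))) trivial
    rw [← z4 _ hk, m5 _ (fun β hβ => by simp only [hsupp x x1 β hβ, zero_mul])] at h1
    simp only [m5 x x1, m5 y y1] at h1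
    have e1 : ∀ m, ∑ k ∈ range S, x (phi K j ts k) * ζ ^ (k * m) =
        ∑ k ∈ range S, (A.getD k 0 : ℂ) * ζ ^ (k * m) := fun m =>
      sum_congr rfl fun k hk => by rw [x2 k (mem_range.1 hk)]
    have e2 : ∀ m, ∑ k ∈ range S, y (phi K j ts k) * ζ ^ (k * m) =
        ∑ k ∈ range S, (B.getD k 0 : ℂ) * ζ ^ (k * m) := fun m =>
      sum_congr rfl fun k hk => by rw [y2 k (mem_range.1 hk)]
    simp only [e1, e2] at h1
    rw [dft_conv hζ (fun k => A.getD k 0) (fun k => B.getD k 0)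
      (fun i hi => List.getD_eq_default _ _ hi) (fun i hi => List.getD_eq_default _ _ (hAB ▸ hi))
      hN hn] at h1
    have h2 := h1.mulRound (Lv.inv_nat hS0) (by omega)
    have hS' : (S : ℂ) ≠ 0 := by exact_mod_cast hS0.ne'
    rw [mul_comm (S : ℂ), mul_assoc, mul_one_div_cancel hS', mul_one] at h2
    refine roundRe_eq (by omega) (by omega) h2.1 (pow_lt_pow_right₀ (by norm_num) (by omega)) ?_
    have h3 := h2.2
    rw [Complex.norm_natCast] at h3
    have h4 : (1 : ℝ) ≤ 2 ^ p := one_le_pow₀ (by norm_num)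
    generalize hE : b + c * L + (b + c * L) + 3 + c * L + 0 + 3 = E at h3 ⊢
    have h5 : (0 : ℝ) < 2 ^ E := by positivity
    calc _ ≤ (2 : ℝ) ^ p * 2 ^ E + 2 ^ p * 2 ^ E := by gcongr; nlinarith
      _ = 2 ^ (p + E + 1) := by ring
      _ < 2 ^ (h - 1) := pow_lt_pow_right₀ (by norm_num) (by omega)
  have hmu := one_le_mu W
  have rW : (0 : ℝ) ≤ W := by positivity
  have rl : (ts.length : ℝ) ≤ W := by exact_mod_cast (by omega)
  refine ⟨_, rfl, (Pv.lett (Pv.iter (fun i => [2 ^ j * (ts.take i).prod]) (L := 1)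
    (c := 400 * (W + 1)) (Pv.len (Pv.var rfl) (by omega))
    ((Pv.pow2 (Pv.varS rfl) (by omega)).cast (by simp) le_rfl) (fun i hi => ?_) (by simp))
    ?_ (c2 := (6 * (Cc + Ct + Cz + Cm + c) + 2500) *
      (2 ^ L * tcost W K a j g + ((2 : ℝ) ^ (j + 1) + W + 1) ^ (c1 + 2)))).mono ?_⟩
  · have e : 2 ^ j * (ts.take i).prod * ts.getD i 0 = 2 ^ j * (ts.take (i + 1)).prod := by
      rw [List.prod_take_succ _ _ hi, List.getD_eq_getElem _ _ hi, mul_assoc]
    refine (Pv.mul hW (Pv.varS rfl) (Pv.nth (Pv.var rfl) (Pv.varS rfl))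
      (by rw [e]; exact (hS2 _).trans_lt hV)).cast (by rw [e]) ?_
    have : (i : ℝ) ≤ ts.length := by exact_mod_cast hi.le
    linarith
  · rw [List.take_length, ← hS]
    refine (Pv.lett (Pv.len (Pv.var rfl) (by omega)) (Pv.lett
      (Pv.div hW (Pv.pow2 (Pv.varS rfl) (by omega)) (Pv.varS rfl) hS0) (Pv.lett pZ3 (Pv.lett
      (Pv.map1 (f := fun k => roundRe h p (mulRound h p (Z3.getD k 0) (2 ^ p / S)))
        (c := Cm * mu W + Cm + 40) hW (Pv.varS rfl) (Pv.var rfl) z3.ge fun k hk => ?_)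
      (Pv.take (Pv.add (Pv.varS rfl) (Pv.varS rfl) (by omega)) (Pv.app
        (Pv.take (Pv.constS hW (by norm_num)) (Pv.var rfl))
        (Pv.rev (Pv.drop (Pv.constS hW (by norm_num)) (Pv.var rfl))))))))).cast ?_ ?_
    · obtain ⟨_, rfl, q1⟩ := does_call (fn := fn) (e := [Z3.getD k 0] :: [k] :: Z3 :: [2 ^ p / S] ::
        [A.length] :: [S] :: ([A, B, ts, [K], [a], [j], [g], [h], [p]] ++ env))
        (as := [.var 0, .var 3, .var 13, .var 14])
        (hMul W _ _ h p hW (hZ3 k hk) hinv (by omega) (by omega) hh).2.1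
        (Pvs.cons (Pv.varS rfl) (Pvs.cons (Pv.varS rfl) (Pvs.cons (Pv.varS rfl)
          (Pvs.cons (Pv.varS rfl) Pvs.nil))))
      obtain ⟨_, rfl, q2⟩ := does_call (as := [_, .var 13, .var 14])
        (hMul W _ _ h p hW (mulRound_lt _ _ _ _) hinv (by omega) (by omega) hh).2.2
        (Pvs.cons q1 (Pvs.cons (Pv.varS rfl) (Pvs.cons (Pv.varS rfl) Pvs.nil)))
      refine q2.mono ?_
      simp only [List.length_cons, List.length_nil]
      push_cast
      linarith
    · refine List.ext_getElem (by simp [convL]; omega) fun n h1 h2 => ?_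
      have hn : n < 2 * A.length := by simpa [convL] using h2
      rw [← List.getD_eq_getElem _ 0, ← List.getD_eq_getElem _ 0, Perm1.getD_take _ (by omega),
        getD_flip (S := S) (by simp) (by omega), getD_map_range _ (Nat.mod_lt _ hS0), hval n hn,
        convL, getD_map_range _ hn]
    · obtain ⟨t1, t2, t3⟩ := tcost_facts W K a j g (by have := H.hK; omega)
      have rV : (0 : ℝ) < 2 ^ L := by positivity
      have rS : (S : ℝ) ≤ 2 ^ L := by exact_mod_cast hS3
      have rN : 2 * (A.length : ℝ) ≤ S := by exact_mod_cast hN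
      have rN0 : (0 : ℝ) ≤ A.length := by positivity
      have rP : (W : ℝ) + 1 ≤ (2 : ℝ) ^ (j + 1) + W + 1 := by
        have : (0 : ℝ) ≤ 2 ^ (j + 1) := by positivity
        linarith
      have rP1 : ((2 : ℝ) ^ (j + 1) + W + 1) ^ c1 ≤ ((2 : ℝ) ^ (j + 1) + W + 1) ^ (c1 + 2) :=
        pow_le_pow_right₀ (by linarith) (by omega)
      have rP2 : (W : ℝ) + 1 ≤ ((2 : ℝ) ^ (j + 1) + W + 1) ^ (c1 + 2) :=
        rP.trans (le_self_pow₀ (by linarith) (by omega))
      have l1 : (((List.range S).map fun k =>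
          roundRe h p (mulRound h p (Z3.getD k 0) (2 ^ p / S))).length : ℝ) = S := by simp
      set Z4 := (List.range S).map fun k => roundRe h p (mulRound h p (Z3.getD k 0) (2 ^ p / S))
      have l2 : ((Z4.take 1).length : ℝ) ≤ 1 := by exact_mod_cast List.length_take_le 1 Z4
      have l3 : ((Z4.drop 1).length : ℝ) ≤ S := by rw [← l1]; exact_mod_cast (by simp)
      have l4 : (((Z4.take 1 ++ (Z4.drop 1).reverse).take (A.length + A.length)).length : ℝ) ≤
          2 * A.length := by exact_mod_cast (List.length_take_le _ _).trans (by omega)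
      generalize ((2 : ℝ) ^ (j + 1) + W + 1) ^ (c1 + 2) = Q at *
      generalize ((2 : ℝ) ^ (j + 1) + W + 1) ^ c1 = Q' at *
      generalize ((2 * a : ℕ) + 1) * ((K : ℝ) + 1) ^ tauE + j = u at *
      generalize tcost W K a j g = τ at *
      have u1 : (2 : ℝ) ^ L ≤ 2 ^ L * τ := le_mul_of_one_le_right rV.le t1
      have u2 : (Cc : ℝ) * (2 ^ L * u) ≤ Cc * (2 ^ L * (2 * τ)) := by gcongr
      have u3 : (Ct : ℝ) * Q' ≤ Ct * Q := by gcongr
      have u4 : (Cz : ℝ) * (2 ^ L * mu W + 1) ≤ Cz * (2 ^ L * τ + Q) := by gcongr; linarith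
      have u5 : (S : ℝ) * (Cm * mu W) ≤ 2 ^ L * (Cm * τ) := by gcongr
      have u6 : (S : ℝ) * (Cm * 1) ≤ 2 ^ L * (Cm * τ) := by gcongr
      have hQ : 0 ≤ Q := by linarith
      have hτ : 0 ≤ τ := by linarith
      have v1 : (0 : ℝ) ≤ Cc * Q := by positivity
      have v2 : (0 : ℝ) ≤ Ct * (2 ^ L * τ + Q) := by positivity
      have v3 : (0 : ℝ) ≤ Cz * (2 ^ L * τ + Q) := by positivity
      have v4 : (0 : ℝ) ≤ Cm * (2 ^ L * τ) := by positivity
      have v5 : (0 : ℝ) ≤ Cm * Q := by positivity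
      have v6 : (0 : ℝ) ≤ c * (2 ^ L * τ + Q) := by positivity
      rw [x3.1, y3.1, z1.1, z2.1, z3, l1, ← hAB]
      simp only [List.length_cons, List.length_nil, List.length_append, List.length_reverse]
      push_cast
      linarith
  · obtain ⟨t1, -, -⟩ := tcost_facts W K a j g (by have := H.hK; omega)
    have rV : (0 : ℝ) < 2 ^ L := by positivity
    have rN : ((convL A B).length : ℝ) ≤ 2 ^ L := by
      have : (convL A B).length ≤ 2 ^ L := by simp only [convL, List.length_map, List.length_range]; omega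
      exact_mod_cast this
    have rP : ((W : ℝ) + 1) ^ 2 ≤ ((2 : ℝ) ^ (j + 1) + W + 1) ^ (c1 + 2) := by
      have : (0 : ℝ) ≤ 2 ^ (j + 1) := by positivity
      exact (pow_le_pow_left₀ (by linarith) (by linarith) 2).trans
        (pow_le_pow_right₀ (by linarith) (by omega))
    have u1 : (2 : ℝ) ^ L ≤ 2 ^ L * tcost W K a j g := le_mul_of_one_le_right rV.le t1
    have u2 : (ts.length : ℝ) * (400 * (W + 1) + 2 * 1 + 22) ≤ W * (400 * (W + 1) + 2 * 1 + 22) := by
      gcongr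
    have r8 : (8 : ℝ) ≤ W := by exact_mod_cast hW
    simp only [List.length_cons, List.length_nil]
    push_cast
    nlinarith

end Crest.Agent.R326
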