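import Crest.Agent.R326.CrtC

/-!
# The layout of the Chinese remainder theorem
-/

set_option autoImplicit false

namespace Crest.Agent.R326

namespace Crt

open Finset

theorem phi_eq (k j : ℕ) (ts : List ℕ) (κ : ℕ) :
    phi (k + 1) j ts κ = ad (2 ^ k) ts.length (κ % 2 ^ j) fun l => resid j ts l κ := by
  simp only [phi, ad, Nat.add_sub_cancel, pow_mul]

theorem psi_full (R : ℕ) (ts : List ℕ) (u : ℕ) {x : ℕ} (hx : x < ts.prod) :
    psi R ts ts.length (u * ts.prod + x) =
      ad R ts.length u fun l => kd ts x (ts.length - 1 - l) := by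
  rw [psi, Nat.sub_self, dp_zero, add_comm, Nat.add_mul_div_right _ _ (by omega),
    Nat.div_eq_of_lt hx, zero_add]
  exact ad_congr fun l hl => by rw [add_comm, kd_add (by omega)]

/-- the digits when the fields below `i` hold residues -/
def rr (ts : List ℕ) (j i κ l : ℕ) : ℕ := if l < i then resid j ts l κ else kd ts (κ / 2 ^ j) l

theorem rr_lt {ts : List ℕ} (h : ∀ t ∈ ts, 0 < t) (j i κ : ℕ) {l : ℕ} (hl : l < ts.length) :
    rr ts j i κ l < ts.getD l 0 := by
  unfold rr
  split_ifs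
  · exact resid_lt (h _ (getD_mem hl)) _ _
  · exact kd_lt h hl _

theorem rmap_rr {K : ℕ} {ts : List ℕ} (hts : TsOK K ts) {i : ℕ} (hi : i < ts.length) (j κ : ℕ) :
    rmap ts j i 0 (κ % 2 ^ j) (rr ts j i κ) = rr ts j (i + 1) κ ∧
    rmap ts j i 1 (κ % 2 ^ j) (rr ts j (i + 1) κ) = rr ts j i κ := by
  have hpos : ∀ t ∈ ts, 0 < t := fun t ht => by have := (hts.le t ht).1; omega
  obtain ⟨h1, h2⟩ := resid_eq hts hi j κ
  have e1 : (fun l => rr ts j i κ (i + 1 + l)) = fun l => kd ts (κ / 2 ^ j) (i + 1 + l) :=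
    funext fun l => if_neg (by omega)
  have e2 : (fun l => rr ts j (i + 1) κ (i + 1 + l)) = fun l => kd ts (κ / 2 ^ j) (i + 1 + l) :=
    funext fun l => if_neg (by omega)
  have e3 : rr ts j i κ i = kd ts (κ / 2 ^ j) i := if_neg (by omega)
  have e4 : rr ts j (i + 1) κ i = resid j ts i κ := if_pos (by omega)
  have e5 : ∀ l, l ≠ i → rr ts j i κ l = rr ts j (i + 1) κ l := fun l hl => by
    unfold rr
    by_cases h : l < i
    · rw [if_pos h, if_pos (by omega)]
    · rw [if_neg h, if_neg (by omega)]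
  constructor
  · rw [rmap, if_pos (rr_lt hpos _ _ _ hi), e1, e3, h1]
    funext l
    by_cases hl : l = i
    · rw [hl, Function.update_self, e4]
    · rw [Function.update_of_ne hl, e5 l hl]
  · rw [rmap, if_pos (rr_lt hpos _ _ _ hi), e2, e4, h2]
    funext l
    by_cases hl : l = i
    · rw [hl, Function.update_self, e3]
    · rw [Function.update_of_ne hl, e5 l hl]

theorem rmap_lt {ts : List ℕ} {R i : ℕ} (hi : ts.getD i 0 ≤ R) (j md top : ℕ) {r : ℕ → ℕ}
    (hr : ∀ l < ts.length, r l < R) : ∀ l < ts.length, rmap ts j i md top r l < R := by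
  unfold rmap
  split_ifs with h
  · exact update_lt hr ((Nat.mod_lt _ (by omega)).trans_le hi)
  · exact hr

theorem rmap_bad {ts : List ℕ} (i j md top : ℕ) {r : ℕ → ℕ}
    (h : ∀ l < ts.length, rmap ts j i md top r l < ts.getD l 0) :
    ∀ l < ts.length, r l < ts.getD l 0 := by
  unfold rmap at h
  split_ifs at h with h1
  · intro l hl
    by_cases hli : l = i
    · rw [hli]; exact h1
    · have := h l hl
      rwa [Function.update_of_ne hli] at this
  · exact h

theorem getD_take {X : List ℕ} {n a : ℕ} (h : a < n) : (X.take n).getD a 0 = X.getD a 0 := by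
  simp [List.getD_eq_getElem?_getD, h]

theorem getD_app_zeros (X : List ℕ) (n a : ℕ) :
    (X ++ List.replicate n 0).getD a 0 = X.getD a 0 := by
  by_cases h : a < X.length
  · exact List.getD_append _ _ _ _ h
  · rw [List.getD_append_right _ _ _ _ (by omega), List.getD_eq_default X _ (by omega)]
    rcases getD_zero_or_mem (List.replicate n 0) (a - X.length) with h1 | h1
    · exact h1
    · exact List.eq_of_mem_replicate h1

end Crt

open Crt

theorem crt_spec (hR : RotSpec) (hP : PadSpec) (hSh : ShuffleSpec) (hS : SwapSpec) : CrtSpec := by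
  obtain ⟨tP, tU, C1, ht1⟩ := padAll hP
  obtain ⟨tV, C2, c0, ht2⟩ := revAll hS
  obtain ⟨tR, C3, ht3⟩ := rotStep hR
  obtain ⟨tT, tB, C4, ht4⟩ := hSh
  refine ⟨.lett (.sub (.var 2) (.const 1)) (.lett (.len (.var 2))
      (.lett (.call tP [.call tT [.var 2, .var 5], .var 3, .var 1, .var 0])
        (.iter (.var 1)
          (.call tV [.app (.var 0) (.zeros (.mul (.len (.var 0)) (.const 3))), .var 2, .var 1])
          (.call tR [.var 1, .var 6, .var 4, .var 3, .var 8, .var 0, .const 1])))),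
    .lett (.sub (.var 2) (.const 1)) (.lett (.len (.var 2))
      (.call tB [.call tU [.take (.pow2 (.add (.mul (.var 1) (.var 0)) (.var 5)))
        (.call tV [.iter (.var 0) (.var 2) (.call tR [.var 1, .var 5, .var 3, .var 2, .var 7,
          .sub (.sub (.var 2) (.const 1)) (.var 0), .const 0]), .var 1, .var 0]),
        .var 3, .var 1, .var 0], .var 5])),
    C1 + C2 + C3 + 2 * C4 + 1000, c0 + 2, ?_⟩
  intro W X ts K j hW hK hKj hts hWk hC
  obtain ⟨k, rfl⟩ : ∃ k, K = k + 1 := ⟨K - 1, by omega⟩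
  simp only [Nat.add_sub_cancel] at hWk hC ⊢
  obtain ⟨V, hV⟩ : ∃ V, V = 2 ^ (k * ts.length + j + 2) := ⟨_, rfl⟩
  have hVr : (2 : ℝ) ^ (k * ts.length + j + 2) = V := by rw [hV]; push_cast; rfl
  rw [hVr, ← hV]
  rw [← hV] at hC
  have hV' : V = 2 ^ (j + 2) * (2 ^ k) ^ ts.length := by rw [hV, ← pow_mul]; ring
  have hV4 : V = 2 ^ j * (2 ^ k) ^ ts.length + 2 ^ j * (2 ^ k) ^ ts.length * 3 := by
    rw [hV']; ring
  have hts' : ∀ t ∈ ts, 0 < t ∧ t ≤ 2 ^ k := fun t ht =>
    ⟨by have := (hts.le t ht).1; omega, (hts.le t ht).2⟩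
  have hpos : ∀ t ∈ ts, 0 < t := fun t ht => (hts' t ht).1
  have hle := getD_le fun t ht => (hts' t ht).2
  have hP0 : 0 < ts.prod := List.prod_pos hpos
  have hPR : ts.prod ≤ (2 ^ k) ^ ts.length := by
    rw [← dp_zero, ← pp_eq_dp (zero_add _)]; exact pp_le hle _ _
  have hN : 2 ^ j * ts.prod ≤ 2 ^ j * (2 ^ k) ^ ts.length := Nat.mul_le_mul_left _ hPR
  have h2V : 2 * V < 2 ^ W := lt_of_le_of_lt (Nat.mul_le_mul_right _ (by omega)) hC
  have hC2 : C2 * V < 2 ^ W := lt_of_le_of_lt (Nat.mul_le_mul_right _ (by omega)) hC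
  have hkT : 2 ^ k ≤ 2 ^ (j + 2) := Nat.pow_le_pow_right (by norm_num) (by omega)
  have hW0 : (W + 1) ^ c0 ≤ 2 ^ (j + 2) :=
    ((Nat.pow_le_pow_right (by omega) (by omega)).trans hWk).trans hkT
  have hW2 : (W + 1) ^ 2 ≤ 2 ^ k := (Nat.pow_le_pow_right (by omega) (by omega)).trans hWk
  have hW1 : W + 1 ≤ 2 ^ (j + 2) := ((Nat.le_self_pow (by omega) _).trans hW2).trans hkT
  have hWV : W + 1 ≤ V := by rw [hV']; exact hW1.trans (Nat.le_mul_of_pos_right _ (by positivity))
  have hWW : W < 2 ^ W := Nat.lt_two_pow_self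
  have hkd : k * ts.length + j + 2 < W :=
    (Nat.pow_lt_pow_iff_right (by norm_num : 1 < 2)).1 (by omega)
  have hdW : ts.length < W := lt_of_le_of_lt (Nat.le_mul_of_pos_left _ (by omega : 0 < k)) (by omega)
  have hjT : 2 ^ j ≤ 2 ^ (j + 2) := Nat.pow_le_pow_right (by norm_num) (by omega)
  have hrr : ∀ i κ, ∀ l < ts.length, rr ts j i κ l < 2 ^ k := fun i κ l hl =>
    (rr_lt hpos _ _ _ hl).trans_le (hle l)
  have htop : ∀ κ, κ % 2 ^ j < 2 ^ j := fun κ => Nat.mod_lt _ (by positivity)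
  have hdiv : ∀ κ < 2 ^ j * ts.prod, κ / 2 ^ j < ts.prod := fun κ hκ =>
    (Nat.div_lt_iff_lt_mul (by positivity)).2 (by rwa [mul_comm])
  have hphi : ∀ κ, phi (k + 1) j ts κ =
      ad (2 ^ k) ts.length (κ % 2 ^ j) (rr ts j ts.length κ) := fun κ => by
    rw [phi_eq]; exact ad_congr fun l hl => (if_pos hl).symm
  have hpsi : ∀ κ < 2 ^ j * ts.prod, psi (2 ^ k) ts ts.length (κ % 2 ^ j * ts.prod + κ / 2 ^ j) =
      ad (2 ^ k) ts.length (κ % 2 ^ j) fun l => rr ts j 0 κ (ts.length - 1 - l) := fun κ hκ =>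
    psi_full _ _ _ (hdiv κ hκ)
  have r1 : (W : ℝ) + 1 ≤ V := by exact_mod_cast hWV
  have r2 : (ts.length : ℝ) ≤ W := by exact_mod_cast hdW.le
  have r3 : (8 : ℝ) ≤ W := by exact_mod_cast hW
  have r4 : (1 : ℝ) ≤ ((k : ℝ) + 2) ^ tauE :=
    Real.one_le_rpow (by linarith [Nat.cast_nonneg (α := ℝ) k]) tauE_pos.le
  have r5 : ((k + 1 : ℕ) : ℝ) + 1 = k + 2 := by push_cast; ring
  rw [r5]
  have r6 : ((2 ^ j * (2 ^ k) ^ ts.length : ℕ) : ℝ) * 4 = V := by
    rw [hV4]; push_cast; ring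
  have r7 : ((2 ^ j * ts.prod : ℕ) : ℝ) ≤ (2 ^ j * (2 ^ k) ^ ts.length : ℕ) := by exact_mod_cast hN
  obtain ⟨τ, hτ⟩ : ∃ τ, τ = ((k : ℝ) + 2) ^ tauE := ⟨_, rfl⟩
  rw [← hτ] at r4 ⊢
  obtain ⟨B, hB⟩ : ∃ B : ℝ, B = V * ((ts.length + 1) * τ + j) := ⟨_, rfl⟩
  rw [← hB]
  have q0 : (0 : ℝ) ≤ ts.length := by positivity
  have q1 : (0 : ℝ) ≤ j := by positivity
  have q2 : (0 : ℝ) ≤ V := by positivity
  have q3 : (ts.length + 1) * (V * τ) + V * j = B := by rw [hB]; ring
  have q4 : (V : ℝ) ≤ V * τ := le_mul_of_one_le_right q2 r4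
  have q5 : (ts.length + 1) * (V : ℝ) ≤ (ts.length + 1) * (V * τ) :=
    mul_le_mul_of_nonneg_left q4 (by linarith)
  have q6 : (0 : ℝ) ≤ V * j := by positivity
  have q7 : (0 : ℝ) ≤ ts.length * V := by positivity
  have p1 : C1 * ((ts.length + 1) * (V : ℝ)) ≤ C1 * B :=
    mul_le_mul_of_nonneg_left (by linarith) (by positivity)
  have p2 : C2 * ((ts.length + 1) * (V * τ)) ≤ C2 * B :=
    mul_le_mul_of_nonneg_left (by linarith) (by positivity)
  have p3 : ts.length * ((C3 + 20) * V + 2 * V + 22 : ℝ) ≤ C3 * B + 30 * B := by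
    have h1 : ts.length * ((C3 + 20) * V + 2 * V + 22 : ℝ) ≤ ts.length * ((C3 + 30) * V) :=
      mul_le_mul_of_nonneg_left (by linarith) q0
    have h2 : (C3 + 30 : ℝ) * (ts.length * V) ≤ (C3 + 30) * B :=
      mul_le_mul_of_nonneg_left (by linarith) (by positivity)
    linarith
  have p4 : C4 * ((j + 1) * ((2 ^ j * ts.prod : ℕ) + W + 1 : ℝ)) ≤ 2 * C4 * B := by
    have h1 : (j + 1) * ((2 ^ j * ts.prod : ℕ) + W + 1 : ℝ) ≤ (j + 1) * (2 * V) :=
      mul_le_mul_of_nonneg_left (by linarith) (by linarith)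
    have h2 : C4 * ((j + 1) * ((2 ^ j * ts.prod : ℕ) + W + 1 : ℝ)) ≤ C4 * (2 * B) :=
      mul_le_mul_of_nonneg_left (by linarith) (by positivity)
    linarith
  have p5 : (V : ℝ) ≤ B := by linarith
  constructor
  · intro hX fn env
    obtain ⟨Y0, ⟨hl0, hY0⟩, hp0⟩ := (ht4 W X ts.prod j hW (by rw [hX, mul_comm]) hP0
      (by omega)).1 fn ([ts.length] :: [k] :: X :: ts :: [k + 1] :: [j] :: env)
    obtain ⟨Y1, ⟨hl1, hY1, hZ1⟩, hp1⟩ := (ht1 W Y0 ts k (2 ^ j) V hW (by omega) (by positivity) hts'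
      (by omega) hWV (by omega)).1 (hl0.trans hX) fn
      ([ts.length] :: [k] :: X :: ts :: [k + 1] :: [j] :: env)
    have hl2 : (Y1 ++ List.replicate (Y1.length * 3) 0).length = V := by
      rw [List.length_append, List.length_replicate, hl1, hV4]
    obtain ⟨Y3, ⟨hl3, hY3⟩, hp3⟩ := ht2 W (Y1 ++ List.replicate (Y1.length * 3) 0) k ts.length
      (2 ^ (j + 2)) hW (by omega) (hl2.trans hV') hW0 hW1 (by rw [hl2]; exact hC2) fn
      (Y1 :: [ts.length] :: [k] :: X :: ts :: [k + 1] :: [j] :: env)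
    rw [hl2] at hl3 hp3
    have hi3 : Pv W fn (Y1 :: [ts.length] :: [k] :: X :: ts :: [k + 1] :: [j] :: env)
        (.call tV [.app (.var 0) (.zeros (.mul (.len (.var 0)) (.const 3))), .var 2, .var 1]) Y3
        (C2 * B + 400 * V) := by
      apply Pv.cast
      · apply Pv.call (hf := hp3)
        pv <;> omega
      · rfl
      · rw [← hτ]
        simp only [List.length_cons, List.length_nil, List.length_replicate, hl3, hl2]
        rw [← hl1] at r6
        push_cast
        linarith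
    obtain ⟨Y, hY, hp⟩ := Pv.iterInv (n := .var 1)
      (body := .call tR [.var 1, .var 6, .var 4, .var 3, .var 8, .var 0, .const 1])
      (fun i Z => Z.length = V ∧ (∀ κ < 2 ^ j * ts.prod,
        Z.getD (ad (2 ^ k) ts.length (κ % 2 ^ j) (rr ts j i κ)) 0 = X.getD κ 0) ∧
        ∀ top < 2 ^ (j + 2), ∀ r, (∀ l < ts.length, r l < 2 ^ k) →
          ¬((∀ l < ts.length, r l < ts.getD l 0) ∧ top < 2 ^ j) →
          Z.getD (ad (2 ^ k) ts.length top r) 0 = 0)
      (c := (C3 + 20) * V) (L := V) (Pv.varS rfl) hi3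
      ⟨hl3, fun κ hκ => by
        rw [hY3 _ ((htop κ).trans_le hjT) _ (hrr 0 κ), getD_app_zeros, ← hpsi κ hκ,
          hY1 _ (mk_lt (htop κ) (hdiv κ hκ)), hY0 _ (htop κ) _ (hdiv κ hκ), Nat.div_add_mod'],
        fun top ht r hr hbad => by
          rw [hY3 _ ht _ hr, getD_app_zeros]
          by_cases h1 : top < 2 ^ j
          · refine hZ1 _ _ (fun l hl => hr _ (by omega)) ?_
            by_contra h2
            refine hbad ⟨fun l hl => ?_, h1⟩
            by_contra h3
            refine h2 ⟨ts.length - 1 - l, by omega, ?_⟩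
            rw [show ts.length - 1 - (ts.length - 1 - l) = l by omega]
            omega
          · refine List.getD_eq_default _ _ ?_
            rw [hl1]
            exact le_ad _ (by omega)⟩
      (fun i hi Z ⟨hZ, hZ2, hZ3⟩ => by
        obtain ⟨Z', ⟨hl, hZ'⟩, hp⟩ := ht3 W Z ts k j i 1 hW hts hi (by omega) (hZ.trans hV') hW2
          (by omega) fn ([i] :: Z :: Y1 :: [ts.length] :: [k] :: X :: ts :: [k + 1] :: [j] :: env)
        refine ⟨Z', ⟨hl.trans hZ, fun κ hκ => ?_, fun top ht r hr hbad => ?_⟩, ?_⟩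
        · rw [hZ' _ ((htop κ).trans_le hjT) _ (hrr _ κ), (rmap_rr hts hi j κ).2, hZ2 κ hκ]
        · rw [hZ' _ ht _ hr]
          exact hZ3 _ ht _ (rmap_lt (hle i) _ _ _ hr) fun h => hbad ⟨rmap_bad _ _ _ _ h.1, h.2⟩
        · apply Pv.cast
          · apply Pv.call (hf := hp)
            pv
          · rfl
          · simp only [List.length_cons, List.length_nil, hl, hZ]
            push_cast
            linarith)
      (fun i _ Z hZ => by rw [hZ.1])
    refine ⟨Y, ⟨hY.1, fun κ hκ => by rw [hphi, hY.2.1 κ hκ], fun a ha => ?_⟩, ?_⟩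
    · by_cases haV : a < V
      · rw [eq_ad (2 ^ k) ts.length a]
        refine hY.2.2 _ ((Nat.div_lt_iff_lt_mul (by positivity)).2 (hV' ▸ haV)) _
          (fun l _ => dig_lt (by positivity) _ _) fun h => ha ?_
        simpa only [valid, Nat.add_sub_cancel, pow_mul] using h
      · exact List.getD_eq_default _ _ (by rw [hY.1]; omega)
    · apply Pv.cast
      · simp only [List.cons_append, List.nil_append]
        apply Pv.lett ((Pv.sub (Pv.varS rfl) (Pv.constS hW (by norm_num))).cast (v' := [k]) rfl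
          le_rfl)
        apply Pv.lett (Pv.len (Pv.var rfl) (by omega))
        apply Pv.lett (hb := hp)
        apply Pv.call (hf := hp1)
        apply Pvs.cons
        · apply Pv.call (hf := hp0)
          pv
        · pv
      · rfl
      · simp only [List.length_cons, List.length_nil, hl0, hl1, hY.1, hX]
        generalize ((2 ^ j * ts.prod : ℕ) : ℝ) = u at *
        generalize ((2 ^ j * (2 ^ k) ^ ts.length : ℕ) : ℝ) = u' at *
        push_cast
        linarith
  · intro hX fn env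
    obtain ⟨Y1, hY1, hp1⟩ := Pv.iterInv (W := W) (fn := fn)
      (e := [ts.length] :: [k] :: X :: ts :: [k + 1] :: [j] :: env) (n := .var 0) (init := .var 2)
      (body := .call tR [.var 1, .var 5, .var 3, .var 2, .var 7,
          .sub (.sub (.var 2) (.const 1)) (.var 0), .const 0])
      (fun m Z => Z.length = V ∧ ∀ κ < 2 ^ j * ts.prod,
        Z.getD (ad (2 ^ k) ts.length (κ % 2 ^ j) (rr ts j (ts.length - m) κ)) 0 =
          X.getD (phi (k + 1) j ts κ) 0)
      (c := (C3 + 20) * V) (L := V) (Pv.varS rfl) (Pv.var rfl)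
      ⟨hX, fun κ _ => by rw [hphi, Nat.sub_zero]⟩
      (fun m hm Z ⟨hZ, hZ2⟩ => by
        have hi : ts.length - 1 - m < ts.length := by omega
        obtain ⟨Z', ⟨hl, hZ'⟩, hp⟩ := ht3 W Z ts k j (ts.length - 1 - m) 0 hW hts hi (by omega)
          (hZ.trans hV') hW2 (by omega) fn
          ([m] :: Z :: [ts.length] :: [k] :: X :: ts :: [k + 1] :: [j] :: env)
        refine ⟨Z', ⟨hl.trans hZ, fun κ hκ => ?_⟩, ?_⟩
        · rw [hZ' _ ((htop κ).trans_le hjT) _ (hrr _ κ),
            show ts.length - (m + 1) = ts.length - 1 - m by omega, (rmap_rr hts hi j κ).1,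
            show ts.length - 1 - m + 1 = ts.length - m by omega, hZ2 κ hκ]
        · apply Pv.cast
          · apply Pv.call (hf := hp)
            pv
          · rfl
          · simp only [List.length_cons, List.length_nil, hl, hZ]
            push_cast
            linarith)
      (fun i _ Z hZ => by rw [hZ.1])
    obtain ⟨Y2, ⟨hl2, hY2⟩, hp2⟩ := ht2 W Y1 k ts.length (2 ^ (j + 2)) hW (by omega)
      (hY1.1.trans hV') hW0 hW1 (by rw [hY1.1]; exact hC2) fn
      ([ts.length] :: [k] :: X :: ts :: [k + 1] :: [j] :: env)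
    rw [hY1.1] at hl2 hp2
    have hl3 : (Y2.take (2 ^ j * (2 ^ k) ^ ts.length)).length = 2 ^ j * (2 ^ k) ^ ts.length := by
      rw [List.length_take, hl2]; omega
    obtain ⟨Y4, ⟨hl4, hY4⟩, hp4⟩ := (ht1 W (Y2.take (2 ^ j * (2 ^ k) ^ ts.length)) ts k (2 ^ j) V hW
      (by omega) (by positivity) hts' (by omega) hWV (by omega)).2 hl3 fn
      ([ts.length] :: [k] :: X :: ts :: [k + 1] :: [j] :: env)
    obtain ⟨Y, ⟨hl, hY⟩, hp⟩ := (ht4 W Y4 ts.prod j hW (by rw [hl4, mul_comm]) hP0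
      (by omega)).2 fn ([ts.length] :: [k] :: X :: ts :: [k + 1] :: [j] :: env)
    refine ⟨Y, ⟨hl.trans hl4, fun κ hκ => ?_⟩, ?_⟩
    · have h1 : ∀ l < ts.length, rr ts j 0 κ (ts.length - 1 - l) < 2 ^ k := fun l hl =>
        hrr _ _ _ (by omega)
      conv_lhs => rw [← Nat.div_add_mod' κ (2 ^ j)]
      rw [hY _ (htop κ) _ (hdiv κ hκ), hY4 _ (mk_lt (htop κ) (hdiv κ hκ)), hpsi κ hκ,
        getD_take (ad_lt h1 (htop κ)), hY2 _ ((htop κ).trans_le hjT) _ h1, ← hY1.2 κ hκ,
        Nat.sub_self]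
      congr 1
      exact ad_congr fun l hl => by rw [show ts.length - 1 - (ts.length - 1 - l) = l by omega]
    · apply Pv.cast
      · simp only [List.cons_append, List.nil_append]
        apply Pv.lett ((Pv.sub (Pv.varS rfl) (Pv.constS hW (by norm_num))).cast (v' := [k]) rfl
          le_rfl)
        apply Pv.lett (Pv.len (Pv.var rfl) (by omega))
        apply Pv.call (hf := hp)
        apply Pvs.cons
        · apply Pv.call (hf := hp4)
          apply Pvs.cons
          · apply Pv.take ((Pv.pow2 (Pv.add (Pv.mul hW (Pv.varS rfl) (Pv.varS rfl) (by omega))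
              (Pv.varS rfl) (by omega)) (by omega)).cast (v' := [2 ^ j * (2 ^ k) ^ ts.length])
              (by rw [pow_add, pow_mul, mul_comm]) le_rfl)
            apply Pv.call (hf := hp2)
            apply Pvs.cons hp1
            pv
          · pv
        · pv
      · rfl
      · rw [← hτ]
        simp only [List.length_cons, List.length_nil, hl, hl2, hl3, hl4, hY1.1, hX]
        generalize ((2 ^ j * ts.prod : ℕ) : ℝ) = u at *
        generalize ((2 ^ j * (2 ^ k) ^ ts.length : ℕ) : ℝ) = u' at *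
        push_cast
        linarith

end Crest.Agent.R326
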