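import Crest.Agent.R326.SpecB

/-!
# The layout given by the Chinese remainder theorem: the pure mathematics
-/

set_option autoImplicit false

namespace Crest.Agent.R326

open Finset

namespace CrtMath

/-! ### residues -/

/-- `k / P` modulo `t` -/
def rs (t P k : ℕ) : ℕ := ((k : ZMod t) * (P : ZMod t)⁻¹).val

theorem rs_lt {t : ℕ} (ht : 0 < t) (P k : ℕ) : rs t P k < t := by
  have : NeZero t := ⟨ht.ne'⟩
  exact ZMod.val_lt _

theorem rs_cast {t : ℕ} (ht : 0 < t) (P k : ℕ) :
    ((rs t P k : ℕ) : ZMod t) = (k : ZMod t) * (P : ZMod t)⁻¹ := by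
  have : NeZero t := ⟨ht.ne'⟩
  exact ZMod.natCast_zmod_val _

theorem rs_mul {t P : ℕ} (ht : 0 < t) (hP : Nat.Coprime P t) (k : ℕ) :
    rs t P k * P ≡ k [MOD t] := by
  rw [← ZMod.natCast_eq_natCast_iff, Nat.cast_mul, rs_cast ht, mul_assoc, mul_comm _ (P : ZMod t),
    ZMod.coe_mul_inv_eq_one _ hP, mul_one]

theorem rs_eq {t P y k : ℕ} (hP : Nat.Coprime P t) (hy : y < t) (h : k ≡ y * P [MOD t]) :
    rs t P k = y := by
  unfold rs
  rw [(ZMod.natCast_eq_natCast_iff _ _ _).2 h, Nat.cast_mul, mul_assoc,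
    ZMod.coe_mul_inv_eq_one _ hP, mul_one, ZMod.val_natCast, Nat.mod_eq_of_lt hy]

theorem rs_lin {t : ℕ} (ht : 0 < t) (P k : ℕ) : rs t P k ≡ k * rs t P 1 [MOD t] := by
  rw [← ZMod.natCast_eq_natCast_iff, Nat.cast_mul, rs_cast ht, rs_cast ht, Nat.cast_one, one_mul]

theorem rs_coprime {t P : ℕ} (ht : 0 < t) (hP : Nat.Coprime P t) : Nat.Coprime (rs t P 1) t :=
  Nat.coprime_of_mul_modEq_one P (rs_mul ht hP 1)

theorem rs_one (t k : ℕ) : rs t 1 k = k % t := by
  unfold rs
  rw [Nat.cast_one, ZMod.inv_one, mul_one, ZMod.val_natCast]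

/-! ### roots of unity -/

theorem ee_nat (u t : ℕ) : ee (u : ℕ) t = Complex.exp (2 * Real.pi * Complex.I / t) ^ u := by
  unfold ee
  rw [← Complex.exp_nat_mul]
  congr 1
  push_cast
  ring

theorem ee_congr {t u v : ℕ} (ht : 0 < t) (h : u ≡ v [MOD t]) : ee (u : ℕ) t = ee (v : ℕ) t := by
  rw [ee_nat, ee_nat]
  have h1 := (Complex.isPrimitiveRoot_exp t ht.ne').pow_eq_one
  rw [pow_eq_pow_mod u h1, pow_eq_pow_mod v h1, h]

theorem ee_mul (t u v : ℕ) : ee (u * v : ℕ) t = ee (u : ℕ) t ^ v := by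
  rw [ee_nat, ee_nat, pow_mul]

theorem ee_prim {t u : ℕ} (ht : 0 < t) (h : Nat.Coprime u t) : IsPrimitiveRoot (ee (u : ℕ) t) t := by
  rw [ee_nat]
  exact (Complex.isPrimitiveRoot_exp t ht.ne').pow_of_coprime u h

theorem prim_prod (s : Finset ℕ) (z : ℕ → ℂ) (t : ℕ → ℕ) (h : ∀ i ∈ s, IsPrimitiveRoot (z i) (t i))
    (hc : ∀ i ∈ s, ∀ i' ∈ s, i ≠ i' → Nat.Coprime (t i) (t i')) :
    IsPrimitiveRoot (∏ i ∈ s, z i) (∏ i ∈ s, t i) := by
  induction s using Finset.induction_on with
  | empty => simp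
  | insert i s hi ih =>
    have h1 := ih (fun i hi => h i (mem_insert_of_mem hi))
      fun i hi i' hi' => hc i (mem_insert_of_mem hi) i' (mem_insert_of_mem hi')
    have h2 := h i (mem_insert_self _ _)
    rw [prod_insert hi, prod_insert hi]
    rw [IsPrimitiveRoot.iff_orderOf] at h1 h2 ⊢
    rw [(Commute.all _ _).orderOf_mul_eq_mul_orderOf_of_coprime, h1, h2]
    rw [h1, h2]
    exact Nat.coprime_prod_right_iff.2 fun i' hi' =>
      hc i (mem_insert_self _ _) i' (mem_insert_of_mem hi') (fun h => hi (h ▸ hi'))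

theorem modEq_prod (s : Finset ℕ) (t : ℕ → ℕ) {k k' : ℕ} (h : ∀ i ∈ s, k ≡ k' [MOD t i])
    (hc : ∀ i ∈ s, ∀ i' ∈ s, i ≠ i' → Nat.Coprime (t i) (t i')) : k ≡ k' [MOD ∏ i ∈ s, t i] := by
  induction s using Finset.induction_on with
  | empty => simpa using Nat.modEq_one
  | insert i s hi ih =>
    have h1 := ih (fun i hi => h i (mem_insert_of_mem hi))
      fun i hi i' hi' => hc i (mem_insert_of_mem hi) i' (mem_insert_of_mem hi')
    rw [prod_insert hi]
    exact (Nat.modEq_and_modEq_iff_modEq_mul (Nat.coprime_prod_right_iff.2 fun i' hi' =>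
      hc i (mem_insert_self _ _) i' (mem_insert_of_mem hi') (fun h => hi (h ▸ hi')))).1
      ⟨h i (mem_insert_self _ _), h1⟩

theorem prod_getD (l : List ℕ) : ∏ i ∈ range l.length, l.getD i 0 = l.prod := by
  induction l with
  | nil => simp
  | cons x l ih =>
    rw [List.length_cons, prod_range_succ', List.prod_cons, mul_comm]
    simp only [List.getD_cons_succ, List.getD_cons_zero, ih]

/-! ### digits -/

theorem sum_lt {m d : ℕ} {r : ℕ → ℕ} (h : ∀ i < d, r i < 2 ^ m) :
    ∑ i ∈ range d, r i * 2 ^ (m * i) < 2 ^ (m * d) := by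
  induction d with
  | zero => simp
  | succ d ih =>
    have h1 := ih fun i hi => h i (by omega)
    have h2 : r d + 1 ≤ 2 ^ m := h d (by omega)
    rw [sum_range_succ, Nat.mul_succ, pow_add]
    nlinarith [Nat.mul_le_mul_right (2 ^ (m * d)) h2]

theorem dig_sum {m d : ℕ} {r : ℕ → ℕ} (h : ∀ i < d, r i < 2 ^ m) (top : ℕ) {i : ℕ} (hi : i < d) :
    dig (2 ^ (m * i)) (2 ^ m) (top * 2 ^ (m * d) + ∑ i ∈ range d, r i * 2 ^ (m * i)) = r i := by
  induction d generalizing top with
  | zero => omega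
  | succ d ih =>
    have e : top * 2 ^ (m * (d + 1)) + ∑ i ∈ range (d + 1), r i * 2 ^ (m * i) =
        (top * 2 ^ m + r d) * 2 ^ (m * d) + ∑ i ∈ range d, r i * 2 ^ (m * i) := by
      rw [sum_range_succ, Nat.mul_succ, pow_add]; ring
    rw [e]
    rcases Nat.lt_succ_iff_lt_or_eq.1 hi with h1 | h1
    · exact ih (fun i hi => h i (by omega)) _ h1
    · subst h1
      exact dig_mk _ (h i (by omega)) (sum_lt fun i hi => h i (by omega))

theorem div_sum {m d : ℕ} {r : ℕ → ℕ} (h : ∀ i < d, r i < 2 ^ m) (top : ℕ) :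
    (top * 2 ^ (m * d) + ∑ i ∈ range d, r i * 2 ^ (m * i)) / 2 ^ (m * d) = top := by
  rw [Nat.add_comm, Nat.add_mul_div_right _ _ (by positivity), Nat.div_eq_of_lt (sum_lt h),
    Nat.zero_add]

theorem mod_ext {m d b b' : ℕ}
    (h : ∀ i < d, dig (2 ^ (m * i)) (2 ^ m) b = dig (2 ^ (m * i)) (2 ^ m) b') :
    b % 2 ^ (m * d) = b' % 2 ^ (m * d) := by
  induction d with
  | zero => simp [Nat.mod_one]
  | succ d ih =>
    have h1 := h d (by omega)
    unfold dig at h1
    rw [Nat.mul_succ, pow_add, Nat.mod_mul, Nat.mod_mul, ih fun i hi => h i (by omega), h1]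

/-! ### the fields `0, …, ts.length` -/

section Fields

variable (K j : ℕ) (ts : List ℕ)

/-- place value -/
def lo (i : ℕ) : ℕ := 2 ^ ((K - 1) * i)
/-- size -/
def sz (i : ℕ) : ℕ := if i < ts.length then 2 ^ (K - 1) else 2 ^ j
/-- modulus -/
def md (i : ℕ) : ℕ := if i < ts.length then ts.getD i 0 else 2 ^ j
/-- the factor -/
def PP (i : ℕ) : ℕ := if i < ts.length then 2 ^ j * (ts.drop (i + 1)).prod else 1
/-- digit -/
def DD (i b : ℕ) : ℕ := dig (lo K i) (sz K j ts i) b
/-- valid, except perhaps in the field `i0` -/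
def vex (i0 b : ℕ) : Prop := b < 2 ^ ((K - 1) * ts.length + j) ∧
  ∀ i ≤ ts.length, i ≠ i0 → DD K j ts i b < md j ts i

variable {K j ts}

theorem lo_pos (i : ℕ) : 0 < lo K i := by unfold lo; positivity

theorem sz_pos (i : ℕ) : 0 < sz K j ts i := by unfold sz; split_ifs <;> positivity

theorem getD_mem {i : ℕ} (hi : i < ts.length) : ts.getD i 0 ∈ ts := by
  rw [List.getD_eq_getElem _ _ hi]; exact List.getElem_mem hi

theorem md_pos (h : TsOK K ts) (i : ℕ) : 0 < md j ts i := by
  unfold md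
  split_ifs with hi
  · have := (h.le _ (getD_mem hi)).1; omega
  · positivity

theorem md_le (h : TsOK K ts) (i : ℕ) : md j ts i ≤ sz K j ts i := by
  unfold md sz
  split_ifs with hi
  · exact (h.le _ (getD_mem hi)).2
  · exact le_rfl

theorem md_cop_lt (h : TsOK K ts) {i i' : ℕ} (hi : i < i') (hi' : i' ≤ ts.length) :
    Nat.Coprime (md j ts i) (md j ts i') := by
  unfold md
  have hi0 : i < ts.length := by omega
  rw [if_pos hi0]
  split_ifs with h1
  · rw [List.getD_eq_getElem _ _ hi0, List.getD_eq_getElem _ _ h1]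
    exact List.pairwise_iff_getElem.1 h.cop i i' hi0 h1 hi
  · exact Nat.Coprime.pow_right _ (h.odd _ (getD_mem hi0))

theorem md_cop (h : TsOK K ts) : ∀ i ∈ range (ts.length + 1), ∀ i' ∈ range (ts.length + 1),
    i ≠ i' → Nat.Coprime (md j ts i) (md j ts i') := by
  intro i hi i' hi' hne
  rw [mem_range] at hi hi'
  rcases lt_or_gt_of_ne hne with h1 | h1
  · exact md_cop_lt h h1 (by omega)
  · exact (md_cop_lt h h1 (by omega)).symm

theorem PP_cop (h : TsOK K ts) (i : ℕ) : Nat.Coprime (PP j ts i) (md j ts i) := by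
  unfold PP md
  split_ifs with hi
  · refine Nat.Coprime.mul_left (Nat.Coprime.pow_left _ (h.odd _ (getD_mem hi)).symm) ?_
    refine Nat.coprime_list_prod_left_iff.2 fun t ht => ?_
    obtain ⟨l, hl, rfl⟩ := List.getElem_of_mem ht
    rw [List.getElem_drop, List.getD_eq_getElem _ _ hi]
    rw [List.length_drop] at hl
    exact (List.pairwise_iff_getElem.1 h.cop i (i + 1 + l) hi (by omega) (by omega)).symm
  · exact Nat.coprime_one_left _

theorem prod_md : ∏ i ∈ range (ts.length + 1), md j ts i = 2 ^ j * ts.prod := by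
  rw [prod_range_succ, ← prod_getD, mul_comm]
  congr 1
  · unfold md; rw [if_neg (lt_irrefl _)]
  · exact prod_congr rfl fun i hi => by unfold md; rw [if_pos (mem_range.1 hi)]

theorem lo_sz_dvd {i i' : ℕ} (hi : i < i') (hi' : i' ≤ ts.length) :
    lo K i * sz K j ts i ∣ lo K i' := by
  unfold lo sz
  rw [if_pos (by omega)]
  exact two_pow_mul_dvd (by nlinarith)

theorem lo_sz_dvd_top {i : ℕ} (hi : i ≤ ts.length) :
    lo K i * sz K j ts i ∣ 2 ^ ((K - 1) * ts.length + j) := by
  rcases hi.lt_or_eq with h1 | h1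
  · exact (lo_sz_dvd h1 le_rfl).trans (two_pow_dvd (Nat.le_add_right _ _))
  · subst h1
    unfold lo sz
    rw [if_neg (lt_irrefl _), pow_add]

theorem DD_setDig_self {i k : ℕ} (hk : k < sz K j ts i) (b : ℕ) :
    DD K j ts i (setDig (lo K i) (sz K j ts i) b k) = k := dig_setDig (lo_pos i) hk b

theorem DD_setDig_ne {i i0 k : ℕ} (hi : i ≤ ts.length) (hi0 : i0 ≤ ts.length) (hne : i ≠ i0)
    (hk : k < sz K j ts i0) (b : ℕ) :
    DD K j ts i (setDig (lo K i0) (sz K j ts i0) b k) = DD K j ts i b := by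
  rcases lt_or_gt_of_ne hne with h1 | h1
  · exact dig_setDig_low (lo_pos i0) (lo_sz_dvd h1 hi0) _ _ _
  · exact dig_setDig_high (lo_pos i0) hk (lo_sz_dvd h1 hi) _ _

theorem valid_iff (b : ℕ) : valid K j ts b ↔ b < 2 ^ ((K - 1) * ts.length + j) ∧
    ∀ i ≤ ts.length, DD K j ts i b < md j ts i := by
  have e : b / 2 ^ ((K - 1) * ts.length) < 2 ^ j ↔ b < 2 ^ ((K - 1) * ts.length + j) := by
    rw [Nat.div_lt_iff_lt_mul (by positivity), pow_add, mul_comm]
  unfold valid
  rw [e, and_comm]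
  refine and_congr_right fun _ => ⟨fun h i hi => ?_, fun h i hi => ?_⟩
  · unfold DD md sz lo
    split_ifs with h1
    · exact h i h1
    · exact dig_lt (by positivity) _ _
  · have := h i hi.le
    unfold DD md sz lo at this
    rwa [if_pos hi, if_pos hi] at this

theorem valid_iff_vex {i0 : ℕ} (hi0 : i0 ≤ ts.length) (b : ℕ) :
    valid K j ts b ↔ DD K j ts i0 b < md j ts i0 ∧ vex K j ts i0 b := by
  rw [valid_iff]
  refine ⟨fun h => ⟨h.2 i0 hi0, h.1, fun i hi _ => h.2 i hi⟩, fun h => ⟨h.2.1, fun i hi => ?_⟩⟩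
  by_cases h1 : i = i0
  · rw [h1]; exact h.1
  · exact h.2.2 i hi h1

theorem vex_setDig {i0 k : ℕ} (hi0 : i0 ≤ ts.length) (hk : k < sz K j ts i0) (b : ℕ) :
    vex K j ts i0 (setDig (lo K i0) (sz K j ts i0) b k) ↔ vex K j ts i0 b := by
  unfold vex
  refine and_congr ?_ (forall_congr' fun i => forall_congr' fun hi => forall_congr' fun hne => ?_)
  · rw [← Nat.div_eq_zero_iff_lt (by positivity), ← Nat.div_eq_zero_iff_lt (by positivity),
      setDig_div_of_dvd (lo_pos i0) hk (lo_sz_dvd_top hi0)]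
  · rw [DD_setDig_ne hi hi0 hne hk]

theorem valid_setDig {i0 k : ℕ} (hi0 : i0 ≤ ts.length) (hk : k < sz K j ts i0) (b : ℕ) :
    valid K j ts (setDig (lo K i0) (sz K j ts i0) b k) ↔ k < md j ts i0 ∧ vex K j ts i0 b := by
  rw [valid_iff_vex hi0, DD_setDig_self hk, vex_setDig hi0 hk]

theorem DD_ext {b b' : ℕ} (hb : valid K j ts b) (hb' : valid K j ts b')
    (h : ∀ i ≤ ts.length, DD K j ts i b = DD K j ts i b') : b = b' := by
  have h1 : b % 2 ^ ((K - 1) * ts.length) = b' % 2 ^ ((K - 1) * ts.length) :=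
    mod_ext fun i hi => by
      have := h i hi.le
      unfold DD sz lo at this
      rwa [if_pos hi] at this
  have h2 := h _ le_rfl
  unfold DD sz lo dig at h2
  rw [if_neg (lt_irrefl _), Nat.mod_eq_of_lt hb.2, Nat.mod_eq_of_lt hb'.2] at h2
  rw [← Nat.div_add_mod b (2 ^ ((K - 1) * ts.length)), h1, h2, Nat.div_add_mod]

theorem resid_lt (h : TsOK K ts) (k : ℕ) : ∀ i < ts.length, resid j ts i k < ts.getD i 0 :=
  fun i hi => rs_lt (by have := (h.le _ (getD_mem hi)).1; omega) _ _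

theorem resid_lt' (h : TsOK K ts) (k : ℕ) : ∀ i < ts.length, resid j ts i k < 2 ^ (K - 1) :=
  fun i hi => (resid_lt h k i hi).trans_le (h.le _ (getD_mem hi)).2

theorem valid_phi (h : TsOK K ts) (k : ℕ) : valid K j ts (phi K j ts k) := by
  unfold phi
  refine ⟨fun i hi => ?_, ?_⟩
  · rw [dig_sum (resid_lt' h k) _ hi]
    exact resid_lt h k i hi
  · rw [div_sum (resid_lt' h k)]
    exact Nat.mod_lt _ (by positivity)

theorem DD_phi (h : TsOK K ts) (k : ℕ) {i : ℕ} (hi : i ≤ ts.length) :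
    DD K j ts i (phi K j ts k) = rs (md j ts i) (PP j ts i) k := by
  unfold DD md PP sz lo phi
  split_ifs with h1
  · rw [dig_sum (resid_lt' h k) _ h1]; rfl
  · have : i = ts.length := by omega
    subst this
    unfold dig
    rw [div_sum (resid_lt' h k), rs_one, Nat.mod_mod]

theorem phi_surj (h : TsOK K ts) {b : ℕ} (hb : valid K j ts b) :
    ∃ k < 2 ^ j * ts.prod, phi K j ts k = b := by
  have hs : ∀ i ∈ range (ts.length + 1), md j ts i ≠ 0 := fun i _ => (md_pos h i).ne'
  have pp : Set.Pairwise (range (ts.length + 1) : Finset ℕ)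
      (Function.onFun Nat.Coprime (md j ts)) := fun i hi i' hi' hne => md_cop h i hi i' hi' hne
  refine ⟨Nat.chineseRemainderOfFinset (fun i => DD K j ts i b * PP j ts i) (md j ts) _ hs pp,
    ?_, DD_ext (valid_phi h _) hb fun i hi => ?_⟩
  · rw [← prod_md]; exact Nat.chineseRemainderOfFinset_lt_prod _ _ hs pp
  · rw [DD_phi h _ hi]
    exact rs_eq (PP_cop h i) (((valid_iff b).1 hb).2 i hi)
      ((Nat.chineseRemainderOfFinset (fun i => DD K j ts i b * PP j ts i) (md j ts) _ hs pp).2 i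
        (mem_range.2 (by omega)))

theorem phi_inj (h : TsOK K ts) {k k' : ℕ} (hk : k < 2 ^ j * ts.prod) (hk' : k' < 2 ^ j * ts.prod)
    (e : phi K j ts k = phi K j ts k') : k = k' := by
  refine Nat.ModEq.eq_of_lt_of_lt ?_ hk hk'
  rw [← prod_md]
  refine modEq_prod _ _ (fun i hi => ?_) (md_cop h)
  have hi' : i ≤ ts.length := by have := mem_range.1 hi; omega
  have h1 := rs_mul (md_pos (j := j) h i) (PP_cop h i) k
  have h2 := rs_mul (md_pos (j := j) h i) (PP_cop h i) k'
  rw [← DD_phi h k hi', e, DD_phi h k' hi'] at h1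
  exact h1.symm.trans h2

/-- the transform on one field -/
noncomputable def st (K j : ℕ) (ts : List ℕ) (i : ℕ) (x : ℕ → ℂ) : ℕ → ℂ :=
  lift (lo K i) (sz K j ts i) (Ft (md j ts i)) x

theorem supp_st {i0 : ℕ} (hi0 : i0 ≤ ts.length) {x : ℕ → ℂ} (hx : Supp K j ts x) :
    Supp K j ts (st K j ts i0 x) := by
  intro b hb
  unfold st lift
  refine sum_eq_zero fun k hk => ?_
  have hk' := mem_range.1 hk
  by_cases hv : valid K j ts (setDig (lo K i0) (sz K j ts i0) b k)
  · rw [valid_setDig hi0 hk'] at hv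
    have h1 : ¬ DD K j ts i0 b < md j ts i0 := fun h => hb ((valid_iff_vex hi0 b).2 ⟨h, hv.2⟩)
    have h2 : Ft (md j ts i0) (DD K j ts i0 b) k = 0 := by
      unfold Ft
      rw [if_neg (fun h => h1 h.1), if_neg (fun h => h1 (by rw [h]; exact hv.1))]
    exact mul_eq_zero_of_left h2 _
  · rw [hx _ hv, mul_zero]

open Classical in
/-- the image of the basis vector at `b0` when the fields in `S` have been transformed -/
noncomputable def ker (K j : ℕ) (ts : List ℕ) (S : Finset ℕ) (b0 b : ℕ) : ℂ :=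
  if valid K j ts b ∧ ∀ i ≤ ts.length, i ∉ S → DD K j ts i b = DD K j ts i b0 then
    ∏ i ∈ S, ee (DD K j ts i b * DD K j ts i b0 : ℕ) (md j ts i) else 0

theorem st_ker (h : TsOK K ts) {S : Finset ℕ} (hS : ∀ i ∈ S, i ≤ ts.length) {i0 : ℕ}
    (hi0 : i0 ≤ ts.length) (hi : i0 ∉ S) {b0 : ℕ} (hb0 : valid K j ts b0) :
    st K j ts i0 (ker K j ts S b0) = ker K j ts (insert i0 S) b0 := by
  funext b
  have h0 : DD K j ts i0 b0 < md j ts i0 := ((valid_iff b0).1 hb0).2 i0 hi0
  have h1 : DD K j ts i0 b0 < sz K j ts i0 := h0.trans_le (md_le h i0)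
  unfold st lift
  rw [sum_eq_single (DD K j ts i0 b0)]
  · change Ft (md j ts i0) (DD K j ts i0 b) _ * _ = _
    unfold ker
    by_cases hb : DD K j ts i0 b < md j ts i0
    · have e1 : Ft (md j ts i0) (DD K j ts i0 b) (DD K j ts i0 b0) =
          ee (DD K j ts i0 b * DD K j ts i0 b0 : ℕ) (md j ts i0) := by
        unfold Ft; rw [if_pos ⟨hb, h0⟩]
      have e2 : (valid K j ts (setDig (lo K i0) (sz K j ts i0) b (DD K j ts i0 b0)) ∧
          ∀ i ≤ ts.length, i ∉ S →
            DD K j ts i (setDig (lo K i0) (sz K j ts i0) b (DD K j ts i0 b0)) = DD K j ts i b0) ↔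
          (valid K j ts b ∧ ∀ i ≤ ts.length, i ∉ insert i0 S → DD K j ts i b = DD K j ts i b0) := by
        rw [valid_setDig hi0 h1, valid_iff_vex hi0 b]
        refine and_congr (by simp [hb, h0]) ⟨fun H i hi1 hi2 => ?_, fun H i hi1 hi2 => ?_⟩
        · rw [mem_insert, not_or] at hi2
          rw [← H i hi1 hi2.2, DD_setDig_ne hi1 hi0 hi2.1 h1]
        · by_cases hne : i = i0
          · rw [hne, DD_setDig_self h1]
          · rw [DD_setDig_ne hi1 hi0 hne h1]
            exact H i hi1 (by rw [mem_insert, not_or]; exact ⟨hne, hi2⟩)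
      rw [e1, prod_insert hi]
      by_cases hc : valid K j ts b ∧
          ∀ i ≤ ts.length, i ∉ insert i0 S → DD K j ts i b = DD K j ts i b0
      · rw [if_pos (e2.2 hc), if_pos hc]
        congr 1
        refine prod_congr rfl fun i hiS => ?_
        rw [DD_setDig_ne (hS i hiS) hi0 (fun h => hi (h ▸ hiS)) h1]
      · rw [if_neg (fun h => hc (e2.1 h)), if_neg hc, mul_zero]
    · have e1 : Ft (md j ts i0) (DD K j ts i0 b) (DD K j ts i0 b0) = 0 := by
        unfold Ft
        rw [if_neg (fun h => hb h.1), if_neg (fun h => hb (by rw [h]; exact h0))]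
      rw [e1, zero_mul, if_neg (fun h => hb ((valid_iff_vex hi0 b).1 h.1).1)]
  · intro k hk hne
    unfold ker
    rw [if_neg, mul_zero]
    intro H
    exact hne ((DD_setDig_self (mem_range.1 hk) b).symm.trans (H.2 i0 hi0 hi))
  · intro H
    exact absurd (mem_range.2 h1) H

/-- the state when the fields in `S` have been transformed -/
noncomputable def YY (K j : ℕ) (ts : List ℕ) (x : ℕ → ℂ) (S : Finset ℕ) (b : ℕ) : ℂ :=
  ∑ k ∈ range (2 ^ j * ts.prod), x (phi K j ts k) * ker K j ts S (phi K j ts k) b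

theorem st_YY (h : TsOK K ts) (x : ℕ → ℂ) {S : Finset ℕ} (hS : ∀ i ∈ S, i ≤ ts.length) {i0 : ℕ}
    (hi0 : i0 ≤ ts.length) (hi : i0 ∉ S) :
    st K j ts i0 (YY K j ts x S) = YY K j ts x (insert i0 S) := by
  funext b
  unfold YY
  simp only [← fun k => st_ker h hS hi0 hi (valid_phi (j := j) h k)]
  simp only [st, lift, mul_sum]
  rw [sum_comm]
  exact sum_congr rfl fun k _ => sum_congr rfl fun l _ => by ring

theorem YY_empty (h : TsOK K ts) {x : ℕ → ℂ} (hx : Supp K j ts x) : YY K j ts x ∅ = x := by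
  funext b
  unfold YY ker
  by_cases hb : valid K j ts b
  · obtain ⟨k, hk, rfl⟩ := phi_surj h hb
    rw [sum_eq_single k]
    · rw [if_pos ⟨hb, fun _ _ _ => rfl⟩]; simp
    · intro k' hk' hne
      rw [if_neg, mul_zero]
      intro H
      exact hne (phi_inj h (mem_range.1 hk') hk
        (DD_ext (valid_phi h k') hb fun i hi => (H.2 i hi (notMem_empty _)).symm))
    · intro H; exact absurd (mem_range.2 hk) H
  · rw [hx b hb]
    exact sum_eq_zero fun k _ => by rw [if_neg (fun H => hb H.1), mul_zero]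

/-- the root of unity -/
noncomputable def zeta (j : ℕ) (ts : List ℕ) : ℂ :=
  ∏ i ∈ range (ts.length + 1),
    ee (rs (md j ts i) (PP j ts i) 1 * rs (md j ts i) (PP j ts i) 1 : ℕ) (md j ts i)

theorem zeta_prim (h : TsOK K ts) : IsPrimitiveRoot (zeta j ts) (2 ^ j * ts.prod) := by
  rw [← prod_md]
  exact prim_prod _ _ _ (fun i _ => ee_prim (md_pos h i) (Nat.Coprime.mul_left
    (rs_coprime (md_pos h i) (PP_cop h i)) (rs_coprime (md_pos h i) (PP_cop h i)))) (md_cop h)

theorem YY_full (h : TsOK K ts) (x : ℕ → ℂ) (k' : ℕ) :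
    YY K j ts x (range (ts.length + 1)) (phi K j ts k') =
      ∑ k ∈ range (2 ^ j * ts.prod), x (phi K j ts k) * zeta j ts ^ (k * k') := by
  unfold YY ker zeta
  refine sum_congr rfl fun k _ => ?_
  rw [if_pos ⟨valid_phi h k', fun i hi hi' => absurd (mem_range.2 (by omega)) hi'⟩, ← prod_pow]
  congr 1
  refine prod_congr rfl fun i hi => ?_
  have hi' : i ≤ ts.length := by have := mem_range.1 hi; omega
  rw [DD_phi h _ hi', DD_phi h _ hi', ← ee_mul]
  refine ee_congr (md_pos h i) ?_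
  have := (rs_lin (md_pos (j := j) h i) (PP j ts i) k').mul (rs_lin (md_pos (j := j) h i) (PP j ts i) k)
  refine this.trans ?_
  rw [show k' * rs (md j ts i) (PP j ts i) 1 * (k * rs (md j ts i) (PP j ts i) 1) =
    rs (md j ts i) (PP j ts i) 1 * rs (md j ts i) (PP j ts i) 1 * (k * k') by ring]

theorem liftS_succ (e : ℕ) (_he : e ≤ 1) {a : ℕ} (ha : 2 * a + e < ts.length) (x : ℕ → ℂ) :
    liftS ((K - 1) * e) (2 * K - 2) (2 ^ (K - 1)) (fun i => Ft (ts.getD (2 * i + e) 0)) (a + 1) x =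
      st K j ts (2 * a + e) (liftS ((K - 1) * e) (2 * K - 2) (2 ^ (K - 1))
        (fun i => Ft (ts.getD (2 * i + e) 0)) a x) := by
  unfold st lo sz md
  rw [if_pos ha, if_pos ha, liftS]
  congr 2
  rw [show 2 * K - 2 = 2 * (K - 1) by omega]
  ring

theorem supp_liftS (e : ℕ) (he : e ≤ 1) {a : ℕ} (ha : 2 * a ≤ ts.length) {x : ℕ → ℂ}
    (hx : Supp K j ts x) : Supp K j ts
      (liftS ((K - 1) * e) (2 * K - 2) (2 ^ (K - 1)) (fun i => Ft (ts.getD (2 * i + e) 0)) a x) := by
  induction a with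
  | zero => exact hx
  | succ a ih =>
    rw [liftS_succ (j := j) e he (by omega)]
    exact supp_st (by omega) (ih (by omega))

theorem liftS_YY (h : TsOK K ts) (x : ℕ → ℂ) (e : ℕ) (he : e ≤ 1) {a : ℕ} (ha : 2 * a ≤ ts.length)
    {S : Finset ℕ} (hS : ∀ i ∈ S, i ≤ ts.length) (hSe : ∀ i ∈ S, i % 2 ≠ e) :
    liftS ((K - 1) * e) (2 * K - 2) (2 ^ (K - 1)) (fun i => Ft (ts.getD (2 * i + e) 0)) a
      (YY K j ts x S) = YY K j ts x (S ∪ (range (2 * a)).filter fun i => i % 2 = e) := by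
  induction a with
  | zero => simp [liftS]
  | succ a ih =>
    rw [liftS_succ (j := j) e he (by omega), ih (by omega), st_YY h x _ (by omega)]
    · congr 1
      ext i
      simp only [mem_insert, mem_union, mem_filter, mem_range]
      constructor
      · rintro (h1 | h1 | h1)
        · right; omega
        · left; exact h1
        · right; omega
      · rintro (h1 | h1)
        · right; left; exact h1
        · by_cases h2 : i = 2 * a + e
          · left; exact h2
          · right; right; omega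
    · simp only [mem_union, mem_filter, mem_range, not_or]
      exact ⟨fun h1 => hSe _ h1 (by omega), by omega⟩
    · intro i hi
      simp only [mem_union, mem_filter, mem_range] at hi
      rcases hi with h1 | h1
      · exact hS i h1
      · omega

theorem dftE_eq (K a : ℕ) (ts : List ℕ) : dftE K a ts =
    liftS ((K - 1) * 0) (2 * K - 2) (2 ^ (K - 1)) (fun i => Ft (ts.getD (2 * i + 0) 0)) a := rfl

theorem dftO_eq (K a : ℕ) (ts : List ℕ) : dftO K a ts =
    liftS ((K - 1) * 1) (2 * K - 2) (2 ^ (K - 1)) (fun i => Ft (ts.getD (2 * i + 1) 0)) a := by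
  rw [mul_one]; rfl

theorem dftT_eq {a : ℕ} (hl : ts.length = 2 * a) (x : ℕ → ℂ) :
    dftT K a j x = st K j ts ts.length x := by
  unfold dftT st lo sz md
  rw [if_neg (lt_irrefl _), if_neg (lt_irrefl _), hl]

end Fields

end CrtMath

open CrtMath in
theorem crtMath_spec : CrtMathSpec := by
  intro K a j ts _ h hl
  refine ⟨valid_phi h, fun b hb => ⟨((valid_iff b).1 hb).1, phi_surj h hb⟩,
    fun k hk k' hk' e => phi_inj h hk hk' e, fun x hx => ⟨?_, ?_, ?_⟩,
    zeta j ts, zeta_prim h, fun x hx k' => ?_⟩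
  · rw [dftE_eq]; exact supp_liftS 0 (by omega) hl.ge hx
  · rw [dftO_eq]; exact supp_liftS 1 le_rfl hl.ge hx
  · rw [dftT_eq hl]; exact supp_st le_rfl hx
  · rw [← YY_full h x k', dftAll, dftT_eq hl, dftO_eq, dftE_eq]
    conv_lhs => rw [← YY_empty h hx]
    rw [liftS_YY h x 0 (by omega) hl.ge (by simp) (by simp), liftS_YY h x 1 le_rfl hl.ge,
      st_YY h x _ le_rfl]
    · congr 1
      ext i
      simp only [mem_insert, mem_union, mem_filter, mem_range, notMem_empty, false_or]
      omega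
    · simp only [mem_union, mem_filter, mem_range, notMem_empty, false_or]
      omega
    · intro i hi
      simp only [mem_union, mem_filter, mem_range, notMem_empty, false_or] at hi
      omega
    · intro i hi
      simp only [mem_union, mem_filter, mem_range, notMem_empty, false_or] at hi
      omega
    · intro i hi
      simp only [mem_union, mem_filter, mem_range, notMem_empty, false_or] at hi
      omega

end Crest.Agent.R326
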