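import Crest.Agent.R326.SpecA

/-!
# Execution of straight-line programs on the segments of an array
-/

set_option autoImplicit false

namespace Crest.Agent.R326

namespace ExecP

variable {G : Type}

/-- the array without its first `w` segments; there are `k` values in front of it -/
def dropT (k : ℕ) : ℕ → Tm
  | 0 => .var k
  | w + 1 => .drop (.var (k + 1)) (dropT k w)

/-- the segment number `w` -/
def segT (k w : ℕ) : Tm := .take (.var (k + 1)) (dropT k w)

/-- bind the segments `r - 1, …, 0` -/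
def loadT (body : Tm) : ℕ → ℕ → Tm
  | 0, _ => body
  | r + 1, k => .lett (segT k r) (loadT body r (k + 1))

/-- one instruction -/
def insT (tAdd tSub tHalf : Tm) (tGen : G → Tm) (k : ℕ) : Instr G → Tm
  | .add i j => .lett (.var j) (.lett (.var (i + 1)) (.skip 2 (k + 2) tAdd))
  | .sub i j => .lett (.var j) (.lett (.var (i + 1)) (.skip 2 (k + 2) tSub))
  | .half i => .lett (.var i) (.skip 1 (k + 2) tHalf)
  | .gen g i => .lett (.var i) (.skip 1 (k + 2) (tGen g))

/-- concatenation of variables -/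
def outT : List ℕ → Tm
  | [] => .nil
  | i :: l => .app (.var i) (outT l)

/-- a program followed by the output -/
def progT (tAdd tSub tHalf : Tm) (tGen : G → Tm) (outs : List ℕ) : List (Instr G) → ℕ → Tm
  | [], _ => outT outs
  | ins :: p, k => .lett (insT tAdd tSub tHalf tGen k ins) (progT tAdd tSub tHalf tGen outs p (k + 1))

variable {W : ℕ} {fn : Option Tm}

theorem pv_dropT (vals : Env) (X : List ℕ) (n : ℕ) (env : Env) (w : ℕ) :
    Pv W fn (vals ++ X :: [n] :: env) (dropT vals.length w) (X.drop (w * n))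
      (X.length + 1 + w * (4 * X.length + 41 * n + 25)) := by
  induction w with
  | zero => exact (Pv.var (x := X) (by simp)).cast (by simp) (by simp)
  | succ w ih =>
    refine (Pv.drop (N := n) (Pv.varS (by simp)) ih).cast ?_ ?_
    · rw [List.drop_drop, Nat.add_mul, one_mul]
    · have : ((X.drop (w * n)).length : ℝ) ≤ X.length := by exact_mod_cast (by simp)
      push_cast
      linarith

theorem pv_segT (vals : Env) (X : List ℕ) (n : ℕ) (env : Env) (w : ℕ) :
    Pv W fn (vals ++ X :: [n] :: env) (segT vals.length w) (chunk n X w)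
      (2 * X.length + 41 * n + 24 + w * (4 * X.length + 41 * n + 25)) := by
  refine (Pv.take (N := n) (Pv.varS (by simp)) (pv_dropT vals X n env w)).cast rfl ?_
  have : ((X.drop (w * n)).length : ℝ) ≤ X.length := by exact_mod_cast (by simp)
  linarith

theorem pv_loadT {body : Tm} {X Y : List ℕ} {n : ℕ} {env : Env} {c : ℝ} (R : ℕ) (r : ℕ)
    (hr : r ≤ R) (vals : Env)
    (h : Pv W fn (((List.range r).map (chunk n X) ++ vals) ++ X :: [n] :: env) body Y c) :
    Pv W fn (vals ++ X :: [n] :: env) (loadT body r vals.length) Y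
      (c + r * (2 * X.length + 42 * n + Y.length + 25 + R * (4 * X.length + 41 * n + 25))) := by
  induction r generalizing vals with
  | zero => exact h.cast rfl (by simp)
  | succ r ih =>
    have h1 := ih (by omega) (chunk n X r :: vals) (by simpa [List.range_succ] using h)
    refine (Pv.lett (pv_segT vals X n env r) h1).mono ?_
    have h2 : ((chunk n X r).length : ℝ) ≤ n := by exact_mod_cast chunk_length_le n X r
    have h3 : (r : ℝ) * (4 * X.length + 41 * n + 25) ≤ R * (4 * X.length + 41 * n + 25) := by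
      have : (r : ℝ) ≤ R := by exact_mod_cast (by omega : r ≤ R)
      gcongr
    push_cast
    linarith

variable {A : Type} [AddCommGroup A] {Rp : List ℕ → A → Prop}

theorem get_of_forall₂ {vals : Env} {as : List A} (h : List.Forall₂ Rp vals as) {i : ℕ}
    (hi : i < vals.length) : ∃ x, vals[i]? = some x ∧ Rp x (as.getD i 0) := by
  induction h generalizing i with
  | nil => simp at hi
  | cons h _ ih =>
    cases i with
    | zero => exact ⟨_, rfl, h⟩
    | succ i => simpa using ih (i := i) (by simpa using hi)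

theorem chunk_append_zero {n : ℕ} {x : List ℕ} (hx : x.length = n) (Y : List ℕ) :
    chunk n (x ++ Y) 0 = x := by
  simp [chunk, ← hx]

theorem chunk_append_succ {n : ℕ} {x : List ℕ} (hx : x.length = n) (Y : List ℕ) (w : ℕ) :
    chunk n (x ++ Y) (w + 1) = chunk n Y w := by
  subst hx
  unfold chunk
  rw [Nat.add_mul, one_mul, Nat.add_comm, ← List.drop_drop, List.drop_left]

theorem pv_outT {n : ℕ} (hl : ∀ x f, Rp x f → x.length = n) {vals : Env} {as : List A}
    (h : List.Forall₂ Rp vals as) (rest : Env) (outs : List ℕ)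
    (ho : ∀ i ∈ outs, i < vals.length) :
    ∃ Y, Y.length = outs.length * n ∧
      (∀ w < outs.length, Rp (chunk n Y w) ((outs.map fun i => as.getD i 0).getD w 0)) ∧
      Pv W fn (vals ++ rest) (outT outs) Y
        ((outs.length * (4 * outs.length + 11) + 1) * (n + 1)) := by
  induction outs with
  | nil => exact ⟨[], by simp, by simp, Pv.nil.mono (by simp)⟩
  | cons i l ih =>
    obtain ⟨Y, h1, h2, h3⟩ := ih fun j hj => ho j (by simp [hj])
    have hi := ho i (by simp)
    obtain ⟨x, hx, hR⟩ := get_of_forall₂ h hi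
    have hn := hl x _ hR
    refine ⟨x ++ Y, by simp [h1, hn, Nat.add_mul, Nat.add_comm], fun w hw => ?_, ?_⟩
    · cases w with
      | zero => rw [chunk_append_zero hn]; exact hR
      | succ w => rw [chunk_append_succ hn]; exact h2 w (by simpa using hw)
    · refine (Pv.app (Pv.var (x := x) (by rw [List.getElem?_append_left hi, hx])) h3).mono ?_
      rw [h1, hn, List.length_cons]
      have : (0 : ℝ) ≤ n := by positivity
      have : (0 : ℝ) ≤ l.length := by positivity
      push_cast
      nlinarith [mul_nonneg this ‹(0 : ℝ) ≤ n›]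

variable {tAdd tSub tHalf : Tm} {tGen : G → Tm} {env : Env} {X : List ℕ} {n : ℕ} {hf : A → A}
  {ρ : G → A → A} {κ : G → ℝ} {κ0 : ℝ}

theorem pv_bin {t : Tm} {vals : Env} {x y z : List ℕ} {i j : ℕ} (hi : vals[i]? = some x)
    (hj : vals[j]? = some y) (h : Pv W fn (x :: y :: env) t z κ0) :
    Pv W fn (vals ++ X :: [n] :: env)
      (.lett (.var j) (.lett (.var (i + 1)) (.skip 2 (vals.length + 2) t))) z
      (κ0 + 2 * x.length + 2 * y.length + 2 * z.length + 4) := by
  have hi' := (List.getElem?_eq_some_iff.1 hi).1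
  have hj' := (List.getElem?_eq_some_iff.1 hj).1
  have h1 : Pv W fn (x :: y :: (vals ++ X :: [n] :: env)) (.skip 2 (vals.length + 2) t) z κ0 := by
    have := Ev.skip (W := W) (fn := fn) (A := [x, y]) (B := vals ++ [X, [n]]) (C := env)
      (A' := [x, y]) (C' := env) (j := 2) (k := vals.length + 2) rfl (by simp) rfl h
    simpa using this
  refine (Pv.lett (Pv.var (x := y) (by rw [List.getElem?_append_left hj', hj]))
    (Pv.lett (Pv.var (x := x) (by
      rw [List.getElem?_cons_succ, List.getElem?_append_left hi', hi])) h1)).mono ?_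
  linarith

theorem pv_un {t : Tm} {vals : Env} {x z : List ℕ} {i : ℕ} {c : ℝ} (hi : vals[i]? = some x)
    (h : Pv W fn (x :: env) t z c) :
    Pv W fn (vals ++ X :: [n] :: env) (.lett (.var i) (.skip 1 (vals.length + 2) t)) z
      (c + 2 * x.length + z.length + 2) := by
  have hi' := (List.getElem?_eq_some_iff.1 hi).1
  have h1 : Pv W fn (x :: (vals ++ X :: [n] :: env)) (.skip 1 (vals.length + 2) t) z c := by
    have := Ev.skip (W := W) (fn := fn) (A := [x]) (B := vals ++ [X, [n]]) (C := env)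
      (A' := [x]) (C' := env) (j := 1) (k := vals.length + 2) rfl (by simp) rfl h
    simpa using this
  refine (Pv.lett (Pv.var (x := x) (by rw [List.getElem?_append_left hi', hi])) h1).mono ?_
  linarith

theorem pv_insT (h0 : 0 ≤ κ0) (hl : ∀ x f, Rp x f → x.length = n)
    (hA : ∀ x y f g, Rp x f → Rp y g → ∃ z, Rp z (f + g) ∧ Pv W fn (x :: y :: env) tAdd z κ0)
    (hS : ∀ x y f g, Rp x f → Rp y g → ∃ z, Rp z (f - g) ∧ Pv W fn (x :: y :: env) tSub z κ0)
    (hH : ∀ x f, Rp x f → ∃ z, Rp z (hf f) ∧ Pv W fn (x :: env) tHalf z κ0)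
    (ins : Instr G) (hG : ∀ g i, ins = .gen g i → ∀ x f, Rp x f →
      ∃ z, Rp z (ρ g f) ∧ Pv W fn (x :: env) (tGen g) z (κ g))
    {vals : Env} {as : List A} (h : List.Forall₂ Rp vals as) (hok : ins.ok vals.length) :
    ∃ z, Rp z (ins.ev hf ρ as) ∧ Pv W fn (vals ++ X :: [n] :: env)
      (insT tAdd tSub tHalf tGen vals.length ins) z (ins.cost κ + κ0 + 6 * n + 4) := by
  have hn : (0 : ℝ) ≤ n := by positivity
  cases ins with
  | add i j =>
    obtain ⟨x, hx, rx⟩ := get_of_forall₂ h hok.1
    obtain ⟨y, hy, ry⟩ := get_of_forall₂ h hok.2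
    obtain ⟨z, rz, hz⟩ := hA x y _ _ rx ry
    refine ⟨z, rz, (pv_bin hx hy hz).mono ?_⟩
    rw [hl _ _ rx, hl _ _ ry, hl _ _ rz]
    simp only [Instr.cost]
    linarith
  | sub i j =>
    obtain ⟨x, hx, rx⟩ := get_of_forall₂ h hok.1
    obtain ⟨y, hy, ry⟩ := get_of_forall₂ h hok.2
    obtain ⟨z, rz, hz⟩ := hS x y _ _ rx ry
    refine ⟨z, rz, (pv_bin hx hy hz).mono ?_⟩
    rw [hl _ _ rx, hl _ _ ry, hl _ _ rz]
    simp only [Instr.cost]
    linarith
  | half i =>
    obtain ⟨x, hx, rx⟩ := get_of_forall₂ h hok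
    obtain ⟨z, rz, hz⟩ := hH x _ rx
    refine ⟨z, rz, (pv_un hx hz).mono ?_⟩
    rw [hl _ _ rx, hl _ _ rz]
    simp only [Instr.cost]
    linarith
  | gen g i =>
    obtain ⟨x, hx, rx⟩ := get_of_forall₂ h hok
    obtain ⟨z, rz, hz⟩ := hG g i rfl x _ rx
    refine ⟨z, rz, (pv_un hx hz).mono ?_⟩
    rw [hl _ _ rx, hl _ _ rz]
    simp only [Instr.cost]
    linarith

theorem pv_progT (h0 : 0 ≤ κ0) (hl : ∀ x f, Rp x f → x.length = n)
    (hA : ∀ x y f g, Rp x f → Rp y g → ∃ z, Rp z (f + g) ∧ Pv W fn (x :: y :: env) tAdd z κ0)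
    (hS : ∀ x y f g, Rp x f → Rp y g → ∃ z, Rp z (f - g) ∧ Pv W fn (x :: y :: env) tSub z κ0)
    (hH : ∀ x f, Rp x f → ∃ z, Rp z (hf f) ∧ Pv W fn (x :: env) tHalf z κ0)
    (outs : List ℕ) (p : List (Instr G)) (hG : ∀ g i, Instr.gen g i ∈ p → ∀ x f, Rp x f →
      ∃ z, Rp z (ρ g f) ∧ Pv W fn (x :: env) (tGen g) z (κ g))
    {vals : Env} {as : List A} (h : List.Forall₂ Rp vals as) (hw : WF p vals.length)
    (ho : ∀ i ∈ outs, i < vals.length + p.length) :
    ∃ Y, Y.length = outs.length * n ∧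
      (∀ w < outs.length,
        Rp (chunk n Y w) ((outs.map fun i => (run hf ρ p as).getD i 0).getD w 0)) ∧
      Pv W fn (vals ++ X :: [n] :: env) (progT tAdd tSub tHalf tGen outs p vals.length) Y
        ((p.map (Instr.cost κ)).sum + p.length * (κ0 + 7 * n + outs.length * n + 5) +
          (outs.length * (4 * outs.length + 11) + 1) * (n + 1)) := by
  induction p generalizing vals as with
  | nil =>
    obtain ⟨Y, h1, h2, h3⟩ := pv_outT (W := W) (fn := fn) hl h (X :: [n] :: env) outs
      (by simpa using ho)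
    exact ⟨Y, h1, h2, h3.mono (by simp)⟩
  | cons ins p ih =>
    obtain ⟨z, rz, hz⟩ := pv_insT (X := X) (κ := κ) h0 hl hA hS hH ins
      (fun g i e => hG g i (by simp [e])) h hw.1
    obtain ⟨Y, h1, h2, h3⟩ := ih (fun g i hi => hG g i (by simp [hi])) (.cons rz h) hw.2
      (fun i hi => by have := ho i hi; simp only [List.length_cons] at this ⊢; omega)
    refine ⟨Y, h1, h2, (Pv.lett hz h3).mono ?_⟩
    rw [h1, hl _ _ rz]
    simp only [List.map_cons, List.sum_cons, List.length_cons]
    push_cast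
    linarith

end ExecP

open ExecP in
theorem exec_spec : ExecSpec := by
  intro G W0 N tAdd tSub tHalf tGen
  refine ⟨loadT (progT tAdd tSub tHalf tGen N.outs N.prog W0) W0 0,
    N.prog.length * (W0 + 7) + (W0 * (4 * W0 + 11) + 1) + W0 * (3 * W0 + 42 + W0 * (4 * W0 + 41)),
    ?_⟩
  intro W fn env X n A _ hf ρ Rp κ κ0 xs _ h0 hX hxs hl hin hA hS hH hG
  have hv : List.Forall₂ Rp ((List.range W0).map (chunk n X)) xs := by
    rw [List.forall₂_iff_get]
    refine ⟨by simp [hxs], fun i h1 h2 => ?_⟩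
    have := hin i (by simpa using h1)
    rw [List.getD_eq_getElem _ _ h2] at this
    simpa using this
  obtain ⟨Y, h1, h2, h3⟩ := pv_progT (X := X) (κ := κ) h0 hl hA hS hH N.outs N.prog hG hv
    (by simpa using N.wf) (by simpa using N.outs_lt)
  rw [N.outs_len] at h1 h2 h3
  refine ⟨Y, h1, h2, ?_⟩
  rw [List.length_map, List.length_range] at h3
  refine (pv_loadT W0 W0 le_rfl [] (by simpa using h3)).mono ?_
  rw [h1, hX]
  unfold NetProg.cost
  have hn : (0 : ℝ) ≤ n := by positivity
  have hW : (0 : ℝ) ≤ W0 := by positivity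
  have hP : (0 : ℝ) ≤ N.prog.length := by positivity
  have a1 : κ0 + 7 * n + W0 * n + 5 ≤ (W0 + 7) * (κ0 + n + 1) := by nlinarith
  have a2 : (4 : ℝ) * (W0 * n) + 41 * n + 25 ≤ (4 * W0 + 41) * (κ0 + n + 1) := by nlinarith
  have a3 : (2 : ℝ) * (W0 * n) + 42 * n + W0 * n + 25 ≤ (3 * W0 + 42) * (κ0 + n + 1) := by
    nlinarith
  have b1 := mul_le_mul_of_nonneg_left a1 hP
  have b2 := mul_le_mul_of_nonneg_left (add_le_add a3 (mul_le_mul_of_nonneg_left a2 hW)) hW
  have b3 : ((W0 : ℝ) * (4 * W0 + 11) + 1) * (n + 1) ≤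
      (W0 * (4 * W0 + 11) + 1) * (κ0 + n + 1) := by gcongr; linarith
  push_cast
  linarith

end Crest.Agent.R326
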