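import Crest.Agent.R326.FftMath

/-!
# The transforms of order `2 ^ K`, layer by layer
-/

set_option autoImplicit false

namespace Crest.Agent.R326

open Finset

namespace Fft

variable {W : ℕ} {fn : Option Tm}

/-- the table of a diagonal matrix; arguments `Om, K, a, l, m` -/
def tT : Tm :=
  .repl (.var 2) (.tab (.pow2 (.add (.var 1) (.const 1)))
    (.nth (.var 1) (.low (.mul
      (.add (.pow2 (.sub (.var 2) (.const 2)))
        (.shl (.mul (.var 5) (.low (.var 0) (.var 4)))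
          (.sub (.sub (.var 2) (.const 1)) (.var 4))))
      (.bits (.var 0) (.var 4) (.const 1))) (.var 2))))

/-- its value -/
def tabL (Om : List ℕ) (K a l m : ℕ) : List ℕ :=
  (List.range a).flatMap fun _ => (List.range (2 ^ (K + 1))).map fun x => Om.getD (idx K l m x) 0

theorem tabL_length (Om : List ℕ) (K a l m : ℕ) : (tabL Om K a l m).length = a * 2 ^ (K + 1) :=
  length_flatMap_eq fun _ _ => by simp

theorem tabL_app {Om : List ℕ} {h p K : ℕ}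
    (hOm : App h p 2 (2 ^ K) (fun _ => True) Om (fun m => ee m (2 ^ K))) (a l m : ℕ) :
    App h p 2 (a * 2 ^ (K + 1)) (fun _ => True) (tabL Om K a l m)
      (fun b => (fun _ => ph K l m) (b / 2 ^ (K + 1)) (b % 2 ^ (K + 1))) := by
  have key : ∀ b < a * 2 ^ (K + 1),
      (tabL Om K a l m).getD b 0 = Om.getD (idx K l m (b % 2 ^ (K + 1))) 0 := fun b hb => by
    rw [tabL, getD_flatMap' (L := 2 ^ (K + 1)) (fun _ _ => by simp) hb,
      getD_map_range _ (Nat.mod_lt _ (by positivity))]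
  refine ⟨tabL_length _ _ _ _ _, forall_mem_of_getD fun b hb => ?_, fun b hb _ => ?_⟩
  · rw [key b (by rwa [tabL_length] at hb)]
    exact getD_lt (Qm_pos h) hOm.2.1 _
  · rw [key b hb]
    exact hOm.2.2 _ (Nat.mod_lt _ (by positivity)) trivial

theorem tT_ev {Om : List ℕ} {K a l m : ℕ} (env : Env) (hW : 8 ≤ W) (hK : 2 * K + 2 ≤ W)
    (ha : a ≤ W) (hl : l < K) (hm : m < 2 ^ K) (hOm : Om.length = 2 ^ K) :
    Pv W fn ([Om, [K], [a], [l], [m]] ++ env) tT (tabL Om K a l m)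
      (3000 * ((2 : ℝ) ^ K + W + 1) ^ 3) := by
  have hWW : W < 2 ^ W := Nat.lt_two_pow_self
  have hp : ∀ {n}, n < W → 2 ^ n < 2 ^ W := fun h => Nat.pow_lt_pow_right (by norm_num) h
  have h2K : (0 : ℝ) < 2 ^ K := by positivity
  have hW0 : (0 : ℝ) ≤ W := by positivity
  set Z : ℝ := (2 : ℝ) ^ K + W + 1 with hZ
  have hZ1 : 1 ≤ Z := by linarith
  have body : ∀ x < 2 ^ (K + 1), Pv W fn ([x] :: Om :: [K] :: [a] :: [l] :: [m] :: env)
      (.nth (.var 1) (.low (.mul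
        (.add (.pow2 (.sub (.var 2) (.const 2)))
          (.shl (.mul (.var 5) (.low (.var 0) (.var 4)))
            (.sub (.sub (.var 2) (.const 1)) (.var 4))))
        (.bits (.var 0) (.var 4) (.const 1))) (.var 2)))
      [Om.getD (idx K l m x) 0] (1000 * Z) := by
    intro x _
    have h1 : x % 2 ^ l < 2 ^ l := Nat.mod_lt _ (by positivity)
    have h2 : m * (x % 2 ^ l) * 2 ^ (K - 1 - l) ≤ 2 ^ (2 * K) := by
      calc m * (x % 2 ^ l) * 2 ^ (K - 1 - l) ≤ 2 ^ K * 2 ^ l * 2 ^ (K - 1 - l) := by gcongr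
        _ ≤ 2 ^ (2 * K) := by
          rw [← pow_add, ← pow_add]; exact Nat.pow_le_pow_right (by norm_num) (by omega)
    have h3 : m * (x % 2 ^ l) ≤ m * (x % 2 ^ l) * 2 ^ (K - 1 - l) :=
      Nat.le_mul_of_pos_right _ (by positivity)
    have h4 : 2 ^ (K - 2) ≤ 2 ^ (2 * K) := Nat.pow_le_pow_right (by norm_num) (by omega)
    have h5 : 2 ^ (2 * K) + 2 ^ (2 * K) < 2 ^ W := by
      rw [← two_mul, ← pow_succ']; exact hp (by omega)
    have h6 : x / 2 ^ l % 2 ^ 1 ≤ 1 := by omega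
    have h7 : (2 ^ (K - 2) + m * (x % 2 ^ l) * 2 ^ (K - 1 - l)) * (x / 2 ^ l % 2 ^ 1) ≤
        2 ^ (K - 2) + m * (x % 2 ^ l) * 2 ^ (K - 1 - l) := by
      exact (Nat.mul_le_mul_left _ h6).trans_eq (mul_one _)
    have h8 : ((idx K l m x : ℕ) : ℝ) ≤ 2 ^ K := by
      have : idx K l m x < 2 ^ K := Nat.mod_lt _ (by positivity)
      exact_mod_cast this.le
    apply Pv.cast
    · pv <;> omega
    · rfl
    · change _ + 41 * ((idx K l m x : ℕ) : ℝ) + _ ≤ _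
      rw [hOm]
      push_cast
      linarith
  have h1 := Pv.repl (W := W) (fn := fn) (e := Om :: [K] :: [a] :: [l] :: [m] :: env)
    (n := .var 2) (Pv.varS rfl)
    (Pv.tab (Pv.pow2 (Pv.add (a := .var 1) (Pv.varS rfl) (Pv.constS (c := 1) hW (by norm_num))
      (by omega)) (by omega)) body)
  refine Pv.mono h1 ?_
  simp only [List.length_map, List.length_range]
  push_cast
  have ha' : (a : ℝ) ≤ Z := by
    have : (a : ℝ) ≤ W := by exact_mod_cast ha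
    linarith
  have h2 : (2 : ℝ) ^ (K + 1) ≤ 2 * Z := by rw [pow_succ]; linarith
  have h3 : Z ≤ Z ^ 2 := by nlinarith
  have h4 : Z ^ 2 ≤ Z ^ 3 := by nlinarith
  have h5 : (2 : ℝ) ^ (K + 1) * (1000 * Z + 33) ≤ 2 * Z * (1000 * Z + 33) := by gcongr
  have h6 : (2 + 2 + 5 + 7 + 2 ^ (K + 1) * (1000 * Z + 33) + 20 + 11 * 2 ^ (K + 1) + 22 : ℝ) ≤
      2200 * Z ^ 2 := by nlinarith
  have h7 : (a : ℝ) * (2 + 2 + 5 + 7 + 2 ^ (K + 1) * (1000 * Z + 33) + 20 + 11 * 2 ^ (K + 1) + 22)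
      ≤ Z * (2200 * Z ^ 2) := by gcongr
  nlinarith

/-- `2 K - 2` in the environment of the loop body -/
def sig : Tm := .sub (.add (.var 6) (.var 6)) (.const 2)

/-- a diagonal matrix, in the environment `i, S, X, Om, LV, l0, K, a, g, h, p` -/
def dT (tD x l m : Tm) : Tm :=
  .call tD [x, .call tT [.var 3, .var 6, .var 7, l, m], .var 4, .var 5, sig,
    .add (.var 6) (.const 1), .var 7, .var 9, .var 10]

/-- the butterflies -/
def hT (tH x l : Tm) : Tm :=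
  .call tH [x, .var 4, .add (.var 5) l, sig, .var 7, .var 8, .var 9]

/-- the loop; arguments `X, Om, LV, l0, K, a, g, h, p` -/
def loop (tD tH l u v : Tm) : Tm :=
  .iter (.var 4) (.var 0) (dT tD (hT tH (dT tD (.var 1) l u) l) l v)

/-- the statement of `DiagSpec` -/
def DS (t : Tm) (C : ℕ) : Prop :=
  ∀ (W : ℕ) (X Tb : List ℕ) (LV l0 σ kn a h p e δ : ℕ) (ok : ℕ → Prop) (x : ℕ → ℂ)
    (φ : ℕ → ℕ → ℂ), 8 ≤ W → 1 ≤ a → 1 ≤ kn → kn ≤ σ → σ ≤ W → l0 + σ * (a - 1) + kn ≤ LV →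
  LV < W → 1 ≤ p → 2 * p + e + (δ + 3) * a + 8 ≤ h → 4 * h + 16 ≤ W →
  App h p e (2 ^ LV) ok X x →
  App h p δ (a * 2 ^ kn) (fun _ => True) Tb (fun b => φ (b / 2 ^ kn) (b % 2 ^ kn)) →
  Does W t [X, Tb, [LV], [l0], [σ], [kn], [a], [h], [p]] (C * (2 ^ LV * mu W + W + 1))
    fun Y => App h p (e + (δ + 3) * a + 3) (2 ^ LV) ok Y
      (liftS l0 σ (2 ^ kn) (fun i => mdiag (φ i)) a x)

/-- the statement of `HselSpec` -/
def HS (t : Tm) (C c1 : ℕ) : Prop :=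
  ∀ (W : ℕ) (X : List ℕ) (LV p0 σ a g h : ℕ), 8 ≤ W → X.length = 2 ^ LV → 1 ≤ a → 1 ≤ σ →
  p0 + σ * (a - 1) < LV → 2 * a + 2 ≤ 2 ^ g → g ≤ W → (a = 1 ∨ g + 2 ≤ σ) → σ ≤ W →
  C * X.length < 2 ^ W → (∀ r ∈ X, r < Qm h) → 2 ≤ h → 4 * h + 16 ≤ W →
  Does W t [X, [LV], [p0], [σ], [a], [g], [h]]
    (C * (X.length * hcost W σ a g + ((W : ℝ) + 1) ^ c1))
    (ExQ h X.length (okH p0 σ a g) (liftS p0 σ 2 (fun _ j k => encG h (CG j k)) a) X)

/-- the unit of cost -/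
noncomputable def TT (W LV K a g c : ℕ) : ℝ :=
  2 ^ LV * hcost W K a g + ((2 : ℝ) ^ K + W + 1) ^ (c + 3)

variable {C LV l0 K a g h p e e0 : ℕ}

theorem facts (H : PhOK C W LV l0 K a g h p e0) (hC : 1 ≤ C) :
    LV < W ∧ K ≤ p ∧ a ≤ LV ∧ 2 * K + 2 ≤ W ∧ W < 2 ^ W := by
  have h1 : 2 ^ LV < 2 ^ W := lt_of_le_of_lt (Nat.le_mul_of_pos_left _ hC) H.room
  have h2 : K ≤ p := (Nat.le_mul_of_pos_left _ hC).trans H.hp
  have h3 := H.hK
  have h4 : 1 * (a - 1) ≤ (2 * K - 2) * (a - 1) := Nat.mul_le_mul_right _ (by omega)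
  have h5 := H.hLV
  have h6 := H.lev
  have h7 := H.hh
  exact ⟨(Nat.pow_lt_pow_iff_right (by norm_num)).1 h1, h2, by omega, by omega,
    Nat.lt_two_pow_self⟩

theorem TT_facts (W LV K a g c : ℕ) : (2 : ℝ) ^ LV ≤ 2 ^ LV * hcost W K a g ∧
    2 ^ LV * mu W ≤ 2 ^ LV * hcost W K a g ∧
    ((2 : ℝ) ^ K + W + 1) ^ 3 ≤ ((2 : ℝ) ^ K + W + 1) ^ (c + 3) ∧
    ((2 : ℝ) ^ K + W + 1) ^ 2 ≤ ((2 : ℝ) ^ K + W + 1) ^ 3 ∧
    ((2 : ℝ) ^ K + W + 1) ≤ ((2 : ℝ) ^ K + W + 1) ^ 2 ∧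
    ((W : ℝ) + 1) ^ c ≤ ((2 : ℝ) ^ K + W + 1) ^ (c + 3) := by
  have h2K : (0 : ℝ) < 2 ^ K := by positivity
  have hW0 : (0 : ℝ) ≤ W := by positivity
  have hZ : (1 : ℝ) ≤ 2 ^ K + W + 1 := by linarith
  refine ⟨le_mul_of_one_le_right (by positivity) (one_le_hcost _ _ _ _),
    mul_le_mul_of_nonneg_left (mu_le_hcost _ _ _ _) (by positivity),
    pow_le_pow_right₀ hZ (by omega), pow_le_pow_right₀ hZ (by omega), le_self_pow₀ hZ (by omega),
    ?_⟩
  exact (pow_le_pow_left₀ (by positivity) (by linarith) c).trans (pow_le_pow_right₀ hZ (by omega))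

theorem sig_ev {i S X Om : List ℕ} {env : Env} (hW : 8 ≤ W) (hK : 2 * K + 2 ≤ W) :
    Pv W fn (i :: S :: X :: Om :: [LV] :: [l0] :: [K] :: [a] :: [g] :: [h] :: [p] :: env) sig
      [2 * K - 2] 16 := by
  have hWW : W < 2 ^ W := Nat.lt_two_pow_self
  apply Pv.cast
  · unfold sig
    pv
    omega
  · rw [two_mul]
  · norm_num

theorem dT_ev {tD tx tl tm : Tm} {CD l m : ℕ} (c : ℕ) (hD : DS tD CD) {i S X Om Y : List ℕ}
    {env : Env} {y : ℕ → ℂ} {c0 : ℝ} (H : PhOK C W LV l0 K a g h p e0) (hC : 1 ≤ C)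
    (hOm : App h p 2 (2 ^ K) (fun _ => True) Om (fun m => ee m (2 ^ K)))
    (hl : l < K) (hm : m < 2 ^ K) (he : 2 * p + e + 5 * a + 8 ≤ h)
    (hY : App h p e (2 ^ LV) (okPh l0 K a g) Y y)
    (hx : Pv W fn (i :: S :: X :: Om :: [LV] :: [l0] :: [K] :: [a] :: [g] :: [h] :: [p] :: env)
      tx Y c0)
    (hl' : Pv W fn (i :: S :: X :: Om :: [LV] :: [l0] :: [K] :: [a] :: [g] :: [h] :: [p] :: env)
      tl [l] 30)
    (hm' : Pv W fn (i :: S :: X :: Om :: [LV] :: [l0] :: [K] :: [a] :: [g] :: [h] :: [p] :: env)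
      tm [m] 30) :
    ∃ Z, App h p (e + 5 * a + 3) (2 ^ LV) (okPh l0 K a g) Z
        (liftS l0 (2 * K - 2) (2 ^ (K + 1)) (fun _ => mdiag (ph K l m)) a y) ∧
      Pv W fn (i :: S :: X :: Om :: [LV] :: [l0] :: [K] :: [a] :: [g] :: [h] :: [p] :: env)
        (dT tD tx tl tm) Z (c0 + (CD + 4000) * TT W LV K a g c) := by
  obtain ⟨f1, f2, f3, f4, f5⟩ := facts H hC
  have hW := H.hW
  have hK := H.hK
  have hLV := H.hLV
  obtain ⟨Z, hZ, hev⟩ := hD W Y (tabL Om K a l m) LV l0 (2 * K - 2) (K + 1) a h p e 2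
    (okPh l0 K a g) y (fun _ => ph K l m) hW H.ha (by omega) (by omega) (by omega) (by omega) f1
    (by omega) he H.hh hY (tabL_app hOm a l m) fn
    (i :: S :: X :: Om :: [LV] :: [l0] :: [K] :: [a] :: [g] :: [h] :: [p] :: env)
  refine ⟨Z, hZ, ?_⟩
  have hT := tT_ev (W := W) (fn := fn) (Om := Om) (a := a)
    (i :: S :: X :: Om :: [LV] :: [l0] :: [K] :: [a] :: [g] :: [h] :: [p] :: env) hW f4 (by omega)
    hl hm hOm.1
  have h1 := Pv.call (Pvs.cons hx (Pvs.cons (Pv.call (Pvs.cons (a := .var 3) (Pv.var rfl)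
    (Pvs.cons (a := .var 6) (Pv.varS rfl) (Pvs.cons (a := .var 7) (Pv.varS rfl)
      (Pvs.cons hl' (Pvs.cons hm' Pvs.nil))))) hT)
    (Pvs.cons (a := .var 4) (Pv.varS rfl) (Pvs.cons (a := .var 5) (Pv.varS rfl)
    (Pvs.cons (sig_ev hW f4) (Pvs.cons (Pv.add (a := .var 6) (Pv.varS rfl)
      (Pv.constS (c := 1) hW (by norm_num)) (by omega))
    (Pvs.cons (a := .var 7) (Pv.varS rfl) (Pvs.cons (a := .var 9) (Pv.varS rfl)
    (Pvs.cons (a := .var 10) (Pv.varS rfl) Pvs.nil))))))))) hev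
  refine Pv.mono h1 ?_
  obtain ⟨t1, t2, t3, t4, t5, -⟩ := TT_facts W LV K a g c
  simp only [List.length_cons, List.length_nil, tabL_length, hY.1, hZ.1, hOm.1]
  push_cast
  have h2K : (0 : ℝ) < 2 ^ K := by positivity
  have hW0 : (0 : ℝ) ≤ W := by positivity
  have ha' : (a : ℝ) ≤ 2 ^ K + W + 1 := by
    have : (a : ℝ) ≤ W := by exact_mod_cast (by omega : a ≤ W)
    linarith
  have h2 : (a : ℝ) * 2 ^ (K + 1) ≤ 2 * (2 ^ K + W + 1) ^ 2 := by
    calc (a : ℝ) * 2 ^ (K + 1) ≤ (2 ^ K + W + 1) * (2 * (2 ^ K + W + 1)) := by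
          gcongr; rw [pow_succ]; linarith
      _ = _ := by ring
  have h3 : (CD : ℝ) * (2 ^ LV * mu W + W + 1) ≤ CD * TT W LV K a g c := by
    unfold TT
    exact mul_le_mul_of_nonneg_left (by linarith) (by positivity)
  have h4 : (0 : ℝ) < 2 ^ LV := by positivity
  rw [add_mul]
  unfold TT at h3 ⊢
  linarith

theorem hT_ev {tH tx tl : Tm} {CH c l : ℕ} (hH : HS tH CH c) {i S X Om Y : List ℕ}
    {env : Env} {y : ℕ → ℂ} {c0 : ℝ} (H : PhOK C W LV l0 K a g h p e0) (hC : 1 ≤ C)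
    (hCH : CH ≤ C) (hl : l < K) (hY : App h p e (2 ^ LV) (okPh l0 K a g) Y y)
    (hx : Pv W fn (i :: S :: X :: Om :: [LV] :: [l0] :: [K] :: [a] :: [g] :: [h] :: [p] :: env)
      tx Y c0)
    (hl' : Pv W fn (i :: S :: X :: Om :: [LV] :: [l0] :: [K] :: [a] :: [g] :: [h] :: [p] :: env)
      tl [l] 30) :
    ∃ Z, App h p (e + a) (2 ^ LV) (okPh l0 K a g) Z
        (liftS l0 (2 * K - 2) (2 ^ (K + 1))
          (fun _ => msub (2 ^ l) 2 fun j k => ((CG j k : GaussianInt) : ℂ)) a y) ∧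
      Pv W fn (i :: S :: X :: Om :: [LV] :: [l0] :: [K] :: [a] :: [g] :: [h] :: [p] :: env)
        (hT tH tx tl) Z (c0 + (CH + 4000) * TT W LV K a g c) := by
  obtain ⟨f1, f2, f3, f4, f5⟩ := facts H hC
  have hW := H.hW
  have hK := H.hK
  have hLV := H.hLV
  have hlev := H.lev
  obtain ⟨Z, hZ, hev⟩ := hH W Y LV (l0 + l) (2 * K - 2) a g h hW hY.1 H.ha (by omega) (by omega)
    H.hg H.hgW (H.hgK.imp_right fun _ => by omega) (by omega)
    (by rw [hY.1]; exact lt_of_le_of_lt (Nat.mul_le_mul_right _ hCH) H.room) hY.2.1 (by omega)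
    H.hh fn (i :: S :: X :: Om :: [LV] :: [l0] :: [K] :: [a] :: [g] :: [h] :: [p] :: env)
  rw [hY.1] at hZ
  have hA := App.exact (δ := 1) (fun _ => CG) two_pos
    (closed_okPh (l0 := l0) (a := a) (g := g) (l := l) (r := 1) (K := K) (by omega) (by omega))
    (fun i hi => two_pow_mul_dvd (b := 1) (by
      have : (2 * K - 2) * i ≤ (2 * K - 2) * (a - 1) := Nat.mul_le_mul_left _ (by omega)
      omega))
    (fun b _ hb => okH_of_okPh (by omega) hl hb) (fun _ _ j _ => CG_row j) hY hZ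
  rw [one_mul] at hA
  refine ⟨Z, ?_, ?_⟩
  · rw [liftS_msub (M := fun _ j k => ((CG j k : GaussianInt) : ℂ)) two_pos (by positivity)
      (two_pow_mul_dvd (b := 1) (by omega))]
    exact hA
  have h1 := Pv.call (Pvs.cons hx (Pvs.cons (a := .var 4) (Pv.varS rfl)
    (Pvs.cons (Pv.add (a := .var 5) (Pv.varS rfl) hl' (by omega))
    (Pvs.cons (sig_ev hW f4) (Pvs.cons (a := .var 7) (Pv.varS rfl)
    (Pvs.cons (a := .var 8) (Pv.varS rfl)
    (Pvs.cons (a := .var 9) (Pv.varS rfl) Pvs.nil))))))) hev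
  refine Pv.mono h1 ?_
  obtain ⟨t1, -, t3, t4, t5, t6⟩ := TT_facts W LV K a g c
  simp only [List.length_cons, List.length_nil, hY.1, hZ.1]
  push_cast
  have h2K : (0 : ℝ) < 2 ^ K := by positivity
  have hW0 : (0 : ℝ) ≤ W := by positivity
  have h2 : hcost W (2 * K - 2) a g ≤ hcost W K a g := by
    unfold hcost
    have h3 : (0 : ℝ) < K := by exact_mod_cast (by omega : 0 < K)
    have h4 : (K : ℝ) ≤ (2 * K - 2 : ℕ) := by exact_mod_cast (by omega : K ≤ 2 * K - 2)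
    gcongr
  have h3 : (CH : ℝ) * (2 ^ LV * hcost W (2 * K - 2) a g + (W + 1) ^ c) ≤
      CH * TT W LV K a g c := by
    unfold TT
    gcongr
  have h4 : (0 : ℝ) < 2 ^ LV := by positivity
  rw [add_mul]
  unfold TT at h3 ⊢
  linarith

theorem loop_does {tD tH tl tu tv : Tm} {CD CH c : ℕ} (hD : DS tD CD) (hH : HS tH CH c)
    {X Om : List ℕ} {x : ℕ → ℂ} (H : PhOK C W LV l0 K a g h p e) (hC : 2 * CD + CH + 13000 ≤ C)
    (hOm : App h p 2 (2 ^ K) (fun _ => True) Om (fun m => ee m (2 ^ K)))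
    (hX : App h p e (2 ^ LV) (okPh l0 K a g) X x) (L U V : ℕ → ℕ)
    (hL : ∀ i < K, L i < K ∧ U i < 2 ^ K ∧ V i < 2 ^ K)
    (ht : ∀ i < K, ∀ fn S env,
      Pv W fn ([i] :: S :: X :: Om :: [LV] :: [l0] :: [K] :: [a] :: [g] :: [h] :: [p] :: env)
        tl [L i] 30 ∧
      Pv W fn ([i] :: S :: X :: Om :: [LV] :: [l0] :: [K] :: [a] :: [g] :: [h] :: [p] :: env)
        tu [U i] 30 ∧
      Pv W fn ([i] :: S :: X :: Om :: [LV] :: [l0] :: [K] :: [a] :: [g] :: [h] :: [p] :: env)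
        tv [V i] 30) :
    Does W (loop tD tH tl tu tv) [X, Om, [LV], [l0], [K], [a], [g], [h], [p]]
      (C * (2 ^ LV * (K * hcost W K a g) + ((2 : ℝ) ^ K + W + 1) ^ (c + 4)))
      fun Y => App h p (e + 11 * (K * (a + 1))) (2 ^ LV) (okPh l0 K a g) Y
        (seqL l0 K a L U V x K) := by
  intro fn env
  have hC1 : 1 ≤ C := by omega
  obtain ⟨f1, f2, f3, f4, f5⟩ := facts H hC1
  have hK := H.hK
  have hd : 2 ^ (K + 1) ∣ 2 ^ (2 * K - 2) := two_pow_dvd (by omega)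
  have hlev : 2 * p + e + 11 * (K * (a + 1)) ≤ h := by
    have h1 := H.lev
    have h2 : 11 * (K * (a + 1)) ≤ C * (K * (a + 1)) := Nat.mul_le_mul_right _ (by omega)
    omega
  obtain ⟨S, hS, hev⟩ := Pv.iterInv (W := W) (fn := fn)
    (e := X :: Om :: [LV] :: [l0] :: [K] :: [a] :: [g] :: [h] :: [p] :: env)
    (n := .var 4) (init := .var 0) (body := dT tD (hT tH (dT tD (.var 1) tl tu) tl) tl tv)
    (fun i S => App h p (e + 11 * (i * (a + 1))) (2 ^ LV) (okPh l0 K a g) S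
      (seqL l0 K a L U V x i))
    (c := 2 ^ LV + 1 + (CD + 4000) * TT W LV K a g c + (CH + 4000) * TT W LV K a g c +
      (CD + 4000) * TT W LV K a g c) (L := 2 ^ LV)
    (Pv.varS rfl) (Pv.var rfl) (by simpa [seqL] using hX)
    (fun i hi S hS => by
      obtain ⟨g1, g2, g3⟩ := hL i hi
      obtain ⟨p1, p2, p3⟩ := ht i hi fn S env
      have h1 : (i + 1) * (a + 1) ≤ K * (a + 1) := Nat.mul_le_mul_right _ hi
      rw [Nat.succ_mul] at h1
      obtain ⟨Z1, a1, v1⟩ := dT_ev c hD H hC1 hOm g1 g2 (by omega) hS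
        (tx := .var 1) (c0 := 2 ^ LV + 1)
        ((Pv.var rfl).mono (by rw [hS.1]; push_cast; exact le_rfl)) p1 p2
      obtain ⟨Z2, a2, v2⟩ := hT_ev hH H hC1 (by omega) g1 a1 v1 p1
      obtain ⟨Z3, a3, v3⟩ := dT_ev c hD H hC1 hOm g1 g3 (by omega) a2 v2 p1 p3
      refine ⟨Z3, ?_, v3⟩
      rw [liftS_liftS hd, liftS_liftS hd] at a3
      refine App.mono ?_ (e := e + 11 * (i * (a + 1)) + 5 * a + 3 + a + 5 * a + 3)
        (by rw [add_mul i 1, one_mul]; omega) fun _ _ h => h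
      refine a3.congr fun b _ _ => ?_
      rw [seqL]
      refine congrFun (liftS_congr (fun _ _ j _ k _ => ?_) _) b
      simp only [Lm, mmul, sum_mul, mul_sum]
      rw [sum_comm]
      exact sum_congr rfl fun _ _ => sum_congr rfl fun _ _ => mul_assoc _ _ _)
    (fun i _ S hS => by rw [hS.1]; push_cast; exact le_rfl)
  refine ⟨S, hS, Pv.mono hev ?_⟩
  obtain ⟨t1, -, t3, t4, t5, -⟩ := TT_facts W LV K a g c
  have h2K : (0 : ℝ) < 2 ^ K := by positivity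
  have hW0 : (0 : ℝ) ≤ W := by positivity
  have h4 : (0 : ℝ) < 2 ^ LV := by positivity
  have hK1 : (1 : ℝ) ≤ K := by exact_mod_cast (by omega : 1 ≤ K)
  have hKZ : (K : ℝ) ≤ 2 ^ K + W + 1 := by
    have : (K : ℝ) ≤ W := by exact_mod_cast (by omega : K ≤ W)
    linarith
  have hV : (2 : ℝ) ^ LV ≤ TT W LV K a g c := by unfold TT; linarith
  have h1 : 1 ≤ TT W LV K a g c := by unfold TT; linarith
  have h5 : K * TT W LV K a g c ≤
      2 ^ LV * (K * hcost W K a g) + ((2 : ℝ) ^ K + W + 1) ^ (c + 4) := by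
    unfold TT
    rw [mul_add, pow_succ' _ (c + 3)]
    exact add_le_add (le_of_eq (by ring)) (mul_le_mul_of_nonneg_right hKZ (by positivity))
  have hC' : (2 * CD + CH + 13000 : ℝ) ≤ C := by exact_mod_cast hC
  rw [hX.1]
  push_cast
  generalize TT W LV K a g c = T at *
  have h6 : T ≤ K * T := le_mul_of_one_le_left (by linarith) hK1
  calc _ ≤ (2 * CD + CH + 13000) * (K * T) := by
        have h7 : (K : ℝ) * (2 ^ LV + 1 + (CD + 4000) * T + (CH + 4000) * T + (CD + 4000) * T +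
          2 * 2 ^ LV + 22) ≤ K * ((2 * CD + CH + 12026) * T) := by
          gcongr
          linarith
        linarith
    _ ≤ _ := by gcongr

end Fft

open Fft in
theorem fft_spec (hH : HselSpec) (hD : DiagSpec) : FftSpec := by
  obtain ⟨tH, CH, c, hH⟩ := hH
  obtain ⟨tD, CD, hD⟩ := hD
  refine ⟨loop tD tH (.sub (.sub (.var 6) (.const 1)) (.var 0)) (.const 0) (.const 1),
    loop tD tH (.var 0) (.sub (.pow2 (.var 6)) (.const 1)) (.const 0),
    2 * CD + CH + 13000, 11, c + 4, fun W X Om LV l0 K a g h p e x H hOm hX => ?_⟩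
  obtain ⟨f1, f2, f3, f4, f5⟩ := facts H (by omega)
  have hW := H.hW
  have hK := H.hK
  have h2 : 1 < 2 ^ K := Nat.one_lt_two_pow (by omega)
  constructor
  · rw [← seqL_fwd (by omega)]
    refine loop_does hD hH H le_rfl hOm hX _ _ _ (fun i hi => ⟨by omega, by omega, h2⟩)
      fun i _ fn S env => ⟨?_, ?_, ?_⟩
    · apply Pv.mono
      · pv
      · norm_num
    · exact (Pv.constS hW (by norm_num)).mono (by norm_num)
    · exact (Pv.constS hW (by norm_num)).mono (by norm_num)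
  · rw [← seqL_bwd (by omega)]
    refine loop_does hD hH H le_rfl hOm hX _ _ _ (fun i hi => ⟨hi, by omega, by omega⟩)
      fun i _ fn S env => ⟨?_, ?_, ?_⟩
    · exact (Pv.varS rfl).mono (by norm_num)
    · apply Pv.mono
      · pv
        omega
      · norm_num
    · exact (Pv.constS hW (by norm_num)).mono (by norm_num)

end Crest.Agent.R326
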