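import Crest.Agent.R326.HrecB

/-!
# The recursion for layers of square roots of translations
-/

set_option autoImplicit false

namespace Crest.Agent.R326

namespace Hr

open Finset

theorem cost_le {G : Type} (p : List (Instr G)) (κ : G → ℝ) (T : ℝ) {K : ℝ} (hK : 0 ≤ K) :
    (p.map (Instr.cost fun γ => T * κ γ + K)).sum ≤
      T * (p.map (Instr.cost κ)).sum + K * p.length := by
  induction p with
  | nil => simp
  | cons i p ih =>
    simp only [List.map_cons, List.sum_cons, List.length_cons]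
    push_cast
    cases i <;> simp only [Instr.cost] <;> linarith

/-- one level of the recursion: the network is run on the segments -/
theorem exec_part (hE : ExecSpec) {tP : Tm} {CP cP : ℕ} (hP : PxorOK tP CP cP) {m W0 : ℕ}
    (N : NetProg ((Fin m → ZMod 2) ⊕ (Fin m → ZMod 2)) W0)
    (hc : N.cost (Sum.elim (fun _ => 1) (fun _ => 0)) + 1 ≤ W0 * m)
    (hN : ∀ (h p0 σ l : ℕ), 1 ≤ h → ∀ xs : List (ℕ → ZMod (Qm h)), xs.length = W0 →
      N.out (fun x => hfQ h • x) (rhoG h p0 σ l) xs = xs.map (gamS h p0 σ (l * m))) :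
    ∃ (tE : Tm) (C2 : ℕ), ∀ (W p0 σ l l' g lt h n : ℕ) (e : Env) (body : Tm) (T : ℝ) (X : List ℕ),
      0 ≤ T → Ctx CP cP W p0 σ l l' m g lt h n → RecOK W body T σ l' g lt h n →
      X.length = W0 * n → (∀ r ∈ X, r < Qm h) →
      ∃ Y, ExQ h (W0 * n) (okP p0 σ l g lt) (gamS h p0 σ (l' * m)) X Y ∧
        Pv W (some body) (X :: [n] :: genv p0 σ l' g lt h e) tE Y
          (T * (W0 * m - 1) + C2 * EE n g l') := by
  choose tGen hGen using gen_spec hP m
  obtain ⟨tE, CE, hE⟩ := hE _ W0 N tAdd tSub tHalf tGen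
  refine ⟨tE, (m * (2 * CP + 1450) + 400) * N.prog.length + 302 * CE, ?_⟩
  intro W p0 σ l l' g lt h n e body T X hT c hR hX hXQ
  have hn : 0 < n := by have := c.hWn; omega
  have r1 := le_EE n g c.hl'
  have r2 : (1 : ℝ) ≤ n := by exact_mod_cast hn
  have hxs : ∀ w < W0, ((List.range W0).map fun w => castL h (chunk n X w)).getD w 0 =
      castL h (chunk n X w) := fun w hw => by simp [List.getD_eq_getElem?_getD, hw]
  obtain ⟨Y, hYl, hY, hp⟩ := hE W (some body) (genv p0 σ l' g lt h e) X n (ℕ → ZMod (Qm h))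
    (fun x => hfQ h • x) (rhoG h p0 σ l') (Rp h n (okP p0 σ l g lt))
    (fun γ => T * Sum.elim (fun _ => 1) (fun _ => 0) γ + (m * (2 * CP + 1450) + 400) * EE n g l')
    (300 * n) ((List.range W0).map fun w => castL h (chunk n X w)) c.hW (by positivity) hX (by simp)
    (fun x f hx => hx.1)
    (fun w hw => by
      rw [hxs w hw]
      exact ⟨chunk_length (by rw [hX]; exact Nat.mul_le_mul_right _ hw),
        fun r hr => hXQ r (List.mem_of_mem_drop (List.mem_of_mem_take hr)), fun _ _ _ => rfl⟩)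
    (fun x y f f' hx hy => add_spec c hx hy) (fun x y f f' hx hy => sub_spec c hx hy)
    (fun x f hx => half_spec c hx)
    (fun γ _ _ x f hx => hGen γ W p0 σ l l' g lt h n e body T hT c hR x f hx)
  rw [hN h p0 σ l' c.hh _ (by simp)] at hY
  have hY' : ∀ w < W0, Rp h n (okP p0 σ l g lt) (chunk n Y w)
      (gamS h p0 σ (l' * m) (castL h (chunk n X w))) := fun w hw => by
    have := hY w hw
    simpa [List.getD_eq_getElem?_getD, hw] using this
  have hsplit : ∀ a < W0 * n, ∃ w < W0, ∃ r < n, a = w * n + r := fun a ha =>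
    ⟨a / n, (Nat.div_lt_iff_lt_mul hn).2 ha, a % n, Nat.mod_lt _ hn, (Nat.div_add_mod' _ _).symm⟩
  refine ⟨Y, ⟨hYl, forall_mem_of_getD fun a ha => ?_, fun a ha hok => ?_⟩, hp.mono ?_⟩
  · obtain ⟨w, hw, r, hr, rfl⟩ := hsplit a (hYl ▸ ha)
    rw [← chunk_getD n Y w hr]
    exact getD_lt (Qm_pos h) (hY' w hw).2.1 r
  · obtain ⟨w, hw, r, hr, rfl⟩ := hsplit a ha
    have hok' : okP p0 σ l g lt r := okP_add c.σ1 c.hlt (c.hdvd.mul_left w) hok
    rw [castL, ← chunk_getD n Y w hr]
    refine ((hY' w hw).2.2 r hr hok').trans ?_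
    rw [gamS_eq, gamS_eq]
    have hsel : ∀ j < l' * m, 2 ^ (p0 + σ * j) < 2 ^ lt := fun j hj =>
      (Sel.bit (hj.trans_le c.hl)).lt c.σ1 c.hlt
    have hd : 2 ^ lt ∣ n := (two_pow_dvd (Nat.le_add_right _ _)).trans c.hdvd
    exact gamM_transfer (fun a => a < n) (fun a => w * n + a)
      (fun j hj a ha => xor_lt hd (hsel j hj) ha)
      (fun j hj a _ => (add_xor (hd.mul_left w) (hsel j hj) a).symm)
      (fun a ha => by rw [castL, castL, chunk_getD n X w ha]) r hr
  · have h1 := cost_le N.prog (Sum.elim (fun _ => 1) (fun _ => 0)) T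
      (K := (m * (2 * CP + 1450) + 400) * EE n g l') (by
        have : 0 ≤ EE n g l' := by linarith
        positivity)
    have h2 : T * N.cost (Sum.elim (fun _ => 1) (fun _ => 0)) ≤ T * (W0 * m - 1) :=
      mul_le_mul_of_nonneg_left (by linarith) hT
    have h3 : (CE : ℝ) * (300 * n + n + 1) ≤ CE * (302 * EE n g l') :=
      mul_le_mul_of_nonneg_left (by linarith) (by positivity)
    unfold NetProg.cost at h2 ⊢
    push_cast
    linarith

/-- the body of `GamSpec` -/
def GamOK (t : Tm) (C : ℕ) : Prop := ∀ (W : ℕ) (X : List ℕ) (p h : ℕ), 8 ≤ W →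
  2 ^ (p + 1) ∣ X.length → 0 < X.length → X.length < 2 ^ W → (∀ r ∈ X, r < Qm h) → 1 ≤ h →
  4 * h + 16 ≤ W →
  Does W t [X, [p], [h]] (C * (X.length + W + 1))
    (ExQ h X.length (fun _ => True) (gamOp h (2 ^ p)) X)

/-- the slow calls for the remaining bits -/
def tSlow (tG : Tm) : Tm := .iter (.sub (.var 5) (.var 1)) (.var 0)
  (.call tG [.var 1, .add (.var 5) (.mul (.var 6) (.add (.var 3) (.var 0))), .var 10])

theorem slow_part {tG : Tm} {CG : ℕ} (hG : GamOK tG CG) {W p0 σ l g lt h j0 : ℕ} {fn : Option Tm}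
    {X Y1 A : List ℕ} {e : Env} (hW : 8 ≤ W) (hσ : 1 ≤ σ) (hlt : p0 + σ * l ≤ lt) (hj : j0 ≤ l)
    (hd : 2 ^ lt ∣ X.length) (hWV : W + 1 ≤ X.length) (hV : X.length < 2 ^ W) (hh : 1 ≤ h)
    (hhW : 4 * h + 16 ≤ W)
    (hY1 : ExQ h X.length (okP p0 σ l g lt) (gamS h p0 σ j0) X Y1) :
    ∃ Y, ExQ h X.length (okP p0 σ l g lt) (gamS h p0 σ l) X Y ∧
      Pv W fn (Y1 :: [j0] :: A :: [p0] :: [σ] :: [l] :: [g] :: [lt] :: [h] :: e) (tSlow tG) Y
        (((l - j0 : ℕ) * (2 * CG + 350) + 10) * X.length) := by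
  have r2 : (W : ℝ) + 1 ≤ X.length := by exact_mod_cast hWV
  have r3 : (8 : ℝ) ≤ W := by exact_mod_cast hW
  have hltW : lt < W := (Nat.pow_lt_pow_iff_right (by norm_num)).1
    ((Nat.le_of_dvd (by omega) hd).trans_lt hV)
  have hW2 : W < 2 ^ W := Nat.lt_two_pow_self
  obtain ⟨Y, hY, hp⟩ := Pv.iterInv (W := W) (fn := fn)
    (e := Y1 :: [j0] :: A :: [p0] :: [σ] :: [l] :: [g] :: [lt] :: [h] :: e)
    (n := .sub (.var 5) (.var 1)) (init := .var 0)
    (body := .call tG [.var 1, .add (.var 5) (.mul (.var 6) (.add (.var 3) (.var 0))), .var 10])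
    (fun i Z => ExQ h X.length (okP p0 σ l g lt) (gamS h p0 σ (j0 + i)) X Z)
    (c := (2 * CG + 340) * X.length) (L := X.length)
    (Pv.sub (Pv.varS rfl) (Pv.varS rfl)) (Pv.var rfl) hY1
    (fun i hi Z hZ => by
      have h1 : j0 + i < l := by omega
      have h2 := Nat.mul_le_mul_left σ (Nat.succ_le_of_lt h1)
      have h3 : j0 + i ≤ σ * (j0 + i) := Nat.le_mul_of_pos_left _ hσ
      rw [Nat.mul_succ] at h2
      obtain ⟨Z', hZ', hp⟩ := hG W Z (p0 + σ * (j0 + i)) h hW
        (by rw [hZ.1]; exact (two_pow_dvd (by omega)).trans hd) (by rw [hZ.1]; omega)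
        (by rw [hZ.1]; exact hV) hZ.2.1 hh hhW fn
        ([i] :: Z :: Y1 :: [j0] :: A :: [p0] :: [σ] :: [l] :: [g] :: [lt] :: [h] :: e)
      rw [hZ.1] at hZ' hp
      refine ⟨Z', ⟨hZ'.1, hZ'.2.1, fun a ha hok => ?_⟩, ?_⟩
      · have hs := Sel.bit (p0 := p0) (σ := σ) h1
        rw [hZ'.2.2 a ha trivial, ← add_assoc, gamS, gamOp, gamOp, hZ.2.2 a ha hok,
          hZ.2.2 _ (xor_lt hd (hs.lt hσ hlt) ha) (okP_xor hσ hlt hs hok)]
      · apply Pv.cast
        · apply Pv.call (hf := hp)
          pv <;> omega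
        · rfl
        · have : (CG : ℝ) * (X.length + W + 1) ≤ CG * (2 * X.length) :=
            mul_le_mul_of_nonneg_left (by linarith) (by positivity)
          simp only [hZ.1, hZ'.1, List.length_cons, List.length_nil]
          push_cast
          linarith)
    (fun i _ Z hZ => by rw [hZ.1])
  rw [Nat.add_sub_cancel' hj] at hY
  refine ⟨Y, hY, hp.mono ?_⟩
  have r4 : (0 : ℝ) ≤ (l - j0 : ℕ) := by positivity
  have r5 : ((l - j0 : ℕ) : ℝ) * 22 ≤ (l - j0 : ℕ) * (8 * X.length) :=
    mul_le_mul_of_nonneg_left (by linarith) r4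
  rw [hY1.1]
  linarith

/-- the body of the recursion -/
def bodyT (tE tG : Tm) (m W0 : ℕ) : Tm := .unp 6 (.lett (.div (.var 2) (.const m))
  (.lett (.mul (.var 0) (.const m))
    (.lett (.ifEq (.var 1) (.const 0) (.var 8)
      (.call tE [.var 8, .div (.len (.var 8)) (.const W0), .var 2, .var 3, .var 1, .var 5, .var 6,
        .var 7, .mul (.var 3) (.var 1), .qm (.var 7)])) (tSlow tG))))

theorem EE_step {m W0 n g l l' : ℕ} (hm : 0 < m) (hW0 : 0 < W0) (hl : l' * m ≤ l) :
    EE n g l' * (W0 * (m : ℝ) ^ tauE) ≤ EE (W0 * n) g l ∧ EE n g l' ≤ EE (W0 * n) g l := by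
  have h1 : EE n g l' * (W0 * (m : ℝ) ^ tauE) ≤ EE (W0 * n) g l := by
    have h2 : (l' : ℝ) ^ tauE * (m : ℝ) ^ tauE ≤ (l : ℝ) ^ tauE := by
      rw [← Real.mul_rpow (by positivity) (by positivity)]
      exact Real.rpow_le_rpow (by positivity) (by exact_mod_cast hl) tauE_pos.le
    have h3 := mul_le_mul_of_nonneg_left h2 (show (0 : ℝ) ≤ W0 * n * (g + 1) by positivity)
    unfold EE
    push_cast
    linarith
  refine ⟨h1, le_trans (le_mul_of_one_le_right (by unfold EE; positivity) ?_) h1⟩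
  exact one_le_mul_of_one_le_of_one_le (by exact_mod_cast hW0)
    (Real.one_le_rpow (by exact_mod_cast hm) tauE_pos.le)

theorem rec_spec (hN : HNet') (hE : ExecSpec) {tG : Tm} {CG : ℕ} (hG : GamOK tG CG) {tP : Tm}
    {CP cP : ℕ} (hP : PxorOK tP CP cP) :
    ∃ (body : Tm) (m W0 Cc : ℕ), 2 ≤ m ∧ 0 < W0 ∧ W0 ≤ 2 ^ 60 ∧
      ∀ (d W p0 σ l g lt h U : ℕ) (X : List ℕ), 8 ≤ W → 1 ≤ l → l < m ^ d → 1 ≤ g → g + 2 ≤ σ →
        g * l ≤ p0 → p0 + σ * l ≤ lt → X.length = W0 ^ d * 2 ^ (lt + g * l) * U →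
        (W + 1) ^ (cP + 1) ≤ U → CP * X.length < 2 ^ W → X.length < 2 ^ W → m < 2 ^ W →
        W0 < 2 ^ W → (∀ r ∈ X, r < Qm h) → 1 ≤ h → 4 * h + 16 ≤ W →
        ∃ Y, ExQ h X.length (okP p0 σ l g lt) (gamS h p0 σ l) X Y ∧
          Ev W (some body) [p0 :: σ :: l :: g :: lt :: h :: X] body [X] Y
            (Cc * EE X.length g l) := by
  obtain ⟨m, W0, N, hm, hm', hW0, hW0', hc, hN⟩ := hN
  obtain ⟨tE, C2, hEx⟩ := exec_part hE hP N hc hN
  have hsav := saving hm hm' hW0 hW0'
  have hpos : (0 : ℝ) < W0 * (m : ℝ) ^ tauE := by positivity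
  set θ : ℝ := (W0 * m - 1) / (W0 * (m : ℝ) ^ tauE) with hθ
  have hθ1 : θ < 1 := (div_lt_one hpos).2 hsav
  have hθ0 : 0 ≤ θ := div_nonneg (by
    have : (1 : ℝ) ≤ W0 * m := by exact_mod_cast Nat.mul_pos hW0 (by omega)
    linarith) hpos.le
  obtain ⟨Cc, hCc⟩ := exists_nat_ge ((C2 + m * (2 * CG + 350) + 2500 : ℝ) / (1 - θ))
  rw [div_le_iff₀ (by linarith)] at hCc
  refine ⟨bodyT tE tG m W0, m, W0, Cc, hm, hW0, hW0', fun d => ?_⟩
  induction d with
  | zero => intro W p0 σ l g lt h U X _ h1 h2; simp at h2; omega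
  | succ d ih =>
    intro W p0 σ l g lt h U X hW hl hld hg hσ hp0 hlt hX hU hC hV hmW hW0W hXQ hh hhW
    have hWU : W + 1 ≤ U := (Nat.le_self_pow (Nat.succ_ne_zero cP) _).trans hU
    have hWV : W + 1 ≤ X.length := by
      rw [hX]; exact hWU.trans (Nat.le_mul_of_pos_left _ (by positivity))
    have hd : 2 ^ lt ∣ X.length := by
      rw [hX]; exact ((two_pow_dvd (Nat.le_add_right _ _)).mul_left _).mul_right _
    have hltW : lt < W := (Nat.pow_lt_pow_iff_right (by norm_num)).1
      ((Nat.le_of_dvd (by omega) hd).trans_lt hV)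
    have hW2 : W < 2 ^ W := Nat.lt_two_pow_self
    have hlm : l / m * m ≤ l := Nat.div_mul_le_self l m
    have hll : l / m ≤ l := Nat.div_le_self l m
    have hlσ : l ≤ σ * l := Nat.le_mul_of_pos_left _ (by omega)
    have r1 := le_EE X.length g hl
    have r2 : (W : ℝ) + 1 ≤ X.length := by exact_mod_cast hWV
    have r3 : (8 : ℝ) ≤ W := by exact_mod_cast hW
    have r4 : 0 ≤ θ * (Cc * EE X.length g l) := by
      have : 0 ≤ EE X.length g l := by linarith
      positivity
    have r5 : 0 ≤ C2 * EE X.length g l := by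
      have : 0 ≤ EE X.length g l := by linarith
      positivity
    have mid : ∃ Y1, ExQ h X.length (okP p0 σ l g lt) (gamS h p0 σ (l / m * m)) X Y1 ∧
        Pv W (some (bodyT tE tG m W0))
          [[l / m * m], [l / m], [p0], [σ], [l], [g], [lt], [h], X]
          (.ifEq (.var 1) (.const 0) (.var 8)
            (.call tE [.var 8, .div (.len (.var 8)) (.const W0), .var 2, .var 3, .var 1, .var 5,
              .var 6, .var 7, .mul (.var 3) (.var 1), .qm (.var 7)])) Y1
          (θ * (Cc * EE X.length g l) + (C2 + 1200) * EE X.length g l) := by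
      by_cases h0 : l / m = 0
      · refine ⟨X, ⟨rfl, hXQ, fun a _ _ => by rw [h0, zero_mul]; rfl⟩,
          (Ev.ifEqT (Pv.varS rfl) (Pv.constS hW (by norm_num)) h0 (Pv.var rfl)).mono ?_⟩
        linarith
      · set n := W0 ^ d * 2 ^ (lt + g * l) * U with hn
        have hXn : X.length = W0 * n := by rw [hX, hn]; ring
        have hnV : n ≤ X.length := by rw [hXn]; exact Nat.le_mul_of_pos_left _ hW0
        have hgl : g * (l / m) ≤ g * l := Nat.mul_le_mul_left g hll
        have hn' : n = W0 ^ d * 2 ^ (lt + g * (l / m)) * (2 ^ (g * l - g * (l / m)) * U) := by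
          rw [hn, show lt + g * l = lt + g * (l / m) + (g * l - g * (l / m)) by omega, pow_add]
          ring
        have hU' : (W + 1) ^ (cP + 1) ≤ 2 ^ (g * l - g * (l / m)) * U :=
          hU.trans (Nat.le_mul_of_pos_left _ (by positivity))
        have c : Ctx CP cP W p0 σ l (l / m) m g lt h n :=
          { hW := hW, hl' := Nat.pos_of_ne_zero h0, hg := hg, hσ := hσ, hp0 := hp0, hlt := hlt,
            hl := hlm, hdvd := (dvd_mul_left _ _).mul_right _
            hbig := by
              rw [hn']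
              exact Nat.mul_le_mul (Nat.le_mul_of_pos_left _ (by positivity))
                ((Nat.pow_le_pow_right (by omega) (Nat.le_succ cP)).trans hU')
            hWn := hWU.trans (Nat.le_mul_of_pos_left _ (by positivity))
            hC := (Nat.mul_le_mul_left _ hnV).trans_lt hC
            hn := hnV.trans_lt hV, hm := hmW, hh := hh, hhW := hhW }
        have hR : RecOK W (bodyT tE tG m W0) (Cc * EE n g (l / m)) σ (l / m) g lt h n := by
          intro p X' hX' hQ h1 h2
          have := ih W p σ (l / m) g lt h _ X' hW c.hl'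
            ((Nat.div_lt_iff_lt_mul (by omega)).2 (by rwa [← pow_succ])) hg hσ h1 h2
            (hX'.trans hn') hU' (by rw [hX']; exact c.hC) (by rw [hX']; exact c.hn) hmW hW0W hQ
            hh hhW
          rwa [hX'] at this
        obtain ⟨Y1, hY1, hp⟩ := hEx W p0 σ l (l / m) g lt h n
          [[l / m * m], [l / m], [p0], [σ], [l], [g], [lt], [h], X] _ _ X
          (by unfold EE; positivity) c hR hXn hXQ
        rw [← hXn] at hY1
        refine ⟨Y1, hY1, ?_⟩
        have hσl : σ * (l / m) ≤ σ * l := Nat.mul_le_mul_left σ hll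
        apply Pv.cast
        · apply Ev.ifEqF (Pv.varS rfl) (Pv.constS hW (by norm_num)) h0
          apply Pv.call (vs := [X, [n], [p0], [σ], [l / m], [g], [lt], [h], [σ * (l / m)], [Qm h]])
            (hf := hp)
          apply Pvs.cons (Pv.var rfl)
          apply Pvs.cons ((Pv.div hW (Pv.len (Pv.var rfl) hV) (Pv.const hW0W) hW0).cast
            (by rw [hXn, Nat.mul_div_cancel_left _ hW0]) le_rfl)
          pv <;> omega
        · rfl
        · obtain ⟨e1, e2⟩ := EE_step (n := n) (g := g) (by omega : 0 < m) hW0 hlm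
          rw [← hXn] at e1 e2
          have e3 : Cc * EE n g (l / m) * (W0 * m - 1) ≤ θ * (Cc * EE X.length g l) := by
            have e4 : (W0 : ℝ) * m - 1 = θ * (W0 * (m : ℝ) ^ tauE) := by
              rw [hθ, div_mul_cancel₀ _ hpos.ne']
            have e5 := mul_le_mul_of_nonneg_left e1 (show 0 ≤ θ * Cc by positivity)
            rw [e4]
            linarith
          have e6 : C2 * EE n g (l / m) ≤ C2 * EE X.length g l :=
            mul_le_mul_of_nonneg_left e2 (by positivity)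
          simp only [hY1.1, List.length_cons, List.length_nil]
          push_cast
          linarith
    obtain ⟨Y1, hY1, hp1⟩ := mid
    obtain ⟨Y, hY, hp2⟩ := slow_part (fn := some (bodyT tE tG m W0)) (A := [l / m]) (e := [X]) hG hW
      (by omega) hlt hlm hd hWV hV hh hhW hY1
    refine ⟨Y, hY, (Ev.unp [p0, σ, l, g, lt, h] hW rfl (by norm_num)
      (Pv.lett (Pv.div hW (Pv.varS rfl) (Pv.const hmW) (by omega))
        (Pv.lett (Pv.mul hW (Pv.varS rfl) (Pv.const hmW) (by omega)) (Pv.lett hp1 hp2)))).mono ?_⟩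
    have e1 : ((l - l / m * m : ℕ) : ℝ) ≤ m := by
      have := Nat.div_add_mod' l m
      have := Nat.mod_lt l (show 0 < m by omega)
      exact_mod_cast (by omega : l - l / m * m ≤ m)
    have e2 : ((l - l / m * m : ℕ) : ℝ) * (2 * CG + 350) * X.length ≤
        m * (2 * CG + 350) * EE X.length g l := by gcongr
    have e3 := mul_le_mul_of_nonneg_right hCc (show 0 ≤ EE X.length g l by linarith)
    simp only [hY.1, hY1.1, List.length_cons, List.length_nil]
    push_cast at e2 ⊢
    linarith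

end Hr

open Hr

theorem hrec_spec (hN : HNetSpec) (hE : ExecSpec) (hG : GamSpec) (hP : PxorSpec) : HrecSpec := by
  obtain ⟨tG, CG, hG⟩ := hG
  obtain ⟨tP, CP, cP, hP⟩ := hP
  obtain ⟨body, m, W0, Cc, hm, hW0, hW0', hrec⟩ := rec_spec (hnet' hN) hE hG hP
  refine ⟨.lett (.len (.var 0))
    (.lett (.mul (.pow (.const W0) (.size (.var 4)))
      (.pow2 (.add (.var 6) (.mul (.var 5) (.var 4)))))
      (.take (.var 1) (.fix body (.cons (.var 3) (.cons (.var 4) (.cons (.var 5) (.cons (.var 6)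
        (.cons (.var 7) (.cons (.var 8)
          (.app (.var 2) (.zeros (.sub (.var 0) (.mod (.var 1) (.var 0)))))))))))))),
    2 * Cc + 2 * CP + m + W0 + 2000, cP + 1 + 120, ?_⟩
  intro W X p0 σ l g lt h hW hl hg hσ hp0 hlt hdvd hbig hC hXQ hh hhW fn env
  have hV0 : 0 < X.length := lt_of_lt_of_le (by positivity) hbig
  have hb : ∀ c, c ≤ 2 * Cc + 2 * CP + m + W0 + 2000 → c * X.length < 2 ^ W := fun c hc =>
    (Nat.mul_le_mul_right _ hc).trans_lt hC
  have hV2 : 2 * X.length < 2 ^ W := hb 2 (by omega)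
  have hmW : m < 2 ^ W := (Nat.le_mul_of_pos_right _ hV0).trans_lt (hb m (by omega))
  have hW0W : W0 < 2 ^ W := (Nat.le_mul_of_pos_right _ hV0).trans_lt (hb W0 (by omega))
  have hltW : lt + g * l < W := (Nat.pow_lt_pow_iff_right (by norm_num)).1
    ((Nat.le_of_dvd hV0 hdvd).trans_lt (by omega : X.length < 2 ^ W))
  have hW2 : W < 2 ^ W := Nat.lt_two_pow_self
  have hlg : l ≤ g * l := Nat.le_mul_of_pos_left _ hg
  have hs1 : 2 ^ l.size ≤ 2 * l := by
    have h1 : 0 < l.size := Nat.size_pos.2 hl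
    have h2 : 2 ^ (l.size - 1) ≤ l := Nat.lt_size.1 (by omega)
    rw [show l.size = l.size - 1 + 1 by omega, pow_succ]
    omega
  have hD : W0 ^ l.size ≤ (W + 1) ^ 120 :=
    calc W0 ^ l.size ≤ (2 ^ 60) ^ l.size := Nat.pow_le_pow_left hW0' _
      _ = (2 ^ l.size) ^ 60 := by rw [← pow_mul, ← pow_mul, mul_comm]
      _ ≤ ((W + 1) ^ 2) ^ 60 := Nat.pow_le_pow_left (hs1.trans (by nlinarith)) _
      _ = (W + 1) ^ 120 := by rw [← pow_mul]
  set D := W0 ^ l.size * 2 ^ (lt + g * l) with hDdef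
  have hD0 : 0 < D := by positivity
  have hDV : (W + 1) ^ (cP + 1) * D ≤ X.length := by
    refine le_trans ?_ hbig
    rw [pow_add (W + 1) (cP + 1), hDdef, mul_comm (2 ^ _), mul_assoc]
    exact Nat.mul_le_mul_left _ (Nat.mul_le_mul_right _ hD)
  have hDV' : D ≤ X.length := (Nat.le_mul_of_pos_left _ (by positivity)).trans hDV
  have hsq : (W + 1) ^ 2 ≤ X.length :=
    ((Nat.pow_le_pow_right (by omega) (by omega)).trans
      (Nat.le_mul_of_pos_left _ (by positivity))).trans hbig
  set X' := X ++ List.replicate (D - X.length % D) 0 with hX'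
  have hmod := Nat.mod_lt X.length hD0
  have hlen : X'.length = X.length + (D - X.length % D) := by simp [hX']
  have hlen' : X'.length = D * (X.length / D + 1) := by
    have := Nat.div_add_mod X.length D
    rw [hlen, Nat.mul_succ]; omega
  have hcast : castL h X' = castL h X := by
    funext a
    simp only [castL]
    congr 1
    by_cases ha : a < X.length
    · exact List.getD_append _ _ _ _ ha
    · rw [hX', List.getD_append_right _ _ _ _ (not_lt.1 ha), List.getD_eq_default _ _ (not_lt.1 ha)]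
      rcases getD_zero_or_mem (List.replicate (D - X.length % D) 0) (a - X.length) with h1 | h1
      · exact h1
      · exact List.eq_of_mem_replicate h1
  obtain ⟨Y, hY, hp⟩ := hrec l.size W p0 σ l g lt h (X.length / D + 1) X' hW hl
    ((Nat.lt_size_self l).trans_le (Nat.pow_le_pow_left hm _)) hg hσ hp0 hlt hlen'
    (((Nat.le_div_iff_mul_le hD0).2 hDV).trans (Nat.le_succ _))
    (lt_of_le_of_lt (by
      rw [mul_comm 2 CP, mul_assoc]; exact Nat.mul_le_mul_left _ (by omega)) (hb (2 * CP) (by omega)))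
    (by omega) hmW hW0W
    (fun r hr => (List.mem_append.1 hr).elim (hXQ r) fun h1 => by
      rw [List.eq_of_mem_replicate h1]; exact Qm_pos h) hh hhW
  have hle : X.length ≤ Y.length := by rw [hY.1]; omega
  clear hD hDV hbig hW0' hrec hb hC
  refine ⟨Y.take X.length, ⟨List.length_take_of_le hle,
    fun r hr => hY.2.1 r (List.mem_of_mem_take hr), fun a ha hok => ?_⟩, ?_⟩
  · rw [← hcast, ← hY.2.2 a (by omega) hok, castL, castL]
    simp [List.getD_eq_getElem?_getD, ha]
  · apply Pv.cast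
    · simp only [List.cons_append, List.nil_append]
      apply Pv.lett (Pv.len (Pv.var rfl) (by omega))
      apply Pv.lett (Pv.mul hW (Pv.pow hW (Pv.const hW0W) (Pv.size hW (Pv.varS rfl)) hW0
        (lt_of_le_of_lt (Nat.le_mul_of_pos_right _ (by positivity)) (by omega : D < 2 ^ W)))
        (Pv.pow2 (Pv.add (Pv.varS rfl) (Pv.mul hW (Pv.varS rfl) (Pv.varS rfl) (by omega))
          (by omega)) hltW) (by omega : D < 2 ^ W))
      apply Pv.take (Pv.varS rfl)
      apply Pv.fix (hb := hp)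
      exact Pv.cons (Pv.varS rfl) (Pv.cons (Pv.varS rfl) (Pv.cons (Pv.varS rfl)
        (Pv.cons (Pv.varS rfl) (Pv.cons (Pv.varS rfl) (Pv.cons (Pv.varS rfl) (Pv.app (Pv.var rfl)
          (Pv.zeros (Pv.sub (Pv.varS rfl) (Pv.mod hW (Pv.varS rfl) (Pv.varS rfl) hD0)))))))))
    · rfl
    · have r1 := le_EE X.length g hl
      have r2 : ((W : ℝ) + 1) ^ 2 ≤ X.length := by exact_mod_cast hsq
      have r3 : (8 : ℝ) ≤ W := by exact_mod_cast hW
      have r4 : (l.size : ℝ) ≤ W := by
        exact_mod_cast (Nat.size_le.2 (by omega : l < 2 ^ W))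
      have r5 : (l.size : ℝ) * (W + 1) ≤ X.length := by nlinarith
      have r6 : 9 * ((W : ℝ) + 1) ≤ X.length := by nlinarith
      have r7 : ((D - X.length % D : ℕ) : ℝ) ≤ X.length := by
        exact_mod_cast (by omega : D - X.length % D ≤ X.length)
      have r8 : (Cc : ℝ) * EE X'.length g l ≤ Cc * (2 * EE X.length g l) := by
        refine mul_le_mul_of_nonneg_left ?_ (by positivity)
        have : (X'.length : ℝ) ≤ 2 * X.length := by
          exact_mod_cast (by omega : X'.length ≤ 2 * X.length)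
        unfold EE
        rw [← mul_assoc 2]
        gcongr
      have r9 : (0 : ℝ) ≤ (2 * CP + m + W0) * EE X.length g l := by
        have : 0 ≤ EE X.length g l := by linarith [Nat.cast_nonneg (α := ℝ) X.length]
        positivity
      have r10 : (X'.length : ℝ) = X.length + (D - X.length % D : ℕ) := by exact_mod_cast hlen
      change _ ≤ _ * EE X.length g l
      simp only [hY.1, List.length_take_of_le hle, List.length_cons, List.length_nil,
        List.length_replicate, ← hDdef]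
      push_cast
      linarith

end Crest.Agent.R326
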