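import Crest.Agent.R326.HselC

/-!
# A layer of butterflies on bits at a constant distance
-/

set_option autoImplicit false

namespace Crest.Agent.R326

open Finset

namespace Hs

/-- all the square roots of translations; about `2 r` of them are done slowly -/
def BigSpec : Prop := ∃ (t : Tm) (C c0 : ℕ), ∀ (W : ℕ) (X : List ℕ) (LV p0 σ a g h r : ℕ), 8 ≤ W →
  X.length = 2 ^ LV → 1 ≤ a → 1 ≤ σ → p0 + σ * (a - 1) < LV → 2 * a + 2 ≤ 2 ^ g →
  (a = 1 ∨ g + 2 ≤ σ) → g * a + c0 * (4 * h + 16 + LV + c0).size ≤ σ * r → 2 * r + 2 < 2 ^ W →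
  LV + c0 < W → (∀ r ∈ X, r < Qm h) → 1 ≤ h → 4 * h + 16 ≤ W →
  Does W t [[r], X, [LV], [p0], [σ], [a], [g], [h]]
    (C * (X.length * (((g : ℝ) + 1) * ((a : ℝ) + 1) ^ tauE + r) + ((W : ℝ) + 1) ^ 2))
    (ExQ h X.length (okH p0 σ a g) (gamS h p0 σ a) X)

theorem big_spec (hS : SlowSpec) (hM : MidSpec) : BigSpec := by
  obtain ⟨tS, CS, hS⟩ := hS
  obtain ⟨tM, CM, c0, hM⟩ := hM
  refine ⟨.ifLt (.var 5) (.add (.add (.var 0) (.var 0)) (.const 2))
    (.call tS [.var 1, .var 3, .var 4, .var 5, .var 7])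
    (.lett (.call tS [.var 1, .var 3, .var 4, .var 0, .var 7])
    (.lett (.sub (.var 6) (.add (.add (.var 1) (.var 1)) (.const 1)))
    (.lett (.add (.var 5) (.mul (.var 6) (.var 2)))
    (.lett (.call tM [.var 2, .var 5, .var 0, .var 7, .var 1, .var 9, .var 10])
    (.call tS [.var 0, .add (.var 1) (.mul (.var 8) (.var 2)), .var 8, .add (.var 4) (.const 1),
      .var 11]))))), 5 * CS + CM + 1000, c0, ?_⟩
  intro W X LV p0 σ a g h r hW hX ha hσ hLV hB hgσ hroom hrW hc0 hr h1 hh fn env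
  have hW2 : W < 2 ^ W := Nat.lt_two_pow_self
  have hj : ∀ j < a, p0 + σ * j < LV := fun j hj =>
    lt_of_le_of_lt (Nat.add_le_add_left (Nat.mul_le_mul_left _ (by omega)) _) hLV
  have haL : a - 1 ≤ σ * (a - 1) := Nat.le_mul_of_pos_left _ hσ
  obtain ⟨A, hA⟩ : ∃ A, A = ((g : ℝ) + 1) * ((a : ℝ) + 1) ^ tauE := ⟨_, rfl⟩
  have e7 : 1 ≤ A := by
    rw [hA]
    have r1 : (0 : ℝ) ≤ g := by positivity
    have r2 : (0 : ℝ) ≤ a := by positivity
    exact one_le_mul_of_one_le_of_one_le (by linarith)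
      (Real.one_le_rpow (by linarith) tauE_nonneg)
  have r1 : (0 : ℝ) ≤ X.length := by positivity
  have r2 : (0 : ℝ) ≤ W := by positivity
  have r3 : (W : ℝ) + 1 ≤ (W + 1) ^ 2 := by nlinarith only [r2]
  have r4 : (X.length : ℝ) ≤ X.length * A := le_mul_of_one_le_right r1 e7
  have r5 : (CS : ℝ) * X.length ≤ CS * (X.length * A) := by gcongr
  have r6 : (0 : ℝ) ≤ X.length * r := by positivity
  have r7 : (0 : ℝ) ≤ CS * (X.length * r) := by positivity
  have r8 : (0 : ℝ) ≤ CM * (X.length * r) := by positivity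
  have r9 : (0 : ℝ) ≤ CS * (W + 1) ^ 2 := by positivity
  have r10 : (0 : ℝ) ≤ CS * X.length := by positivity
  have r11 : (CM : ℝ) * (W + 1) ≤ CM * (W + 1) ^ 2 := by gcongr
  rw [← hA]
  by_cases hc : a < r + r + 2
  · obtain ⟨Y, hY, pY⟩ := hS W X LV p0 σ a h hW hX (by omega) hj (by omega) hr h1 hh fn
      ([r] :: X :: [LV] :: [p0] :: [σ] :: [a] :: [g] :: [h] :: env)
    refine ⟨Y, ⟨hY.1, hY.2.1, fun b hb _ => hY.2.2 b hb trivial⟩, ?_⟩
    apply Pv.cast
    · simp only [List.cons_append, List.nil_append]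
      apply Ev.ifLtT hW (Pv.varS rfl) (Pv.add (Pv.add (Pv.varS rfl) (Pv.varS rfl) (by omega))
        (Pv.constS hW (by norm_num)) (by omega)) hc
      apply Pv.call (hf := pY)
      pv
    · rfl
    · have e1 : (a : ℝ) + 1 ≤ r + r + 2 := by exact_mod_cast hc
      have e2 : (CS : ℝ) * ((a + 1) * X.length) ≤ CS * ((r + r + 2) * X.length) := by gcongr
      have r12 : (0 : ℝ) ≤ CM * (X.length * A) := by positivity
      have r13 : (0 : ℝ) ≤ CM * (W + 1) ^ 2 := by positivity
      simp only [hY.1, List.length_cons, List.length_nil]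
      push_cast
      linarith only [e2, r1, r2, r3, r4, r5, r6, r7, r8, r9, r10, r12, r13]
  · obtain ⟨l, hl⟩ : ∃ l, l = a - (r + r + 1) := ⟨_, rfl⟩
    obtain ⟨p, hp⟩ : ∃ p, p = p0 + σ * r := ⟨_, rfl⟩
    obtain ⟨q, hq⟩ : ∃ q, q = p + σ * l := ⟨_, rfl⟩
    have hal : a = r + l + (r + 1) := by omega
    have ha1 : σ * (a - 1) = σ * r + σ * l + σ * r := by
      rw [show a - 1 = r + l + r by omega]; ring
    have hgl : g * l ≤ g * a := Nat.mul_le_mul_left _ (by omega)
    have hg : 1 ≤ g := by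
      rcases Nat.eq_zero_or_pos g with rfl | hg
      · omega
      · exact hg
    have hjp : ∀ j < l, p + σ * j < LV := fun j hj' => by
      have := hj (r + j) (by omega)
      rw [mul_add] at this
      omega
    have hjq : ∀ j < r + 1, q + σ * j < LV := fun j hj' => by
      have := hj (r + l + j) (by omega)
      rw [mul_add, mul_add] at this
      omega
    obtain ⟨Y1, hY1, pY1⟩ := hS W X LV p0 σ r h hW hX (by omega) (fun j hj' => hj j (by omega))
      (by omega) hr h1 hh fn ([r] :: X :: [LV] :: [p0] :: [σ] :: [a] :: [g] :: [h] :: env)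
    obtain ⟨Y2, hY2, pY2⟩ := hM W Y1 LV p σ l g h hW (hY1.1.trans hX) (by omega) hg (by omega)
      (by omega) (by omega) (by omega) hc0 hY1.2.1 h1 hh fn
      ([p] :: [l] :: Y1 :: [r] :: X :: [LV] :: [p0] :: [σ] :: [a] :: [g] :: [h] :: env)
    have l2 : Y2.length = X.length := hY2.1.trans hY1.1
    obtain ⟨Y3, hY3, pY3⟩ := hS W Y2 LV q σ (r + 1) h hW (l2.trans hX) (by omega) hjq
      (by omega) hY2.2.1 h1 hh fn
      (Y2 :: [p] :: [l] :: Y1 :: [r] :: X :: [LV] :: [p0] :: [σ] :: [a] :: [g] :: [h] :: env)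
    have l3 : Y3.length = X.length := hY3.1.trans l2
    refine ⟨Y3, ⟨l3, hY3.2.1, fun b hb hok => ?_⟩, ?_⟩
    · have hok' : okM p σ l g b := fun j hj' => by
        have := hok (r + j) (by omega)
        rwa [mul_add, ← add_assoc, ← hp] at this
      rw [hY3.2.2 b (l2 ▸ hb) trivial]
      conv_rhs => rw [hal, gamS_add h p0 σ (r + l), gamS_add h p0 σ r l, mul_add, ← add_assoc,
        ← hp, ← hq]
      refine gamS_local hσ hq.ge hjq (fun b hb hok => ?_) b (hX ▸ hb) hok'
      rw [hY2.2.2 b (by rw [hY1.1, hX]; exact hb) hok]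
      exact gamS_local' hjp (fun b hb => hY1.2.2 b (hX ▸ hb) trivial) b hb
    · apply Pv.cast
      · simp only [List.cons_append, List.nil_append]
        apply Ev.ifLtF hW (Pv.varS rfl) (Pv.add (Pv.add (Pv.varS rfl) (Pv.varS rfl) (by omega))
          (Pv.constS hW (by norm_num)) (by omega)) hc
        apply Pv.lett
        · apply Pv.call (hf := pY1)
          pv
        apply Pv.lett ((Pv.sub (Pv.varS rfl) (Pv.add (Pv.add (Pv.varS rfl) (Pv.varS rfl)
          (by omega)) (Pv.constS hW (by norm_num)) (by omega))).cast (by rw [← hl]) le_rfl)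
        apply Pv.lett ((Pv.add (Pv.varS rfl) (Pv.mul hW (Pv.varS rfl) (Pv.varS rfl) (by omega))
          (by omega)).cast (by rw [← hp]) le_rfl)
        apply Pv.lett
        · apply Pv.call (hf := pY2)
          pv
        apply Pv.call (hf := pY3)
        apply Pvs.cons (Pv.var rfl)
        apply Pvs.cons ((Pv.add (Pv.varS rfl) (Pv.mul hW (Pv.varS rfl) (Pv.varS rfl) (by omega))
          (by omega)).cast (by rw [← hq]) le_rfl)
        pv
        omega
      · rfl
      · have e1 : ((g : ℝ) + 1) * ((l : ℝ) + 1) ^ tauE ≤ A := by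
          rw [hA]
          gcongr
          · exact tauE_nonneg
          · omega
        have e2 : (CM : ℝ) * (X.length * (((g : ℝ) + 1) * ((l : ℝ) + 1) ^ tauE)) ≤
            CM * (X.length * A) := by gcongr
        simp only [hY1.1, l2, l3, List.length_cons, List.length_nil]
        push_cast
        linarith only [e2, r1, r2, r3, r4, r5, r6, r7, r8, r9, r10, r11]

end Hs

open Hs

theorem hsel_spec (hGa : GatherSpec) (hSc : ScatterSpec) (hG : GamSpec) (hH : HrecSpec)
    (hM : MulSpec) : HselSpec := by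
  obtain ⟨tB, CB, c0, hB⟩ := big_spec (slow_spec hG) (mid_spec hGa hSc hH)
  obtain ⟨tC, CC, hC⟩ := scal_spec hM
  refine ⟨.lett (.add (.div (.add (.mul (.var 5) (.var 4)) (.mul (.const c0)
      (.size (.add (.add (.add (.shl (.var 6) (.const 2)) (.const 16)) (.var 1)) (.const c0)))))
      (.var 3)) (.const 1))
    (.call tC [tB, .var 5, .var 7]), 2 ^ c0 + (2 * c0 + 2) * CB + CC + 2000, 2, ?_⟩
  intro W X LV p0 σ a g h hW hX ha hσ hLV hg hgW hgσ hσW hroom hr h2 hh fn env
  have hW2 : W < 2 ^ W := Nat.lt_two_pow_self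
  have hW3 := sq_le_two_pow (W := W) (by omega)
  have hc0 : LV + c0 < W := by
    have h3 : 2 ^ c0 * 2 ^ LV < 2 ^ W :=
      lt_of_le_of_lt (by rw [hX]; exact Nat.mul_le_mul_right _ (by omega)) hroom
    rw [← pow_add] at h3
    have := (Nat.pow_lt_pow_iff_right (by norm_num)).1 h3
    omega
  have hV : X.length < 2 ^ W := by rw [hX]; exact Nat.pow_lt_pow_right (by norm_num) (by omega)
  have haL : a - 1 ≤ σ * (a - 1) := Nat.le_mul_of_pos_left _ hσ
  obtain ⟨π, hπ⟩ : ∃ π, π = (4 * h + 16 + LV + c0).size := ⟨_, rfl⟩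
  have hπ1 : π ≤ 2 * W.size := by rw [hπ]; exact size_le_two_mul hW (by omega)
  have hWW : 16 * W ≤ W * W := Nat.mul_le_mul_right _ (by omega)
  have hπ2 : π ≤ W := by rw [hπ]; exact Nat.size_le.2 (by omega)
  have b1 : g * a ≤ W * W := Nat.mul_le_mul hgW (by omega)
  have b2 : c0 * π ≤ W * W := Nat.mul_le_mul (by omega) hπ2
  obtain ⟨r, hrr⟩ : ∃ r, r = (g * a + c0 * π) / σ + 1 := ⟨_, rfl⟩
  have b3 : (g * a + c0 * π) / σ ≤ g * a + c0 * π := Nat.div_le_self _ _
  have b4 : g * a + c0 * π ≤ σ * r := by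
    rw [hrr]; exact (Nat.lt_mul_div_succ _ hσ).le
  obtain ⟨Y, hY, pY⟩ := hB W X LV p0 σ a g h r hW hX ha hσ hLV hg hgσ (hπ ▸ b4) (by omega) hc0 hr
    (by omega) hh fn env
  obtain ⟨Z, hZ, pZ⟩ := hC W Y a h hW (by rw [hY.1]; exact hV) hY.2.1 h2 hh fn
    ([r] :: X :: [LV] :: [p0] :: [σ] :: [a] :: [g] :: [h] :: env)
  refine ⟨Z, ⟨hZ.1.trans hY.1, hZ.2.1, fun b hb hok => ?_⟩, ?_⟩
  · rw [hZ.2.2 b (hY.1 ▸ hb) trivial, liftS_CG (by omega), Pi.smul_apply, ← hY.2.2 b hb hok]
    rfl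
  · have pr : Pv W fn ([X, [LV], [p0], [σ], [a], [g], [h]] ++ env)
        (.add (.div (.add (.mul (.var 5) (.var 4)) (.mul (.const c0)
          (.size (.add (.add (.add (.shl (.var 6) (.const 2)) (.const 16)) (.var 1)) (.const c0)))))
          (.var 3)) (.const 1)) [r] (1500 * (W + 1)) := by
      have e : h * 2 ^ 2 + 16 + LV + c0 = 4 * h + 16 + LV + c0 := by ring
      apply Pv.cast
      · simp only [List.cons_append, List.nil_append]
        pv
        all_goals (try rw [e, ← hπ]); omega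
      · rw [e, ← hπ, hrr]
      · have r2 : (8 : ℝ) ≤ W := by exact_mod_cast hW
        linarith only [r2]
    apply Pv.cast
    · apply Pv.lett pr
      apply Pv.call (hf := pZ)
      apply Pvs.cons pY
      simp only [List.cons_append, List.nil_append]
      pv
    · rfl
    · obtain ⟨A, hA⟩ : ∃ A, A = ((g : ℝ) + 1) * ((a : ℝ) + 1) ^ tauE := ⟨_, rfl⟩
      obtain ⟨D, hD⟩ : ∃ D, D = ((g : ℝ) * a + W.size) / σ := ⟨_, rfl⟩
      have rA : 0 ≤ A := by rw [hA]; positivity
      have rD : 0 ≤ D := by rw [hD]; positivity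
      have rM := one_le_mu W
      have e1 : (r : ℝ) ≤ (2 * c0 + 1) * D + 1 := by
        have rσ : (0 : ℝ) < σ := by exact_mod_cast hσ
        have h3 : (((g * a + c0 * π) / σ : ℕ) : ℝ) ≤ (g * a + c0 * π : ℕ) / (σ : ℝ) :=
          Nat.cast_div_le
        have h4 : g * a + c0 * π ≤ (2 * c0 + 1) * (g * a + W.size) := by
          have := Nat.mul_le_mul_left c0 hπ1
          nlinarith only [this, Nat.zero_le (c0 * (g * a)), Nat.zero_le W.size]
        have h5 : ((g * a + c0 * π : ℕ) : ℝ) ≤ (2 * c0 + 1) * ((g : ℝ) * a + W.size) := by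
          exact_mod_cast h4
        have h6 : ((g * a + c0 * π : ℕ) : ℝ) / σ ≤ (2 * c0 + 1) * D := by
          rw [hD, ← mul_div_assoc]; gcongr
        rw [hrr]
        push_cast at h3 h6 ⊢
        linarith only [h3, h6]
      have r1 : (0 : ℝ) ≤ X.length := by positivity
      have r2 : (0 : ℝ) ≤ W := by positivity
      have r3 : (W : ℝ) + 1 ≤ (W + 1) ^ 2 := by nlinarith only [r2]
      have r4 : (a : ℝ) ≤ W := by exact_mod_cast (show a ≤ W by omega)
      have r5 : (X.length : ℝ) ≤ X.length * mu W := le_mul_of_one_le_right r1 rM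
      have e2 : (CB : ℝ) * (X.length * r) ≤ CB * (X.length * ((2 * c0 + 1) * D + mu W)) := by
        gcongr
        linarith only [e1, rM]
      have e3 : (CC : ℝ) * (a + 1) ≤ CC * (W + 1) ^ 2 := by
        gcongr
        linarith only [r3, r4]
      obtain ⟨P, hP⟩ : ∃ P : ℝ, P = 2 ^ c0 := ⟨_, rfl⟩
      have rP : 0 ≤ P := by rw [hP]; positivity
      have rM0 : 0 ≤ mu W := by linarith only [rM]
      have s1 : (0 : ℝ) ≤ P * (X.length * (A + D + mu W) + (W + 1) ^ 2) := by positivity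
      have s2 : (0 : ℝ) ≤ CB * (X.length * A) := by positivity
      have s3 : (0 : ℝ) ≤ c0 * CB * (X.length * A) := by positivity
      have s4 : (0 : ℝ) ≤ CB * (X.length * D) := by positivity
      have s5 : (0 : ℝ) ≤ CB * (X.length * mu W) := by positivity
      have s6 : (0 : ℝ) ≤ c0 * CB * (X.length * mu W) := by positivity
      have s7 : (0 : ℝ) ≤ CB * (W + 1) ^ 2 := by positivity
      have s8 : (0 : ℝ) ≤ c0 * CB * (W + 1) ^ 2 := by positivity
      have s9 : (0 : ℝ) ≤ CC * (X.length * A) := by positivity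
      have s10 : (0 : ℝ) ≤ CC * (X.length * D) := by positivity
      have s11 : (0 : ℝ) ≤ X.length * A := by positivity
      have s12 : (0 : ℝ) ≤ X.length * D := by positivity
      rw [hcost, ← hA, ← hD]
      simp only [hZ.1, hY.1, List.length_cons, List.length_nil]
      push_cast
      rw [← hP]
      linarith only [e2, e3, r1, r2, r3, r5, s1, s2, s3, s4, s5, s6, s7, s8, s9, s10, s11, s12]

end Crest.Agent.R326
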