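import Crest.Agent.R326.SpecB

/-!
# Karatsuba's product; products modulo `Qm h` and rounding
-/

set_option autoImplicit false

namespace Crest.Agent.R326

variable {W : ℕ} {fn : Option Tm}

/-- body of Karatsuba's product; the argument is `[x, y, k]` with `x, y < 2 ^ k` -/
def karaB : Tm := .unp 3 (.ifLt (.var 2) (.const 9) (.mul (.var 0) (.var 1))
  (.lett (.shr (.add (.var 2) (.const 1)) (.const 1))
  (.lett (.add (.var 0) (.const 1))
  (.lett (.low (.var 2) (.var 1))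
  (.lett (.shr (.var 3) (.var 2))
  (.lett (.low (.var 5) (.var 3))
  (.lett (.shr (.var 6) (.var 4))
  (.lett (.self (.cons (.var 3) (.cons (.var 1) (.var 4))))
  (.lett (.self (.cons (.var 3) (.cons (.var 1) (.var 5))))
  (.lett (.self (.cons (.add (.var 5) (.var 4)) (.cons (.add (.var 3) (.var 2)) (.var 6))))
    (.add (.add (.shl (.var 1) (.add (.var 8) (.var 8)))
      (.shl (.sub (.sub (.var 0) (.var 2)) (.var 1)) (.var 8))) (.var 2))))))))))))

/-- absolute cost of Karatsuba's product -/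
noncomputable def karaT (k : ℕ) : ℝ := 900000 * (((k - 4 : ℕ) : ℝ) + 1) ^ (8 / 5 : ℝ)

theorem kara_two_rpow_ge : (100 / 33 : ℝ) ≤ 2 ^ (8 / 5 : ℝ) := by
  have h : ((2 : ℝ) ^ (8 / 5 : ℝ)) ^ 5 = 256 := by
    rw [← Real.rpow_natCast, ← Real.rpow_mul (by norm_num)]
    norm_num
  refine le_of_pow_le_pow_left₀ (n := 5) (by norm_num) (by positivity) ?_
  rw [h]
  norm_num

theorem karaT_ge (k : ℕ) : 900000 ≤ karaT k := by
  have : (1 : ℝ) ≤ (((k - 4 : ℕ) : ℝ) + 1) ^ (8 / 5 : ℝ) :=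
    Real.one_le_rpow (by linarith [Nat.cast_nonneg (α := ℝ) (k - 4)]) (by norm_num)
  unfold karaT
  linarith

theorem karaT_rec {k : ℕ} (hk : 9 ≤ k) :
    3 * karaT ((k + 1) / 2 + 1) + 2000 * (2 * (k : ℝ) + 9) ≤ karaT k := by
  have h1 : ((((k + 1) / 2 + 1 - 4 : ℕ) : ℝ) + 1) * 2 ≤ ((k - 4 : ℕ) : ℝ) + 1 := by
    exact_mod_cast (show ((k + 1) / 2 + 1 - 4 + 1) * 2 ≤ k - 4 + 1 by omega)
  have h2 := Real.rpow_le_rpow (by positivity) h1 (show (0 : ℝ) ≤ 8 / 5 by norm_num)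
  rw [Real.mul_rpow (by positivity) (by norm_num)] at h2
  have h3 : ((k - 4 : ℕ) : ℝ) + 1 ≤ (((k - 4 : ℕ) : ℝ) + 1) ^ (8 / 5 : ℝ) :=
    Real.self_le_rpow_of_one_le (by linarith [Nat.cast_nonneg (α := ℝ) (k - 4)]) (by norm_num)
  have h4 : ((k - 4 : ℕ) : ℝ) = k - 4 := by rw [Nat.cast_sub (by omega)]; norm_num
  have h5 : (9 : ℝ) ≤ k := by exact_mod_cast hk
  have h6 : 0 ≤ ((((k + 1) / 2 + 1 - 4 : ℕ) : ℝ) + 1) ^ (8 / 5 : ℝ) := by positivity
  have h7 := mul_le_mul_of_nonneg_left kara_two_rpow_ge h6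
  unfold karaT
  rw [h4] at h3
  rw [h4] at h2 ⊢
  linarith

theorem kara_id (x0 x1 y0 y1 m : ℕ) :
    x1 * y1 * 2 ^ (m + m) + ((x0 + x1) * (y0 + y1) - x0 * y0 - x1 * y1) * 2 ^ m + x0 * y0 =
      (x0 + 2 ^ m * x1) * (y0 + 2 ^ m * y1) := by
  have : (x0 + x1) * (y0 + y1) - x0 * y0 - x1 * y1 = x0 * y1 + x1 * y0 := by
    rw [show (x0 + x1) * (y0 + y1) = x0 * y1 + x1 * y0 + x1 * y1 + x0 * y0 by ring]
    omega
  rw [this, pow_add]
  ring

theorem karaB_ev (k : ℕ) : ∀ W x y : ℕ, 2 * k + 8 ≤ W → x < 2 ^ k → y < 2 ^ k →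
    Ev W (some karaB) [[x, y, k]] karaB [[]] [x * y] (karaT k / ((W : ℝ) + 1)) := by
  induction k using Nat.strong_induction_on with
  | _ k ih =>
    intro W x y hW hx hy
    obtain ⟨V, hV⟩ : ∃ V, V = 2 * k + 8 := ⟨_, rfl⟩
    have hV8 : 8 ≤ V := by omega
    have hVr : (V : ℝ) + 1 = 2 * k + 9 := by rw [hV]; push_cast; ring
    have hV2 : V < 2 ^ V := Nat.lt_two_pow_self
    have hkV : 2 ^ k ≤ 2 ^ V := Nat.pow_le_pow_right (by norm_num) (by omega)
    have hxy : x * y < 2 ^ V :=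
      calc x * y < 2 ^ k * 2 ^ k := Nat.mul_lt_mul'' hx hy
        _ ≤ 2 ^ V := by rw [← pow_add]; exact Nat.pow_le_pow_right (by norm_num) (by omega)
    have hb : BdE V [[x, y, k]] := by simp; omega
    suffices h : Ev V (some karaB) [[x, y, k]] karaB [[]] [x * y] (karaT k / ((V : ℝ) + 1)) by
      refine (h.narrow (by omega) hb).mono (le_of_eq ?_)
      rw [div_mul_cancel₀ _ (by positivity)]
    by_cases h9 : k < 9
    · refine (Ev.unp [x, y, k] hV8 rfl (by norm_num)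
        (Ev.ifLtT hV8 (Pv.varS rfl) (Pv.constS hV8 (by norm_num)) h9
          (Pv.mul hV8 (Pv.varS rfl) (Pv.varS rfl) hxy))).mono ?_
      rw [le_div_iff₀ (by positivity), hVr]
      have h1 : (k : ℝ) ≤ 8 := by exact_mod_cast (show k ≤ 8 by omega)
      have h2 : (0 : ℝ) ≤ k := by positivity
      have h3 := karaT_ge k
      simp only [List.length_cons, List.length_nil]
      push_cast
      nlinarith
    · obtain ⟨m, hm⟩ : ∃ m, m = (k + 1) / 2 ^ 1 := ⟨_, rfl⟩
      have hm' : m = (k + 1) / 2 := by simpa using hm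
      have p1 : 0 < 2 ^ m := by positivity
      have p2 : 2 ^ (m + 1) = 2 * 2 ^ m := by rw [pow_succ']
      have p3 : 2 ^ k ≤ 2 ^ m * 2 ^ m := by
        rw [← pow_add]; exact Nat.pow_le_pow_right (by norm_num) (by omega)
      have p4 : 2 ^ (m + 1) ≤ 2 ^ V := Nat.pow_le_pow_right (by norm_num) (by omega)
      have x0 : x % 2 ^ m < 2 ^ m := Nat.mod_lt _ p1
      have y0 : y % 2 ^ m < 2 ^ m := Nat.mod_lt _ p1
      have x1 : x / 2 ^ m < 2 ^ m := Nat.div_lt_of_lt_mul (hx.trans_le p3)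
      have y1 : y / 2 ^ m < 2 ^ m := Nat.div_lt_of_lt_mul (hy.trans_le p3)
      have i0 := ih (m + 1) (by omega) V (x % 2 ^ m) (y % 2 ^ m) (by omega) (by omega) (by omega)
      have i2 := ih (m + 1) (by omega) V (x / 2 ^ m) (y / 2 ^ m) (by omega) (by omega) (by omega)
      have i1 := ih (m + 1) (by omega) V (x % 2 ^ m + x / 2 ^ m) (y % 2 ^ m + y / 2 ^ m)
        (by omega) (by omega) (by omega)
      have hid := kara_id (x % 2 ^ m) (x / 2 ^ m) (y % 2 ^ m) (y / 2 ^ m) m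
      rw [Nat.mod_add_div, Nat.mod_add_div] at hid
      have e0 : Pv V (some karaB) [[x], [y], [k], []]
          (.shr (.add (.var 2) (.const 1)) (.const 1)) [m] 16 := by
        apply Pv.cast
        · pv <;> omega
        · rw [hm]
        · norm_num
      refine (Ev.unp [x, y, k] hV8 rfl (by norm_num)
        (Ev.ifLtF hV8 (Pv.varS rfl) (Pv.constS hV8 (by norm_num)) h9
          (Pv.lett e0 (Pv.lett (by pv; omega) (Pv.lett (by pv; omega) (Pv.lett (by pv; omega)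
          (Pv.lett (by pv; omega) (Pv.lett (by pv; omega)
          (Pv.lett (Pv.self (by pv) i0) (Pv.lett (Pv.self (by pv) i2)
          (Pv.lett (Pv.self (by pv <;> omega) i1) (by pv <;> omega)))))))))))).cast rfl
          (by rw [hid]) |>.mono ?_
      have h1 := karaT_rec (not_lt.1 h9)
      rw [← hm', ← hVr] at h1
      have h2 : (0 : ℝ) < V + 1 := by positivity
      have h3 : 3 * (karaT (m + 1) / ((V : ℝ) + 1)) + 2000 ≤ karaT k / ((V : ℝ) + 1) := by
        rw [le_div_iff₀ h2, add_mul, mul_assoc, div_mul_cancel₀ _ h2.ne']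
        exact h1
      simp only [List.length_cons, List.length_nil]
      push_cast
      linarith

theorem kara_one_le_mu (W : ℕ) : 1 ≤ mu W :=
  Real.one_le_rpow (by linarith [Nat.cast_nonneg (α := ℝ) W]) (by norm_num)

theorem karaT_le {k : ℕ} (h : k ≤ W) : karaT k / ((W : ℝ) + 1) ≤ 900000 * mu W := by
  have h0 : (0 : ℝ) < W + 1 := by positivity
  have h1 : ((k - 4 : ℕ) : ℝ) + 1 ≤ (W : ℝ) + 1 := by
    exact_mod_cast (show k - 4 + 1 ≤ W + 1 by omega)
  have h2 := Real.rpow_le_rpow (by positivity) h1 (show (0 : ℝ) ≤ 8 / 5 by norm_num)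
  have h3 : ((W : ℝ) + 1) ^ (8 / 5 : ℝ) = mu W * (W + 1) := by
    rw [mu, ← Real.rpow_add_one h0.ne']
    norm_num
  rw [div_le_iff₀ h0, karaT, mul_assoc, ← h3]
  linarith

theorem kara_spec : KaraSpec := by
  refine ⟨.fix karaB (.cons (.var 0) (.cons (.var 1) (.var 2))), 900100, ?_⟩
  intro W x y k hW hx hy hk fn env
  refine ⟨_, rfl, (Pv.fix (by pv) (karaB_ev k W x y hk hx hy)).mono ?_⟩
  have h1 := karaT_le (W := W) (k := k) (by omega)
  have h2 := kara_one_le_mu W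
  simp only [List.length_cons, List.length_nil]
  push_cast
  linarith

/-- the term for `offQ h k` -/
def Tm.offT (h k : Tm) : Tm := .add (.pow2 k) (.shl (.pow2 k) h)

theorem kara_offQ_le {h k : ℕ} (hk : k + 1 ≤ h) : offQ h k ≤ 2 ^ (2 * h) := by
  have h1 : 2 ^ k * 2 ≤ 2 ^ h := by
    rw [← pow_succ]; exact Nat.pow_le_pow_right (by norm_num) hk
  have h2 : 0 < 2 ^ h := by positivity
  rw [offQ, two_mul, pow_add]
  nlinarith

theorem Pv.offT {e a b h k} {c1 c2 : ℝ} (ha : Pv W fn e a [h] c1) (hb : Pv W fn e b [k] c2)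
    (hk : k + 1 ≤ h) (hh : 2 * h < W) : Pv W fn e (.offT a b) [offQ h k] (c1 + 2 * c2 + 24) := by
  have h1 := kara_offQ_le hk
  have h2 : 2 ^ (2 * h) < 2 ^ W := Nat.pow_lt_pow_right (by norm_num) hh
  have h3 : 0 < 2 ^ k := by positivity
  unfold offQ at h1
  refine (Pv.add (Pv.pow2 hb (by omega)) (Pv.shl (Pv.pow2 hb (by omega)) ha (by omega) (by omega))
    (by omega)).mono ?_
  linarith

theorem mul_spec (hK : KaraSpec) : MulSpec := by
  obtain ⟨t, C, ht⟩ := hK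
  let tQ : Tm := .redQ (.call t [.var 0, .var 1, .add (.add (.var 2) (.var 2)) (.const 1)]) (.var 2)
  refine ⟨tQ,
    .lett (.addQ tQ (.offT (.var 2) (.sub (.var 2) (.const 1))) (.qm (.var 2)))
      (.subQ (.add (.shr (.low (.var 0) (.var 3)) (.var 4))
          (.shl (.shr (.shr (.var 0) (.var 3)) (.var 4)) (.var 3)))
        (.offT (.var 3) (.sub (.sub (.var 3) (.const 1)) (.var 4))) (.qm (.var 3))),
    .sub (.shr (.add (.low (.addQ (.var 0) (.offT (.var 1) (.sub (.var 1) (.const 1))) (.qm (.var 1)))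
        (.var 1)) (.pow2 (.sub (.var 2) (.const 1)))) (.var 2))
      (.pow2 (.sub (.sub (.var 1) (.const 1)) (.var 2))), C + 1000, ?_⟩
  intro W x y h p hW hx hy hp hph hh
  have hmu := kara_one_le_mu W
  have hC : (0 : ℝ) ≤ C := by positivity
  have hW2 : W < 2 ^ W := Nat.lt_two_pow_self
  have hQ : 2 * Qm h ≤ 2 ^ W := by
    have := Qm_mul_lt (W := W) (h := h) (k := 1) (by omega)
    omega
  have hoff : offQ h (h - 1) < Qm h := Nat.lt_succ_of_le (kara_offQ_le (by omega))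
  have hQv : ∀ fn env, Pv W fn ([x] :: [y] :: [h] :: env) tQ [x * y % Qm h] (C * mu W + 210) := by
    intro fn env
    have h1 := Qm_le h
    obtain ⟨Y, rfl, h2⟩ := ht W x y (h + h + 1) hW (by rw [← two_mul]; omega)
      (by rw [← two_mul]; omega) (by omega) fn ([x] :: [y] :: [h] :: env)
    have h3 : x * y ≤ 2 ^ (4 * h) := by
      rw [show 4 * h = 2 * h + 2 * h by ring, pow_add]
      exact Nat.mul_le_mul (Nat.lt_succ_iff.1 hx) (Nat.lt_succ_iff.1 hy)
    refine (Pv.redQ hW (Pv.call (by pv <;> omega) h2) (Pv.varS rfl) h3 (by omega)).mono ?_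
    simp only [List.length_cons, List.length_nil]
    push_cast
    linarith
  refine ⟨fun fn env => ⟨_, rfl, (hQv fn env).mono ?_⟩, fun fn env => ⟨_, rfl, ?_⟩,
    fun fn env => ⟨_, rfl, ?_⟩⟩
  · push_cast
    linarith
  · have h1 : x * y % Qm h < Qm h := Nat.mod_lt _ (Qm_pos h)
    obtain ⟨u, hu⟩ : ∃ u, u = (x * y % Qm h + offQ h (h - 1)) % Qm h := ⟨_, rfl⟩
    have h2 : u < Qm h := hu ▸ Nat.mod_lt _ (Qm_pos h)
    have h3 : u % 2 ^ h / 2 ^ p ≤ u % 2 ^ h := Nat.div_le_self _ _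
    have h4 : u / 2 ^ h / 2 ^ p * 2 ^ h ≤ 2 ^ h * (u / 2 ^ h) := by
      rw [mul_comm]; exact Nat.mul_le_mul_left _ (Nat.div_le_self _ _)
    have h5 := Nat.mod_add_div u (2 ^ h)
    have e0 : Pv W fn ([x] :: [y] :: [h] :: [p] :: env)
        (.addQ tQ (.offT (.var 2) (.sub (.var 2) (.const 1))) (.qm (.var 2))) [u]
        (C * mu W + 400) :=
      (Pv.addQ hW (hQv fn ([p] :: env)) (Pv.offT (Pv.varS rfl) (by pv) (by omega) (by omega))
        (Pv.qm hW (Pv.varS rfl) (by omega)) (by omega) hQ).cast (by rw [hu]) (by linarith)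
    refine (Pv.lett e0 (Pv.subQ hW (by pv <;> omega)
      (Pv.offT (Pv.varS rfl) (by pv) (by omega) (by omega)) (Pv.qm hW (Pv.varS rfl) (by omega))
      (by omega) hQ)).cast ?_ ?_
    · rw [mulRound, hu, Nat.mod_add_mod]
    · simp only [List.length_cons, List.length_nil]
      push_cast
      linarith
  · have h1 : (x + offQ h (h - 1)) % Qm h % 2 ^ h < 2 ^ h := Nat.mod_lt _ (by positivity)
    have h2 : 2 ^ (p - 1) ≤ 2 ^ h := Nat.pow_le_pow_right (by norm_num) (by omega)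
    have h3 : 2 ^ (h + 1) ≤ 2 ^ W := Nat.pow_le_pow_right (by norm_num) (by omega)
    rw [pow_succ] at h3
    refine (Pv.sub (Pv.shr (Pv.add (Pv.low (Pv.addQ hW (Pv.varS rfl)
      (Pv.offT (Pv.varS rfl) (by pv) (by omega) (by omega)) (Pv.qm hW (Pv.varS rfl) (by omega))
      (by omega) hQ) (Pv.varS rfl) (by omega)) (Pv.pow2 (by pv) (by omega)) (by omega))
      (Pv.varS rfl) (by omega)) (Pv.pow2 (by pv) (by omega))).cast rfl ?_
    push_cast
    linarith

end Crest.Agent.R326
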