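import Crest.Agent.R326.SpecB

/-!
# The exact letters: shears, index negation, exchange of the halves
-/

set_option autoImplicit false

namespace Crest.Agent.R326

open Finset

namespace Lt

variable {W : ℕ} {fn : Option Tm}

/-- the loop over the fields; the step sees `[bit position] :: [s] :: [i] :: state :: arguments` -/
def tLoop (step : Tm) : Tm :=
  .iter (.var 4) (.var 0) (.lett (.nth (.var 3) (.var 0))
    (.lett (.add (.var 5) (.mul (.sub (.add (.var 6) (.var 6)) (.const 2)) (.var 1))) step))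

theorem field_le {LV l0 K a i : ℕ} (hL : l0 + (2 * K - 2) * (a - 1) + K + 1 ≤ LV) (hi : i < a) :
    l0 + (2 * K - 2) * i + (K + 1) ≤ LV := by
  have : (2 * K - 2) * i ≤ (2 * K - 2) * (a - 1) := Nat.mul_le_mul_left _ (by omega)
  omega

theorem loop_spec {step : Tm} {h LV l0 K a : ℕ} {X ss : List ℕ} {env : Env} {c : ℝ}
    (M : ℕ → ℕ → ℕ → ZMod (Qm h)) (hW : 8 ≤ W) (hX : X.length = 2 ^ LV) (hLV : LV < W)
    (hK : 4 ≤ K) (ha : 1 ≤ a) (hL : l0 + (2 * K - 2) * (a - 1) + K + 1 ≤ LV)
    (hss : ss.length = a) (hr : ∀ r ∈ X, r < Qm h) (hc : 0 ≤ c)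
    (hstep : ∀ i < a, ∀ S : List ℕ, S.length = 2 ^ LV → (∀ r ∈ S, r < Qm h) →
      ∃ Y, ExQ h (2 ^ LV) (fun _ => True)
          (lift (2 ^ (l0 + (2 * K - 2) * i)) (2 ^ (K + 1)) (M i)) S Y ∧
        Pv W fn ([l0 + (2 * K - 2) * i] :: [ss.getD i 0] :: [i] :: S :: X :: ss :: [l0] :: [K] ::
          [a] :: env) step Y c) :
    ∃ Y, ExQ h X.length (fun _ => True) (liftS l0 (2 * K - 2) (2 ^ (K + 1)) M a) X Y ∧
      Pv W fn (X :: ss :: [l0] :: [K] :: [a] :: env) (tLoop step) Y
        ((a + 1) * (c + 500 * (X.length + W + 1))) := by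
  have hWW : W < 2 ^ W := Nat.lt_two_pow_self
  have haW : a ≤ W := by
    have : 1 * (a - 1) ≤ (2 * K - 2) * (a - 1) := Nat.mul_le_mul_right _ (by omega)
    omega
  obtain ⟨Y, hY, hp⟩ := Pv.iterInv (W := W) (fn := fn) (e := X :: ss :: [l0] :: [K] :: [a] :: env)
    (n := .var 4) (init := .var 0) (N := a) (S0 := X)
    (body := .lett (.nth (.var 3) (.var 0))
      (.lett (.add (.var 5) (.mul (.sub (.add (.var 6) (.var 6)) (.const 2)) (.var 1))) step))
    (fun i S => ExQ h X.length (fun _ => True) (liftS l0 (2 * K - 2) (2 ^ (K + 1)) M i) X S)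
    (c := c + 450 * (X.length + W + 1)) (L := X.length)
    (Pv.varS rfl) (Pv.var rfl) ⟨rfl, hr, fun _ _ _ => rfl⟩
    (fun i hi S hS => by
      obtain ⟨Y, ⟨h1, h2, h3⟩, hp⟩ := hstep i hi S (hS.1.trans hX) hS.2.1
      have hf := field_le hL hi
      refine ⟨Y, ⟨h1.trans hX.symm, h2, fun b hb _ => ?_⟩, ?_⟩
      · rw [h3 b (hX ▸ hb) trivial, liftS]
        refine lift_local _ fun k hk => hS.2.2 _ ?_ trivial
        exact setDig_lt (by positivity) hk (hX ▸ two_pow_mul_dvd hf) hb
      · have e1 : K + K - 2 = 2 * K - 2 := by omega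
        have h4 : 2 * W < 2 ^ W := by
          have h5 : W - 1 < 2 ^ (W - 1) := Nat.lt_two_pow_self
          have h6 : W - 2 < 2 ^ (W - 2) := Nat.lt_two_pow_self
          have h7 : 2 ^ W = 2 * 2 ^ (W - 1) := by rw [← pow_succ']; congr 1; omega
          have h8 : 2 ^ (W - 1) = 2 * 2 ^ (W - 2) := by rw [← pow_succ']; congr 1; omega
          omega
        have h9 : Pv W fn ([ss.getD i 0] :: [i] :: S :: X :: ss :: [l0] :: [K] :: [a] :: env)
            (.add (.var 5) (.mul (.sub (.add (.var 6) (.var 6)) (.const 2)) (.var 1)))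
            [l0 + (2 * K - 2) * i] (30 + 330 * (W + 1)) := by
          apply Pv.cast
          · pv
            · omega
            · rw [e1]; omega
            · rw [e1]; omega
          · rw [e1]
          · linarith
        apply Pv.cast
        · exact Pv.lett (Pv.nth (Pv.var rfl) (Pv.varS rfl)) (Pv.lett h9 hp)
        · rfl
        · have r1 : (a : ℝ) ≤ W := by exact_mod_cast haW
          have r2 : (i : ℝ) ≤ W := by exact_mod_cast (hi.le.trans haW)
          have r3 : (8 : ℝ) ≤ W := by exact_mod_cast hW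
          have r4 : (0 : ℝ) ≤ X.length := by positivity
          simp only [hss, h1.trans hX.symm, List.length_cons, List.length_nil]
          push_cast
          linarith)
    (fun i _ S hS => by rw [hS.1])
  refine ⟨Y, hY, hp.mono ?_⟩
  have r3 : (8 : ℝ) ≤ W := by exact_mod_cast hW
  have r4 : (0 : ℝ) ≤ X.length := by positivity
  have r5 : (0 : ℝ) ≤ a := by positivity
  have r6 : (0 : ℝ) ≤ a * X.length := by positivity
  have r7 : (0 : ℝ) ≤ a * W := by positivity
  nlinarith

/-- a permutation of the field, read through `Pull` -/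
theorem exQ_of_pull {h V lo n : ℕ} {π π' : ℕ → ℕ} {S Y : List ℕ} (hr : ∀ r ∈ S, r < Qm h)
    (hY : Pull V π S Y) (hπ : ∀ b < V, π' (dig lo n b) < n ∧ π b = setDig lo n b (π' (dig lo n b))) :
    ExQ h V (fun _ => True) (lift lo n (mperm π')) S Y :=
  ⟨hY.1, hY.sub.lt (Qm_pos h) hr, fun b hb _ => by
    rw [lift_mperm _ _ (hπ b hb).1, castL, castL, hY.2 b hb, (hπ b hb).2]⟩

/-- rotation of a field of `kn` bits by a constant -/
def RotC : Prop := ∃ (t : Tm) (C : ℕ), ∀ (W : ℕ) (X : List ℕ) (LV lb kn u : ℕ), 8 ≤ W →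
  X.length = 2 ^ LV → LV < W → lb + kn ≤ LV → u ≤ 2 ^ kn →
  Does W t [X, [lb], [kn], [u]] (C * (X.length + W + 1))
    (Pull X.length (fun b => setDig (2 ^ lb) (2 ^ kn) b ((dig (2 ^ lb) (2 ^ kn) b + u) % 2 ^ kn)) X)

theorem rotC (hR : RotSpec) : RotC := by
  obtain ⟨t, C, ht⟩ := hR
  refine ⟨.lett (.shr (.len (.var 0)) (.add (.var 1) (.var 2)))
    (.call t [.var 1, .repl (.var 0) (.var 4), .var 0, .pow2 (.var 2), .pow2 (.var 3),
      .pow2 (.var 3)]), C + 200, ?_⟩
  intro W X LV lb kn u hW hX hLV hl hu fn env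
  have hWW : W < 2 ^ W := Nat.lt_two_pow_self
  set G := 2 ^ (LV - (lb + kn)) with hG
  have hG0 : 0 < G := by positivity
  have eX : X.length = G * (2 ^ lb * 2 ^ kn) := by
    rw [hX, hG, ← pow_add, ← pow_add]; congr 1; omega
  have eG : X.length / 2 ^ (lb + kn) = G := by
    rw [eX, pow_add, Nat.mul_div_cancel _ (by positivity)]
  have b0 : X.length < 2 ^ W := by rw [hX]; exact Nat.pow_lt_pow_right (by norm_num) hLV
  have b1 : G ≤ X.length := by rw [eX]; exact Nat.le_mul_of_pos_right _ (by positivity)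
  set T : List ℕ := (List.range G).flatMap fun _ => [u] with hT
  have hT' : T = (List.range G).map fun _ => u := flatMap_single _ _
  have hTl : T.length = G := by rw [hT']; simp
  obtain ⟨Y, hY, hp⟩ := ht W X T G (2 ^ lb) (2 ^ kn) (2 ^ kn) hW eX b0 hG0 (by positivity)
    (by positivity) le_rfl hTl (by
      intro x hx
      rw [hT', List.mem_map] at hx
      obtain ⟨_, -, rfl⟩ := hx
      exact hu) fn ([G] :: X :: [lb] :: [kn] :: [u] :: env)
  refine ⟨Y, hY.congr fun b hb => ?_, ?_⟩
  · rw [rotA, if_pos (dig_lt (by positivity) _ _), hT', getD_map_range _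
      ((Nat.div_lt_iff_lt_mul (by positivity)).2 (eX ▸ hb))]
  · apply Pv.cast
    · simp only [List.cons_append, List.nil_append]
      apply Pv.lett ((Pv.shr (Pv.len (Pv.var rfl) b0) (Pv.add (Pv.varS rfl) (Pv.varS rfl)
        (by omega)) (by omega)).cast (by rw [eG]) le_rfl)
      apply Pv.call (hf := hp)
      pv <;> omega
    · rfl
    · have r1 : (G : ℝ) ≤ X.length := by exact_mod_cast b1
      have r3 : (8 : ℝ) ≤ W := by exact_mod_cast hW
      have r4 : (0 : ℝ) ≤ G := by positivity
      simp only [hY.1, hTl, List.length_cons, List.length_nil]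
      push_cast
      linarith

/-- the action of a shear on the words -/
def shW (K h s be e sg d x z : ℕ) : ℕ :=
  if d / 2 ^ (K - 1) = be then
    if d % 2 ^ (K - 1) < s then
      if sg = 0 then (x + z * 2 ^ e % Qm h) % Qm h else (x + (Qm h - z * 2 ^ e % Qm h)) % Qm h
    else x
  else x

theorem shW_lt {K h s be e sg d x z : ℕ} (hx : x < Qm h) : shW K h s be e sg d x z < Qm h := by
  unfold shW
  split_ifs
  · exact Nat.mod_lt _ (Qm_pos h)
  · exact Nat.mod_lt _ (Qm_pos h)
  · exact hx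
  · exact hx

theorem cast_shW (K h s be e sg d x z : ℕ) :
    ((shW K h s be e sg d x z : ℕ) : ZMod (Qm h)) =
      x + if d / 2 ^ (K - 1) = be ∧ d % 2 ^ (K - 1) < s then sgn2 e sg * (z : ZMod (Qm h))
        else 0 := by
  unfold shW sgn2
  by_cases h1 : d / 2 ^ (K - 1) = be
  · by_cases h2 : d % 2 ^ (K - 1) < s
    · rw [if_pos h1, if_pos h2, if_pos (And.intro h1 h2)]
      split_ifs
      · rw [cast_addQ, ZMod.natCast_mod]; push_cast; ring
      · rw [cast_subQ (Nat.mod_lt _ (Qm_pos h)).le, ZMod.natCast_mod]; push_cast; ring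
    · rw [if_pos h1, if_neg h2, if_neg (fun h => h2 h.2), add_zero]
  · rw [if_neg h1, if_neg (fun h => h1 h.1), add_zero]

theorem lift_shM {R : Type} [CommRing R] {lo K s al be : ℕ} (hK : 1 ≤ K) (hal : al < 4) (c : R)
    (x : ℕ → R) (b : ℕ) :
    lift lo (2 ^ (K + 1)) (shM K s al be c) x b = x b +
      if dig lo (2 ^ (K + 1)) b / 2 ^ (K - 1) = be ∧ dig lo (2 ^ (K + 1)) b % 2 ^ (K - 1) < s then
        c * x (setDig lo (2 ^ (K + 1)) b
          (al * 2 ^ (K - 1) + dig lo (2 ^ (K + 1)) b % 2 ^ (K - 1))) else 0 := by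
  have hd : dig lo (2 ^ (K + 1)) b < 2 ^ (K + 1) := dig_lt (by positivity) _ _
  have e4 : 2 ^ (K + 1) = 4 * 2 ^ (K - 1) := by
    rw [show K + 1 = 2 + (K - 1) by omega, pow_add]; norm_num
  simp only [lift, shM, add_mul, sum_add_distrib, ite_mul, one_mul, zero_mul]
  rw [sum_ite_eq, if_pos (mem_range.2 hd), setDig_dig]
  congr 1
  generalize dig lo (2 ^ (K + 1)) b = d at *
  split_ifs with h1
  · simp only [h1.1, h1.2, true_and]
    rw [sum_ite_eq', if_pos]
    have h2 : d % 2 ^ (K - 1) < 2 ^ (K - 1) := Nat.mod_lt _ (by positivity)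
    have h3 : al * 2 ^ (K - 1) ≤ 3 * 2 ^ (K - 1) := Nat.mul_le_mul_right _ (by omega)
    rw [mem_range]; omega
  · exact sum_eq_zero fun k _ => if_neg fun h => h1 ⟨h.1, h.2.1⟩

theorem rot_quarter {q al be d : ℕ} (hq : 0 < q) (hal : al < 4) (hbe : be < 4) (hd : d / q = be) :
    (d + (al + 4 - be) % 2 ^ 2 * q) % (4 * q) = al * q + d % q := by
  have h1 := Nat.div_add_mod d q
  have h2 := Nat.mod_lt d hq
  rw [hd] at h1
  generalize d % q = r at *
  have h3 : al * q + r < 4 * q := by nlinarith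
  by_cases hab : be ≤ al
  · have : (al + 4 - be) % 2 ^ 2 = al - be := by omega
    rw [this, ← h1, ← Nat.mod_eq_of_lt h3]
    congr 1
    obtain ⟨m, rfl⟩ := Nat.exists_eq_add_of_le hab
    simp only [Nat.add_sub_cancel_left]
    ring
  · have : (al + 4 - be) % 2 ^ 2 = al + 4 - be := by omega
    rw [this, ← h1, ← Nat.mod_eq_of_lt h3, ← Nat.add_mod_right (al * q + r)]
    congr 1
    obtain ⟨m, hm⟩ := Nat.exists_eq_add_of_le (show be ≤ al + 4 by omega)
    rw [hm, Nat.add_sub_cancel_left]
    have : (al + 4) * q = (be + m) * q := by rw [hm]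
    nlinarith

/-- the word operation of a shear -/
def tShW : Tm :=
  .lett (.bits (.var 2) (.var 4) (.add (.var 11) (.const 1)))
    (.cndEq (.shr (.var 0) (.sub (.var 12) (.const 1))) (.var 16)
      (.cndLt (.low (.var 0) (.sub (.var 12) (.const 1))) (.var 6)
        (.cndEq (.var 18) (.const 0)
          (.addQ (.var 1) (.shlQ (.var 2) (.var 17) (.var 14)) (.qm (.var 14)))
          (.subQ (.var 1) (.shlQ (.var 2) (.var 17) (.var 14)) (.qm (.var 14))))
        (.var 1))
      (.var 1))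

theorem pv_shW {x z b lb s K h be e sg : ℕ} {Z A S X ss B D F : List ℕ} {env : Env} (hW : 8 ≤ W)
    (hx : x < Qm h) (hz : z < Qm h) (hlb : lb ≤ W) (hK : K + 1 ≤ h) (he : e ≤ K + 1)
    (hh : 4 * h + 16 ≤ W) :
    Pv W fn ([x] :: [z] :: [b] :: Z :: [lb] :: [s] :: A :: S :: X :: ss :: B :: [K] :: D :: [h] ::
      F :: [be] :: [e] :: [sg] :: env) tShW
      [shW K h s be e sg (dig (2 ^ lb) (2 ^ (K + 1)) b) x z] 500 := by
  have hWW : W < 2 ^ W := Nat.lt_two_pow_self
  have h1 := Qm_mul_lt (W := W) (h := h) (k := 1) (by omega)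
  have h2 : z * 2 ^ e % Qm h < Qm h := Nat.mod_lt _ (Qm_pos h)
  apply Pv.cast
  · unfold tShW
    pv <;> omega
  · rfl
  · norm_num

end Lt

open Lt

theorem letter_spec (hRot : RotSpec) (hRev : RevSpec) : LetterSpec := by
  obtain ⟨tR, CR, hR⟩ := rotC hRot
  obtain ⟨tV, CV, hV⟩ := hRev
  refine ⟨tLoop (.lett (.call tR [.var 3, .var 0, .add (.var 7) (.const 1),
        .shl (.low (.sub (.add (.var 10) (.const 4)) (.var 11)) (.const 2))
          (.sub (.var 7) (.const 1))])
      (.map2 (.len (.var 4)) (.var 4) (.var 0) tShW)),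
    tLoop (.call tV [.var 3, .pow2 (.var 0), .pow2 (.add (.var 7) (.const 1)),
      .add (.pow2 (.sub (.var 7) (.const 1))) (.const 1),
      .add (.pow2 (.sub (.var 7) (.const 1))) (.var 1)]),
    tLoop (.call tR [.var 3, .var 0, .add (.var 7) (.const 1), .pow2 (.var 7)]),
    CR + CV + 1500, ?_⟩
  intro W X ss LV l0 K a h hW hX hLV hK ha hL hss hs hr hKh hh
  have hWW : W < 2 ^ W := Nat.lt_two_pow_self
  have b0 : 2 ^ LV < 2 ^ W := Nat.pow_lt_pow_right (by norm_num) hLV
  have e4 : 2 ^ (K + 1) = 4 * 2 ^ (K - 1) := by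
    rw [show K + 1 = 2 + (K - 1) by omega, pow_add]; norm_num
  have e2 : 2 ^ K = 2 * 2 ^ (K - 1) := by
    rw [← pow_succ']; congr 1; omega
  have hq : 0 < 2 ^ (K - 1) := by positivity
  have b1 : 2 ^ (K + 1) < 2 ^ W := Nat.pow_lt_pow_right (by norm_num) (by omega)
  have hsi : ∀ i < a, 1 ≤ ss.getD i 0 ∧ ss.getD i 0 ≤ 2 ^ (K - 1) := fun i hi => by
    rw [List.getD_eq_getElem _ _ (by omega)]
    exact hs _ (List.getElem_mem _)
  have r3 : (8 : ℝ) ≤ W := by exact_mod_cast hW
  have r4 : (0 : ℝ) ≤ X.length := by positivity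
  have r5 : (0 : ℝ) ≤ (a + 1) * (X.length + W + 1) := by positivity
  have r6 : (0 : ℝ) ≤ CR * ((a + 1) * (X.length + W + 1)) := by positivity
  have r7 : (0 : ℝ) ≤ CV * ((a + 1) * (X.length + W + 1)) := by positivity
  refine ⟨fun al be e sg hal hbe hab he hsg fn env => ?_, fun fn env => ?_, fun fn env => ?_⟩
  · obtain ⟨Y, hY, hp⟩ := loop_spec (W := W) (fn := fn)
      (env := [h] :: [al] :: [be] :: [e] :: [sg] :: env)
      (step := .lett (.call tR [.var 3, .var 0, .add (.var 7) (.const 1),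
        .shl (.low (.sub (.add (.var 10) (.const 4)) (.var 11)) (.const 2))
          (.sub (.var 7) (.const 1))])
        (.map2 (.len (.var 4)) (.var 4) (.var 0) tShW))
      (c := (CR + 1000) * (X.length + W + 1))
      (fun i => shM K (ss.getD i 0) al be (sgn2 e sg)) hW hX hLV hK ha hL hss hr (by positivity)
      (fun i hi S hS hSr => by
        have hf := field_le hL hi
        have hu : (al + 4 - be) % 2 ^ 2 * 2 ^ (K - 1) ≤ 2 ^ (K + 1) := by
          rw [e4]; exact Nat.mul_le_mul_right _ (by omega)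
        obtain ⟨Z, hZ, hp⟩ := hR W S LV (l0 + (2 * K - 2) * i) (K + 1)
          ((al + 4 - be) % 2 ^ 2 * 2 ^ (K - 1)) hW hS hLV hf hu fn
          ([l0 + (2 * K - 2) * i] :: [ss.getD i 0] :: [i] :: S :: X :: ss :: [l0] :: [K] :: [a] ::
            [h] :: [al] :: [be] :: [e] :: [sg] :: env)
        have hZr := hZ.sub.lt (Qm_pos h) hSr
        refine ⟨(List.range S.length).map fun b => shW K h (ss.getD i 0) be e sg
          (dig (2 ^ (l0 + (2 * K - 2) * i)) (2 ^ (K + 1)) b) (S.getD b 0) (Z.getD b 0),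
          ⟨by simp [hS], ?_, fun b hb _ => ?_⟩, ?_⟩
        · intro r hr
          obtain ⟨b, -, rfl⟩ := List.mem_map.1 hr
          exact shW_lt (getD_lt (Qm_pos h) hSr _)
        · rw [castL, getD_map_range _ (hS ▸ hb), cast_shW, lift_shM (by omega) hal]
          congr 1
          split_ifs with h1
          · rw [hZ.2 b (hS ▸ hb), castL]
            congr 4
            rw [← rot_quarter hq hal hbe h1.1, ← e4]
          · rfl
        · apply Pv.cast
          · exact Pv.lett (Pv.call (hf := hp) (by pv <;> omega))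
              (Pv.map2 hW (Pv.len (Pv.var rfl) (by omega)) (Pv.var rfl) (Pv.var rfl) le_rfl
                hZ.1.ge fun b _ => pv_shW hW (getD_lt (Qm_pos h) hSr _) (getD_lt (Qm_pos h) hZr _)
                  (by omega) hKh he hh)
          · rfl
          · simp only [hZ.1, hS.trans hX.symm, List.length_cons, List.length_nil, List.length_map,
              List.length_range]
            push_cast
            linarith)
    refine ⟨Y, hY, hp.mono ?_⟩
    push_cast
    linarith
  · obtain ⟨Y, hY, hp⟩ := loop_spec (W := W) (fn := fn) (env := env)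
      (step := .call tV [.var 3, .pow2 (.var 0), .pow2 (.add (.var 7) (.const 1)),
        .add (.pow2 (.sub (.var 7) (.const 1))) (.const 1),
        .add (.pow2 (.sub (.var 7) (.const 1))) (.var 1)])
      (c := (CV + 100) * (X.length + W + 1))
      (fun i => mperm (negP K (ss.getD i 0))) hW hX hLV hK ha hL hss hr (by positivity)
      (fun i hi S hS hSr => by
        have hf := field_le hL hi
        have h1 := hsi i hi
        obtain ⟨Y, hY, hp⟩ := hV W S (2 ^ (l0 + (2 * K - 2) * i)) (2 ^ (K + 1)) (2 ^ (K - 1) + 1)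
          (2 ^ (K - 1) + ss.getD i 0) hW (hS ▸ two_pow_mul_dvd hf) (by rw [hS]; positivity)
          (by omega) (by omega) (by omega) fn
          ([l0 + (2 * K - 2) * i] :: [ss.getD i 0] :: [i] :: S :: X :: ss :: [l0] :: [K] :: [a] ::
            env)
        refine ⟨Y, exQ_of_pull hSr (hS ▸ hY) fun b _ => ?_, ?_⟩
        · have hd : dig (2 ^ (l0 + (2 * K - 2) * i)) (2 ^ (K + 1)) b < 2 ^ (K + 1) :=
            dig_lt (by positivity) _ _
          unfold revA negP
          split_ifs with h2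
          · exact ⟨by omega, by congr 1; omega⟩
          · exact ⟨hd, (setDig_dig _ _ _).symm⟩
        · apply Pv.cast
          · apply Pv.call (hf := hp)
            pv <;> omega
          · rfl
          · simp only [hY.1, hS.trans hX.symm, List.length_cons, List.length_nil]
            push_cast
            linarith)
    refine ⟨Y, hY, hp.mono ?_⟩
    push_cast
    linarith
  · obtain ⟨Y, hY, hp⟩ := loop_spec (W := W) (fn := fn) (env := env)
      (step := .call tR [.var 3, .var 0, .add (.var 7) (.const 1), .pow2 (.var 7)])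
      (c := (CR + 100) * (X.length + W + 1))
      (fun _ => mperm (rotP K)) hW hX hLV hK ha hL hss hr (by positivity)
      (fun i hi S hS hSr => by
        have hf := field_le hL hi
        obtain ⟨Y, hY, hp⟩ := hR W S LV (l0 + (2 * K - 2) * i) (K + 1) (2 ^ K) hW hS hLV hf
          (by omega) fn
          ([l0 + (2 * K - 2) * i] :: [ss.getD i 0] :: [i] :: S :: X :: ss :: [l0] :: [K] :: [a] ::
            env)
        refine ⟨Y, exQ_of_pull hSr (hS ▸ hY) fun b _ => ⟨Nat.mod_lt _ (by positivity), rfl⟩, ?_⟩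
        apply Pv.cast
        · apply Pv.call (hf := hp)
          pv <;> omega
        · rfl
        · simp only [hY.1, hS.trans hX.symm, List.length_cons, List.length_nil]
          push_cast
          linarith)
    refine ⟨Y, hY, hp.mono ?_⟩
    push_cast
    linarith

end Crest.Agent.R326
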