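import Crest.Agent.R326.NetX
import Crest.Agent.R324.Triples

/-!
# The network for the tensor powers of the square root of a translation
-/

set_option autoImplicit false
set_option linter.unusedSectionVars false

namespace Crest.Agent.R326

open Finset

variable {ι : Type} [Fintype ι] [DecidableEq ι]

/-- the design over a ring in which two is invertible -/
def hDesign {K : Type*} [CommRing K] (hf : K) (h2 : 2 * hf = 1) (ι : Type) [Fintype ι]
    [DecidableEq ι] : Design K (Trp ι) (R324.EvPair ι) (Option ι) where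
  tgt p := p.1.1
  src p := p.1.2
  co p := -(((p.1.1.1 ∩ p.1.2.1).card : K) - 1) * hf
  gat i T := match i with
    | none => 1
    | some i => if i ∈ T.1 then 1 else 0
  sca S i := match i with
    | none => -hf
    | some i => if i ∈ S.1 then hf else 0
  ident S T := by
    rw [Fintype.sum_option, sum_ind, sum_pairs
      (fun p => (p.1.1 ∩ p.2.1).card = 0 ∨ (p.1.1 ∩ p.2.1).card = 2)
      (fun p => -(((p.1.1 ∩ p.2.1).card : K) - 1) * hf)]
    have hle : (S.1 ∩ T.1).card ≤ 3 := (Finset.card_le_card Finset.inter_subset_left).trans S.2.le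
    by_cases hST : S = T
    · subst hST
      simp only [Finset.inter_self, S.2]
      norm_num
      linear_combination h2
    · have h3 : (S.1 ∩ T.1).card ≠ 3 := fun h => hST (Trp.eq_of_card h)
      rw [if_neg hST]
      dsimp only
      split_ifs with h
      · ring
      · rw [show (S.1 ∩ T.1).card = 1 by omega]; push_cast; ring

/-- the four-vector relation, written additively -/
def RelA {E Q : Type} [AddCommGroup E] [AddCommGroup Q] (c : E → Q) : Prop :=
  R324.Rel4 fun x => Multiplicative.ofAdd (c x)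

theorem RelA.sum {E Q J : Type} [AddCommGroup E] [AddCommGroup Q] {c : J → E → Q}
    (h : ∀ j, RelA (c j)) (t : Multiset J) : RelA fun x => (t.map fun j => c j x).sum := by
  intro a b d e
  simp only [← ofAdd_add, ← Multiset.sum_map_add]
  exact congrArg _ (congrArg _ (Multiset.map_congr rfl fun j _ => h j a b d e))

/-- models of the network -/
structure HMod (m W0 : ℕ) : Type 1 where
  K : Type
  [r : CommRing K]
  hf : K
  A : Type
  [g : AddCommGroup A]
  [md : Module K A]
  Q : Type
  [q : CommMonoid Q]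
  ρ : Q →* Module.End K A
  gam : (Fin m → ZMod 2) → Q
  tau : (Fin m → ZMod 2) → Q
  h2 : 2 * hf = 1
  t0 : tau 0 = 1
  tadd : ∀ w w', tau (w + w') = tau w * tau w'
  sq : ∀ z, gam z * gam z = tau z
  rel : ∀ a b d e, gam (a + b + d) * gam (a + b + e) * gam (a + d + e) * gam (b + d + e) =
      tau (a + b + d + e) * (gam a * gam b * gam d * gam e)
  xs : List A

attribute [instance] HMod.r HMod.g HMod.md HMod.q

namespace HMod

variable {m W0 : ℕ} (μ : HMod m W0)

theorem tsq (w : Fin m → ZMod 2) : μ.tau w * μ.tau w = 1 := by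
  rw [← μ.tadd, ← μ.t0]
  congr 1
  ext i
  exact CharTwo.add_self_eq_zero _

/-- the value of a formal sum of generators -/
def ev : FreeAbelianGroup (Fin m → ZMod 2) →+ Additive μ.Qˣ :=
  FreeAbelianGroup.lift fun z => Additive.ofMul
    (Units.mkOfMulEqOne (μ.gam z) (μ.gam z * μ.tau z) (by rw [← mul_assoc, μ.sq, μ.tsq]))

/-- the value of a formal sum of generators -/
def val (q : FreeAbelianGroup (Fin m → ZMod 2)) : μ.Q := ((μ.ev q).toMul : μ.Qˣ)

theorem val_zero : μ.val 0 = 1 := by simp [val]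

theorem val_add (q q') : μ.val (q + q') = μ.val q * μ.val q' := by simp [val]

theorem val_of (z) : μ.val (.of z) = μ.gam z := by simp [val, ev]

theorem val_sum {J : Type} (t : Finset J) (f : J → FreeAbelianGroup (Fin m → ZMod 2)) :
    μ.val (∑ j ∈ t, f j) = ∏ j ∈ t, μ.val (f j) := by simp [val, toMul_sum]

end HMod

/-- the formal sums that act as a translation -/
def hCheap (m W0 : ℕ) : AddSubgroup (FreeAbelianGroup (Fin m → ZMod 2)) where
  carrier := {q | ∃ w, ∀ μ : HMod m W0, μ.val q = μ.tau w}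
  zero_mem' := ⟨0, fun μ => by rw [μ.val_zero, μ.t0]⟩
  add_mem' := by
    rintro q q' ⟨w, h⟩ ⟨w', h'⟩
    exact ⟨w + w', fun μ => by rw [μ.val_add, μ.tadd, h, h']⟩
  neg_mem' := by
    rintro q ⟨w, h⟩
    refine ⟨w, fun μ => ?_⟩
    rw [← mul_one (μ.val _), ← μ.tsq w, ← mul_assoc, ← h μ, ← μ.val_add, neg_add_cancel,
      μ.val_zero, one_mul]

theorem hCheap_eq {m W0 : ℕ} {q q' : FreeAbelianGroup (Fin m → ZMod 2)} (w : Fin m → ZMod 2)
    (h : ∀ μ : HMod m W0, μ.val q' = μ.tau w * μ.val q) :
    QuotientAddGroup.mk' (hCheap m W0) q = QuotientAddGroup.mk' (hCheap m W0) q' :=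
  QuotientAddGroup.eq.2 ⟨w, fun μ => by
    rw [μ.val_add, h, mul_left_comm, ← μ.val_add, neg_add_cancel, μ.val_zero, mul_one]⟩

/-- the family of all models -/
def hFam (m W0 : ℕ) (h : 0 < W0) :
    Fam ((Fin m → ZMod 2) ⊕ (Fin m → ZMod 2)) (HMod m W0) HMod.A W0 where
  hf μ x := μ.hf • x
  ρ μ g x := μ.ρ (Sum.elim μ.gam μ.tau g) x
  xs := HMod.xs
  κ := Sum.elim (fun _ => 1) (fun _ => 0)
  pos := h

/-- the scalars that act for free -/
def hScal (m W0 : ℕ) (h : 0 < W0) : Subring (∀ μ : HMod m W0, μ.K) where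
  carrier := {k | ∀ s v, (hFam m W0 h).Cl s v → (hFam m W0 h).Cl s (k • v)}
  mul_mem' ha hb s v hv := by rw [mul_smul]; exact ha s _ (hb s v hv)
  one_mem' s v hv := by rwa [one_smul]
  add_mem' ha hb s v hv := by rw [add_smul]; exact (ha s v hv).add (hb s v hv)
  zero_mem' s v _ := by rw [zero_smul]; exact Fam.Cl.zero s
  neg_mem' ha s v hv := by rw [neg_smul]; exact (ha s v hv).neg

/-- the action of the formal sums -/
def hAct (m W0 : ℕ) (h : 0 < W0) : (hFam m W0 h).Act (hScal m W0 h)
    (FreeAbelianGroup (Fin m → ZMod 2)) (FreeAbelianGroup (Fin m → ZMod 2) ⧸ hCheap m W0) where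
  act q :=
    { toFun := fun v μ => μ.ρ (μ.val q) (v μ)
      map_add' := fun v w => funext fun μ => map_add _ _ _
      map_smul' := fun k v => funext fun μ => map_smul _ (k.1 μ) _ }
  zero v := funext fun μ => by simp [μ.val_zero]
  add q q' v := funext fun μ => by simp [μ.val_add]
  π := QuotientAddGroup.mk' _
  surj := QuotientAddGroup.mk'_surjective _
  cheap q hq s v hv := by
    obtain ⟨w, hw⟩ := (QuotientAddGroup.eq_zero_iff q).1 hq
    convert hv.gen (.inr w) le_rfl using 1
    exact funext fun μ => by simp [hw, hFam]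
  scal k := k.2

theorem hnet_aux {m k : ℕ} (e : Fin m ≃ ι × ι × ι) (hk : Fintype.card ι = k + 2) (h8 : 6 ≤ k)
    (hgain : 3 * (Fintype.card (Option ι) * (k + 2)) < Fintype.card (Trp ι)) {W0 : ℕ} (h : 0 < W0)
    (hW : W0 = Fintype.card (Fam.Wire (Trp ι) (R324.EvPair ι))) :
    ∃ N : NetProg ((Fin m → ZMod 2) ⊕ (Fin m → ZMod 2)) W0,
      N.cost (Sum.elim (fun _ => 1) (fun _ => 0)) + 1 ≤ W0 * ((k + 2) ^ 3 : ℕ) ∧ ∀ μ : HMod m W0,
      N.out (fun x => μ.hf • x) (fun g x => μ.ρ (Sum.elim μ.gam μ.tau g) x) μ.xs =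
        (List.range W0).map fun w => μ.ρ (∏ i, μ.gam (Pi.single i 1)) (μ.xs.getD w 0) := by
  let Q' := FreeAbelianGroup (Fin m → ZMod 2) ⧸ hCheap m W0
  let π : FreeAbelianGroup (Fin m → ZMod 2) →+ Q' := QuotientAddGroup.mk' (hCheap m W0)
  choose C hC hC' using fun S : Trp ι => R324.one_line (Multiplicative Q') (by omega) S.1 S.2
  choose CC hCC hCC' using fun p : R324.EvPair ι =>
    R324.two_lines (Multiplicative Q') (by omega) p.1.1.1 p.1.2.1 p.1.1.2 p.1.2.2 p.2
  let I : Multiset (ι → ZMod 2) := univ.val.map R324.bv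
  have k1 : ∀ S (g : _ → Q'), RelA g → (I.map g).sum = (({R324.ind S.1} + C S).map g).sum :=
    fun S g hg => by
      have := congrArg Multiplicative.toAdd (hC' S _ hg)
      simpa [I, toAdd_prod, toAdd_multiset_sum, Multiset.map_map] using this
  have k2 : ∀ p (g : _ → Q'), RelA g →
      (I.map g).sum = (({R324.ind p.1.1.1} + {R324.ind p.1.2.1} + CC p).map g).sum :=
    fun p g hg => by
      have := congrArg Multiplicative.toAdd (hCC' p _ hg)
      simpa [I, toAdd_prod, toAdd_multiset_sum, Multiset.map_map, add_assoc] using this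
  let tn : (ι → ZMod 2) → (ι → ZMod 2) → (ι → ZMod 2) → Fin m → ZMod 2 := fun x y z i =>
    x (e i).1 * y (e i).2.1 * z (e i).2.2
  have r0 : RelA fun z => π (.of z) := fun a b d e => by
    simp only [← ofAdd_add, ← map_add]
    exact congrArg _ (hCheap_eq (a + b + d + e) fun μ => by
      simp only [μ.val_add, μ.val_of, μ.rel])
  have ra : ∀ y z, RelA fun x => π (.of (tn x y z)) := fun y z a b d e => by
    have : ∀ a b, tn (a + b) y z = tn a y z + tn b y z := fun a b => by
      ext i; simp [tn, add_mul]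
    simp only [this]; exact r0 _ _ _ _
  have rb : ∀ x z, RelA fun y => π (.of (tn x y z)) := fun x z a b d e => by
    have : ∀ a b, tn x (a + b) z = tn x a z + tn x b z := fun a b => by
      ext i; simp [tn, add_mul, mul_add]
    simp only [this]; exact r0 _ _ _ _
  have rc : ∀ x y, RelA fun z => π (.of (tn x y z)) := fun x y a b d e => by
    have : ∀ a b, tn x y (a + b) = tn x y a + tn x y b := fun a b => by
      ext i; simp [tn, mul_add]
    simp only [this]; exact r0 _ _ _ _
  let f : Multiset (ι → ZMod 2) → Multiset (ι → ZMod 2) → Multiset (ι → ZMod 2) → Q' :=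
    fun s t u => (s.map fun x => (t.map fun y => (u.map fun z => π (.of (tn x y z))).sum).sum).sum
  have key : ∀ s, (∀ g : _ → Q', RelA g → (I.map g).sum = (s.map g).sum) →
      ∀ t u, f I t u = f s t u ∧ f t I u = f t s u ∧ f t u I = f t u s := fun s hs t u =>
    ⟨hs _ (RelA.sum (fun y => RelA.sum (ra y) u) t),
      congrArg Multiset.sum (Multiset.map_congr rfl fun x _ => hs _ (RelA.sum (rb x) u)),
      congrArg Multiset.sum (Multiset.map_congr rfl fun x _ =>
        congrArg Multiset.sum (Multiset.map_congr rfl fun y _ => hs _ (rc x y)))⟩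
  have f1 : ∀ x y z, f {x} {y} {z} = π (.of (tn x y z)) := fun x y z => by simp [f]
  have two : ∀ z, π (.of z) + π (.of z) = 0 := fun z => by
    rw [← map_add, ← map_zero π]
    exact (hCheap_eq z fun μ => by rw [μ.val_add, μ.val_of, μ.val_zero, mul_one, μ.sq]).symm
  have hl : ∀ z, (hAct m W0 h).sys.line (π (.of z)) := fun z =>
    ⟨.of z, .inl z, rfl, le_rfl, fun v => funext fun μ => by simp [hAct, hFam, μ.val_of]⟩
  let Λ : Lines (hAct m W0 h).sys
      (hDesign (K := hScal m W0 h) ⟨fun μ => μ.hf, fun s v hv => hv.half⟩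
        (Subtype.ext (funext fun μ => μ.h2)) ι) (ι → ZMod 2) k :=
    { F := tri f (fun _ _ _ _ => by simp [f]) (fun _ _ _ _ => by simp [f])
        (fun _ _ _ _ => by simp [f])
      I := I
      l := fun S => R324.ind S.1
      C := C
      CC := CC
      cI := by simp [I, hk]
      cC := fun S => by have := hC S; omega
      cCC := fun p => by have := hCC p; omega
      pos := fun x y z => (f1 x y z).symm ▸ hl _
      neg := fun x y z => by
        change (hAct m W0 h).sys.line (-f {x} {y} {z})
        rw [f1, neg_eq_of_add_eq_zero_left (two _)]; exact hl _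
      two := fun x y z => by
        change (hAct m W0 h).sys.line (f {x} {y} {z} + f {x} {y} {z})
        rw [f1, two]
        exact ⟨0, .inr 0, rfl, zero_le_one,
          fun v => funext fun μ => by simp [hAct, hFam, μ.val_zero, μ.t0]⟩
      r1 := fun S => key _ (k1 S)
      r2 := fun p => key _ (k2 p) }
  obtain ⟨N, h1, h2⟩ := (hAct m W0 h).net Λ hW hgain (∑ i, .of (Pi.single i 1)) (by
    change π _ = f I I I
    have : f I I I = ∑ a, ∑ b, ∑ c, π (.of (tn (R324.bv a) (R324.bv b) (R324.bv c))) := by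
      simp only [f, I, Multiset.map_map]; rfl
    rw [this, map_sum, ← e.symm.sum_comp, Fintype.sum_prod_type]
    refine Finset.sum_congr rfl fun a _ => ?_
    rw [Fintype.sum_prod_type]
    refine Finset.sum_congr rfl fun b _ => Finset.sum_congr rfl fun c _ => ?_
    congr 2
    ext i
    obtain ⟨⟨a', b', c'⟩, rfl⟩ := e.symm.surjective i
    simp only [tn, R324.bv, Pi.single_apply, Equiv.apply_symm_apply, Equiv.apply_eq_iff_eq,
      Prod.mk.injEq]
    by_cases h1 : a' = a <;> by_cases h2 : b' = b <;> by_cases h3 : c' = c <;> simp [h1, h2, h3])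
  refine ⟨N, h1, fun μ => (h2 μ).trans (List.map_congr_left fun w _ => ?_)⟩
  change μ.ρ (μ.val _) _ = _
  simp only [μ.val_sum, μ.val_of]
  rfl

theorem hnet_gen (hι : Fintype.card ι = 24) : HNetSpec := by
  obtain ⟨h1, h2⟩ := card_wire hι (Pr := R324.EvPair ι) (Fintype.card_subtype_le _)
  obtain ⟨N, h3, h4⟩ := hnet_aux (ι := ι) (m := 13824) (k := 22)
    (Fintype.equivOfCardEq (by simp [hι])) hι (by norm_num)
    (by rw [card_trp hι, Fintype.card_option, hι]; norm_num) h1 rfl
  refine ⟨13824, _, N, by norm_num, by norm_num, h1, h2, h3,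
    fun K _ hf A _ _ Q _ ρ gam tau a b c d e xs hxs => ?_⟩
  exact (h4 ⟨K, hf, A, Q, ρ, gam, tau, a, b, c, d, e, xs⟩).trans (map_range_getD _ xs hxs)

theorem hnet_spec : HNetSpec := hnet_gen (Fintype.card_fin 24)

end Crest.Agent.R326
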