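import Crest.Agent.R326.Perm1

/-!
# Collecting blocks class by class, and the inverse operation
-/

set_option autoImplicit false

namespace Crest.Agent.R326

namespace Perm2

open Perm1

variable {W : ℕ} {fn : Option Tm}

theorem flatMap_ite (P : ℕ → Prop) [DecidablePred P] (h : ℕ → List ℕ) (l : List ℕ) :
    (l.flatMap fun p => if P p then h p else []) = (l.filter fun p => P p).flatMap h := by
  induction l with
  | nil => rfl
  | cons a l ih => by_cases ha : P a <;> simp [ha, ih]

theorem flatMap_eq_range (h : ℕ → List ℕ) (l : List ℕ) :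
    l.flatMap h = (List.range l.length).flatMap fun i => h (l.getD i 0) := by
  induction l with
  | nil => rfl
  | cons a l ih =>
    rw [List.length_cons, List.range_succ_eq_map, List.flatMap_cons, List.flatMap_cons,
      List.flatMap_map, ih]
    rfl

theorem sel_succ (cls : List ℕ) (n m : ℕ) :
    sel cls n (m + 1) = sel cls n m ++ (List.range n).filter fun p => cls.getD p 0 = m := by
  simp [sel, List.range_succ]

theorem sel_lt {cls : List ℕ} {n m p : ℕ} (h : p ∈ sel cls n m) : p < n := by
  simp only [sel, List.mem_flatMap, List.mem_filter, List.mem_range] at h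
  obtain ⟨_, _, h, _⟩ := h
  exact h

theorem sel_getD_lt {cls : List ℕ} {n m i : ℕ} (h : i < (sel cls n m).length) :
    (sel cls n m).getD i 0 < n := by
  rw [List.getD_eq_getElem _ _ h]
  exact sel_lt (List.getElem_mem h)

/-! ### gather -/

def gatherT : Tm := .lett (.mul (.var 3) (.var 4)) (.strm1 (.var 3) (.var 1) (.var 0)
  (.strm0 (.var 8) (.strm2 (.var 8) (.var 1) (.var 7) (.var 5) (.const 1)
    (.ifEq (.var 1) (.var 3) (.var 0) .nil))))

/-! ### scatter -/

/-- number of positions below `p` of class `j` -/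
def cnt (cls : List ℕ) (j p : ℕ) : ℕ := ((List.range p).filter fun q => cls.getD q 0 = j).length

theorem cnt_succ (cls : List ℕ) (j p : ℕ) :
    cnt cls j (p + 1) = cnt cls j p + if cls.getD p 0 = j then 1 else 0 := by
  unfold cnt
  rw [List.range_succ, List.filter_append, List.length_append]
  by_cases h : cls.getD p 0 = j <;> simp [h, -List.getD_eq_getElem?_getD]

theorem cnt_mono (cls : List ℕ) (j : ℕ) : Monotone (cnt cls j) :=
  monotone_nat_of_le_succ fun p => by rw [cnt_succ]; omega

theorem sel_length_succ (cls : List ℕ) (n m : ℕ) :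
    (sel cls n (m + 1)).length = (sel cls n m).length + cnt cls m n := by
  rw [sel_succ, List.length_append]; rfl

theorem sel_length_mono (cls : List ℕ) (n : ℕ) : Monotone fun m => (sel cls n m).length :=
  monotone_nat_of_le_succ fun m => by simp only [sel_length_succ]; omega

/-- the index of the position `p` in `sel` -/
def idx (cls : List ℕ) (n p : ℕ) : ℕ :=
  (sel cls n (cls.getD p 0)).length + cnt cls (cls.getD p 0) p

theorem idx_lt {cls : List ℕ} {n m p : ℕ} (hp : p < n) (hm : cls.getD p 0 < m) :
    idx cls n p < (sel cls n m).length := by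
  have h1 := sel_length_mono cls n (Nat.succ_le_of_lt hm)
  have h2 := cnt_mono cls (cls.getD p 0) (Nat.succ_le_of_lt hp)
  simp only [Nat.succ_eq_add_one, sel_length_succ, cnt_succ, if_true] at h1 h2
  unfold idx
  omega

theorem filter_getD (cls : List ℕ) (j n i : ℕ) (hi : i < cnt cls j n) :
    cls.getD (((List.range n).filter fun q => cls.getD q 0 = j).getD i 0) 0 = j ∧
      cnt cls j (((List.range n).filter fun q => cls.getD q 0 = j).getD i 0) = i := by
  induction n with
  | zero => simp [cnt] at hi
  | succ n ih =>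
    rw [List.range_succ, List.filter_append, getD_app]
    split_ifs with h
    · exact ih h
    · rw [cnt_succ] at hi
      have h' : ¬ i < cnt cls j n := h
      by_cases hj : cls.getD n 0 = j
      · rw [if_pos hj] at hi
        have h0 : i - ((List.range n).filter fun q => cls.getD q 0 = j).length = 0 := by
          change i - cnt cls j n = 0
          omega
        rw [h0, List.filter_cons_of_pos (by simpa using hj)]
        exact ⟨hj, by change cnt cls j n = i; omega⟩
      · rw [if_neg hj] at hi
        omega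

theorem idx_sel {cls : List ℕ} {n m i : ℕ} (h : i < (sel cls n m).length) :
    cls.getD ((sel cls n m).getD i 0) 0 < m ∧ idx cls n ((sel cls n m).getD i 0) = i := by
  induction m with
  | zero => simp [sel] at h
  | succ m ih =>
    rw [sel_length_succ] at h
    rw [sel_succ, getD_app]
    split_ifs with h'
    · exact ⟨(ih h').1.trans (Nat.lt_succ_self _), (ih h').2⟩
    · obtain ⟨a, b⟩ := filter_getD cls m n (i - (sel cls n m).length) (by omega)
      refine ⟨by rw [a]; exact Nat.lt_succ_self _, ?_⟩
      rw [idx, a, b]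
      omega

/-- the blocks of `out` at the positions of class `j` are replaced by the first blocks of `src`;
the rest of `src` is appended -/
def mergeT (n lo j cls src out : Tm) : Tm :=
  .lett out (.lett (.skip 0 1 src) (.lett (.skip 0 2 cls) (.lett (.skip 0 3 lo)
    (.lett (.skip 0 4 j) (.lett .nil (.seq (.rep (.skip 0 6 n)
      (.lett (.popN 6 (.var 3)) (.lett (.pop 5)
        (.ifEq (.var 0) (.var 4) (.push 3 (.popN 7 (.var 5))) (.push 3 (.var 1))))))
      (.app (.rev (.var 0)) (.var 4))))))))

def mergeL (lo j : ℕ) (cls src out : List ℕ) (p : ℕ) : List ℕ :=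
  if cls.getD p 0 = j then chunk lo src (cnt cls j p) else chunk lo out p

theorem mergeL_le (lo j : ℕ) (cls src out : List ℕ) (p : ℕ) :
    ((mergeL lo j cls src out p).length : ℝ) ≤ lo := by
  unfold mergeL
  split_ifs <;> exact_mod_cast chunk_length_le _ _ _

theorem pv_mergeT {e : Env} {tn tlo tj tcls tsrc tout : Tm} {n lo j : ℕ} {cls src out : List ℕ}
    {c0 c1 c2 c3 c4 c5 : ℝ} (hn : Pv W fn e tn [n] c0) (hlo : Pv W fn e tlo [lo] c1)
    (hj : Pv W fn e tj [j] c2) (hcls : Pv W fn e tcls cls c3) (hsrc : Pv W fn e tsrc src c4)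
    (hout : Pv W fn e tout out c5) (hl : cls.length = n) :
    Pv W fn e (mergeT tn tlo tj tcls tsrc tout)
      ((List.range n).flatMap (mergeL lo j cls src out) ++ src.drop (cnt cls j n * lo))
      (c0 + c1 + c2 + c3 + c4 + c5 + out.length + 13 * src.length + n * (110 * lo + 90) + 50) := by
  have h1 := Ev.rep (W := W) (fn := fn) (e := [] :: [j] :: [lo] :: cls :: src :: out :: e)
    (n := .skip 0 6 tn)
    (body := .lett (.popN 6 (.var 3)) (.lett (.pop 5)
        (.ifEq (.var 0) (.var 4) (.push 3 (.popN 7 (.var 5))) (.push 3 (.var 1))))) (N := n)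
    (fun p => ((List.range p).flatMap (mergeL lo j cls src out)).reverse :: [j] :: [lo] ::
      cls.drop p :: src.drop (cnt cls j p * lo) :: out.drop (p * lo) :: e) (fun _ => [])
    (fun _ => 82 * lo + 62)
    (by simpa [cnt] using
      Ev.skip (A := []) (B := [[], [j], [lo], cls, src, out]) (A' := []) rfl rfl rfl hn)
    (fun p hp => by
      have hc : (cls.drop p).take 1 = [cls.getD p 0] := by
        simpa [chunk] using chunk_one (x := cls) (i := p) (by omega)
      have a1 : (((out.drop (p * lo)).take lo).length : ℝ) ≤ lo := by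
        exact_mod_cast List.length_take_le _ _
      have a2 : (((src.drop (cnt cls j p * lo)).take lo).length : ℝ) ≤ lo := by
        exact_mod_cast List.length_take_le _ _
      have a3 : (0 : ℝ) ≤ lo := by positivity
      by_cases h : cls.getD p 0 = j
      · refine (Ev.lett (Ev.popN (x := out.drop (p * lo)) (Pv.varS rfl) rfl)
          (Ev.lett ((Ev.pop (x := cls.drop p) rfl).cast rfl hc)
            (Ev.ifEqT (Pv.varS rfl) (Pv.varS rfl) h
              (Ev.push (Ev.popN (x := src.drop (cnt cls j p * lo)) (Pv.varS rfl) rfl)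
                rfl)))).cast ?_ rfl |>.mono ?_
        · simp [List.range_succ, Nat.add_mul, cnt_succ, mergeL, h, chunk,
            -List.getD_eq_getElem?_getD]
        · simp only [List.length_nil, List.length_cons]
          push_cast
          linarith
      · refine (Ev.lett (Ev.popN (x := out.drop (p * lo)) (Pv.varS rfl) rfl)
          (Ev.lett ((Ev.pop (x := cls.drop p) rfl).cast rfl hc)
            (Ev.ifEqF (Pv.varS rfl) (Pv.varS rfl) h
              (Ev.push (Ev.var rfl) rfl)))).cast ?_ rfl |>.mono ?_
        · simp [List.range_succ, Nat.add_mul, cnt_succ, mergeL, h, chunk,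
            -List.getD_eq_getElem?_getD]
        · simp only [List.length_nil, List.length_cons]
          push_cast
          linarith)
  refine (Ev.lett hout (Ev.lett (Ev.skip01 hsrc) (Ev.lett
    (Ev.skip (A := []) (B := [_, _]) (A' := []) rfl rfl rfl hcls) (Ev.lett
    (Ev.skip (A := []) (B := [_, _, _]) (A' := []) rfl rfl rfl hlo) (Ev.lett
    (Ev.skip (A := []) (B := [_, _, _, _]) (A' := []) rfl rfl rfl hj) (Ev.lett Ev.nil
    (Ev.seq h1 (Pv.app (Pv.rev (Pv.var rfl)) (Pv.var rfl))))))))).cast rfl (by simp) |>.mono ?_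
  have h2 := length_flatMap_le fun p (_ : p < n) => mergeL_le lo j cls src out p
  have h3 : (0 : ℝ) ≤ ((List.range n).flatMap (mergeL lo j cls src out)).length := by positivity
  have h4 : ((src.drop (cnt cls j n * lo)).length : ℝ) ≤ src.length := by
    exact_mod_cast (by simp)
  have h5 : ((out.drop (n * lo)).length : ℝ) ≤ out.length := by exact_mod_cast (by simp)
  have h6 : (cls.drop n).length = 0 := by simp [hl]
  have h7 : (0 : ℝ) ≤ n := by positivity
  have h8 : (0 : ℝ) ≤ n * lo := by positivity
  have h9 : (0 : ℝ) ≤ src.length := by positivity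
  simp only [List.length_reverse, List.length_nil, List.reverse_reverse, List.length_cons,
    List.length_append, h6]
  simp only [Finset.sum_const, Finset.card_range, nsmul_eq_mul]
  push_cast at h2 h3 ⊢
  linarith

def scatterB : Tm := .take (.var 3) (.iter (.var 9)
  (.app (.repl (.var 8) (.zeros (.var 7))) (.var 0))
  (mergeT (.var 10) (.var 9) (.var 0) (.var 7) (.drop (.var 5) (.var 1)) (.take (.var 5) (.var 1))))

def scatterT : Tm := .lett (.mul (.var 3) (.var 4)) (.lett (.mul (.var 4) (.var 7))
  (.strm1 (.var 4) (.var 2) (.var 0) scatterB))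

/-- the block `p` after the classes below `j` have been distributed -/
def outB (cls : List ℕ) (lo n : ℕ) (x : List ℕ) (j p : ℕ) : List ℕ :=
  if cls.getD p 0 < j then chunk lo x (idx cls n p) else List.replicate lo 0

def outL (cls : List ℕ) (lo n : ℕ) (x : List ℕ) (j : ℕ) : List ℕ :=
  (List.range n).flatMap (outB cls lo n x j)

theorem outB_length {cls : List ℕ} {lo n m k j : ℕ} {x : List ℕ} (hx : x.length = lo * k)
    (hk : (sel cls n m).length ≤ k) (hj : j ≤ m) : ∀ p < n, (outB cls lo n x j p).length = lo := by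
  intro p hp
  unfold outB
  split_ifs with h
  · refine chunk_length ?_
    rw [hx, mul_comm]
    exact Nat.mul_le_mul_left _ ((idx_lt hp (h.trans_le hj)).trans_le hk)
  · simp

theorem chunk_flatMap {f : ℕ → List ℕ} {N L : ℕ} (h : ∀ i < N, (f i).length = L) {i : ℕ}
    (hi : i < N) : chunk L ((List.range N).flatMap f) i = f i := by
  have h1 : (chunk L ((List.range N).flatMap f) i).length = L := chunk_len (length_flatMap_eq h) hi
  refine List.ext_getElem (by rw [h1, h i hi]) fun r hr hr' => ?_
  rw [← List.getD_eq_getElem _ 0, ← List.getD_eq_getElem _ 0, chunk_getD _ _ _ (h1 ▸ hr),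
    getD_flatMap h hi (h1 ▸ hr)]

theorem merge_step {cls : List ℕ} {lo n m k j : ℕ} {x : List ℕ} (hx : x.length = lo * k)
    (hk : (sel cls n m).length ≤ k) (hj : j ≤ m) :
    (List.range n).flatMap (mergeL lo j cls (x.drop ((sel cls n j).length * lo))
        (outL cls lo n x j)) ++ (x.drop ((sel cls n j).length * lo)).drop (cnt cls j n * lo) =
      outL cls lo n x (j + 1) ++ x.drop ((sel cls n (j + 1)).length * lo) := by
  rw [List.drop_drop, sel_length_succ, Nat.add_mul]
  congr 1
  refine List.flatMap_congr fun p hp => ?_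
  have hp' := List.mem_range.1 hp
  unfold mergeL
  split_ifs with h
  · rw [outB, if_pos (by omega), idx, h, chunk, chunk, List.drop_drop, Nat.add_mul]
  · rw [outL, chunk_flatMap (outB_length hx hk hj) hp', outB, outB]
    exact if_congr (by omega) rfl rfl

theorem pv_scatterB {cls X : List ℕ} {lo n m k G g : ℕ} {x : List ℕ} {env : Env}
    (hx : x.length = lo * k) (hk : (sel cls n m).length ≤ k) (hkn : k ≤ n) (hlo : 0 < lo)
    (hn : 0 < n) (hl : cls.length = n) :
    Pv W fn (x :: [g] :: [lo * k] :: [lo * n] :: X :: cls :: [G] :: [lo] :: [n] :: [m] :: [k] :: env)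
      scatterB (outL cls lo n x m) (500 * ((m + 1) * (lo * n : ℕ))) := by
  have ho : ∀ j ≤ m, (outL cls lo n x j).length = lo * n := fun j hj => by
    rw [outL, length_flatMap_eq (outB_length hx hk hj), mul_comm]
  have h1 : lo * k ≤ lo * n := Nat.mul_le_mul_left _ hkn
  have r1 : (x.length : ℝ) ≤ (lo * n : ℕ) := by rw [hx]; exact_mod_cast h1
  have r2 : (n : ℝ) ≤ (lo * n : ℕ) := by exact_mod_cast Nat.le_mul_of_pos_left _ hlo
  have r3 : (1 : ℝ) ≤ (lo * n : ℕ) := by exact_mod_cast Nat.mul_pos hlo hn
  have r4 : (n : ℝ) * lo = (lo * n : ℕ) := by push_cast; ring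
  have hd : ∀ j, ((x.drop ((sel cls n j).length * lo)).length : ℝ) ≤ (lo * n : ℕ) := fun j =>
    le_trans (by exact_mod_cast (by simp)) r1
  have hS : ∀ j ≤ m, ((outL cls lo n x j ++ x.drop ((sel cls n j).length * lo)).length : ℝ) ≤
      2 * (lo * n : ℕ) := fun j hj => by
    rw [List.length_append, ho j hj]
    push_cast [-Nat.cast_mul]
    linarith [hd j]
  refine (Pv.take (Pv.varS rfl) (Pv.iter
    (fun j => outL cls lo n x j ++ x.drop ((sel cls n j).length * lo))
    (c := 430 * (lo * n : ℕ)) (c1 := 90 * (lo * n : ℕ)) (Pv.varS rfl) ?_ (fun j hj => ?_) hS)).cast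
    (List.take_left' (ho m le_rfl)) ?_
  · refine (Pv.app (Pv.repl (Pv.varS rfl) (Pv.zeros (Pv.varS rfl))) (Pv.var rfl)).cast ?_ ?_
    · have : outB cls lo n x 0 = fun _ => List.replicate lo 0 := by
        funext p; simp [outB]
      simp [outL, this, sel]
    · rw [length_flatMap_eq (L := lo) (by simp)]
      simp only [List.length_replicate, Nat.cast_mul n]
      linarith
  · refine (pv_mergeT (Pv.varS rfl) (Pv.varS rfl) (Pv.varS rfl) (Pv.var rfl)
      (Pv.drop (Pv.varS rfl) (Pv.var rfl)) (Pv.take (Pv.varS rfl) (Pv.var rfl)) hl).cast ?_ ?_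
    · rw [List.take_left' (ho j hj.le), List.drop_left' (ho j hj.le)]
      exact merge_step hx hk hj.le
    · rw [List.take_left' (ho j hj.le), List.drop_left' (ho j hj.le), hl, ho j hj.le]
      linarith [hS j hj.le, hd j]
  · have hm : (0 : ℝ) ≤ m := by positivity
    have := mul_le_mul_of_nonneg_left r3 hm
    linarith [hS m le_rfl]

end Perm2

open Perm1 Perm2

theorem gather_spec : GatherSpec := by
  refine ⟨gatherT, 500, fun W X cls G lo n m hW hX hV hG hlo hn hl fn env => ?_⟩
  have h2 : lo * n ≤ G * (lo * n) := Nat.le_mul_of_pos_left _ hG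
  have r2 : (n : ℝ) ≤ (lo * n : ℕ) := by exact_mod_cast Nat.le_mul_of_pos_left _ hlo
  have r3 : (1 : ℝ) ≤ (lo * n : ℕ) := by exact_mod_cast Nat.mul_pos hlo hn
  have r4 : (n : ℝ) * lo = (lo * n : ℕ) := by push_cast; ring
  have hb : ∀ g < G, ∀ i < (sel cls n m).length,
      (chunk lo (chunk (lo * n) X g) ((sel cls n m).getD i 0)).length = lo := fun g hg i hi =>
    chunk_len (by rw [chunk_len hX hg, mul_comm]) (sel_getD_lt hi)
  have hg : ∀ g < G, ((sel cls n m).flatMap (chunk lo (chunk (lo * n) X g))).length =
      lo * (sel cls n m).length := fun g hg => by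
    rw [flatMap_eq_range, length_flatMap_eq (hb g hg), mul_comm]
  have hp : ∀ (x : List ℕ) j p, ((if cls.getD p 0 = j then chunk lo x p else []).length : ℝ) ≤ lo :=
    fun x j p => by
      split_ifs
      · exact_mod_cast chunk_length_le _ _ _
      · simp
  have hj : ∀ (x : List ℕ) j, (((List.range n).flatMap fun p =>
      if cls.getD p 0 = j then chunk lo x p else []).length : ℝ) ≤ (lo * n : ℕ) := fun x j =>
    (length_flatMap_le fun p _ => hp x j p).trans r4.le
  have he : ∀ x : List ℕ, ((List.range m).flatMap fun j => (List.range n).flatMap fun p =>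
      if cls.getD p 0 = j then chunk lo x p else []) = (sel cls n m).flatMap (chunk lo x) :=
    fun x => by simp only [flatMap_ite, sel, List.flatMap_assoc]
  have hm : ∀ x : List ℕ, (((sel cls n m).flatMap (chunk lo x)).length : ℝ) ≤ m * (lo * n : ℕ) :=
    fun x => by rw [← he]; exact length_flatMap_le fun j _ => hj x j
  refine ⟨(List.range G).flatMap fun g => (sel cls n m).flatMap (chunk lo (chunk (lo * n) X g)),
    ⟨length_flatMap_eq hg, fun g hg' i hi r hr => ?_⟩, ?_⟩
  · rw [getD_groups hg hg' hi hr, flatMap_eq_range, getD_flatMap (hb g hg') hi hr,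
      chunk_getD _ _ _ hr, getD_chunk X g (sel_getD_lt hi) hr]
  · refine (Pv.lett (Pv.mul hW (Pv.varS rfl) (Pv.varS rfl) (by omega))
      (Pv.strm1 (c := m * (300 * (lo * n : ℕ)) + 22) (L := m * (lo * n : ℕ)) (Pv.varS rfl)
        (Pv.var rfl) (Pv.varS rfl) (fun g hg' => ?_) fun g _ => hm _)).mono ?_
    · refine (Pv.strm0 (c := 240 * (lo * n : ℕ)) (L := (lo * n : ℕ)) (Pv.varS rfl)
        (fun j _ => ?_) fun j _ => hj (chunk (lo * n) X g) j).cast (he _) ?_
      · refine (Pv.strm2 (c := lo + 12) (L := lo) (Pv.varS rfl) (Pv.var rfl) (Pv.varS rfl)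
          (Pv.var rfl) (Pv.constS hW (by norm_num)) (fun p hp' => ?_)
          fun p _ => hp (chunk (lo * n) X g) j p).mono ?_
        · rw [chunk_one (by omega)]
          refine (Pv.ifEq (Pv.varS rfl) (Pv.varS rfl) (fun _ => Pv.var rfl) fun _ => Pv.nil).mono ?_
          have : ((chunk lo (chunk (lo * n) X g) p).length : ℝ) ≤ lo := by
            exact_mod_cast chunk_length_le _ _ _
          have h0 : (0 : ℝ) ≤ (chunk lo (chunk (lo * n) X g) p).length := by positivity
          rw [max_eq_left (by linarith)]
          linarith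
        · rw [chunk_len hX hg', hl]
          push_cast [-Nat.cast_mul]
          linarith
      · have hm0 : (0 : ℝ) ≤ m := by positivity
        have := mul_le_mul_of_nonneg_left r3 hm0
        linarith
    · have h3 := length_flatMap_le fun g (_ : g < G) => hm (chunk (lo * n) X g)
      have rG : (0 : ℝ) ≤ G := by positivity
      have rW : (0 : ℝ) ≤ W := by positivity
      have h4 := mul_le_mul_of_nonneg_left r3 rG
      have h5 : (0 : ℝ) ≤ G * (m * (lo * n : ℕ)) := by positivity
      rw [hX]
      simp only [List.length_cons, List.length_nil, Nat.cast_mul G]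
      push_cast [-Nat.cast_mul] at h3 ⊢
      linarith

theorem scatter_spec : ScatterSpec := by
  refine ⟨scatterT, 800, fun W X cls G lo n m k hW hX hV hG hlo hn hl hk hkn fn env => ?_⟩
  have h1 : lo * k ≤ lo * n := Nat.mul_le_mul_left _ hkn
  have h2 : lo * n ≤ G * (lo * n) := Nat.le_mul_of_pos_left _ hG
  have hb : ∀ g < G, ∀ p < n, (outB cls lo n (chunk (lo * k) X g) m p).length = lo :=
    fun g hg => outB_length (chunk_len hX hg) hk le_rfl
  have hg : ∀ g < G, (outL cls lo n (chunk (lo * k) X g) m).length = lo * n := fun g hg => by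
    rw [outL, length_flatMap_eq (hb g hg), mul_comm]
  refine ⟨(List.range G).flatMap fun g => outL cls lo n (chunk (lo * k) X g) m,
    ⟨length_flatMap_eq hg, fun g hg' i hi r hr => ?_, fun g hg' p hp hm r hr => ?_⟩, ?_⟩
  · rw [getD_groups hg hg' (sel_getD_lt hi) hr, outL, getD_flatMap (hb g hg') (sel_getD_lt hi) hr,
      outB, if_pos (idx_sel hi).1, (idx_sel hi).2, chunk_getD _ _ _ hr,
      getD_chunk X g (by omega) hr]
  · rw [getD_groups hg hg' hp hr, outL, getD_flatMap (hb g hg') hp hr, outB, if_neg (by omega)]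
    simp [List.getD_eq_getElem?_getD, hr]
  · refine (Pv.lett (Pv.mul hW (Pv.varS rfl) (Pv.varS rfl) (by omega))
      (Pv.lett (Pv.mul hW (Pv.varS rfl) (Pv.varS rfl) (by omega))
        (Pv.strm1 (L := (lo * n : ℕ)) (Pv.varS rfl) (Pv.var rfl) (Pv.varS rfl)
          (fun g hg' => pv_scatterB (chunk_len hX hg') hk hkn hlo hn hl)
          fun g hg' => by rw [hg g hg']))).mono ?_
    have r1 : ((lo * k : ℕ) : ℝ) ≤ (lo * n : ℕ) := by exact_mod_cast h1
    have r3 : (1 : ℝ) ≤ (lo * n : ℕ) := by exact_mod_cast Nat.mul_pos hlo hn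
    have rG : (0 : ℝ) ≤ G := by positivity
    have rW : (0 : ℝ) ≤ W := by positivity
    have h4 := mul_le_mul_of_nonneg_left r3 rG
    have h5 := mul_le_mul_of_nonneg_left r1 rG
    have h6 : (0 : ℝ) ≤ G * (m * (lo * n : ℕ)) := by positivity
    rw [length_flatMap_eq hg, hX]
    simp only [List.length_cons, List.length_nil, Nat.cast_mul G, ← Nat.cast_mul lo]
    push_cast [-Nat.cast_mul]
    linarith

end Crest.Agent.R326
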