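import Crest.Agent.R326.Perm3A

/-!
# Rearrangements built on `rot`, `gather`, `scatter`, part B
-/

set_option autoImplicit false

namespace Crest.Agent.R326

open P3

namespace P3

theorem pos_of_dvd {a b V : ℕ} (h : a * b ∣ V) (hV : 0 < V) : 0 < a ∧ 0 < b := by
  have := Nat.pos_of_dvd_of_pos h hV
  exact ⟨Nat.pos_of_mul_pos_right this, Nat.pos_of_mul_pos_left this⟩

/-- an address below `G * (lo * n)` -/
theorem addr_cases {G lo n a : ℕ} (ha : a < G * (lo * n)) :
    ∃ g < G, ∃ y < n, ∃ r < lo, a = (g * n + y) * lo + r := by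
  have h0 : 0 < lo * n := Nat.pos_of_ne_zero fun h => by simp [h] at ha
  exact ⟨a / (lo * n), (Nat.div_lt_iff_lt_mul h0).2 ha, dig lo n a,
    dig_lt (Nat.pos_of_mul_pos_left h0) _ _, a % lo, Nat.mod_lt _ (Nat.pos_of_mul_pos_right h0),
    addr_eq lo n a⟩

end P3

/-! ### adding a multiple of a higher digit -/

theorem addDig_spec (hR : RotSpec) : AddDigSpec := by
  obtain ⟨t, C, ht⟩ := hR
  refine ⟨.lett (.mul (.var 2) (.var 3)) (.lett (.div (.var 2) (.var 0)) (.lett (.len (.var 2))
    (.lett (.strm0 (.var 6) (.lett (.mod (.mul (.var 8) (.var 0)) (.var 7))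
      (.repl (.var 3) (.var 0))))
    (.call t [.var 4, .repl (.div (.var 1) (.mul (.var 5) (.var 7))) (.var 0),
      .div (.var 1) (.var 3), .var 6, .var 7, .var 7])))), C + 5000, ?_⟩
  intro W X lo1 lo2 n c hW h1 h2 hV hc fn env
  obtain ⟨hlo1, hn⟩ := pos_of_dvd h2 hV
  obtain ⟨hlo2, -⟩ := pos_of_dvd h1 hlo1
  obtain ⟨M, hM⟩ := h1
  obtain ⟨P, hP⟩ := h2
  have hM0 : 0 < M := Nat.pos_of_ne_zero (by rintro rfl; omega)
  have hP0 : 0 < P := Nat.pos_of_ne_zero (by rintro rfl; omega)
  have eM : lo1 / (lo2 * n) = M := by rw [hM, Nat.mul_div_cancel_left _ (by positivity)]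
  have eP : X.length / (lo1 * n) = P := by rw [hP, Nat.mul_div_cancel_left _ (by positivity)]
  have hX : X.length = P * (n * M) * (lo2 * n) := by rw [hP, hM]; ring
  have eG : X.length / (lo2 * n) = P * (n * M) := by
    rw [hX, Nat.mul_div_cancel _ (by positivity)]
  have b0 : X.length < 2 ^ W := lt_of_le_of_lt (Nat.le_mul_of_pos_left _ (by omega)) hc
  have b1 : P * (n * M) ≤ X.length := by rw [hX]; exact Nat.le_mul_of_pos_right _ (by positivity)
  have b2 : n * M ≤ X.length := (Nat.le_mul_of_pos_left _ hP0).trans b1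
  have b3 : n ≤ X.length := (Nat.le_mul_of_pos_right _ hM0).trans b2
  have b4 : P ≤ X.length := (Nat.le_mul_of_pos_right _ (by positivity)).trans b1
  have b5 : lo1 * n ≤ X.length := by rw [hP]; exact Nat.le_mul_of_pos_right _ hP0
  have b6 : lo2 * n ≤ X.length := by rw [hX]; exact Nat.le_mul_of_pos_left _ (by positivity)
  set f : ℕ → List ℕ := fun i => (List.range M).flatMap fun _ => [c * i % n] with hf
  have hfl : ∀ i, (f i).length = M := fun i => by
    rw [hf]; simp only [flatMap_single, List.length_map, List.length_range]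
  set T1 : List ℕ := (List.range n).flatMap f with hT1
  have hT1l : T1.length = n * M := length_flatMap_eq fun i _ => hfl i
  set T : List ℕ := (List.range P).flatMap fun _ => T1 with hT
  have hTl : T.length = P * (n * M) := length_flatMap_eq fun _ _ => hT1l
  have hTg : ∀ g < P * (n * M), T.getD g 0 = c * dig M n g % n := by
    intro g hg
    have hg1 : g % (n * M) < n * M := Nat.mod_lt _ (by positivity)
    rw [hT, getD_flatMap' (fun _ _ => hT1l) hg, hT1, getD_flatMap' (fun i _ => hfl i) hg1, hf]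
    simp only [flatMap_single]
    rw [getD_map_range _ (Nat.mod_lt _ hM0), dig_eq_mod, mul_comm M n]
  obtain ⟨Y, hY, hp⟩ := ht W X T (P * (n * M)) lo2 n n hW hX b0 (by positivity) hlo2 hn le_rfl hTl
    (forall_mem_of_getD fun a ha => by
      rw [hTg a (hTl ▸ ha)]; exact (Nat.mod_lt _ hn).le) fn
    (T1 :: [X.length] :: [M] :: [lo2 * n] :: X :: [lo1] :: [lo2] :: [n] :: [c] :: env)
  refine ⟨Y, hY.congr fun a ha => ?_, ?_⟩
  · rw [rotA, if_pos (dig_lt hn _ _), hTg _ ((Nat.div_lt_iff_lt_mul (by positivity)).2 (hX ▸ ha)),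
      Nat.add_mod_mod, hM, dig, dig, dig, Nat.div_div_eq_div_mul]
  · have hb : ∀ i < n, Pv W fn ([i] :: [X.length] :: [M] :: [lo2 * n] :: X :: [lo1] :: [lo2] ::
        [n] :: [c] :: env) (.lett (.mod (.mul (.var 8) (.var 0)) (.var 7))
          (.repl (.var 3) (.var 0))) (f i) (1100 * (W + 1) + 40 * M) := by
      intro i hi
      have : c * i < 2 ^ W := lt_of_le_of_lt (Nat.mul_le_mul (Nat.le_succ c) (hi.le.trans b3)) hc
      apply Pv.cast
      · pv <;> omega
      · rfl
      · have := hfl i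
        simp only [hf] at this
        have r5 : (8 : ℝ) ≤ W := by exact_mod_cast hW
        have r6 : (0 : ℝ) ≤ M := by positivity
        simp only [this, List.length_cons, List.length_nil]
        push_cast
        linarith
    apply Pv.cast
    · simp only [List.cons_append, List.nil_append]
      apply Pv.lett (Pv.mul hW (Pv.varS rfl) (Pv.varS rfl) (by omega))
      apply Pv.lett ((Pv.div hW (Pv.varS rfl) (Pv.varS rfl) (by positivity)).cast
        (by rw [eM]) le_rfl)
      apply Pv.lett (Pv.len (Pv.var rfl) b0)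
      apply Pv.lett (Pv.strm0 (L := M) (Pv.varS rfl) hb (fun i _ => by rw [hfl]))
      apply Pv.call (hf := hp)
      apply Pvs.cons (Pv.var rfl)
      apply Pvs.cons (Pv.repl ((Pv.div hW (Pv.varS rfl)
        (Pv.mul hW (Pv.varS rfl) (Pv.varS rfl) (by omega)) (by positivity)).cast
          (by rw [eP]) le_rfl) (Pv.var rfl))
      apply Pvs.cons ((Pv.div hW (Pv.varS rfl) (Pv.varS rfl) (by positivity)).cast
        (by rw [eG]) le_rfl)
      pv
    · rfl
    · have r1 : (P : ℝ) * (n * M) ≤ X.length := by exact_mod_cast b1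
      have r2 : (n : ℝ) * M ≤ X.length := by exact_mod_cast b2
      have r3 : (n : ℝ) ≤ X.length := by exact_mod_cast b3
      have r4 : (P : ℝ) ≤ X.length := by exact_mod_cast b4
      have r5 : (0 : ℝ) ≤ W := by positivity
      have r6 : (0 : ℝ) ≤ n * W := by positivity
      have r7 : (0 : ℝ) ≤ C * (n * W) := by positivity
      have r8 : (0 : ℝ) ≤ C * n := by positivity
      have r9 : (0 : ℝ) ≤ n := by positivity
      rw [← hT1, ← hT]
      simp only [hY.1, hTl, hT1l, List.length_cons, List.length_nil]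
      push_cast
      linarith

/-! ### multiplication and division of a digit by a unit -/

namespace P3

/-- the class of the position `p`: the `j < c` with `c ∣ j * n + p` -/
def scls (c n p : ℕ) : ℕ := ∑ j ∈ Finset.range c, if (j * n + p) % c = 0 then j else 0

theorem scls_eq {c n y : ℕ} (hc : 0 < c) (hcn : Nat.Coprime c n) (hy : y < n) :
    scls c n (c * y % n) = c * y / n := by
  have hn : 0 < n := by omega
  have h0 : c * y / n < c := (Nat.div_lt_iff_lt_mul hn).2 (Nat.mul_lt_mul_of_pos_left hy hc)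
  have h1 : (c * y / n * n + c * y % n) % c = 0 := by
    rw [Nat.div_add_mod', Nat.mul_mod_right]
  rw [scls, Finset.sum_eq_single (c * y / n), if_pos h1]
  · intro j hj hne
    refine if_neg fun h2 => hne ?_
    have h3 : j * n + c * y % n ≡ c * y / n * n + c * y % n [MOD c] := h2.trans h1.symm
    have h4 := (Nat.ModEq.add_right_cancel' _ h3).cancel_right_of_coprime hcn
    exact Nat.ModEq.eq_of_lt_of_lt h4 (Finset.mem_range.1 hj) h0
  · intro h; exact absurd (Finset.mem_range.2 h0) h

theorem exists_pre {c n p : ℕ} (hcn : Nat.Coprime c n) (hp : p < n) : ∃ y < n, c * y % n = p := by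
  obtain ⟨y, hy, h⟩ := Nat.exists_mul_mod_eq_of_coprime p hcn (by omega)
  exact ⟨y, hy, by rw [h, Nat.mod_eq_of_lt hp]⟩

theorem scls_lt {c n p : ℕ} (hc : 0 < c) (hcn : Nat.Coprime c n) (hp : p < n) : scls c n p < c := by
  obtain ⟨y, hy, rfl⟩ := exists_pre hcn hp
  rw [scls_eq hc hcn hy]
  exact (Nat.div_lt_iff_lt_mul (by omega)).2 (Nat.mul_lt_mul_of_pos_left hy hc)

theorem sel_scls {c n : ℕ} (hc : 0 < c) (hcn : Nat.Coprime c n) :
    sel ((List.range n).map (scls c n)) n c = (List.range n).map fun y => c * y % n := by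
  apply sel_eq
  · intro p
    simp only [List.mem_map, List.mem_range]
    constructor
    · rintro ⟨y, hy, rfl⟩
      have h1 : c * y % n < n := Nat.mod_lt _ (by omega)
      exact ⟨h1, by rw [getD_map_range _ h1]; exact scls_lt hc hcn h1⟩
    · rintro ⟨hp, -⟩
      exact exists_pre hcn hp
  · rw [List.pairwise_map]
    refine List.Pairwise.imp_of_mem ?_ List.pairwise_lt_range
    intro a b ha hb hab
    rw [List.mem_range] at ha hb
    have hn : 0 < n := by omega
    rw [getD_map_range _ (Nat.mod_lt _ hn), getD_map_range _ (Nat.mod_lt _ hn), scls_eq hc hcn ha,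
      scls_eq hc hcn hb]
    have h0 : c * a < c * b := Nat.mul_lt_mul_of_pos_left hab hc
    rcases (Nat.div_le_div_right (c := n) h0.le).lt_or_eq with h | h
    · exact Or.inl h
    · refine Or.inr ⟨h, ?_⟩
      have h1 := Nat.div_add_mod (c * a) n
      have h2 := Nat.div_add_mod (c * b) n
      rw [h] at h1
      omega

/-- the table of classes; the arguments are `X, lo, n, c` -/
def tScls : Tm := .tab (.var 2) (.sum (.var 4)
  (.cndEq (.mod (.add (.mul (.var 0) (.var 5)) (.var 2)) (.var 6)) (.const 0) (.var 0) (.const 0)))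

theorem pv_scls {W : ℕ} {fn : Option Tm} {X A : List ℕ} {env : Env} {n c : ℕ} (hW : 8 ≤ W)
    (hc : 0 < c) (hcn : Nat.Coprime c n) (hb : c * n < 2 ^ W) :
    Pv W fn (X :: A :: [n] :: [c] :: env) tScls ((List.range n).map (scls c n))
      (1200 * (n * (c + 1) * (W + 1)) + 30) := by
  have h1 : ∀ p < n, Pv W fn ([p] :: X :: A :: [n] :: [c] :: env) (.sum (.var 4)
      (.cndEq (.mod (.add (.mul (.var 0) (.var 5)) (.var 2)) (.var 6)) (.const 0) (.var 0)
        (.const 0))) [scls c n p] (1100 * (c * (W + 1)) + 30) := by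
    intro p hp
    have h2 : ∀ j < c, ∀ s, Pv W fn ([j] :: [s] :: [p] :: X :: A :: [n] :: [c] :: env)
        (.cndEq (.mod (.add (.mul (.var 0) (.var 5)) (.var 2)) (.var 6)) (.const 0) (.var 0)
          (.const 0)) [if (j * n + p) % c = 0 then j else 0] (1060 * (W + 1)) := by
      intro j hj s
      have := mk_lt hj hp
      apply Pv.cast
      · pv <;> omega
      · rfl
      · have r5 : (8 : ℝ) ≤ W := by exact_mod_cast hW
        simp only [max_self]
        linarith
    have h3 : c ≤ c * n := Nat.le_mul_of_pos_right _ (by omega)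
    refine (Pv.sum (Pv.varS rfl) h2 ((scls_lt hc hcn hp).trans_le (by omega))).mono ?_
    have r5 : (8 : ℝ) ≤ W := by exact_mod_cast hW
    have r6 : (0 : ℝ) ≤ c := by positivity
    have := mul_le_mul_of_nonneg_left r5 r6
    linarith
  refine (Pv.tab (Pv.varS rfl) h1).mono ?_
  have r1 : (0 : ℝ) ≤ n := by positivity
  have r2 : (0 : ℝ) ≤ n * W := by positivity
  have r3 : (0 : ℝ) ≤ n * c := by positivity
  have r4 : (0 : ℝ) ≤ n * c * W := by positivity
  linarith

end P3

theorem scale_spec (hG : GatherSpec) (hS : ScatterSpec) : ScaleSpec := by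
  obtain ⟨t1, C1, ht1⟩ := hG
  obtain ⟨t2, C2, ht2⟩ := hS
  refine ⟨.call t1 [.var 0, tScls, .div (.len (.var 0)) (.mul (.var 1) (.var 2)), .var 1, .var 2,
      .var 3],
    .call t2 [.var 0, tScls, .div (.len (.var 0)) (.mul (.var 1) (.var 2)), .var 1, .var 2,
      .var 3, .var 2], C1 + C2 + 3000, ?_⟩
  intro W X lo n c hW h1 hV hc hc0 hcn
  obtain ⟨hlo, hn⟩ := pos_of_dvd h1 hV
  obtain ⟨G, hG⟩ := h1
  have hG0 : 0 < G := Nat.pos_of_ne_zero (by rintro rfl; omega)
  have eG : X.length / (lo * n) = G := by rw [hG, Nat.mul_div_cancel_left _ (by positivity)]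
  have hX : X.length = G * (lo * n) := by rw [hG]; ring
  have b0 : X.length < 2 ^ W := lt_of_le_of_lt (Nat.le_mul_of_pos_left _ (by omega)) hc
  have b1 : lo * n ≤ X.length := by rw [hG]; exact Nat.le_mul_of_pos_right _ hG0
  have b2 : n ≤ X.length := (Nat.le_mul_of_pos_left _ hlo).trans b1
  have b3 : c * n < 2 ^ W := lt_of_le_of_lt (Nat.mul_le_mul (Nat.le_succ c) b2) hc
  have hsel := sel_scls hc0 hcn
  have hsl : (sel ((List.range n).map (scls c n)) n c).length = n := by
    rw [hsel, List.length_map, List.length_range]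
  have r1 : (n : ℝ) ≤ X.length := by exact_mod_cast b2
  have r2 : (0 : ℝ) ≤ W := by positivity
  have r3 : (0 : ℝ) ≤ c * W := by positivity
  have r4 : (0 : ℝ) ≤ c := by positivity
  have r5 : (0 : ℝ) ≤ c * X.length := by positivity
  have r6 : (0 : ℝ) ≤ n * (c + 1) * (W + 1) := by positivity
  have r7 : ∀ C : ℕ, (0 : ℝ) ≤ C * (n * (c + 1) * (W + 1)) := fun C => by positivity
  have r8 : ∀ C : ℕ, (0 : ℝ) ≤ C * (c * (W + 1)) := fun C => by positivity
  have r9 : ∀ C : ℕ, (0 : ℝ) ≤ C * ((c + 1) * (X.length + (n + 1) * (W + 1))) :=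
    fun C => by positivity
  constructor
  · intro fn env
    obtain ⟨Y, ⟨hl, hY⟩, hp⟩ := ht1 W X ((List.range n).map (scls c n)) G lo n c hW hX b0 hG0 hlo hn
      (by simp) fn (X :: [lo] :: [n] :: [c] :: env)
    rw [hsl] at hl hY
    refine ⟨Y, ⟨hl.trans hX.symm, fun a ha => ?_⟩, ?_⟩
    · obtain ⟨g, hg, y, hy, r, hr, rfl⟩ := addr_cases (hX ▸ ha)
      beta_reduce
      rw [hY g hg y hy r hr, hsel, getD_map_range _ hy, dig_mk _ hy hr, setDig_mk _ _ hy hr]
    · apply Pv.cast
      · simp only [List.cons_append, List.nil_append]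
        apply Pv.call (hf := hp)
        apply Pvs.cons (Pv.var rfl)
        apply Pvs.cons (pv_scls hW hc0 hcn b3)
        apply Pvs.cons ((Pv.div hW (Pv.len (Pv.var rfl) b0)
          (Pv.mul hW (Pv.varS rfl) (Pv.varS rfl) (by omega)) (by positivity)).cast
            (by rw [eG]) le_rfl)
        pv
      · rfl
      · simp only [hl, ← hX, List.length_cons, List.length_nil, List.length_map, List.length_range]
        push_cast
        linarith [r7 C1, r8 C1, r9 C2]
  · intro fn env
    obtain ⟨Y, ⟨hl, hY, -⟩, hp⟩ := ht2 W X ((List.range n).map (scls c n)) G lo n c n hW hX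
      (hX ▸ b0) hG0 hlo hn (by simp) hsl.le le_rfl fn (X :: [lo] :: [n] :: [c] :: env)
    rw [hsl] at hY
    refine ⟨Y, fun c' hc' => ⟨hl.trans hX.symm, fun a ha => ?_⟩, ?_⟩
    · obtain ⟨g, hg, y, hy, r, hr, rfl⟩ := addr_cases (hX ▸ ha)
      beta_reduce
      have h2 : c' * y % n < n := Nat.mod_lt _ hn
      have h3 : c * (c' * y % n) % n = y := by
        rw [Nat.mul_mod_mod, ← mul_assoc, Nat.mul_mod, hc', ← Nat.mul_mod, one_mul,
          Nat.mod_eq_of_lt hy]
      rw [dig_mk _ hy hr, setDig_mk _ _ hy hr, ← hY g hg _ h2 r hr, hsel, getD_map_range _ h2, h3]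
    · apply Pv.cast
      · simp only [List.cons_append, List.nil_append]
        apply Pv.call (hf := hp)
        apply Pvs.cons (Pv.var rfl)
        apply Pvs.cons (pv_scls hW hc0 hcn b3)
        apply Pvs.cons ((Pv.div hW (Pv.len (Pv.var rfl) b0)
          (Pv.mul hW (Pv.varS rfl) (Pv.varS rfl) (by omega)) (by positivity)).cast
            (by rw [eG]) le_rfl)
        pv
      · rfl
      · have r10 : (G : ℝ) * (lo * n) = X.length := by exact_mod_cast hX.symm
        simp only [hl, ← hX, List.length_cons, List.length_nil, List.length_map, List.length_range]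
        push_cast
        rw [r10]
        linarith [r7 C2, r8 C2, r9 C1]

/-! ### the slow interchange -/

theorem swapNaive_spec (hG : GatherSpec) (hS : ScatterSpec) : SwapNaiveSpec := by
  obtain ⟨t1, C1, ht1⟩ := trG hG
  obtain ⟨t2, C2, ht2⟩ := trS hS
  refine ⟨.lett (.div (.var 1) (.mul (.var 2) (.var 3)))
    (.lett (.div (.len (.var 1)) (.mul (.var 2) (.var 4)))
      (.lett (.call t1 [.var 2, .var 0, .var 4, .mul (.var 5) (.var 1), .var 5])
        (.call t2 [.var 0, .mul (.var 1) (.var 6), .var 5, .var 2, .var 6]))),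
    C1 + C2 + 3000, ?_⟩
  intro W X lo1 lo2 n hW h1 h2 hV b0 fn env
  obtain ⟨hlo1, hn⟩ := pos_of_dvd h2 hV
  obtain ⟨hlo2, -⟩ := pos_of_dvd h1 hlo1
  obtain ⟨M, hM⟩ := h1
  obtain ⟨P, hP⟩ := h2
  have hM0 : 0 < M := Nat.pos_of_ne_zero (by rintro rfl; omega)
  have hP0 : 0 < P := Nat.pos_of_ne_zero (by rintro rfl; omega)
  have eM : lo1 / (lo2 * n) = M := by rw [hM, Nat.mul_div_cancel_left _ (by positivity)]
  have eP : X.length / (lo1 * n) = P := by rw [hP, Nat.mul_div_cancel_left _ (by positivity)]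
  have hX : X.length = P * (lo2 * (n * M * n)) := by rw [hP, hM]; ring
  have hX' : X.length = P * n * (lo2 * (M * n)) := by rw [hP, hM]; ring
  have b1 : P * n ≤ X.length := by rw [hX']; exact Nat.le_mul_of_pos_right _ (by positivity)
  have b2 : n * M ≤ X.length := (sizes hX hV).2.2.2.2.2.1
  have b5 : lo1 * n ≤ X.length := by rw [hP]; exact Nat.le_mul_of_pos_right _ hP0
  have b6 : lo2 * n ≤ X.length := by
    rw [hP, hM]
    exact ((Nat.le_mul_of_pos_right _ hM0).trans (Nat.le_mul_of_pos_right _ hn)).trans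
      (Nat.le_mul_of_pos_right _ hP0)
  obtain ⟨Y1, ⟨hl1, hY1⟩, hp1⟩ := ht1 W X P lo2 (n * M) n hW hX b0 hV fn
    ([P] :: [M] :: X :: [lo1] :: [lo2] :: [n] :: env)
  obtain ⟨Y, ⟨hl, hY⟩, hp2⟩ := ht2 W Y1 (P * n) lo2 M n hW (hl1.trans hX') (hl1 ▸ b0) (hl1 ▸ hV) fn
    (Y1 :: [P] :: [M] :: X :: [lo1] :: [lo2] :: [n] :: env)
  refine ⟨Y, ⟨hl.trans hl1, fun a ha => ?_⟩, ?_⟩
  · obtain ⟨g, hg, y, hy, r, hr, rfl⟩ := addr_cases (G := P * n * M) (lo := lo2) (n := n) (a := a)
      (by rw [hX'] at ha; convert ha using 1; ring)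
    obtain ⟨p, hp, x, hx, k, hk, rfl⟩ := addr_cases (G := P) (lo := M) (n := n) (a := g)
      (by convert hg using 1; ring)
    have e1 : ∀ x y : ℕ, (((p * n + x) * M + k) * n + y) * lo2 + r =
        (p * n + x) * lo1 + ((k * n + y) * lo2 + r) := fun x y => by rw [hM]; ring
    have e2 : ∀ y < n, (k * n + y) * lo2 + r < lo1 := fun y hy => by
      rw [hM, show lo2 * n * M = M * n * lo2 by ring]
      exact mk_lt (mk_lt hk hy) hr
    have e3 : swapDig lo1 lo2 n ((((p * n + x) * M + k) * n + y) * lo2 + r) =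
        (((p * n + y) * M + k) * n + x) * lo2 + r := by
      rw [swapDig, dig_mk _ hy hr, setDig_mk _ _ hy hr, e1 x y, dig_mk _ hx (e2 y hy), e1 x x,
        setDig_mk _ _ hx (e2 x hx), e1 y x]
    rw [e3, hY _ (mk_lt hp hx) k hk y hy r hr]
    have := hY1 p hp (y * M + k) (mk_lt hy hk) x hx r hr
    convert this using 2 <;> ring
  · apply Pv.cast
    · simp only [List.cons_append, List.nil_append]
      apply Pv.lett ((Pv.div hW (Pv.varS rfl)
        (Pv.mul hW (Pv.varS rfl) (Pv.varS rfl) (by omega)) (by positivity)).cast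
        (by rw [eM]) le_rfl)
      apply Pv.lett ((Pv.div hW (Pv.len (Pv.var rfl) b0)
        (Pv.mul hW (Pv.varS rfl) (Pv.varS rfl) (by omega)) (by positivity)).cast
        (by rw [eP]) le_rfl)
      apply Pv.lett
      · apply Pv.call (hf := hp1)
        pv
        omega
      · apply Pv.call (hf := hp2)
        pv
        omega
    · rfl
    · have r5 : (0 : ℝ) ≤ W := by positivity
      have r6 : (0 : ℝ) ≤ n * W := by positivity
      have r7 : (0 : ℝ) ≤ C1 * (n * W) := by positivity
      have r8 : (0 : ℝ) ≤ C1 * n := by positivity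
      have r7' : (0 : ℝ) ≤ C2 * (n * W) := by positivity
      have r8' : (0 : ℝ) ≤ C2 * n := by positivity
      have r9 : (0 : ℝ) ≤ n := by positivity
      have r10 : (0 : ℝ) ≤ n * X.length := by positivity
      have r11 : (0 : ℝ) ≤ X.length := by positivity
      simp only [hl, hl1, List.length_cons, List.length_nil]
      push_cast
      linarith

/-! ### shuffles -/

theorem shuffle_spec (hG : GatherSpec) (hS : ScatterSpec) : ShuffleSpec := by
  obtain ⟨t1, C1, ht1⟩ := trG hG
  obtain ⟨t2, C2, ht2⟩ := trS hS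
  refine ⟨.lett (.shr (.len (.var 0)) (.const 1)) (.iter (.var 2) (.var 1)
      (.call t1 [.var 1, .const 1, .const 1, .var 2, .const 2])),
    .lett (.shr (.len (.var 0)) (.const 1)) (.iter (.var 2) (.var 1)
      (.call t2 [.var 1, .const 1, .const 1, .var 2, .const 2])), 3 * C1 + 3 * C2 + 100, ?_⟩
  intro W X S j hW hX hS0 b0
  have hV : 0 < X.length := by rw [hX]; positivity
  have hK : ∀ i < j, X.length / 2 ^ 1 = 2 ^ i * (S * 2 ^ (j - (i + 1))) ∧
      X.length = 1 * (1 * (X.length / 2 ^ 1 * 2)) ∧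
      S * 2 ^ (j - i) = 2 * (S * 2 ^ (j - (i + 1))) := by
    intro i hi
    obtain ⟨d, rfl⟩ : ∃ d, j = i + 1 + d := ⟨j - (i + 1), by omega⟩
    have e : X.length = 2 ^ i * (S * 2 ^ d) * 2 := by rw [hX]; ring
    rw [show i + 1 + d - (i + 1) = d by omega, show i + 1 + d - i = d + 1 by omega]
    refine ⟨by omega, by omega, by ring⟩
  have cost : ∀ (C C' : ℕ) (Y : List ℕ), Y.length = X.length →
      ((X.length : ℝ) + 1 + 20 * X.length + 12 + 2 + 5 + (2 + (X.length + 1) +
        j * ((C * (3 * X.length + W + 1) + 7 * X.length + 20) + 2 * X.length + 22) +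
        4 * X.length + 13) + ([X.length / 2 ^ 1] : List ℕ).length + Y.length + 1) ≤
      (3 * C + 3 * C' + 100) * ((j + 1) * (X.length + W + 1)) := by
    intro C C' Y hY
    have r1 : (0 : ℝ) ≤ W := by positivity
    have r2 : (0 : ℝ) ≤ j := by positivity
    have r3 : (0 : ℝ) ≤ X.length := by positivity
    have r4 : (0 : ℝ) ≤ j * W := by positivity
    have r5 : (0 : ℝ) ≤ j * X.length := by positivity
    have r6 : (0 : ℝ) ≤ C * (j * W) := by positivity
    have r7 : (0 : ℝ) ≤ C * j := by positivity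
    have r8 : (0 : ℝ) ≤ C * (X.length + W + 1) := by positivity
    have r9 : (0 : ℝ) ≤ C' * ((j + 1) * (X.length + W + 1)) := by positivity
    simp only [hY, List.length_cons, List.length_nil]
    push_cast
    linarith
  constructor
  · intro fn env
    obtain ⟨Y, hY, hp⟩ := Pv.iterInv (W := W) (fn := fn)
      (e := [X.length / 2 ^ 1] :: X :: [j] :: env) (n := .var 2) (init := .var 1)
      (body := .call t1 [.var 1, .const 1, .const 1, .var 2, .const 2])
      (fun i Z => Z.length = X.length ∧ ∀ x < 2 ^ i, ∀ y < S * 2 ^ (j - i),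
        Z.getD (x * (S * 2 ^ (j - i)) + y) 0 = X.getD (y * 2 ^ i + x) 0)
      (c := C1 * (3 * X.length + W + 1) + 7 * X.length + 20) (L := X.length)
      (Pv.varS rfl) (Pv.var rfl)
      ⟨rfl, fun x hx y _ => by
        obtain rfl : x = 0 := by simpa using hx
        simp⟩
      (fun i hi Z ⟨hZ, hZ2⟩ => by
        obtain ⟨k1, k2, k3⟩ := hK i hi
        obtain ⟨Z', ⟨hl, hZ'⟩, hp⟩ := ht1 W Z 1 1 (X.length / 2 ^ 1) 2 hW (hZ.trans k2) (hZ ▸ b0)
          (hZ ▸ hV) fn ([i] :: Z :: [X.length / 2 ^ 1] :: X :: [j] :: env)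
        refine ⟨Z', ⟨hl.trans hZ, fun x hx y hy => ?_⟩, ?_⟩
        · obtain ⟨b, hb, u, hu, rfl⟩ : ∃ b < 2, ∃ u < 2 ^ i, x = b * 2 ^ i + u :=
            ⟨x / 2 ^ i, (Nat.div_lt_iff_lt_mul (by positivity)).2 (by rwa [← pow_succ']),
              x % 2 ^ i, Nat.mod_lt _ (by positivity), (Nat.div_add_mod' _ _).symm⟩
          have h1 := hZ' 0 (by omega) (u * (S * 2 ^ (j - (i + 1))) + y) (k1 ▸ mk_lt hu hy) b hb 0
            (by omega)
          have h2 := hZ2 u hu (2 * y + b) (by omega)
          rw [k1] at h1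
          rw [k3] at h2
          refine Eq.trans ?_ (h1.trans (Eq.trans ?_ (h2.trans ?_))) <;> congr 1 <;> ring
        · apply Pv.cast
          · apply Pv.call (hf := hp)
            pv
          · rfl
          · simp only [hl, hZ, List.length_cons, List.length_nil]
            push_cast
            linarith)
      (fun i _ Z hZ => by rw [hZ.1])
    refine ⟨Y, ⟨hY.1, by simpa using hY.2⟩, ?_⟩
    refine (Pv.lett (Pv.shr (Pv.len (Pv.var rfl) b0) (Pv.constS hW (by norm_num)) (by omega))
      hp).mono ?_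
    push_cast
    exact cost C1 C2 Y hY.1
  · intro fn env
    obtain ⟨Y, hY, hp⟩ := Pv.iterInv (W := W) (fn := fn)
      (e := [X.length / 2 ^ 1] :: X :: [j] :: env) (n := .var 2) (init := .var 1)
      (body := .call t2 [.var 1, .const 1, .const 1, .var 2, .const 2])
      (fun i Z => Z.length = X.length ∧ ∀ x < 2 ^ i, ∀ y < S * 2 ^ (j - i),
        Z.getD (y * 2 ^ i + x) 0 = X.getD (x * (S * 2 ^ (j - i)) + y) 0)
      (c := C2 * (3 * X.length + W + 1) + 7 * X.length + 20) (L := X.length)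
      (Pv.varS rfl) (Pv.var rfl)
      ⟨rfl, fun x hx y _ => by
        obtain rfl : x = 0 := by simpa using hx
        simp⟩
      (fun i hi Z ⟨hZ, hZ2⟩ => by
        obtain ⟨k1, k2, k3⟩ := hK i hi
        obtain ⟨Z', ⟨hl, hZ'⟩, hp⟩ := ht2 W Z 1 1 (X.length / 2 ^ 1) 2 hW (hZ.trans k2) (hZ ▸ b0)
          (hZ ▸ hV) fn ([i] :: Z :: [X.length / 2 ^ 1] :: X :: [j] :: env)
        refine ⟨Z', ⟨hl.trans hZ, fun x hx y hy => ?_⟩, ?_⟩
        · obtain ⟨u, hu, b, hb, rfl⟩ : ∃ u < 2 ^ i, ∃ b < 2, x = u * 2 + b :=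
            ⟨x / 2, (Nat.div_lt_iff_lt_mul (by positivity)).2 (by rwa [← pow_succ]),
              x % 2, Nat.mod_lt _ (by positivity), (Nat.div_add_mod' _ _).symm⟩
          have h1 := hZ' 0 (by omega) (y * 2 ^ i + u) (by rw [k1, mul_comm (2 ^ i)]; exact mk_lt hy hu)
            b hb 0 (by omega)
          have h2 := hZ2 u hu (b * (S * 2 ^ (j - (i + 1))) + y) (by rw [k3]; exact mk_lt hb hy)
          rw [k1] at h1
          rw [k3] at h2
          refine Eq.trans ?_ (h1.trans (Eq.trans ?_ (h2.trans ?_))) <;> congr 1 <;> ring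
        · apply Pv.cast
          · apply Pv.call (hf := hp)
            pv
          · rfl
          · simp only [hl, hZ, List.length_cons, List.length_nil]
            push_cast
            linarith)
      (fun i _ Z hZ => by rw [hZ.1])
    refine ⟨Y, ⟨hY.1, by simpa using hY.2⟩, ?_⟩
    refine (Pv.lett (Pv.shr (Pv.len (Pv.var rfl) b0) (Pv.constS hW (by norm_num)) (by omega))
      hp).mono ?_
    push_cast
    rw [add_comm (3 * (C1 : ℝ))]
    exact cost C2 C1 Y hY.1

end Crest.Agent.R326
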