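import Crest.Agent.R326.Approx

/-!
# One phase: the word for the transforms of orders `ss i` is executed letter by letter
-/

set_option autoImplicit false

namespace Crest.Agent.R326

open Finset

namespace Ph

/-- the cost unit of a phase -/
noncomputable def pc (W LV K a g c1 : ℕ) : ℝ :=
  2 ^ LV * (K * hcost W K a g + a) + ((2 : ℝ) ^ K + W + 1) ^ c1

theorem one_le_base (W K : ℕ) : (1 : ℝ) ≤ (2 : ℝ) ^ K + W + 1 := by
  have : (0 : ℝ) ≤ (2 : ℝ) ^ K + W := by positivity
  linarith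

theorem pc_mono (W LV K a g : ℕ) {c c' : ℕ} (h : c ≤ c') :
    pc W LV K a g c ≤ pc W LV K a g c' := by
  unfold pc
  linarith [pow_le_pow_right₀ (one_le_base W K) h]

theorem hcost_le {W K a g : ℕ} (hK : 4 ≤ K) : hcost W K a g ≤ K * hcost W K a g := by
  have h1 := one_le_hcost W K a g
  have h2 : (4 : ℝ) ≤ K := by exact_mod_cast hK
  nlinarith

theorem pc_ge {W LV K a g : ℕ} (hK : 4 ≤ K) (c : ℕ) :
    2 ^ LV * (a + 1) + ((2 : ℝ) ^ K + W + 1) ^ c ≤ pc W LV K a g c := by
  have h1 := one_le_hcost W K a g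
  have h2 := hcost_le (W := W) (a := a) (g := g) hK
  have h3 : (0 : ℝ) ≤ 2 ^ LV := by positivity
  unfold pc
  nlinarith

theorem PhOK.mono {C C' W LV l0 K a g h p e d : ℕ} (H : PhOK C W LV l0 K a g h p e)
    (hC : C' + 2 * d ≤ C) : PhOK C' W LV l0 K a g h p (e + d * (K * (a + 1))) where
  hW := H.hW
  hK := H.hK
  ha := H.ha
  hLV := H.hLV
  hg := H.hg
  hgW := H.hgW
  hgK := H.hgK
  room := lt_of_le_of_lt (Nat.mul_le_mul_right _ (by omega)) H.room
  hp := le_trans (Nat.mul_le_mul_right _ (by omega)) H.hp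
  lev := by
    have h1 := H.lev
    have h2 := Nat.mul_le_mul_right (K * (a + 1)) hC
    rw [Nat.add_mul, Nat.mul_assoc] at h2
    omega
  hh := H.hh

theorem PhOK.mono' {C C' W LV l0 K a g h p e : ℕ} (H : PhOK C W LV l0 K a g h p e)
    (hC : C' ≤ C) : PhOK C' W LV l0 K a g h p e := by
  simpa using PhOK.mono (d := 0) H (by omega)

/-- numerical consequences of the hypotheses -/
theorem PhOK.facts {C W LV l0 K a g h p e : ℕ} (H : PhOK C W LV l0 K a g h p e) (hC : 1 ≤ C) :
    LV < W ∧ K ≤ p ∧ 2 * K + 8 ≤ h ∧ a + K ≤ LV ∧ a * 2 ^ (K + 1) ≤ 2 ^ LV ∧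
      4 * a + 4 ≤ K * (a + 1) ∧ 2 * p + 2 * e + 8 ≤ h := by
  have h1 : LV < W := by
    have := lt_of_le_of_lt (Nat.le_mul_of_pos_left _ hC) H.room
    exact (Nat.pow_lt_pow_iff_right (by norm_num)).1 this
  have h2 : K ≤ p := le_trans (Nat.le_mul_of_pos_left _ hC) H.hp
  have hK := H.hK
  have ha := H.ha
  have h3 : 4 * (a + 1) ≤ K * (a + 1) := Nat.mul_le_mul_right _ hK
  have h4 : K * (a + 1) ≤ C * (K * (a + 1)) := Nat.le_mul_of_pos_left _ hC
  have h5 := H.lev
  have h6 : 1 * (a - 1) ≤ (2 * K - 2) * (a - 1) := Nat.mul_le_mul_right _ (by omega)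
  have h7 := H.hLV
  refine ⟨h1, h2, by omega, by omega, ?_, by omega, by omega⟩
  have h8 : a - 1 < 2 ^ (a - 1) := Nat.lt_two_pow_self
  calc a * 2 ^ (K + 1) ≤ 2 ^ (a - 1) * 2 ^ (K + 1) := Nat.mul_le_mul_right _ (by omega)
    _ ≤ 2 ^ LV := by rw [← pow_add]; exact Nat.pow_le_pow_right (by norm_num) (by omega)

theorem PhOK.dvd {C W LV l0 K a g h p e : ℕ} (H : PhOK C W LV l0 K a g h p e) :
    ∀ i < a, 2 ^ (l0 + (2 * K - 2) * i) * 2 ^ (K + 1) ∣ 2 ^ LV := fun i hi => by
  have h1 : (2 * K - 2) * i ≤ (2 * K - 2) * (a - 1) := Nat.mul_le_mul_left _ (by omega)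
  have h2 := H.hLV
  exact two_pow_mul_dvd (by omega)

/-- the tables of all the orders, one after the other -/
def TTok (cT h p K a : ℕ) (ss TT : List ℕ) : Prop :=
  TT.length = a * (7 * 2 ^ (K + 1)) ∧ (∀ r ∈ TT, r < Qm h) ∧
    ∀ i < a, ∀ t < 7, ∀ j < 2 ^ (K + 1),
      Lv h p (cT * K) (TT.getD (i * (7 * 2 ^ (K + 1)) + (t * 2 ^ (K + 1) + j)) 0)
        (tabI (ss.getD i 0) K t j)

/-- the matrices `M s K` can be applied to all the fields -/
def Run (cT : ℕ) (M : ℕ → ℕ → ℕ → ℕ → ℂ) : Prop := ∃ (t : Tm) (C c c1 : ℕ),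
  ∀ (W : ℕ) (X ss Om TT : List ℕ) (LV l0 K a g h p e : ℕ) (x : ℕ → ℂ),
  PhOK C W LV l0 K a g h p e → ss.length = a → (∀ s ∈ ss, 4 ≤ s ∧ s ≤ 2 ^ (K - 1)) →
  App h p 2 (2 ^ K) (fun _ => True) Om (fun m => ee m (2 ^ K)) → TTok cT h p K a ss TT →
  App h p e (2 ^ LV) (okPh l0 K a g) X x →
  Does W t [X, ss, [LV], [l0], [K], [a], [g], [h], [p], Om, TT] (C * pc W LV K a g c1)
    fun Y => App h p (e + c * (K * (a + 1))) (2 ^ LV) (okPh l0 K a g) Y
      (liftS l0 (2 * K - 2) (2 ^ (K + 1)) (fun i => M (ss.getD i 0) K) a x)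

theorem run_one (cT : ℕ) : Run cT fun _ _ => mone := by
  refine ⟨.var 0, 1, 0, 0, ?_⟩
  intro W X ss Om TT LV l0 K a g h p e x H hss hs hOm hTT hX fn env
  refine ⟨X, by rw [liftS_mone (by positivity)]; simpa using hX, (Pv.var rfl).mono ?_⟩
  have h1 := pc_ge (W := W) (LV := LV) (a := a) (g := g) H.hK 0
  have h2 : (0 : ℝ) ≤ 2 ^ LV * a := by positivity
  rw [hX.1]
  push_cast
  simp only [pow_zero] at h1
  linarith

theorem Run.mul {cT : ℕ} {M N : ℕ → ℕ → ℕ → ℕ → ℂ} (hM : Run cT M) (hN : Run cT N) :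
    Run cT fun s K => mmul (2 ^ (K + 1)) (N s K) (M s K) := by
  obtain ⟨t, C, c, c1, ht⟩ := hM
  obtain ⟨t', C', c', c1', ht'⟩ := hN
  refine ⟨.lett t (.skip 1 1 t'), C + C' + 2 * c + 2, c + c', c1 + c1', ?_⟩
  intro W X ss Om TT LV l0 K a g h p e x H hss hs hOm hTT hX fn env
  have hK := H.hK
  obtain ⟨Y, hY, hp⟩ := ht W X ss Om TT LV l0 K a g h p e x (PhOK.mono' H (by omega)) hss hs hOm
    hTT hX fn env
  obtain ⟨Z, hZ, hp'⟩ := ht' W Y ss Om TT LV l0 K a g h p _ _ (PhOK.mono H (by omega)) hss hs hOm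
    hTT hY fn env
  refine ⟨Z, ?_, (Pv.lett hp (Ev.skip11 hp')).mono ?_⟩
  · rw [liftS_liftS (two_pow_dvd (by omega))] at hZ
    rwa [Nat.add_mul, ← Nat.add_assoc]
  · have h1 := pc_ge (W := W) (LV := LV) (a := a) (g := g) hK (c1 + c1')
    have h2 := pc_mono W LV K a g (show c1 ≤ c1 + c1' by omega)
    have h3 := pc_mono W LV K a g (show c1' ≤ c1 + c1' by omega)
    have h4 : (0 : ℝ) ≤ 2 ^ LV * a := by positivity
    have h5 := one_le_pow₀ (one_le_base W K) (n := c1 + c1')
    have h6 : (0 : ℝ) ≤ 2 ^ LV := by positivity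
    have h7 := mul_le_mul_of_nonneg_left h2 (Nat.cast_nonneg (α := ℝ) C)
    have h8 := mul_le_mul_of_nonneg_left h3 (Nat.cast_nonneg (α := ℝ) C')
    have h9 : (0 : ℝ) ≤ c * pc W LV K a g (c1 + c1') :=
      mul_nonneg (Nat.cast_nonneg _) (by linarith)
    rw [hY.1, hZ.1]
    push_cast
    linarith

/-- cost of a call whose arguments are copied -/
theorem call_cost {C W LV l0 K a g h p e : ℕ} (H : PhOK C W LV l0 K a g h p e) (hC : 1 ≤ C)
    (c : ℕ) : (2 : ℝ) ^ LV ≤ pc W LV K a g c ∧ (2 : ℝ) ^ K ≤ 2 ^ LV ∧ (a : ℝ) ≤ 2 ^ LV ∧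
      (a : ℝ) * 2 ^ K ≤ 2 ^ LV ∧ (1 : ℝ) ≤ 2 ^ LV := by
  obtain ⟨-, -, -, h1, h2, -⟩ := PhOK.facts H hC
  have h3 := pc_ge (W := W) (LV := LV) (a := a) (g := g) H.hK c
  have h4 : (0 : ℝ) ≤ 2 ^ LV * a := by positivity
  have h5 := one_le_pow₀ (one_le_base W K) (n := c)
  have h6 : (a : ℝ) * 2 ^ (K + 1) ≤ 2 ^ LV := by exact_mod_cast h2
  have h7 : (1 : ℝ) ≤ 2 ^ K := one_le_pow₀ (by norm_num)
  have h8 : (1 : ℝ) ≤ a := by exact_mod_cast H.ha
  rw [pow_succ] at h6
  refine ⟨by linarith, by nlinarith, by nlinarith, by nlinarith, one_le_pow₀ (by norm_num)⟩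

theorem run_fft (cT : ℕ) (hF : FftSpec) : (Run cT fun _ K => FM K) ∧ Run cT fun _ K => BM K := by
  obtain ⟨tF, tB, C, c, c1, ht⟩ := hF
  constructor
  · refine ⟨.call tF [.var 0, .var 9, .var 2, .var 3, .var 4, .var 5, .var 6, .var 7, .var 8],
      C + 100, c, c1, ?_⟩
    intro W X ss Om TT LV l0 K a g h p e x H hss hs hOm hTT hX fn env
    obtain ⟨Y, hY, hp⟩ := (ht W X Om LV l0 K a g h p e x (PhOK.mono' H (by omega)) hOm hX).1 fn
      (X :: ss :: [LV] :: [l0] :: [K] :: [a] :: [g] :: [h] :: [p] :: Om :: TT :: env)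
    refine ⟨Y, hY, ?_⟩
    apply Pv.cast
    · simp only [List.cons_append, List.nil_append]
      apply Pv.call (hf := hp)
      pv
    · rfl
    · obtain ⟨h1, h2, h3, h4, h5⟩ := call_cost H (by omega) c1
      have h6 : (0 : ℝ) ≤ C * (2 ^ LV * a) := by positivity
      simp only [hY.1, hX.1, hOm.1, List.length_cons, List.length_nil]
      unfold pc at h1 ⊢
      push_cast
      linarith
  · refine ⟨.call tB [.var 0, .var 9, .var 2, .var 3, .var 4, .var 5, .var 6, .var 7, .var 8],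
      C + 100, c, c1, ?_⟩
    intro W X ss Om TT LV l0 K a g h p e x H hss hs hOm hTT hX fn env
    obtain ⟨Y, hY, hp⟩ := (ht W X Om LV l0 K a g h p e x (PhOK.mono' H (by omega)) hOm hX).2 fn
      (X :: ss :: [LV] :: [l0] :: [K] :: [a] :: [g] :: [h] :: [p] :: Om :: TT :: env)
    refine ⟨Y, hY, ?_⟩
    apply Pv.cast
    · simp only [List.cons_append, List.nil_append]
      apply Pv.call (hf := hp)
      pv
    · rfl
    · obtain ⟨h1, h2, h3, h4, h5⟩ := call_cost H (by omega) c1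
      have h6 : (0 : ℝ) ≤ C * (2 ^ LV * a) := by positivity
      simp only [hY.1, hX.1, hOm.1, List.length_cons, List.length_nil]
      unfold pc at h1 ⊢
      push_cast
      linarith

theorem run_diag (cT : ℕ) (hD : DiagSpec) {t : ℕ} (ht7 : t < 7) :
    Run cT fun s K => mdiag (tabI s K t) := by
  obtain ⟨tD, C, ht⟩ := hD
  refine ⟨.call tD [.var 0, .strm1 (.var 5) (.var 10) (.shl (.const 7) (.add (.var 4) (.const 1)))
      (.take (.pow2 (.add (.var 6) (.const 1)))
        (.drop (.shl (.const t) (.add (.var 6) (.const 1))) (.var 0))),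
      .var 2, .var 3, .sub (.add (.var 4) (.var 4)) (.const 2), .add (.var 4) (.const 1), .var 5,
      .var 7, .var 8], C + cT + 2000, cT + 1, 1, ?_⟩
  intro W X ss Om TT LV l0 K a g h p e x H hss hs hOm hTT hX fn env
  obtain ⟨f1, f2, f3, f4, f5, f6, f7⟩ := PhOK.facts H (by omega)
  have hW := H.hW
  have hK := H.hK
  have hh := H.hh
  have hWW : W < 2 ^ W := Nat.lt_two_pow_self
  have b1 : 8 * 2 ^ (K + 1) ≤ 2 ^ W := by
    rw [show 8 = 2 ^ 3 by norm_num, ← pow_add]
    exact Nat.pow_le_pow_right (by norm_num) (by omega)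
  have hn : 0 < 2 ^ (K + 1) := by positivity
  have b2 : t * 2 ^ (K + 1) ≤ 6 * 2 ^ (K + 1) := Nat.mul_le_mul_right _ (by omega)
  set f : ℕ → List ℕ := fun i =>
    ((chunk (7 * 2 ^ (K + 1)) TT i).drop (t * 2 ^ (K + 1))).take (2 ^ (K + 1)) with hf
  have hcl : ∀ i < a, (chunk (7 * 2 ^ (K + 1)) TT i).length = 7 * 2 ^ (K + 1) := fun i hi =>
    chunk_length (by rw [hTT.1]; exact Nat.mul_le_mul_right _ hi)
  have hfl : ∀ i < a, (f i).length = 2 ^ (K + 1) := fun i hi => by
    simp only [hf, List.length_take, List.length_drop, hcl i hi]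
    omega
  have hfg : ∀ i, ∀ j < 2 ^ (K + 1), (f i).getD j 0 =
      TT.getD (i * (7 * 2 ^ (K + 1)) + (t * 2 ^ (K + 1) + j)) 0 := fun i j hj => by
    rw [← chunk_getD _ _ _ (by omega)]
    exact chunk_getD _ _ t hj
  set Tb := (List.range a).flatMap f with hTb
  have hTl : Tb.length = a * 2 ^ (K + 1) := length_flatMap_eq hfl
  have hTg : ∀ b < a * 2 ^ (K + 1), Tb.getD b 0 = TT.getD (b / 2 ^ (K + 1) * (7 * 2 ^ (K + 1)) +
      (t * 2 ^ (K + 1) + b % 2 ^ (K + 1))) 0 := fun b hb => by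
    rw [hTb, getD_flatMap' hfl hb, hfg _ _ (Nat.mod_lt _ hn)]
  have e1 : (cT * K + 3) * a + 3 ≤ (cT + 1) * (K * (a + 1)) := by
    have : cT * K * a ≤ cT * (K * (a + 1)) := by
      rw [Nat.mul_assoc]; exact Nat.mul_le_mul_left _ (Nat.mul_le_mul_left _ (by omega))
    rw [Nat.add_mul, Nat.add_mul]
    omega
  obtain ⟨Y, hY, hp⟩ := ht W X Tb LV l0 (2 * K - 2) (K + 1) a h p e (cT * K) (okPh l0 K a g) x
    (fun i => tabI (ss.getD i 0) K t) hW H.ha (by omega) (by omega) (by omega)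
    (by have := H.hLV; omega) f1 (by omega)
    (by
      have h1 := H.lev
      have h2 : (cT + 1 + 1) * (K * (a + 1)) ≤ (C + cT + 2000) * (K * (a + 1)) :=
        Nat.mul_le_mul_right _ (by omega)
      rw [Nat.add_mul (cT + 1)] at h2
      have h3 := H.ha
      omega) hh hX
    ⟨hTl, forall_mem_of_getD fun b hb => by
        rw [hTg b (hTl ▸ hb)]; exact getD_lt (Qm_pos h) hTT.2.1 _,
      fun b hb _ => by
        rw [hTg b hb]
        exact hTT.2.2 _ ((Nat.div_lt_iff_lt_mul hn).2 hb) t ht7 _ (Nat.mod_lt _ hn)⟩ fn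
    (X :: ss :: [LV] :: [l0] :: [K] :: [a] :: [g] :: [h] :: [p] :: Om :: TT :: env)
  refine ⟨Y, hY.mono (by omega) fun _ _ h => h, ?_⟩
  have hb : ∀ i < a, Pv W fn (chunk (7 * 2 ^ (K + 1)) TT i :: [i] :: X :: ss :: [LV] :: [l0] ::
      [K] :: [a] :: [g] :: [h] :: [p] :: Om :: TT :: env) (.take (.pow2 (.add (.var 6) (.const 1)))
        (.drop (.shl (.const t) (.add (.var 6) (.const 1))) (.var 0))) (f i)
      (400 * 2 ^ (K + 1)) := by
    intro i hi
    apply Pv.cast
    · pv <;> omega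
    · rfl
    · have r1 : (t : ℝ) * 2 ^ (K + 1) ≤ 6 * 2 ^ (K + 1) := by exact_mod_cast b2
      have r2 : (((chunk (7 * 2 ^ (K + 1)) TT i).drop (t * 2 ^ (K + 1))).length : ℝ) ≤
          7 * 2 ^ (K + 1) := by
        have : ((chunk (7 * 2 ^ (K + 1)) TT i).drop (t * 2 ^ (K + 1))).length ≤
          7 * 2 ^ (K + 1) := by rw [List.length_drop, hcl i hi]; omega
        exact_mod_cast this
      have r3 : (32 : ℝ) ≤ 2 ^ (K + 1) := by
        have := pow_le_pow_right₀ (show (1 : ℝ) ≤ 2 by norm_num) (show 5 ≤ K + 1 by omega)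
        linarith
      rw [hcl i hi]
      push_cast
      linarith
  have e2 : K + K - 2 = 2 * K - 2 := by omega
  apply Pv.cast
  · simp only [List.cons_append, List.nil_append]
    apply Pv.call (hf := hp)
    apply Pvs.cons (Pv.var rfl)
    apply Pvs.cons (Pv.strm1 (L := 2 ^ (K + 1)) (Pv.varS rfl) (Pv.var rfl) (by pv <;> omega) hb
      (fun i hi => by rw [hfl i hi]; push_cast; exact le_rfl))
    apply Pvs.cons (Pv.varS rfl)
    apply Pvs.cons (Pv.varS rfl)
    apply Pvs.cons ((Pv.sub (Pv.add (Pv.varS rfl) (Pv.varS rfl) (by omega))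
      (Pv.constS hW (by norm_num))).cast (by rw [e2]) le_rfl)
    pv
    omega
  · rfl
  · obtain ⟨h1, h2, h3, h4, h5⟩ := call_cost H (by omega) 1
    have h6 := mu_le_hcost W K a g
    have h7 := hcost_le (W := W) (a := a) (g := g) hK
    have h8 : 2 ^ LV * mu W + W + 1 ≤ pc W LV K a g 1 := by
      unfold pc
      have h9 : (0 : ℝ) ≤ 2 ^ LV * a := by positivity
      have h10 : (0 : ℝ) ≤ 2 ^ K := by positivity
      have h11 := mul_le_mul_of_nonneg_left (h6.trans h7) (show (0 : ℝ) ≤ 2 ^ LV by positivity)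
      rw [pow_one]
      linarith
    have h9 := mul_le_mul_of_nonneg_left h8 (Nat.cast_nonneg (α := ℝ) C)
    have h10 : (0 : ℝ) ≤ cT * pc W LV K a g 1 := mul_nonneg (Nat.cast_nonneg _) (by linarith)
    rw [← hTb]
    simp only [hY.1, hX.1, hTl, hTT.1, List.length_cons, List.length_nil]
    push_cast
    rw [pow_succ]
    linarith

theorem map_shM {R S : Type} [CommRing R] [CommRing S] (φ : R →+* S) (K s al be e sg j k : ℕ) :
    φ (shM K s al be (sgn2 e sg) j k) = shM K s al be (sgn2 e sg) j k := by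
  unfold shM sgn2
  split_ifs <;> simp [map_ofNat]

theorem map_mperm {R S : Type} [CommRing R] [CommRing S] (φ : R →+* S) (π : ℕ → ℕ) (j k : ℕ) :
    φ (mperm π j k) = mperm π j k := by
  unfold mperm
  split_ifs <;> simp

theorem sum_ite_le (n k0 : ℕ) {B : ℝ} (hB : 0 ≤ B) :
    ∑ k ∈ range n, (if k = k0 then B else 0) ≤ B := by
  rw [sum_ite_eq']
  split_ifs
  exacts [le_rfl, hB]

theorem row_mperm (π : ℕ → ℕ) (n j : ℕ) : ∑ k ∈ range n, ‖(mperm π j k : ℂ)‖ ≤ 2 ^ 0 := by
  refine le_trans (sum_le_sum fun k _ => ?_) (sum_ite_le n (π j) (by positivity))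
  unfold mperm
  split_ifs <;> simp

theorem row_shM {K e : ℕ} (he : e ≤ K + 1) (s al be sg n j : ℕ) :
    ∑ k ∈ range n, ‖(shM K s al be (sgn2 e sg) j k : ℂ)‖ ≤ 2 ^ (K + 2) := by
  have h1 := sum_ite_le n j (B := 1) (by norm_num)
  have h2 := sum_ite_le n (al * 2 ^ (K - 1) + j % 2 ^ (K - 1)) (B := 2 ^ e) (by positivity)
  have h3 : (2 : ℝ) ^ e ≤ 2 ^ (K + 1) := pow_le_pow_right₀ (by norm_num) he
  have h4 : (1 : ℝ) ≤ 2 ^ (K + 1) := one_le_pow₀ (by norm_num)
  have h5 : ‖(sgn2 e sg : ℂ)‖ = 2 ^ e := by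
    unfold sgn2
    split_ifs <;> simp
  refine le_trans (sum_le_sum fun k _ => ?_) (le_trans (le_of_eq sum_add_distrib)
    (by rw [pow_succ]; linarith : _ ≤ _) : ∑ k ∈ range n, ((if k = j then (1 : ℝ) else 0) +
      if k = al * 2 ^ (K - 1) + j % 2 ^ (K - 1) then (2 : ℝ) ^ e else 0) ≤ _)
  refine (norm_add_le _ _).trans (add_le_add ?_ ?_)
  · by_cases h : j = k
    · simp [h]
    · simp [h, Ne.symm h]
  · split_ifs with h6 h7 h7
    · exact h5.le
    · exact absurd h6.2.2 h7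
    · simp
    · simp

theorem letter_cost {C W LV l0 K a g h p e : ℕ} (H : PhOK C W LV l0 K a g h p e) (hC : 1 ≤ C) :
    ((a : ℝ) + 1) * (2 ^ LV + W + 1) ≤ pc W LV K a g 2 := by
  obtain ⟨f1, -, -, f4, -⟩ := PhOK.facts H hC
  have h1 := pc_ge (W := W) (LV := LV) (a := a) (g := g) H.hK 2
  have h2 : (a : ℝ) ≤ W := by exact_mod_cast (show a ≤ W by omega)
  have h3 : (0 : ℝ) ≤ 2 ^ K := by positivity
  have h4 : (0 : ℝ) ≤ W := by positivity
  nlinarith

theorem run_letters (cT : ℕ) (hL : LetterSpec) :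
    (∀ (al be : ℕ) (big : Bool) (sg : ℕ), al < 4 → be < 4 → al ≠ be → sg ≤ 1 →
      Run cT fun s K => shM K s al be (sgn2 (if big then K + 1 else 0) sg)) ∧
    (Run cT fun s K => mperm (negP K s)) ∧ Run cT fun _ K => mperm (rotP K) := by
  obtain ⟨tS, tN, tR, C, ht⟩ := hL
  refine ⟨fun al be big sg hal hbe hab hsg => ?_, ?_, ?_⟩
  · refine ⟨.call tS [.var 0, .var 1, .var 3, .var 4, .var 5, .var 7, .const al, .const be,
      if big then .add (.var 4) (.const 1) else .const 0, .const sg], C + 100, 2, 2, ?_⟩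
    intro W X ss Om TT LV l0 K a g h p e x H hss hs hOm hTT hX fn env
    obtain ⟨f1, f2, f3, f4, f5, f6, f7⟩ := PhOK.facts H (by omega)
    have hW := H.hW
    have hK := H.hK
    have hWW : W < 2 ^ W := Nat.lt_two_pow_self
    have he : (if big then K + 1 else 0) ≤ K + 1 := by split_ifs <;> omega
    obtain ⟨Y, hY, hp⟩ := (ht W X ss LV l0 K a h hW hX.1 f1 hK H.ha H.hLV hss
      (fun s h => ⟨by have := (hs s h).1; omega, (hs s h).2⟩) hX.2.1 (by omega) H.hh).1 al be _ sg
      hal hbe hab he hsg fn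
      (X :: ss :: [LV] :: [l0] :: [K] :: [a] :: [g] :: [h] :: [p] :: Om :: TT :: env)
    rw [hX.1] at hY hp
    refine ⟨Y, ?_, ?_⟩
    · have := App.exact (δ := K + 2) (ok' := fun _ => True)
        (fun i => shM K (ss.getD i 0) al be (sgn2 (if big then K + 1 else 0) sg)) (by positivity)
        (closed_okPh (l := 0) (r := K + 1) (by omega) (by omega)) (PhOK.dvd H) (fun _ _ _ => trivial)
        (fun i _ j _ => by simp only [map_shM]; exact row_shM he _ _ _ _ _ _) hX
        (by simp only [map_shM]; exact hY)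
      simp only [map_shM] at this
      refine this.mono ?_ fun _ _ h => h
      have : K * a ≤ K * (a + 1) := Nat.mul_le_mul_left _ (by omega)
      rw [Nat.add_mul]
      omega
    · have hb : Pv W fn (X :: ss :: [LV] :: [l0] :: [K] :: [a] :: [g] :: [h] :: [p] :: Om :: TT ::
          env) (if big then .add (.var 4) (.const 1) else .const 0) [if big then K + 1 else 0] 9 := by
        cases big
        · exact (Pv.constS hW (by norm_num)).mono (by norm_num)
        · exact (Pv.add (Pv.varS rfl) (Pv.constS hW (by norm_num)) (by omega)).mono (by norm_num)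
      apply Pv.cast
      · simp only [List.cons_append, List.nil_append]
        apply Pv.call (hf := hp)
        pv <;> omega
      · rfl
      · obtain ⟨h1, h2, h3, h4, h5⟩ := call_cost H (by omega) 2
        have h6 := mul_le_mul_of_nonneg_left (letter_cost H (by omega)) (Nat.cast_nonneg (α := ℝ) C)
        simp only [hY.1, hX.1, hss, List.length_cons, List.length_nil]
        push_cast
        linarith
  · refine ⟨.call tN [.var 0, .var 1, .var 3, .var 4, .var 5], C + 100, 0, 2, ?_⟩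
    intro W X ss Om TT LV l0 K a g h p e x H hss hs hOm hTT hX fn env
    obtain ⟨f1, f2, f3, f4, f5, f6, f7⟩ := PhOK.facts H (by omega)
    have hK := H.hK
    obtain ⟨Y, hY, hp⟩ := (ht W X ss LV l0 K a h H.hW hX.1 f1 hK H.ha H.hLV hss
      (fun s h => ⟨by have := (hs s h).1; omega, (hs s h).2⟩) hX.2.1 (by omega) H.hh).2.1 fn
      (X :: ss :: [LV] :: [l0] :: [K] :: [a] :: [g] :: [h] :: [p] :: Om :: TT :: env)
    rw [hX.1] at hY hp
    refine ⟨Y, ?_, ?_⟩
    · have := App.exact (δ := 0) (ok' := fun _ => True)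
        (fun i => mperm (negP K (ss.getD i 0))) (by positivity)
        (closed_okPh (l := 0) (r := K + 1) (by omega) (by omega)) (PhOK.dvd H) (fun _ _ _ => trivial)
        (fun i _ j _ => by simp only [map_mperm]; exact row_mperm _ _ _) hX
        (by simp only [map_mperm]; exact hY)
      simp only [map_mperm] at this
      exact this.mono (by omega) fun _ _ h => h
    · apply Pv.cast
      · simp only [List.cons_append, List.nil_append]
        apply Pv.call (hf := hp)
        pv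
      · rfl
      · obtain ⟨h1, h2, h3, h4, h5⟩ := call_cost H (by omega) 2
        have h6 := mul_le_mul_of_nonneg_left (letter_cost H (by omega)) (Nat.cast_nonneg (α := ℝ) C)
        simp only [hY.1, hX.1, hss, List.length_cons, List.length_nil]
        push_cast
        linarith
  · refine ⟨.call tR [.var 0, .var 1, .var 3, .var 4, .var 5], C + 100, 0, 2, ?_⟩
    intro W X ss Om TT LV l0 K a g h p e x H hss hs hOm hTT hX fn env
    obtain ⟨f1, f2, f3, f4, f5, f6, f7⟩ := PhOK.facts H (by omega)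
    have hK := H.hK
    obtain ⟨Y, hY, hp⟩ := (ht W X ss LV l0 K a h H.hW hX.1 f1 hK H.ha H.hLV hss
      (fun s h => ⟨by have := (hs s h).1; omega, (hs s h).2⟩) hX.2.1 (by omega) H.hh).2.2 fn
      (X :: ss :: [LV] :: [l0] :: [K] :: [a] :: [g] :: [h] :: [p] :: Om :: TT :: env)
    rw [hX.1] at hY hp
    refine ⟨Y, ?_, ?_⟩
    · have := App.exact (δ := 0) (ok' := fun _ => True)
        (fun _ => mperm (rotP K)) (by positivity)
        (closed_okPh (l := 0) (r := K + 1) (by omega) (by omega)) (PhOK.dvd H) (fun _ _ _ => trivial)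
        (fun i _ j _ => by simp only [map_mperm]; exact row_mperm _ _ _) hX
        (by simp only [map_mperm]; exact hY)
      simp only [map_mperm] at this
      exact this.mono (by omega) fun _ _ h => h
    · apply Pv.cast
      · simp only [List.cons_append, List.nil_append]
        apply Pv.call (hf := hp)
        pv
      · rfl
      · obtain ⟨h1, h2, h3, h4, h5⟩ := call_cost H (by omega) 2
        have h6 := mul_le_mul_of_nonneg_left (letter_cost H (by omega)) (Nat.cast_nonneg (α := ℝ) C)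
        simp only [hY.1, hX.1, hss, List.length_cons, List.length_nil]
        push_cast
        linarith

/-- the letters that can be executed -/
def okL : Let → Bool
  | .diag t => t < 7
  | .shear al be _ sg => al < 4 && be < 4 && al != be && sg ≤ 1
  | _ => true

theorem run_word (cT : ℕ) (hD : DiagSpec) (hF : FftSpec) (hL : LetterSpec) (w : List Let)
    (hw : w.all okL = true) : Run cT fun s K => wmat s K w := by
  induction w with
  | nil => exact run_one cT
  | cons l w ih =>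
    rw [List.all_cons, Bool.and_eq_true] at hw
    refine Run.mul (M := fun s K => l.mat s K) ?_ (ih hw.2)
    have h1 := hw.1
    cases l with
    | diag t => exact run_diag cT hD (by simpa [okL] using h1)
    | fwd => exact (run_fft cT hF).1
    | bwd => exact (run_fft cT hF).2
    | shear al be big sg =>
      simp only [okL, Bool.and_eq_true, decide_eq_true_eq, bne_iff_ne] at h1
      exact (run_letters cT hL).1 al be big sg h1.1.1.1 h1.1.1.2 h1.1.2 h1.2
    | neg => exact (run_letters cT hL).2.1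
    | rot => exact (run_letters cT hL).2.2

end Ph

open Ph

theorem phase_spec (hR : RootSpec) (hT : TableSpec) (hD : DiagSpec) (hF : FftSpec)
    (hL : LetterSpec) (hWd : WordSpec) : PhaseSpec := by
  obtain ⟨tR, CR, cR, hR⟩ := hR
  obtain ⟨tT, CT, cT, eT, hT⟩ := hT
  obtain ⟨tW, C, c, c1, ht⟩ := run_word cT hD hF hL wAll (by decide)
  refine ⟨.lett (.call tR [.pow2 (.var 4), .var 7, .var 8])
    (.lett (.strm1 (.var 6) (.var 2) (.const 1)
        (.call tT [.var 2, .var 0, .var 7, .var 10, .var 11]))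
      (.call tW [.var 2, .var 3, .var 4, .var 5, .var 6, .var 7, .var 8, .var 9, .var 10, .var 1,
        .var 0])), C + CR + CT + 1000, c, c1 + cR + eT + 2, ?_⟩
  intro W X ss LV l0 K a g h p e x H hss hs hX fn env
  obtain ⟨f1, f2, f3, f4, f5, f6, f7⟩ := PhOK.facts H (by omega)
  have hW := H.hW
  have hK := H.hK
  have hh := H.hh
  have hn : 0 < 2 ^ (K + 1) := by positivity
  obtain ⟨Om, hOm, hpO⟩ := hR W (2 ^ K) h p hW
    (le_trans (by norm_num) (Nat.pow_le_pow_right (by norm_num) (show 3 ≤ K by omega)))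
    (by omega) (by omega) hh fn
    (X :: ss :: [LV] :: [l0] :: [K] :: [a] :: [g] :: [h] :: [p] :: env)
  have hsi : ∀ i < a, 4 ≤ ss.getD i 0 ∧ ss.getD i 0 ≤ 2 ^ (K - 1) := fun i hi => by
    rw [List.getD_eq_getElem _ _ (by omega)]
    exact hs _ (List.getElem_mem _)
  have HT := PhOK.mono' H (show CT ≤ _ by omega)
  obtain ⟨f, hf⟩ := exists_pieces (N := a) fun i hi => hT W Om (ss.getD i 0) K h p hW hK
    (hsi i hi).1 (hsi i hi).2
    (lt_of_le_of_lt (Nat.mul_le_mul_left _ (Nat.pow_le_pow_right (by norm_num) (by omega)))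
      HT.room) HT.hp
    (by
      have h1 := HT.lev
      have h2 : CT * K ≤ CT * (K * (a + 1)) :=
        Nat.mul_le_mul_left _ (Nat.le_mul_of_pos_right _ (by omega))
      omega) hh hOm fn
    ([ss.getD i 0] :: [i] :: Om :: X :: ss :: [LV] :: [l0] :: [K] :: [a] :: [g] :: [h] :: [p] :: env)
  have hfl : ∀ i < a, (f i).length = 7 * 2 ^ (K + 1) := fun i hi => (hf i hi).1.1
  set TT := (List.range a).flatMap f with hTT
  have hTo : TTok cT h p K a ss TT := by
    refine ⟨length_flatMap_eq hfl, fun r hr => ?_, fun i hi t ht j hj => ?_⟩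
    · obtain ⟨i, hi, hr⟩ := List.mem_flatMap.1 hr
      exact (hf i (List.mem_range.1 hi)).1.2.1 r hr
    · have h1 : t * 2 ^ (K + 1) + j < 7 * 2 ^ (K + 1) := by
        have : t * 2 ^ (K + 1) ≤ 6 * 2 ^ (K + 1) := Nat.mul_le_mul_right _ (by omega)
        omega
      have h2 := (hf i hi).1.2.2 _ h1 trivial
      rw [hTT, getD_flatMap hfl hi h1]
      beta_reduce at h2
      rwa [mod_mk _ hj, Nat.add_comm (t * _), Nat.add_mul_div_right _ _ hn, Nat.div_eq_of_lt hj,
        Nat.zero_add, Nat.add_comm j] at h2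
  obtain ⟨Y, hY, hp⟩ := ht W X ss Om TT LV l0 K a g h p e x (PhOK.mono' H (by omega)) hss hs hOm hTo
    hX fn (TT :: Om :: X :: ss :: [LV] :: [l0] :: [K] :: [a] :: [g] :: [h] :: [p] :: env)
  refine ⟨Y, ?_, ?_⟩
  · rw [liftS_congr (N := fun i => msub (2 ^ 0) (2 ^ (K - 1)) (Ft (ss.getD i 0)))
      (fun i hi => hWd _ K hK (by have := (hsi i hi).1; omega) (hsi i hi).2),
      liftS_msub (by positivity) hn (two_pow_mul_dvd (by omega))] at hY
    exact hY
  · have hb : ∀ i < a, Pv W fn (chunk 1 ss i :: [i] :: Om :: X :: ss :: [LV] :: [l0] :: [K] ::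
        [a] :: [g] :: [h] :: [p] :: env) (.call tT [.var 2, .var 0, .var 7, .var 10, .var 11])
        (f i) (CT * ((2 : ℝ) ^ K + W + 1) ^ eT + 100 * 2 ^ K) := by
      intro i hi
      rw [chunk_one (by omega)]
      apply Pv.cast
      · apply Pv.call (hf := (hf i hi).2)
        pv
      · rfl
      · have r3 : (1 : ℝ) ≤ 2 ^ K := one_le_pow₀ (by norm_num)
        simp only [hfl i hi, hOm.1, List.length_cons, List.length_nil]
        push_cast
        rw [pow_succ]
        linarith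
    apply Pv.cast
    · simp only [List.cons_append, List.nil_append]
      apply Pv.lett (Pv.call (hf := hpO) (by pv; omega))
      apply Pv.lett (Pv.strm1 (L := 7 * 2 ^ (K + 1)) (Pv.varS rfl) (Pv.var rfl)
        (Pv.constS hW (by norm_num)) hb (fun i hi => by rw [hfl i hi]; push_cast; exact le_rfl))
      apply Pv.call (hf := hp)
      pv
    · rfl
    · obtain ⟨h1, h2, h3, h4, h5⟩ := call_cost H (by omega) (c1 + cR + eT + 2)
      have h6 := mul_le_mul_of_nonneg_left
        (pc_mono W LV K a g (show c1 ≤ c1 + cR + eT + 2 by omega)) (Nat.cast_nonneg (α := ℝ) C)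
      have h7 := pc_ge (W := W) (LV := LV) (a := a) (g := g) hK (c1 + cR + eT + 2)
      have h8 : (0 : ℝ) ≤ 2 ^ LV * (a + 1) := by positivity
      have h9 := pow_le_pow_right₀ (one_le_base W K) (show cR ≤ c1 + cR + eT + 2 by omega)
      have h10 := pow_le_pow_right₀ (one_le_base W K) (show eT + 1 ≤ c1 + cR + eT + 2 by omega)
      have h11 : (a : ℝ) * ((2 : ℝ) ^ K + W + 1) ^ eT ≤ ((2 : ℝ) ^ K + W + 1) ^ (eT + 1) := by
        have r1 : (a : ℝ) ≤ W := by exact_mod_cast (show a ≤ W by omega)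
        have r2 : (0 : ℝ) ≤ 2 ^ K := by positivity
        rw [pow_succ']
        exact mul_le_mul_of_nonneg_right (by linarith) (by positivity)
      have h12 := mul_le_mul_of_nonneg_left (show ((2 : ℝ) ^ K + W + 1) ^ cR ≤
        pc W LV K a g (c1 + cR + eT + 2) by linarith) (Nat.cast_nonneg (α := ℝ) CR)
      have h13 := mul_le_mul_of_nonneg_left (show (a : ℝ) * ((2 : ℝ) ^ K + W + 1) ^ eT ≤
        pc W LV K a g (c1 + cR + eT + 2) by linarith) (Nat.cast_nonneg (α := ℝ) CT)
      rw [← hTT]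
      change _ ≤ _ * pc W LV K a g (c1 + cR + eT + 2)
      simp only [hY.1, hX.1, hOm.1, hTo.1, hss, List.length_cons, List.length_nil]
      push_cast
      rw [pow_succ]
      linarith

end Crest.Agent.R326
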