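import Crest.Agent.R326.SpecB

/-!
# The square root of a translation by one bit; the packed exclusive or
-/

set_option autoImplicit false

namespace Crest.Agent.R326

open Finset

namespace Px

/-! ### exclusive or on a field -/

theorem xor_setDig (p k a m : ℕ) (hm : m < 2 ^ k) :
    a ^^^ m * 2 ^ p = setDig (2 ^ p) (2 ^ k) a (dig (2 ^ p) (2 ^ k) a ^^^ m) := by
  have h1 : dig (2 ^ p) (2 ^ k) a ^^^ m < 2 ^ k :=
    Nat.xor_lt_two_pow (dig_lt (by positivity) _ _) hm
  apply addr_ext (lo := 2 ^ p) (n := 2 ^ k)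
  · rw [setDig_div (by positivity) h1, ← pow_add, Nat.xor_div_two_pow,
      Nat.div_eq_of_lt (a := m * 2 ^ p) (by rw [pow_add, mul_comm]; gcongr), Nat.xor_zero]
  · rw [dig_setDig (by positivity) h1, dig, dig, Nat.xor_div_two_pow, Nat.xor_mod_two_pow,
      Nat.mul_div_cancel _ (by positivity), Nat.mod_eq_of_lt hm]
  · rw [setDig_mod (by positivity), Nat.xor_mod_two_pow, Nat.mul_mod_left, Nat.xor_zero]

theorem dig_xor (p k a b : ℕ) :
    dig (2 ^ p) (2 ^ k) (a ^^^ b) = dig (2 ^ p) (2 ^ k) a ^^^ dig (2 ^ p) (2 ^ k) b := by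
  rw [dig, dig, dig, Nat.xor_div_two_pow, Nat.xor_mod_two_pow]

/-! ### numbers given by their digits in base `2 ^ σ` -/

/-- the number with the digits `c 0, …, c (l - 1)` in base `2 ^ σ` -/
def num (σ l : ℕ) (c : ℕ → ℕ) : ℕ := ∑ j ∈ range l, c j * 2 ^ (σ * j)

theorem num_succ (σ l : ℕ) (c : ℕ → ℕ) : num σ (l + 1) c = num σ l c + c l * 2 ^ (σ * l) :=
  sum_range_succ _ _

theorem num_congr {σ l : ℕ} {c d : ℕ → ℕ} (h : ∀ j < l, c j = d j) : num σ l c = num σ l d :=
  sum_congr rfl fun j hj => by rw [h j (mem_range.1 hj)]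

theorem num_add (σ l : ℕ) (c d : ℕ → ℕ) :
    num σ l c + num σ l d = num σ l fun j => c j + d j := by
  simp only [num, add_mul, sum_add_distrib]

theorem num_lt {σ l : ℕ} {c : ℕ → ℕ} (h : ∀ j < l, c j < 2 ^ σ) : num σ l c < 2 ^ (σ * l) := by
  induction l with
  | zero => simp [num]
  | succ l ih =>
    have h1 := ih fun j hj => h j (by omega)
    have h2 : (c l + 1) * 2 ^ (σ * l) ≤ 2 ^ σ * 2 ^ (σ * l) :=
      Nat.mul_le_mul_right _ (h l (by omega))
    rw [num_succ, mul_add, mul_one, pow_add, mul_comm (2 ^ (σ * l))]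
    linarith

theorem dig_num {σ l : ℕ} {c : ℕ → ℕ} (h : ∀ j < l, c j < 2 ^ σ) {j : ℕ} (hj : j < l) :
    dig (2 ^ (σ * j)) (2 ^ σ) (num σ l c) = c j := by
  induction l with
  | zero => omega
  | succ l ih =>
    rw [num_succ]
    rcases Nat.lt_succ_iff_lt_or_eq.1 hj with hj' | rfl
    · rw [add_comm, dig_add_of_dvd, ih (fun j hj => h j (by omega)) hj']
      exact Dvd.dvd.mul_left (two_pow_mul_dvd (by nlinarith)) _
    · have := dig_mk (lo := 2 ^ (σ * j)) (n := 2 ^ σ) 0 (h j hj)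
        (num_lt (σ := σ) (l := j) (c := c) fun i hi => h i (by omega))
      rwa [zero_mul, zero_add, add_comm] at this

theorem num_dig (σ l y : ℕ) :
    num σ l (fun j => dig (2 ^ (σ * j)) (2 ^ σ) y) = y % 2 ^ (σ * l) := by
  induction l with
  | zero => simp [num, Nat.mod_one]
  | succ l ih =>
    rw [num_succ, ih, mul_add, mul_one, pow_add, Nat.mod_mul, dig, mul_comm (2 ^ (σ * l))]

theorem bit_num {σ l : ℕ} {c : ℕ → ℕ} (hσ : 1 ≤ σ) (h : ∀ j < l, c j < 2 ^ σ) {j : ℕ}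
    (hj : j < l) : dig (2 ^ (σ * j)) 2 (num σ l c) = c j % 2 := by
  have h1 := dig_dig (m := 1) (r := 2) (n := 2 ^ σ) (by
    simpa using two_pow_dvd hσ) (2 ^ (σ * j)) (num σ l c)
  rw [mul_one, dig_num h hj] at h1
  rw [← h1, dig, Nat.div_one]

/-! ### the four rotations -/

theorem dig_set_hi {lo k p v : ℕ} (h : lo + k ≤ p) (hv : v < 2 ^ k) (n a : ℕ) :
    dig (2 ^ p) n (setDig (2 ^ lo) (2 ^ k) a v) = dig (2 ^ p) n a :=
  dig_setDig_high (by positivity) hv (two_pow_mul_dvd h) _ _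

theorem dig_set_lo {lo p q : ℕ} (h : p + q ≤ lo) (n a v : ℕ) :
    dig (2 ^ p) (2 ^ q) (setDig (2 ^ lo) n a v) = dig (2 ^ p) (2 ^ q) a :=
  dig_setDig_low (by positivity) (two_pow_mul_dvd h) _ _ _

theorem dig_base {s p : ℕ} (h : s ≤ p) (n a : ℕ) :
    dig (2 ^ p) n (a / 2 ^ s * 2 ^ s) = dig (2 ^ p) n a := by
  obtain ⟨r, rfl⟩ := Nat.exists_eq_add_of_le h
  rw [dig, dig, pow_add, ← Nat.div_div_eq_div_mul, ← Nat.div_div_eq_div_mul,
    Nat.mul_div_cancel _ (by positivity)]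

theorem dig_sub {p q k : ℕ} (h : p + q ≤ k) (lo a : ℕ) :
    dig (2 ^ (lo + p)) (2 ^ q) a = dig (2 ^ p) (2 ^ q) (dig (2 ^ lo) (2 ^ k) a) := by
  rw [dig_dig (two_pow_mul_dvd h), pow_add]

/-- the control bit -/
def zb (pz σ md a j : ℕ) : ℕ := if md = 1 then 1 else dig (2 ^ (pz + σ * j)) (2 ^ 1) a
/-- the selected bit -/
def yb (py σ a j : ℕ) : ℕ := dig (2 ^ (py + σ * j)) (2 ^ 1) a
/-- the auxiliary digit -/
def tb (g lt a j : ℕ) : ℕ := dig (2 ^ (lt + g * j)) (2 ^ g) a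

theorem zb_lt (pz σ md a j : ℕ) : zb pz σ md a j < 2 := by
  unfold zb; split_ifs
  · norm_num
  · exact dig_lt (by norm_num) _ _

theorem yb_lt (py σ a j : ℕ) : yb py σ a j < 2 := dig_lt (by norm_num) _ _

theorem tb_lt (g lt a j : ℕ) : tb g lt a j < 2 ^ g := dig_lt (by positivity) _ _

/-- first amount -/
def e1 (pz σ l g lt md a : ℕ) : ℕ := num σ l fun j => tb g lt a j * zb pz σ md a j * 2 ^ 1
/-- second amount -/
def e2 (py σ l g a : ℕ) : ℕ := num g l (yb py σ a)
/-- third amount -/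
def e3 (pz σ l g lt md a : ℕ) : ℕ :=
  (num σ l (zb pz σ md a) + (2 ^ (σ * l) - e1 pz σ l g lt md a)) % 2 ^ (σ * l)
/-- fourth amount -/
def e4 (py pz σ l g md a : ℕ) : ℕ :=
  2 ^ (g * l) - num g l fun j => yb py σ a j ^^^ zb pz σ md a j

/-- the field of `k` bits at the bit `lo` is increased by `f a` -/
def rotF (lo k : ℕ) (f : ℕ → ℕ) (a : ℕ) : ℕ :=
  setDig (2 ^ lo) (2 ^ k) a ((dig (2 ^ lo) (2 ^ k) a + f a) % 2 ^ k)

theorem rotF_lt {lo k V a : ℕ} (f : ℕ → ℕ) (h : 2 ^ (lo + k) ∣ V) (ha : a < V) :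
    rotF lo k f a < V :=
  setDig_lt (by positivity) (Nat.mod_lt _ (by positivity)) (by rwa [← pow_add]) ha

theorem swap_lt {lt k V a : ℕ} (hk : k ≤ lt) (h : 2 ^ (lt + k) ∣ V) (ha : a < V) :
    swapDig (2 ^ lt) (2 ^ 0) (2 ^ k) a < V :=
  setDig_lt (by positivity) (dig_lt (by positivity) _ _) (by rwa [← pow_add])
    (setDig_lt (by positivity) (dig_lt (by positivity) _ _)
      ((two_pow_mul_dvd (by omega)).trans h) ha)

theorem swap_rot {lt k a : ℕ} {f : ℕ → ℕ} (hk : k ≤ lt)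
    (hf : f (swapDig (2 ^ lt) (2 ^ 0) (2 ^ k) a) = f a) :
    swapDig (2 ^ lt) (2 ^ 0) (2 ^ k) (rotF 0 k f (swapDig (2 ^ lt) (2 ^ 0) (2 ^ k) a)) =
      rotF lt k f a := by
  have hn : 0 < 2 ^ k := by positivity
  have hL : 0 < 2 ^ lt := by positivity
  have h0 : 0 < 2 ^ 0 := by positivity
  have hd : 2 ^ 0 * 2 ^ k ∣ 2 ^ lt := two_pow_mul_dvd (by omega)
  have hT := dig_lt hn (2 ^ lt) a
  have hb := dig_lt hn (2 ^ 0) a
  have h1 : dig (2 ^ 0) (2 ^ k) (swapDig (2 ^ lt) (2 ^ 0) (2 ^ k) a) = dig (2 ^ lt) (2 ^ k) a := by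
    rw [swapDig, dig_setDig_low hL hd, dig_setDig h0 hT]
  have h2 : dig (2 ^ lt) (2 ^ k) (swapDig (2 ^ lt) (2 ^ 0) (2 ^ k) a) = dig (2 ^ 0) (2 ^ k) a := by
    rw [swapDig, dig_setDig hL hb]
  rw [rotF, rotF, hf, h1]
  have hv := Nat.mod_lt (dig (2 ^ lt) (2 ^ k) a + f a) hn
  generalize (dig (2 ^ lt) (2 ^ k) a + f a) % 2 ^ k = v at *
  rw [swapDig, dig_setDig h0 hv, dig_setDig_high h0 hv hd, h2, setDig_setDig h0 hv, swapDig,
    setDig_comm h0 hb hL hb hd, setDig_setDig h0 hT, setDig_dig, setDig_setDig hL hb]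

/-- the numerical hypotheses -/
structure Hyp (py pz σ l g lt md : ℕ) : Prop where
  hl : 1 ≤ l
  hg : 1 ≤ g
  hσ : g + 2 ≤ σ
  h1 : g * l ≤ py
  h2 : py + σ * l ≤ lt
  h3 : md = 1 ∨ (py + σ * l ≤ pz ∧ pz + σ * l ≤ lt)

theorem step_le (σ : ℕ) {j l : ℕ} (hj : j < l) : σ * j + σ ≤ σ * l := by
  rw [← Nat.mul_succ]; exact Nat.mul_le_mul_left _ hj

section state

variable {py pz σ l g lt md : ℕ}

/-- the address `a` with new values in the two fields -/
def st (py σ l g lt a u v : ℕ) : ℕ :=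
  setDig (2 ^ py) (2 ^ (σ * l)) (setDig (2 ^ lt) (2 ^ (g * l)) a v) u

theorem st_u {a u v : ℕ} (hu : u < 2 ^ (σ * l)) :
    dig (2 ^ py) (2 ^ (σ * l)) (st py σ l g lt a u v) = u := dig_setDig (by positivity) hu _

theorem st_v (H : Hyp py pz σ l g lt md) {a u v : ℕ} (hu : u < 2 ^ (σ * l))
    (hv : v < 2 ^ (g * l)) : dig (2 ^ lt) (2 ^ (g * l)) (st py σ l g lt a u v) = v := by
  rw [st, dig_set_hi H.h2 hu, dig_setDig (by positivity) hv]

theorem st_z (H : Hyp py pz σ l g lt md) {a u v j : ℕ} (hu : u < 2 ^ (σ * l)) (hj : j < l) :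
    zb pz σ md (st py σ l g lt a u v) j = zb pz σ md a j := by
  unfold zb
  split_ifs with h
  · rfl
  · obtain ⟨h3, h4⟩ := H.h3.resolve_left h
    have := step_le σ hj
    have := H.hσ
    rw [st, dig_set_hi (by omega) hu, dig_set_lo (by omega)]

theorem st_y (H : Hyp py pz σ l g lt md) {a v j : ℕ} {c : ℕ → ℕ} (hc : ∀ j < l, c j < 2 ^ σ)
    (hj : j < l) : yb py σ (st py σ l g lt a (num σ l c) v) j = c j % 2 := by
  have := step_le σ hj
  have := H.hσ
  rw [yb, dig_sub (k := σ * l) (by omega), st_u (num_lt hc), pow_one, bit_num (by omega) hc hj]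

theorem st_t (H : Hyp py pz σ l g lt md) {a u j : ℕ} {c : ℕ → ℕ} (hu : u < 2 ^ (σ * l))
    (hc : ∀ j < l, c j < 2 ^ g) (hj : j < l) :
    tb g lt (st py σ l g lt a u (num g l c)) j = c j := by
  rw [tb, dig_sub (k := g * l) (step_le g hj), st_v H hu (num_lt hc), dig_num hc hj]

theorem rot_u {a u v : ℕ} (hu : u < 2 ^ (σ * l)) (f : ℕ → ℕ) :
    rotF py (σ * l) f (st py σ l g lt a u v) =
      st py σ l g lt a ((u + f (st py σ l g lt a u v)) % 2 ^ (σ * l)) v := by
  rw [rotF, st_u hu]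
  exact setDig_setDig (by positivity) hu _ _

theorem rot_v (H : Hyp py pz σ l g lt md) {a u v : ℕ} (hu : u < 2 ^ (σ * l))
    (hv : v < 2 ^ (g * l)) (f : ℕ → ℕ) :
    rotF lt (g * l) f (st py σ l g lt a u v) =
      st py σ l g lt a u ((v + f (st py σ l g lt a u v)) % 2 ^ (g * l)) := by
  rw [rotF, st_v H hu hv]
  have hw := Nat.mod_lt (v + f (st py σ l g lt a u v)) (show 0 < 2 ^ (g * l) by positivity)
  generalize (v + f (st py σ l g lt a u v)) % 2 ^ (g * l) = w at *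
  rw [st, ← setDig_comm (by positivity) hu (by positivity) hw (two_pow_mul_dvd H.h2),
    setDig_setDig (by positivity) hv, st]

theorem xor_bit {z : ℕ} (hz : z < 2) (d : ℕ) :
    d + z = (d ^^^ z) + d % 2 * z * 2 ∧ (d ^^^ z) % 2 ^^^ z = d % 2 := by
  obtain rfl | rfl : z = 0 ∨ z = 1 := by omega
  · simp
  · rcases Nat.even_or_odd d with h | h
    · have h1 := Nat.even_iff.1 h
      rw [Nat.xor_one_of_even h, h1, show (d + 1) % 2 = 1 by omega]
      simp
    · have h1 := Nat.odd_iff.1 h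
      rw [Nat.xor_one_of_odd h, h1, show (d - 1) % 2 = 0 by omega]
      refine ⟨by omega, by simp⟩

theorem coef_lt (H : Hyp py pz σ l g lt md) {t z : ℕ} (ht : t < 2 ^ g) (hz : z < 2) :
    t * z * 2 ^ 1 < 2 ^ σ := by
  have h1 : 2 ^ (g + 1) ≤ 2 ^ σ := Nat.pow_le_pow_right (by norm_num) (by have := H.hσ; omega)
  have h2 : t * z ≤ t * 1 := Nat.mul_le_mul_left _ (by omega)
  rw [pow_succ] at h1
  omega

theorem two_le (H : Hyp py pz σ l g lt md) : 2 ≤ 2 ^ g ∧ 2 ≤ 2 ^ σ :=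
  ⟨Nat.pow_le_pow_right (n := 2) (i := 1) (by norm_num) H.hg,
    Nat.pow_le_pow_right (n := 2) (i := 1) (by norm_num) (by have := H.hσ; omega)⟩

theorem four_rot (H : Hyp py pz σ l g lt md) {a : ℕ} (ok : okP py σ l g lt a) :
    rotF lt (g * l) (e4 py pz σ l g md) (rotF py (σ * l) (e3 pz σ l g lt md)
      (rotF lt (g * l) (e2 py σ l g) (rotF py (σ * l) (e1 pz σ l g lt md) a))) =
      a ^^^ xmask py pz σ l md a := by
  obtain ⟨hg2, hσ2⟩ := two_le H
  have hσ := H.hσ
  set d : ℕ → ℕ := fun j => dig (2 ^ (σ * j)) (2 ^ σ) (dig (2 ^ py) (2 ^ (σ * l)) a) with hd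
  set t : ℕ → ℕ := tb g lt a with ht
  set z : ℕ → ℕ := zb pz σ md a with hz
  have hdl : ∀ j, d j < 2 ^ σ := fun j => dig_lt (by positivity) _ _
  have htl : ∀ j, t j < 2 ^ g := tb_lt g lt a
  have hzl : ∀ j, z j < 2 := zb_lt pz σ md a
  have hY : num σ l d = dig (2 ^ py) (2 ^ (σ * l)) a := by
    rw [hd, num_dig, Nat.mod_eq_of_lt (dig_lt (by positivity) _ _)]
  have hT : num g l t = dig (2 ^ lt) (2 ^ (g * l)) a := by
    rw [← Nat.mod_eq_of_lt (dig_lt (n := 2 ^ (g * l)) (by positivity) (2 ^ lt) a), ← num_dig]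
    exact num_congr fun j hj => dig_sub (step_le g hj) _ _
  have ha : st py σ l g lt a (num σ l d) (num g l t) = a := by
    rw [st, hT, setDig_dig, hY, setDig_dig]
  have hd2 : ∀ j < l, d j / 2 + 2 ^ g ≤ 2 ^ (σ - 1) := by
    intro j hj
    have h1 := (ok j hj).2
    have h2 := step_le σ hj
    have h3 : 2 ^ σ = 2 ^ (σ - 1) * 2 := by rw [← pow_succ]; congr 1; omega
    rw [dig_sub (k := σ) (by omega), dig_sub (k := σ * l) (by omega), pow_one, dig,
      Nat.mod_eq_of_lt (by have := hdl j; simp only [hd] at this; omega)] at h1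
    exact h1
  have c1 : ∀ j < l, d j + t j * z j * 2 ^ 1 < 2 ^ σ := by
    intro j hj
    have h1 := hd2 j hj
    have h2 : t j * z j ≤ t j * 1 := Nat.mul_le_mul_left _ (by have := hzl j; omega)
    have h3 : 2 ^ σ = 2 ^ (σ - 1) * 2 := by rw [← pow_succ]; congr 1; omega
    have := htl j
    omega
  have c2 : ∀ j < l, t j + d j % 2 < 2 ^ g := by
    intro j hj
    have h1 : t j + 1 < 2 ^ g := (ok j hj).1
    omega
  have c3 : ∀ j < l, d j ^^^ z j < 2 ^ σ := fun j _ =>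
    Nat.xor_lt_two_pow (hdl j) (by have := hzl j; omega)
  have u0 := num_lt (l := l) fun j _ => hdl j
  have v0 := num_lt (l := l) fun j _ => htl j
  have u1 := num_lt c1
  have v1 := num_lt c2
  have u2 := num_lt c3
  have s1 : rotF py (σ * l) (e1 pz σ l g lt md) (st py σ l g lt a (num σ l d) (num g l t)) =
      st py σ l g lt a (num σ l fun j => d j + t j * z j * 2 ^ 1) (num g l t) := by
    rw [rot_u u0, ha, e1, num_add, Nat.mod_eq_of_lt u1]
  have s2 : rotF lt (g * l) (e2 py σ l g)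
      (st py σ l g lt a (num σ l fun j => d j + t j * z j * 2 ^ 1) (num g l t)) =
      st py σ l g lt a (num σ l fun j => d j + t j * z j * 2 ^ 1)
        (num g l fun j => t j + d j % 2) := by
    have h0 : e2 py σ l g (st py σ l g lt a (num σ l fun j => d j + t j * z j * 2 ^ 1)
        (num g l t)) = num g l fun j => d j % 2 :=
      num_congr fun j hj => by rw [st_y H c1 hj, pow_one, Nat.add_mul_mod_self_right]
    rw [rot_v H u1 v0, h0, num_add, Nat.mod_eq_of_lt v1]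
  have s3 : rotF py (σ * l) (e3 pz σ l g lt md)
      (st py σ l g lt a (num σ l fun j => d j + t j * z j * 2 ^ 1)
        (num g l fun j => t j + d j % 2)) =
      st py σ l g lt a (num σ l fun j => d j ^^^ z j) (num g l fun j => t j + d j % 2) := by
    have h0 : e1 pz σ l g lt md (st py σ l g lt a (num σ l fun j => d j + t j * z j * 2 ^ 1)
        (num g l fun j => t j + d j % 2)) = num σ l fun j => (t j + d j % 2) * z j * 2 ^ 1 :=
      num_congr fun j hj => by rw [st_t H u1 c2 hj, st_z H u1 hj]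
    have h0' : num σ l (zb pz σ md (st py σ l g lt a (num σ l fun j => d j + t j * z j * 2 ^ 1)
        (num g l fun j => t j + d j % 2))) = num σ l z := num_congr fun j hj => st_z H u1 hj
    rw [rot_u u1, e3, h0, h0', Nat.add_mod_mod]
    have h1 := num_lt (σ := σ) (l := l) (c := fun j => (t j + d j % 2) * z j * 2 ^ 1)
      fun j hj => coef_lt H (c2 j hj) (hzl j)
    have h2 : (num σ l fun j => d j + t j * z j * 2 ^ 1) + num σ l z =
        (num σ l fun j => d j ^^^ z j) + num σ l fun j => (t j + d j % 2) * z j * 2 ^ 1 := by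
      rw [num_add, num_add]
      refine num_congr fun j _ => ?_
      have := (xor_bit (hzl j) (d j)).1
      simp only [pow_one]
      linarith
    congr 1
    rw [← add_assoc, h2, add_assoc, Nat.add_sub_cancel' h1.le, Nat.add_mod_right,
      Nat.mod_eq_of_lt u2]
  have s4 : rotF lt (g * l) (e4 py pz σ l g md)
      (st py σ l g lt a (num σ l fun j => d j ^^^ z j) (num g l fun j => t j + d j % 2)) =
      st py σ l g lt a (num σ l fun j => d j ^^^ z j) (num g l t) := by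
    have h0 : e4 py pz σ l g md (st py σ l g lt a (num σ l fun j => d j ^^^ z j)
        (num g l fun j => t j + d j % 2)) = 2 ^ (g * l) - num g l fun j => d j % 2 := by
      rw [e4]
      congr 1
      exact num_congr fun j hj => by
        rw [st_y H c3 hj, st_z H u2 hj]; exact (xor_bit (hzl j) (d j)).2
    rw [rot_v H u2 v1, h0]
    have h1 := num_lt (σ := g) (l := l) (c := fun j => d j % 2) fun j _ => by omega
    congr 1
    rw [← num_add, add_assoc, Nat.add_sub_cancel' h1.le, Nat.add_mod_right, Nat.mod_eq_of_lt v0]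
  have hm : xmask py pz σ l md a = num σ l z * 2 ^ py := by
    rw [xmask, num, sum_mul]
    refine sum_congr rfl fun j _ => ?_
    simp only [hz, zb, pow_one]
    ring
  have hzσ : ∀ j < l, z j < 2 ^ σ := fun j _ => by have := hzl j; omega
  conv_lhs => rw [← ha]
  rw [s1, s2, s3, s4, hm, xor_setDig py (σ * l) a _ (num_lt hzσ), st, hT, setDig_dig]
  congr 1
  rw [← Nat.mod_eq_of_lt (Nat.xor_lt_two_pow (dig_lt (n := 2 ^ (σ * l)) (by positivity) (2 ^ py) a)
    (num_lt hzσ)), ← num_dig]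
  exact num_congr fun j hj => by rw [dig_xor, dig_num hzσ hj]

end state

/-! ### invariance of the amounts -/

section inv

variable {py pz σ l g lt md : ℕ}

theorem zb_congr {a b j : ℕ}
    (h : md ≠ 1 → dig (2 ^ (pz + σ * j)) (2 ^ 1) a = dig (2 ^ (pz + σ * j)) (2 ^ 1) b) :
    zb pz σ md a j = zb pz σ md b j := by
  unfold zb
  split_ifs with h1
  · rfl
  · exact h h1

theorem zb_base (H : Hyp py pz σ l g lt md) {s : ℕ} (hs : s ≤ py + σ * l) (a j : ℕ) :
    zb pz σ md (a / 2 ^ s * 2 ^ s) j = zb pz σ md a j :=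
  zb_congr fun h => dig_base (by have := H.h3.resolve_left h; omega) _ _

theorem e1_base (H : Hyp py pz σ l g lt md) (a : ℕ) :
    e1 pz σ l g lt md (a / 2 ^ (py + σ * l) * 2 ^ (py + σ * l)) = e1 pz σ l g lt md a :=
  num_congr fun j _ => by rw [zb_base H le_rfl, tb, tb, dig_base (by have := H.h2; omega)]

theorem e3_base (H : Hyp py pz σ l g lt md) (a : ℕ) :
    e3 pz σ l g lt md (a / 2 ^ (py + σ * l) * 2 ^ (py + σ * l)) = e3 pz σ l g lt md a := by
  rw [e3, e3, e1_base H, funext (zb_base H le_rfl a)]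

theorem e2_base (H : Hyp py pz σ l g lt md) (a : ℕ) :
    e2 py σ l g (a / 2 ^ (0 + g * l) * 2 ^ (0 + g * l)) = e2 py σ l g a :=
  num_congr fun j _ => dig_base (by have := H.h1; omega) _ _

theorem e4_base (H : Hyp py pz σ l g lt md) (a : ℕ) :
    e4 py pz σ l g md (a / 2 ^ (0 + g * l) * 2 ^ (0 + g * l)) = e4 py pz σ l g md a := by
  have := H.h1
  rw [e4, e4]
  congr 1
  exact num_congr fun j _ => by rw [zb_base H (by omega), yb, yb, dig_base (by omega)]

theorem dig_swap {lt k p q : ℕ} (h1 : k ≤ p) (h2 : p + q ≤ lt) (a : ℕ) :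
    dig (2 ^ p) (2 ^ q) (swapDig (2 ^ lt) (2 ^ 0) (2 ^ k) a) = dig (2 ^ p) (2 ^ q) a := by
  rw [swapDig, dig_set_lo h2, dig_set_hi (by omega) (dig_lt (by positivity) _ _)]

theorem yb_swap (H : Hyp py pz σ l g lt md) (a : ℕ) {j : ℕ} (hj : j < l) :
    yb py σ (swapDig (2 ^ lt) (2 ^ 0) (2 ^ (g * l)) a) j = yb py σ a j := by
  have := H.h1
  have := H.h2
  have := H.hσ
  have := step_le σ hj
  exact dig_swap (by omega) (by omega) _

theorem e2_swap (H : Hyp py pz σ l g lt md) (a : ℕ) :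
    e2 py σ l g (swapDig (2 ^ lt) (2 ^ 0) (2 ^ (g * l)) a) = e2 py σ l g a :=
  num_congr fun _ hj => yb_swap H a hj

theorem e4_swap (H : Hyp py pz σ l g lt md) (a : ℕ) :
    e4 py pz σ l g md (swapDig (2 ^ lt) (2 ^ 0) (2 ^ (g * l)) a) = e4 py pz σ l g md a := by
  have := H.h1
  have := H.hσ
  rw [e4, e4]
  congr 1
  refine num_congr fun j hj => ?_
  have := step_le σ hj
  rw [yb_swap H a hj, zb_congr fun h => dig_swap ?_ ?_ _] <;>
  · have := H.h3.resolve_left h
    omega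

theorem e1_lt (H : Hyp py pz σ l g lt md) (a : ℕ) : e1 pz σ l g lt md a < 2 ^ (σ * l) :=
  num_lt fun _ _ => coef_lt H (tb_lt _ _ _ _) (zb_lt _ _ _ _ _)

theorem e2_lt (H : Hyp py pz σ l g lt md) (a : ℕ) : e2 py σ l g a < 2 ^ (g * l) :=
  num_lt fun _ _ => (yb_lt _ _ _ _).trans_le (two_le H).1

end inv

/-! ### programs for the amounts -/

variable {W : ℕ} {fn : Option Tm}

/-- the number with the digits `body` in base `2 ^ b` -/
def numT (n b body : Tm) : Tm := .sum n (.shl body (.mul b (.var 0)))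

theorem numT_ev {e : Env} {n b body : Tm} {σ l : ℕ} {c : ℕ → ℕ} {c0 : ℝ} (hW : 8 ≤ W)
    (hn : Pv W fn e n [l] 2) (hb : ∀ j s, Pv W fn ([j] :: [s] :: e) b [σ] 2)
    (hc : ∀ j < l, ∀ s, Pv W fn ([j] :: [s] :: e) body [c j] c0) (hlt : ∀ j < l, c j < 2 ^ σ)
    (hσ : σ * l ≤ W) :
    Pv W fn e (numT n b body) [num σ l c] (l * (c0 + 330 * l + 370) + 21) := by
  have h1 : num σ l c < 2 ^ W := (num_lt hlt).trans_le (Nat.pow_le_pow_right (by norm_num) hσ)
  have hWW : W < 2 ^ W := Nat.lt_two_pow_self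
  refine (Pv.sum (f := fun j => c j * 2 ^ (σ * j)) (c := c0 + 330 * l + 339) hn
    (fun j hj s => ?_) h1).mono (by linarith)
  have h2 := step_le σ hj
  have h3 : c j * 2 ^ (σ * j) ≤ num σ l c :=
    single_le_sum (f := fun j => c j * 2 ^ (σ * j)) (fun _ _ => Nat.zero_le _) (mem_range.2 hj)
  refine (Pv.shl (hc j hj s) (Pv.mul_short l hW (hb j s) (Pv.varS rfl)
    (hj.trans Nat.lt_two_pow_self) (by omega)) (by omega) (by omega)).mono (by linarith)

/-- the control bit -/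
def zT : Tm := .cndEq (.var 9) (.const 1) (.const 1)
  (.bits (.var 2) (.add (.var 4) (.mul (.var 5) (.var 0))) (.const 1))
/-- the selected bit -/
def yT : Tm := .bits (.var 2) (.add (.var 3) (.mul (.var 5) (.var 0))) (.const 1)
/-- the auxiliary digit -/
def tT : Tm := .bits (.var 2) (.add (.var 8) (.mul (.var 7) (.var 0))) (.var 7)
/-- first amount -/
def e1T : Tm := numT (.var 4) (.var 5) (.shl (.mul tT zT) (.const 1))
/-- second amount -/
def e2T : Tm := numT (.var 4) (.var 7) yT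
/-- third amount -/
def e3T : Tm := .low (.add (numT (.var 4) (.var 5) zT)
  (.sub (.pow2 (.mul (.var 3) (.var 4))) e1T)) (.mul (.var 3) (.var 4))
/-- fourth amount -/
def e4T : Tm := .sub (.pow2 (.mul (.var 5) (.var 4))) (numT (.var 4) (.var 7) (.xor yT zT))

section amounts

variable {py pz σ l g lt md : ℕ} {env : Env}

theorem zT_ev (H : Hyp py pz σ l g lt md) (hW : 8 ≤ W) (hlt : lt + g * l < W) {a j s : ℕ}
    (hj : j < l) :
    Pv W fn ([j] :: [s] :: [a] :: [py] :: [pz] :: [σ] :: [l] :: [g] :: [lt] :: [md] :: env) zT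
      [zb pz σ md a j] (330 * l + 400) := by
  have hWW : W < 2 ^ W := Nat.lt_two_pow_self
  have := H.h2
  have := step_le σ hj
  refine (Pv.cndEq (c4 := 330 * l + 380) (Pv.varS rfl) (Pv.constS hW (by norm_num))
    (fun _ => Pv.constS hW (by norm_num)) fun h => ?_).mono ?_
  · have := H.h3.resolve_left h
    refine (Pv.bits (Pv.varS rfl) (Pv.add (Pv.varS rfl) (Pv.mul_short l hW (Pv.varS rfl)
      (Pv.varS rfl) (hj.trans Nat.lt_two_pow_self) (by omega)) (by omega))
      (Pv.constS hW (by norm_num)) (by omega) (by omega)).mono (by linarith)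
  · have : (0 : ℝ) ≤ l := by positivity
    rw [max_eq_right (by linarith)]
    linarith

theorem yT_ev (H : Hyp py pz σ l g lt md) (hW : 8 ≤ W) (hlt : lt + g * l < W) {a j s : ℕ}
    (hj : j < l) :
    Pv W fn ([j] :: [s] :: [a] :: [py] :: [pz] :: [σ] :: [l] :: [g] :: [lt] :: [md] :: env) yT
      [yb py σ a j] (330 * l + 400) := by
  have hWW : W < 2 ^ W := Nat.lt_two_pow_self
  have := H.h2
  have := step_le σ hj
  refine (Pv.bits (Pv.varS rfl) (Pv.add (Pv.varS rfl) (Pv.mul_short l hW (Pv.varS rfl)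
    (Pv.varS rfl) (hj.trans Nat.lt_two_pow_self) (by omega)) (by omega))
    (Pv.constS hW (by norm_num)) (by omega) (by omega)).mono (by linarith)

theorem tT_ev (hW : 8 ≤ W) (hlt : lt + g * l < W) {a j s : ℕ} (hj : j < l) :
    Pv W fn ([j] :: [s] :: [a] :: [py] :: [pz] :: [σ] :: [l] :: [g] :: [lt] :: [md] :: env) tT
      [tb g lt a j] (330 * l + 400) := by
  have hWW : W < 2 ^ W := Nat.lt_two_pow_self
  have := step_le g hj
  refine (Pv.bits (Pv.varS rfl) (Pv.add (Pv.varS rfl) (Pv.mul_short l hW (Pv.varS rfl)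
    (Pv.varS rfl) (hj.trans Nat.lt_two_pow_self) (by omega)) (by omega))
    (Pv.varS rfl) (by omega) (by omega)).mono (by linarith)

theorem e1T_ev (H : Hyp py pz σ l g lt md) (hW : 8 ≤ W) (hlt : lt + g * l < W) (a : ℕ) :
    Pv W fn ([a] :: [py] :: [pz] :: [σ] :: [l] :: [g] :: [lt] :: [md] :: env) e1T
      [e1 pz σ l g lt md a] (1000 * (l + 1) ^ 2) := by
  have h2 := H.h2
  have hc : ∀ j, tb g lt a j * zb pz σ md a j * 2 ^ 1 < 2 ^ σ := fun j =>
    coef_lt H (tb_lt _ _ _ _) (zb_lt _ _ _ _ _)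
  have h3 : 2 ^ σ ≤ 2 ^ W := Nat.pow_le_pow_right (by norm_num) (by
    have := step_le σ H.hl
    omega)
  refine (numT_ev (c0 := 660 * l + 1470) hW (Pv.varS rfl) (fun _ _ => Pv.varS rfl)
    (fun j hj s => ?_) (fun j _ => hc j) (by omega)).mono ?_
  · have := hc j
    refine (Pv.shl (Pv.mul_short 1 hW (tT_ev hW hlt hj) (zT_ev H hW hlt hj) (zb_lt _ _ _ _ _)
      (by omega)) (Pv.constS hW (by norm_num)) (by omega) (by omega)).mono (by push_cast; linarith)
  · have : (0 : ℝ) ≤ l := by positivity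
    nlinarith

theorem e2T_ev (H : Hyp py pz σ l g lt md) (hW : 8 ≤ W) (hlt : lt + g * l < W) (a : ℕ) :
    Pv W fn ([a] :: [py] :: [pz] :: [σ] :: [l] :: [g] :: [lt] :: [md] :: env) e2T
      [e2 py σ l g a] (3000 * (l + 1) ^ 2) := by
  refine (numT_ev hW (Pv.varS rfl) (fun _ _ => Pv.varS rfl) (fun j hj s => yT_ev H hW hlt hj)
    (fun _ _ => (yb_lt _ _ _ _).trans_le (two_le H).1) (by omega)).mono ?_
  have : (0 : ℝ) ≤ l := by positivity
  nlinarith

theorem e3T_ev (H : Hyp py pz σ l g lt md) (hW : 8 ≤ W) (hlt : lt + g * l < W) (a : ℕ) :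
    Pv W fn ([a] :: [py] :: [pz] :: [σ] :: [l] :: [g] :: [lt] :: [md] :: env) e3T
      [e3 pz σ l g lt md a] (3000 * (l + 1) ^ 2) := by
  have hWW : W < 2 ^ W := Nat.lt_two_pow_self
  have h2 := H.h2
  have h4 : 1 ≤ g * l := Nat.mul_pos H.hg H.hl
  have hz : ∀ j < l, zb pz σ md a j < 2 ^ σ := fun _ _ => (zb_lt _ _ _ _ _).trans_le (two_le H).2
  have h5 := num_lt hz
  have h6 : 2 ^ (σ * l + 1) ≤ 2 ^ W := Nat.pow_le_pow_right (by norm_num) (by omega)
  have hm : Pv W fn ([a] :: [py] :: [pz] :: [σ] :: [l] :: [g] :: [lt] :: [md] :: env)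
      (.mul (.var 3) (.var 4)) [σ * l] _ :=
    Pv.mul_short l hW (Pv.varS rfl) (Pv.varS rfl) Nat.lt_two_pow_self (by omega)
  refine (Pv.low (Pv.add (numT_ev hW (Pv.varS rfl) (fun _ _ => Pv.varS rfl)
    (fun j hj s => zT_ev H hW hlt hj) hz (by omega)) (Pv.sub (Pv.pow2 hm (by omega))
      (e1T_ev H hW hlt a)) (by rw [pow_succ] at h6; omega)) hm (by omega)).mono ?_
  have : (0 : ℝ) ≤ l := by positivity
  nlinarith

theorem e4T_ev (H : Hyp py pz σ l g lt md) (hW : 8 ≤ W) (hlt : lt + g * l < W) (a : ℕ) :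
    Pv W fn ([a] :: [py] :: [pz] :: [σ] :: [l] :: [g] :: [lt] :: [md] :: env) e4T
      [e4 py pz σ l g md a] (3000 * (l + 1) ^ 2) := by
  have hWW : W < 2 ^ W := Nat.lt_two_pow_self
  refine (Pv.sub (Pv.pow2 (Pv.mul_short l hW (Pv.varS rfl) (Pv.varS rfl) Nat.lt_two_pow_self
    (by omega)) (by omega)) (numT_ev hW (Pv.varS rfl) (fun _ _ => Pv.varS rfl)
    (fun j hj s => Pv.xor (yT_ev H hW hlt hj) (zT_ev H hW hlt hj))
    (fun _ _ => (Nat.xor_lt_two_pow (n := 1) (yb_lt _ _ _ _) (zb_lt _ _ _ _ _)).trans_le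
      (two_le H).1) (by omega))).mono ?_
  have : (0 : ℝ) ≤ l := by positivity
  nlinarith

end amounts

/-! ### steps -/

/-- `t` reads the array in front of the environment `e` through the address map `π` -/
def Step (W : ℕ) (fn : Option Tm) (e : Env) (V : ℕ) (t : Tm) (π : ℕ → ℕ) (c : ℝ) : Prop :=
  (∀ a < V, π a < V) ∧ ∀ X : List ℕ, X.length = V → ∃ Y, Pull V π X Y ∧ Pv W fn (X :: e) t Y c

/-- one step after the other -/
def andThen (a b : Tm) : Tm := .lett a (.skip 1 1 b)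

theorem Step.andThen {e : Env} {V : ℕ} {a b : Tm} {π π' : ℕ → ℕ} {c c' : ℝ}
    (h : Step W fn e V a π c) (h' : Step W fn e V b π' c') :
    Step W fn e V (andThen a b) (fun x => π (π' x)) (c + c' + 2 * V + 1) := by
  refine ⟨fun x hx => h.1 _ (h'.1 x hx), fun X hX => ?_⟩
  obtain ⟨Y, hY, h1⟩ := h.2 X hX
  obtain ⟨Z, hZ, h2⟩ := h'.2 Y hY.1
  refine ⟨Z, hY.trans hZ h'.1, (Pv.lett h1 (Ev.skip11 h2)).mono ?_⟩
  rw [hY.1, hZ.1]
  linarith

/-- rotation of a field by the amount `E` -/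
def rotT (t lo k E : Tm) : Tm := .call
  (.lett (.len (.var 2)) (.lett (.add (.var 1) (.var 2)) (.lett (.shr (.var 1) (.var 0))
    (.call t [.var 5, .tab (.var 0) (.lett (.shl (.var 0) (.var 2)) (.skip 1 7 E)), .var 0,
      .pow2 (.var 3), .pow2 (.var 4), .pow2 (.var 4)])))) [lo, k]

theorem rotT_step {t : Tm} {C : ℕ} (ht : ∀ (W : ℕ) (X T : List ℕ) (G lo n s : ℕ), 8 ≤ W →
      X.length = G * (lo * n) → X.length < 2 ^ W → 0 < G → 0 < lo → 0 < n → s ≤ n → T.length = G →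
      (∀ x ∈ T, x ≤ s) → Does W t [X, T, [G], [lo], [n], [s]] (C * (X.length + W + 1))
        (Pull X.length (rotA lo n s T) X))
    {e : Env} {tl tk E : Tm} {f : ℕ → ℕ} {V lo k : ℕ} {c0 c : ℝ} (hW : 8 ≤ W)
    (hd : 2 ^ (lo + k) ∣ V) (hV : W + 1 ≤ V) (hVW : V < 2 ^ W)
    (hl : ∀ X, Pv W fn (X :: e) tl [lo] c0) (hk : ∀ X, Pv W fn (X :: e) tk [k] c0)
    (hE : ∀ a, Pv W fn ([a] :: e) E [f a] c) (hf : ∀ a, f a ≤ 2 ^ k)
    (hb : ∀ a, f (a / 2 ^ (lo + k) * 2 ^ (lo + k)) = f a) (hc0 : c0 ≤ 400 * V)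
    (hc : c ≤ 12000 * 2 ^ (lo + k)) :
    Step W fn e V (rotT t tl tk E) (rotF lo k f) ((2 * C + 13000) * V) := by
  refine ⟨fun a ha => rotF_lt f hd ha, ?_⟩
  rintro X rfl
  obtain ⟨G, hG⟩ := hd
  have hG0 : 0 < G := Nat.pos_of_ne_zero (by rintro rfl; omega)
  have eG : X.length / 2 ^ (lo + k) = G := by rw [hG, Nat.mul_div_cancel_left _ (by positivity)]
  have hX : X.length = G * (2 ^ lo * 2 ^ k) := by rw [hG, pow_add, mul_comm]
  have b1 : 2 ^ (lo + k) ≤ X.length := by rw [hG]; exact Nat.le_mul_of_pos_right _ hG0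
  have hlk : lo + k < W := (Nat.pow_lt_pow_iff_right (a := 2) (by norm_num)).1 (by omega)
  have hWW : W < 2 ^ W := Nat.lt_two_pow_self
  set T : List ℕ := (List.range G).map fun i => f (i * 2 ^ (lo + k)) with hT
  have hTl : T.length = G := by simp [hT]
  obtain ⟨Y, hY, hp⟩ := ht W X T G (2 ^ lo) (2 ^ k) (2 ^ k) hW hX hVW hG0 (by positivity)
    (by positivity) le_rfl hTl (fun x hx => by
      obtain ⟨i, -, rfl⟩ := List.mem_map.1 hx
      exact hf _) fn ([G] :: [lo + k] :: [X.length] :: [lo] :: [k] :: X :: e)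
  refine ⟨Y, hY.congr fun a ha => ?_, ?_⟩
  · rw [rotA, if_pos (dig_lt (by positivity) _ _), hT,
      getD_map_range _ ((Nat.div_lt_iff_lt_mul (by positivity)).2 (hX ▸ ha)), ← pow_add, hb, rotF]
  · have hb : ∀ i < G, Pv W fn ([i] :: [G] :: [lo + k] :: [X.length] :: [lo] :: [k] :: X :: e)
        (.lett (.shl (.var 0) (.var 2)) (.skip 1 7 E)) [f (i * 2 ^ (lo + k))] (c + 12) := by
      intro i hi
      have h1 : i * 2 ^ (lo + k) ≤ X.length := by
        rw [hG, mul_comm]; exact Nat.mul_le_mul_left _ hi.le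
      refine (Pv.lett (Pv.shl (Pv.varS rfl) (Pv.varS rfl) (by omega) (by omega))
        (Ev.skip (A := [_]) (B := [_, _, _, _, _, _, _]) (A' := [_]) rfl rfl rfl (hE _))).mono ?_
      simp only [List.length_cons, List.length_nil]
      push_cast
      linarith
    apply Pv.cast
    · apply Pv.call (Pvs.cons (hl X) (Pvs.cons (hk X) Pvs.nil))
      simp only [List.cons_append, List.nil_append]
      apply Pv.lett (Pv.len (Pv.var rfl) hVW)
      apply Pv.lett (Pv.add (Pv.varS rfl) (Pv.varS rfl) (by omega))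
      apply Pv.lett ((Pv.shr (Pv.varS rfl) (Pv.varS rfl) (by omega)).cast (by rw [eG]) le_rfl)
      apply Pv.call (hf := hp)
      apply Pvs.cons (Pv.var rfl)
      apply Pvs.cons (Pv.tab (Pv.varS rfl) hb)
      apply Pvs.cons (Pv.varS rfl)
      apply Pvs.cons (Pv.pow2 (Pv.varS rfl) (by omega))
      apply Pvs.cons (Pv.pow2 (Pv.varS rfl) (by omega))
      apply Pvs.cons (Pv.pow2 (Pv.varS rfl) (by omega))
      exact Pvs.nil
    · rfl
    · have r1 : (X.length : ℝ) = 2 ^ (lo + k) * G := by exact_mod_cast hG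
      have r2 : (W : ℝ) + 1 ≤ X.length := by exact_mod_cast hV
      have r3 : (8 : ℝ) ≤ W := by exact_mod_cast hW
      have r4 : (0 : ℝ) ≤ G := by positivity
      have r5 : (G : ℝ) * c ≤ 12000 * X.length := by rw [r1]; nlinarith
      have r6 : (G : ℝ) ≤ X.length := by
        exact_mod_cast (show G ≤ X.length by rw [hG]; exact Nat.le_mul_of_pos_left _ (by positivity))
      have r7 : (C : ℝ) * (W + 1) ≤ C * X.length := by gcongr
      rw [← hT]
      simp only [hY.1, hTl, List.length_cons, List.length_nil]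
      push_cast
      linarith

theorem sq_le_two_pow (l : ℕ) : (l + 1) ^ 2 ≤ 4 * 2 ^ l := by
  induction l with
  | zero => norm_num
  | succ l ih =>
    have : l < 2 ^ l := Nat.lt_two_pow_self
    rw [pow_succ 2 l]
    nlinarith

theorem tauE_pos : 0 ≤ tauE := by unfold tauE; norm_num

theorem tauE_le : tauE ≤ 1 := by unfold tauE; norm_num

end Px

open Px

/-! ### the square root of a translation by one bit -/

theorem gam_spec : GamSpec := by
  refine ⟨.lett (.pow2 (.var 1)) (.lett (.len (.var 1)) (.lett (.qm (.var 4))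
    (.lett (.strm1 (.shr (.var 1) (.add (.var 4) (.const 1))) (.var 3) (.add (.var 2) (.var 2))
      (.app (.drop (.var 4) (.var 0)) (.take (.var 4) (.var 0))))
    (.map2 (.var 2) (.var 4) (.var 0)
      (.halfQ (.addQ (.addQ (.var 0) (.var 1) (.var 4))
        (.shlQ (.subQ (.var 0) (.var 1) (.var 4)) (.var 9) (.var 9)) (.var 4)) (.var 4)))))),
    2000, ?_⟩
  intro W X p h hW hd hV hVW hX hh hhW fn env
  obtain ⟨G, hG⟩ := hd
  have hG0 : 0 < G := Nat.pos_of_ne_zero (by rintro rfl; omega)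
  have hμ : 0 < 2 ^ p := by positivity
  have hXl : X.length = G * (2 ^ p + 2 ^ p) := by rw [hG]; ring
  have eG : X.length / 2 ^ (p + 1) = G := by rw [hG, Nat.mul_div_cancel_left _ (by positivity)]
  have b1 : 2 ^ p + 2 ^ p ≤ X.length := by rw [hXl]; exact Nat.le_mul_of_pos_left _ hG0
  have hpW : p + 1 < W := by
    have : 2 ^ (p + 1) < 2 ^ W := by rw [pow_succ]; omega
    exact (Nat.pow_lt_pow_iff_right (by norm_num)).1 this
  have hWW : W < 2 ^ W := Nat.lt_two_pow_self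
  have hQ := Qm_pos h
  have hQW : 2 * Qm h ≤ 2 ^ W := by
    have := Qm_mul_lt (W := W) (h := h) (k := 1) (by omega)
    omega
  set f : ℕ → List ℕ := fun i => (chunk (2 ^ p + 2 ^ p) X i).drop (2 ^ p) ++
    (chunk (2 ^ p + 2 ^ p) X i).take (2 ^ p) with hf
  have hcl : ∀ i < G, (chunk (2 ^ p + 2 ^ p) X i).length = 2 ^ p + 2 ^ p := fun i hi =>
    chunk_length (by rw [hXl]; exact Nat.mul_le_mul_right _ hi)
  have hfl : ∀ i < G, (f i).length = 2 ^ p + 2 ^ p := fun i hi => by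
    simp only [hf, List.length_append, List.length_drop, List.length_take, hcl i hi]
    omega
  set X' : List ℕ := (List.range G).flatMap f with hX'
  have hX'l : X'.length = X.length := by rw [hXl]; exact length_flatMap_eq hfl
  have hX'g : ∀ a < X.length, X'.getD a 0 = X.getD (a ^^^ 2 ^ p) 0 := by
    intro a ha
    have h1 := xor_setDig p 1 a 1 (by norm_num)
    rw [one_mul, pow_one, setDig_eq] at h1
    have h2 := addr_eq (2 ^ p) 2 a
    have h3 : a / (2 ^ p * 2) < G := (Nat.div_lt_iff_lt_mul (by positivity)).2 (by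
      rw [hXl] at ha; linarith)
    have h4 := dig_lt (n := 2) (by norm_num) (2 ^ p) a
    have h5 := Nat.mod_lt a hμ
    rw [h1]
    generalize a / (2 ^ p * 2) = g at *
    generalize dig (2 ^ p) 2 a = d at *
    generalize a % 2 ^ p = r at *
    have h6 : a = g * (2 ^ p + 2 ^ p) + (d * 2 ^ p + r) := by rw [h2]; ring
    have h7 : ((chunk (2 ^ p + 2 ^ p) X g).drop (2 ^ p)).length = 2 ^ p := by
      rw [List.length_drop, hcl g h3]; omega
    rw [h6, hX', getD_flatMap hfl h3 (by nlinarith)]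
    simp only [hf]
    obtain rfl | rfl : d = 0 ∨ d = 1 := by omega
    · rw [List.getD_append _ _ _ _ (by omega), List.getD_eq_getElem?_getD, List.getElem?_drop,
        ← List.getD_eq_getElem?_getD, chunk_getD _ _ _ (by omega)]
      congr 1
      simp; ring
    · rw [List.getD_append_right _ _ _ _ (by omega), h7, List.getD_eq_getElem?_getD,
        List.getElem?_take_of_lt (by omega), ← List.getD_eq_getElem?_getD,
        chunk_getD _ _ _ (by omega)]
      congr 1
      simp; ring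
  have hlt : ∀ a, X.getD a 0 < Qm h := getD_lt hQ hX
  have hlt' : ∀ a < X.length, X'.getD a 0 < Qm h := fun a ha => by rw [hX'g a ha]; exact hlt _
  set F : ℕ → ℕ := fun a => halfN (((X.getD a 0 + X'.getD a 0) % Qm h +
    (X.getD a 0 + (Qm h - X'.getD a 0)) % Qm h * 2 ^ h % Qm h) % Qm h) (Qm h) with hF
  refine ⟨(List.range X.length).map F, ⟨by simp, ?_, ?_⟩, ?_⟩
  · intro r hr
    obtain ⟨a, -, rfl⟩ := List.mem_map.1 hr
    exact halfN_lt (Nat.mod_lt _ hQ)
  · intro a ha _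
    simp only [castL, gamOp]
    rw [getD_map_range _ ha, hF]
    simp only
    rw [cast_halfN hh, cast_addQ, cast_addQ, ZMod.natCast_mod, Nat.cast_mul,
      cast_subQ (hlt' a ha).le, hX'g a ha, alQ, beQ, IQ]
    push_cast
    ring
  · have hb : ∀ i < G, Pv W fn (chunk (2 ^ p + 2 ^ p) X i :: [i] :: [Qm h] :: [X.length] ::
        [2 ^ p] :: X :: [p] :: [h] :: env)
        (.app (.drop (.var 4) (.var 0)) (.take (.var 4) (.var 0))) (f i) (200 * (2 ^ p : ℕ)) := by
      intro i hi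
      apply Pv.cast
      · pv
      · rfl
      · have r1 : (1 : ℝ) ≤ (2 ^ p : ℕ) := by exact_mod_cast hμ
        simp only [List.length_drop, List.length_take, hcl i hi, Nat.add_sub_cancel,
          Nat.le_add_right, min_eq_left]
        push_cast at r1 ⊢
        linarith
    have hb2 : ∀ a < X.length, Pv W fn ([X.getD a 0] :: [X'.getD a 0] :: [a] :: X' :: [Qm h] ::
        [X.length] :: [2 ^ p] :: X :: [p] :: [h] :: env)
        (.halfQ (.addQ (.addQ (.var 0) (.var 1) (.var 4))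
          (.shlQ (.subQ (.var 0) (.var 1) (.var 4)) (.var 9) (.var 9)) (.var 4)) (.var 4))
        [F a] 400 := by
      intro a ha
      have h1 := hlt a
      have h2 := hlt' a ha
      apply Pv.cast
      · refine Pv.halfQ hW (Pv.addQ hW (Pv.addQ hW (Pv.varS rfl) (Pv.varS rfl) (Pv.varS rfl)
          (by omega) hQW) (Pv.shlQ hW (Pv.subQ hW (Pv.varS rfl) (Pv.varS rfl) (Pv.varS rfl) h1 hQW)
          (Pv.varS rfl) (Pv.varS rfl) (Nat.mod_lt _ hQ) (by omega) (by omega)) (Pv.varS rfl) ?_ hQW)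
          (Pv.varS rfl) (Nat.mod_lt _ hQ) hQW (by norm_num)
        have h3 := Nat.mod_lt (X.getD a 0 + X'.getD a 0) hQ
        have h4 := Nat.mod_lt ((X.getD a 0 + (Qm h - X'.getD a 0)) % Qm h * 2 ^ h) hQ
        omega
      · rfl
      · norm_num
    apply Pv.cast
    · simp only [List.cons_append, List.nil_append]
      apply Pv.lett (Pv.pow2 (Pv.varS rfl) (by omega))
      apply Pv.lett (Pv.len (Pv.var rfl) hVW)
      apply Pv.lett (Pv.qm hW (Pv.varS rfl) (by omega))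
      apply Pv.lett (Pv.strm1 (L := ((2 ^ p + 2 ^ p : ℕ) : ℝ))
        ((Pv.shr (Pv.varS rfl) (Pv.add (Pv.varS rfl) (Pv.constS hW (by norm_num)) (by omega))
          (by omega)).cast (by rw [eG]) le_rfl) (Pv.var rfl)
        (Pv.add (Pv.varS rfl) (Pv.varS rfl) (by omega)) hb (fun i hi => by rw [hfl i hi]))
      exact Pv.map2 hW (Pv.varS rfl) (Pv.var rfl) (Pv.var rfl) le_rfl hX'l.ge hb2
    · rfl
    · have r1 : (X.length : ℝ) = G * ((2 ^ p : ℕ) + (2 ^ p : ℕ)) := by exact_mod_cast hXl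
      have r2 : (1 : ℝ) ≤ (2 ^ p : ℕ) := by exact_mod_cast hμ
      have r3 : (0 : ℝ) ≤ G := by positivity
      have r4 : (G : ℝ) ≤ G * (2 ^ p : ℕ) := by nlinarith
      have r5 : (0 : ℝ) ≤ W := by positivity
      rw [← hX']
      simp only [hX'l, List.length_cons, List.length_nil, List.length_map, List.length_range]
      push_cast at r1 r2 r4 ⊢
      nlinarith

/-! ### the packed exclusive or -/

theorem pxor_spec (hR : RotSpec) (hS : SwapSpec) : PxorSpec := by
  obtain ⟨tR, CR, hR⟩ := hR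
  obtain ⟨tS, CS, cS, hS⟩ := hS
  set sw : Tm := .call tS [.var 0, .pow2 (.var 6), .pow2 (.const 0),
    .pow2 (.mul (.var 5) (.var 4))] with hsw
  refine ⟨andThen sw (andThen (rotT tR (.const 0) (.mul (.var 5) (.var 4)) e4T) (andThen sw
    (andThen (rotT tR (.var 1) (.mul (.var 3) (.var 4)) e3T) (andThen sw
    (andThen (rotT tR (.const 0) (.mul (.var 5) (.var 4)) e2T) (andThen sw
    (rotT tR (.var 1) (.mul (.var 3) (.var 4)) e1T))))))), 8 * CS + 8 * CR + 60000, cS + 1, ?_⟩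
  intro W X py pz σ l g lt md hW hl hg hσ h1 h2 h3 _ hd hroom hC fn env
  have H : Hyp py pz σ l g lt md := ⟨hl, hg, hσ, h1, h2, h3⟩
  have hCS : CS * X.length < 2 ^ W := lt_of_le_of_lt (Nat.mul_le_mul_right _ (by omega)) hC
  have hVW : X.length < 2 ^ W := lt_of_le_of_lt (Nat.le_mul_of_pos_left _ (by omega)) hC
  have hV : W + 1 ≤ X.length := by
    refine le_trans ?_ hroom
    rw [pow_succ, ← mul_assoc]
    exact Nat.le_mul_of_pos_left _ (by positivity)
  have hroom' : 2 ^ lt * 2 ^ (g * l) * (W + 1) ^ cS ≤ X.length := by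
    refine le_trans ?_ hroom
    rw [pow_add, pow_succ, ← mul_assoc]
    exact Nat.le_mul_of_pos_right _ (by positivity)
  have hlt : lt + g * l < W := (Nat.pow_lt_pow_iff_right (a := 2) (by norm_num)).1
    ((Nat.le_of_dvd (by omega) hd).trans_lt hVW)
  have hWW : W < 2 ^ W := Nat.lt_two_pow_self
  have rV : (W : ℝ) + 1 ≤ X.length := by exact_mod_cast hV
  have rW : (8 : ℝ) ≤ W := by exact_mod_cast hW
  set P : ℝ := ((g : ℝ) * l + 1) ^ tauE with hP
  have hgl : (0 : ℝ) ≤ (g : ℝ) * l := by positivity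
  have hP1 : 1 ≤ P := Real.one_le_rpow (by linarith) tauE_pos
  have hP2 : ((((2 ^ (g * l) : ℕ).size : ℕ) : ℝ) + 1) ^ tauE ≤ 2 * P := by
    rw [Nat.size_pow]
    push_cast
    calc ((g : ℝ) * l + 1 + 1) ^ tauE ≤ (2 * ((g : ℝ) * l + 1)) ^ tauE :=
          Real.rpow_le_rpow (by positivity) (by linarith) tauE_pos
      _ = 2 ^ tauE * P := Real.mul_rpow (by norm_num) (by positivity)
      _ ≤ 2 * P := by
          have : (2 : ℝ) ^ tauE ≤ 2 ^ (1 : ℝ) :=
            Real.rpow_le_rpow_of_exponent_le (by norm_num) tauE_le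
          rw [Real.rpow_one] at this
          gcongr
  set e : Env := [py] :: [pz] :: [σ] :: [l] :: [g] :: [lt] :: [md] :: env with he
  have mg : ∀ Z, Pv W fn (Z :: e) (.mul (.var 5) (.var 4)) [g * l] (400 * X.length) := fun Z =>
    (Pv.mul hW (Pv.varS rfl) (Pv.varS rfl) (by omega)).mono (by linarith)
  have mσ : ∀ Z, Pv W fn (Z :: e) (.mul (.var 3) (.var 4)) [σ * l] (400 * X.length) := fun Z =>
    (Pv.mul hW (Pv.varS rfl) (Pv.varS rfl) (by omega)).mono (by linarith)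
  have m0 : ∀ Z, Pv W fn (Z :: e) (.const 0) [0] (400 * X.length) := fun Z =>
    (Pv.constS hW (by norm_num)).mono (by linarith)
  have mp : ∀ Z, Pv W fn (Z :: e) (.var 1) [py] (400 * X.length) := fun Z =>
    (Pv.varS rfl).mono (by linarith)
  have hsq : ∀ s, l ≤ s → 3000 * ((l : ℝ) + 1) ^ 2 ≤ 12000 * 2 ^ s := by
    intro s hs
    have h4 := (sq_le_two_pow l).trans
      (Nat.mul_le_mul_left 4 (Nat.pow_le_pow_right (by norm_num) hs))
    have h5 : ((l : ℝ) + 1) ^ 2 ≤ 4 * 2 ^ s := by exact_mod_cast h4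
    linarith
  have hgl' : l ≤ g * l := Nat.le_mul_of_pos_left _ hg
  have S0 : Step W fn e X.length sw (swapDig (2 ^ lt) (2 ^ 0) (2 ^ (g * l)))
      (CS * (X.length * (2 * P)) + 420 * X.length) := by
    refine ⟨fun a ha => swap_lt (by omega) hd ha, fun Z hZ => ?_⟩
    obtain ⟨Y, hY, hp⟩ := hS W Z (2 ^ lt) (2 ^ 0) (2 ^ (g * l)) hW (two_pow_mul_dvd (by omega))
      (by rw [hZ, ← pow_add]; exact hd) (by omega) (hZ ▸ hroom') (hZ ▸ hCS) fn (Z :: e)
    rw [hZ] at hY hp
    refine ⟨Y, hY, (Pv.call (Pvs.cons (Pv.var rfl) (Pvs.cons (Pv.pow2 (Pv.varS rfl) (by omega))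
      (Pvs.cons (Pv.pow2 (Pv.constS hW (by norm_num)) (by omega))
      (Pvs.cons (Pv.pow2 (mg Z) (by omega)) Pvs.nil)))) hp).mono ?_⟩
    have : (CS : ℝ) * (X.length * ((((2 ^ (g * l) : ℕ).size : ℕ) : ℝ) + 1) ^ tauE) ≤
        CS * (X.length * (2 * P)) := by gcongr
    simp only [hY.1, hZ, List.length_cons, List.length_nil]
    push_cast at this ⊢
    linarith
  have dY : 2 ^ (py + σ * l) ∣ X.length := (two_pow_dvd (by omega)).trans hd
  have dB : 2 ^ (0 + g * l) ∣ X.length := (two_pow_dvd (by omega)).trans hd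
  have S1 := rotT_step hR hW dY hV hVW mp mσ (fun a => (e1T_ev H hW hlt a).mono (by
    have : (0 : ℝ) ≤ ((l : ℝ) + 1) ^ 2 := by positivity
    linarith [hsq (py + σ * l) (by omega)])) (fun a => (e1_lt H a).le) (e1_base H) le_rfl le_rfl
  have S2 := rotT_step hR hW dB hV hVW m0 mg (e2T_ev H hW hlt) (fun a => (e2_lt H a).le)
    (e2_base H) le_rfl (hsq _ (by omega))
  have S3 := rotT_step hR hW dY hV hVW mp mσ (e3T_ev H hW hlt)
    (fun a => (Nat.mod_lt _ (by positivity)).le) (e3_base H) le_rfl (hsq _ (by omega))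
  have S4 := rotT_step hR hW dB hV hVW m0 mg (e4T_ev H hW hlt) (fun a => Nat.sub_le _ _)
    (e4_base H) le_rfl (hsq _ (by omega))
  obtain ⟨Y, hY, hp⟩ := (S0.andThen (S4.andThen (S0.andThen (S3.andThen (S0.andThen
    (S2.andThen (S0.andThen S1))))))).2 X rfl
  refine ⟨Y, ⟨hY.1, hY.sub, fun a ha ok => ?_⟩, hp.mono ?_⟩
  · rw [hY.2 a ha]
    beta_reduce
    rw [swap_rot (by omega) (e2_swap H _), swap_rot (by omega) (e4_swap H _), four_rot H ok]
  · have r1 : (X.length : ℝ) ≤ X.length * P := le_mul_of_one_le_right (by positivity) hP1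
    have r2 : (CR : ℝ) * X.length ≤ CR * (X.length * P) := by gcongr
    push_cast
    linarith

end Crest.Agent.R326
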