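import Crest.Agent.R326.Approx
import Crest.Agent.R326.Kara

/-!
# The table of the roots of unity

`tan (π / M)` is found by bisection on the sign of the imaginary part of `(2 ^ P + b i) ^ M`;
the roots are the normalised even powers of `2 ^ P + a i`.
-/

set_option autoImplicit false

namespace Crest.Agent.R326

namespace Roots

open Real

/-- the Gaussian integer `2 ^ P + b i` -/
def gz (P b : ℕ) : GaussianInt := ⟨2 ^ P, b⟩

/-- its argument -/
noncomputable def th (P b : ℕ) : ℝ := arctan (b / 2 ^ P)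

/-- its modulus -/
noncomputable def md (P b : ℕ) : ℝ := 2 ^ P * √(1 + ((b : ℝ) / 2 ^ P) ^ 2)

theorem md_pos (P b : ℕ) : 0 < md P b := by unfold md; positivity

theorem md_sq (P b : ℕ) : md P b ^ 2 = ((2 ^ (P + P) + b * b : ℕ) : ℝ) := by
  unfold md
  rw [mul_pow, Real.sq_sqrt (by positivity)]
  push_cast
  field_simp
  ring

theorem gz_polar (P b : ℕ) :
    (gz P b : ℂ) = (md P b : ℝ) * Complex.exp ((th P b : ℝ) * Complex.I) := by
  have h : 0 < √(1 + ((b : ℝ) / 2 ^ P) ^ 2) := by positivity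
  apply Complex.ext
  · rw [Complex.re_ofReal_mul, Complex.exp_ofReal_mul_I_re, ← GaussianInt.intCast_re, th,
      cos_arctan, md]
    simp only [gz]
    push_cast
    field_simp
  · rw [Complex.im_ofReal_mul, Complex.exp_ofReal_mul_I_im, ← GaussianInt.intCast_im, th,
      sin_arctan, md]
    simp only [gz]
    push_cast
    field_simp

theorem gz_pow (P b k : ℕ) :
    ((gz P b ^ k : GaussianInt) : ℂ) =
      (md P b ^ k : ℝ) * Complex.exp ((k * th P b : ℝ) * Complex.I) := by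
  rw [map_pow, gz_polar, mul_pow, ← Complex.exp_nat_mul]
  push_cast
  ring_nf

theorem gz_pow_re (P b k : ℕ) : ((gz P b ^ k).re : ℝ) = md P b ^ k * cos (k * th P b) := by
  rw [GaussianInt.intCast_re, gz_pow, Complex.re_ofReal_mul, Complex.exp_ofReal_mul_I_re]

theorem gz_pow_im (P b k : ℕ) : ((gz P b ^ k).im : ℝ) = md P b ^ k * sin (k * th P b) := by
  rw [GaussianInt.intCast_im, gz_pow, Complex.im_ofReal_mul, Complex.exp_ofReal_mul_I_im]

theorem md_le {P b : ℕ} (hb : b ≤ 2 ^ P) : md P b ≤ 2 ^ (P + 1) := by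
  refine le_of_pow_le_pow_left₀ (n := 2) (by norm_num) (by positivity) ?_
  rw [md_sq]
  have h1 : (b : ℝ) ≤ 2 ^ P := by exact_mod_cast hb
  have h2 : (0 : ℝ) ≤ b := by positivity
  push_cast
  rw [pow_add 2 P P, pow_succ 2 P]
  nlinarith

theorem norm_gz_pow {P b : ℕ} (hb : b ≤ 2 ^ P) (k : ℕ) :
    ‖((gz P b ^ k : GaussianInt) : ℂ)‖ ≤ 2 ^ ((P + 1) * k) := by
  rw [gz_pow, norm_mul, Complex.norm_exp_ofReal_mul_I, mul_one, Complex.norm_real,
    Real.norm_of_nonneg (pow_pos (md_pos P b) k).le, pow_mul]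
  exact pow_le_pow_left₀ (md_pos P b).le (md_le hb) k

/-- the shifted residue of the power -/
def dec (P H b k : ℕ) : ℕ := ((2 ^ P + b * 2 ^ H) ^ k % Qm H + offQ H (H - 1)) % Qm H

theorem dec_spec {P H b k : ℕ} (hb : b ≤ 2 ^ P) (hH : (P + 1) * k + 2 ≤ H) :
    ((dec P H b k % 2 ^ H : ℕ) : ℤ) = (gz P b ^ k).re + 2 ^ (H - 1) ∧
    ((dec P H b k / 2 ^ H : ℕ) : ℤ) = (gz P b ^ k).im + 2 ^ (H - 1) := by
  refine decode (by omega) ?_ ((norm_gz_pow hb k).trans_lt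
    (pow_lt_pow_right₀ (by norm_num) (by omega)))
  rw [ZMod.natCast_mod, map_pow, encG_apply]
  simp [gz, IQ]

theorem tan_le {M : ℕ} (hM : 8 ≤ M) : tan (π / M) ≤ 4 / M := by
  have h0 : (8 : ℝ) ≤ M := by exact_mod_cast hM
  have h1 : 0 < π / M := by positivity
  have h2 : π / M ≤ 3.15 / M := by gcongr; exact pi_lt_d2.le
  have h3 : 3.15 / (M : ℝ) ≤ 3.15 / 8 := by gcongr
  have h4 := one_sub_sq_div_two_le_cos (x := π / M)
  have h5 : 0.9 ≤ cos (π / M) := by nlinarith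
  rw [tan_eq_sin_div_cos, div_le_iff₀ (by linarith)]
  have h6 := (sin_lt h1).le
  have h7 : 4 / (M : ℝ) * 0.9 ≤ 4 / M * cos (π / M) := by gcongr
  have h8 : 3.15 / (M : ℝ) ≤ 4 / M * 0.9 := by
    rw [div_mul_eq_mul_div]; gcongr; norm_num
  linarith

theorem pi_div_lt {M : ℕ} (hM : 8 ≤ M) : π / M < π / 2 := by
  have h0 : (8 : ℝ) ≤ M := by exact_mod_cast hM
  gcongr
  linarith

theorem arctan_tan_pi {M : ℕ} (hM : 8 ≤ M) : arctan (tan (π / M)) = π / M := by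
  have : 0 < π / M := by positivity
  exact arctan_tan (by linarith [pi_pos]) (pi_div_lt hM)

/-- the target of the bisection -/
noncomputable def tg (P M : ℕ) : ℝ := 2 ^ P * tan (π / M)

theorem tg_nonneg (P : ℕ) {M : ℕ} (hM : 8 ≤ M) : 0 ≤ tg P M :=
  mul_nonneg (by positivity) (tan_nonneg_of_nonneg_of_le_pi_div_two (by positivity)
    (pi_div_lt hM).le)

theorem tg_lt (P : ℕ) {M : ℕ} (hM : 8 ≤ M) : tg P M < 2 ^ P := by
  have h0 : (8 : ℝ) ≤ M := by exact_mod_cast hM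
  have h1 : (4 : ℝ) / M ≤ 4 / 8 := by gcongr
  have h2 := tan_le hM
  have h3 : (0 : ℝ) < 2 ^ P := by positivity
  unfold tg
  nlinarith

theorem tg_lt_of {P M b : ℕ} (hM : 8 ≤ M) (hb : 2 ^ (P + 2) / M < b) : tg P M < b := by
  have h0 : (0 : ℝ) < M := by positivity
  have h1 : 2 ^ (P + 2) < b * M := (Nat.div_lt_iff_lt_mul (by omega)).1 hb
  have h2 : (2 : ℝ) ^ (P + 2) < b * M := by exact_mod_cast h1
  calc tg P M ≤ 2 ^ P * (4 / M) := mul_le_mul_of_nonneg_left (tan_le hM) (by positivity)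
    _ = 2 ^ (P + 2) / M := by rw [pow_add]; ring
    _ < b := by rwa [div_lt_iff₀ h0]

theorem im_neg_iff {P M b : ℕ} (hM : 8 ≤ M) (hb : ¬2 ^ (P + 2) / M < b) :
    (gz P b ^ M).im < 0 ↔ tg P M < b := by
  have h0 : (0 : ℝ) < M := by positivity
  have hp : (0 : ℝ) < 2 ^ P := by positivity
  have h1 : b * M ≤ 2 ^ (P + 2) := (Nat.le_div_iff_mul_le (by omega)).1 (not_lt.1 hb)
  have h2 : (b : ℝ) * M ≤ 2 ^ (P + 2) := by exact_mod_cast h1
  have h3 : 0 ≤ th P b := arctan_nonneg.2 (by positivity)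
  have h4 : th P b ≤ b / 2 ^ P := by
    have := le_tan h3 (arctan_lt_pi_div_two _)
    rwa [th, tan_arctan] at this
  have h5 : M * th P b ≤ 4 := by
    refine (mul_le_mul_of_nonneg_left h4 h0.le).trans ?_
    rw [← mul_div_assoc, div_le_iff₀ hp]
    rw [pow_add] at h2
    linarith
  have h6 : tg P M < b ↔ π < M * th P b := by
    rw [tg, mul_comm, ← lt_div_iff₀ hp, ← arctan_lt_arctan_iff, arctan_tan_pi hM, div_lt_iff₀ h0,
      mul_comm, th]
  have h7 := pow_pos (md_pos P b) M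
  rw [h6, ← Int.cast_lt (R := ℝ), gz_pow_im, Int.cast_zero, mul_neg_iff_of_pos_left' h7]
  constructor
  · intro h
    by_contra hc
    exact absurd (sin_nonneg_of_nonneg_of_le_pi (by positivity) (not_lt.1 hc)) (not_le.2 h)
  · intro h
    have := sin_pos_of_pos_of_lt_pi (x := M * th P b - π) (by linarith) (by linarith [pi_gt_three])
    rw [sin_sub_pi] at this
    linarith
where
  mul_neg_iff_of_pos_left' {a b : ℝ} (h : 0 < a) : a * b < 0 ↔ b < 0 :=
    ⟨fun h' => by by_contra hc; nlinarith [mul_nonneg h.le (not_lt.1 hc)], mul_neg_of_pos_of_neg h⟩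

theorem abs_arctan_sub (x y : ℝ) : |arctan x - arctan y| ≤ |x - y| := by
  have h : LipschitzWith 1 arctan := by
    refine lipschitzWith_of_nnnorm_deriv_le differentiable_arctan fun x => ?_
    rw [← NNReal.coe_le_coe, coe_nnnorm, Real.deriv_arctan, NNReal.coe_one,
      Real.norm_of_nonneg (by positivity), div_le_one (by positivity)]
    nlinarith
  simpa [Real.dist_eq] using h.dist_le_mul x y

theorem th_close {P M a : ℕ} (hM : 8 ≤ M) (h1 : (a : ℝ) ≤ tg P M) (h2 : tg P M < a + 1) :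
    |th P a - π / M| ≤ 1 / 2 ^ P := by
  have hp : (0 : ℝ) < 2 ^ P := by positivity
  rw [← arctan_tan_pi hM]
  refine (abs_arctan_sub _ _).trans ?_
  have : (a : ℝ) / 2 ^ P - tan (π / M) = (a - tg P M) / 2 ^ P := by
    unfold tg; field_simp
  rw [this, abs_div, abs_of_pos hp]
  gcongr
  rw [abs_le]
  constructor <;> linarith

theorem exp_close {P M a m : ℕ} (hM : 8 ≤ M) (h1 : (a : ℝ) ≤ tg P M) (h2 : tg P M < a + 1)
    (hm : m ≤ M) :
    ‖Complex.exp ((((m + m : ℕ) : ℝ) * th P a : ℝ) * Complex.I) - ee m M‖ ≤ 2 * M / 2 ^ P := by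
  have h0 : (0 : ℝ) < M := by positivity
  have h0' : (M : ℂ) ≠ 0 := by exact_mod_cast (show M ≠ 0 by omega)
  have e : Complex.exp ((((m + m : ℕ) : ℝ) * th P a : ℝ) * Complex.I) - ee m M =
      ee m M * (Complex.exp (Complex.I * ((2 * m * (th P a - π / M) : ℝ) : ℂ)) - 1) := by
    rw [mul_sub, mul_one, ee, ← Complex.exp_add]
    congr 2
    push_cast
    field_simp
    ring
  rw [e, norm_mul, norm_ee, one_mul]
  refine norm_exp_I_mul_ofReal_sub_one_le.trans ?_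
  rw [Real.norm_eq_abs, abs_mul, abs_of_nonneg (by positivity), div_eq_mul_one_div (2 * (M : ℝ))]
  have : (m : ℝ) ≤ M := by exact_mod_cast hm
  have := th_close hM h1 h2
  gcongr

/-- a coordinate of the normalised power, shifted by `2 ^ p` -/
def crd (u N H p : ℕ) : ℕ := (u + N - 2 ^ (H - 1)) * 2 ^ p / N

theorem crd_spec {u N H p : ℕ} {r : ℤ} {c : ℝ} (hN : 0 < N) (hu : (u : ℤ) = r + 2 ^ (H - 1))
    (hr : (r : ℝ) = N * c) (hc : |c| ≤ 1) :
    crd u N H p ≤ 2 ^ (p + 1) ∧ |((crd u N H p : ℝ) - 2 ^ p) - 2 ^ p * c| ≤ 1 := by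
  have hN' : (0 : ℝ) < N := by exact_mod_cast hN
  rw [abs_le] at hc
  have h1 : -(N : ℤ) ≤ r := by
    have : -(N : ℝ) ≤ r := by rw [hr]; nlinarith
    exact_mod_cast this
  have h2 : r ≤ N := by
    have : (r : ℝ) ≤ N := by rw [hr]; nlinarith
    exact_mod_cast this
  have h3 : ((u + N - 2 ^ (H - 1) : ℕ) : ℤ) = r + N := by
    rw [Nat.cast_sub (by zify; omega)]
    push_cast
    omega
  obtain ⟨X, hX⟩ : ∃ X, X = u + N - 2 ^ (H - 1) := ⟨_, rfl⟩
  rw [crd, ← hX]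
  rw [← hX] at h3
  have h4 : (X : ℝ) = N * c + N := by rw [← hr]; exact_mod_cast h3
  constructor
  · refine Nat.div_le_of_le_mul ?_
    have : X ≤ N * 2 := by omega
    calc X * 2 ^ p ≤ N * 2 * 2 ^ p := Nat.mul_le_mul_right _ this
      _ = N * 2 ^ (p + 1) := by ring
  · have h5 : ((X * 2 ^ p / N : ℕ) : ℝ) ≤ (X * 2 ^ p : ℕ) / N := Nat.cast_div_le
    have h6 : ((X * 2 ^ p : ℕ) : ℝ) / N < ((X * 2 ^ p / N : ℕ) : ℝ) + 1 := by
      rw [div_lt_iff₀ hN']
      have := Nat.lt_div_mul_add (a := X * 2 ^ p) hN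
      have h4 : ((X * 2 ^ p : ℕ) : ℝ) < ((X * 2 ^ p / N * N + N : ℕ) : ℝ) := by exact_mod_cast this
      rw [Nat.cast_add, Nat.cast_mul _ N] at h4
      linarith
    have h7 : ((X * 2 ^ p : ℕ) : ℝ) / N = 2 ^ p * c + 2 ^ p := by
      push_cast
      rw [h4]
      field_simp
    rw [abs_le]
    constructor <;> linarith

/-- the entry of the table -/
def ent (P H a h p m : ℕ) : ℕ :=
  (crd (dec P H a (m + m) % 2 ^ H) ((2 ^ (P + P) + a * a) ^ m) H p +
    crd (dec P H a (m + m) / 2 ^ H) ((2 ^ (P + P) + a * a) ^ m) H p * 2 ^ h +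
    (Qm h - offQ h p)) % Qm h

theorem crd_ent {P H a p m : ℕ} (ha : a ≤ 2 ^ P) (hH : (P + 1) * (m + m) + 2 ≤ H) :
    (crd (dec P H a (m + m) % 2 ^ H) ((2 ^ (P + P) + a * a) ^ m) H p ≤ 2 ^ (p + 1) ∧
      |((crd (dec P H a (m + m) % 2 ^ H) ((2 ^ (P + P) + a * a) ^ m) H p : ℝ) - 2 ^ p) -
        2 ^ p * cos ((m + m : ℕ) * th P a)| ≤ 1) ∧
    (crd (dec P H a (m + m) / 2 ^ H) ((2 ^ (P + P) + a * a) ^ m) H p ≤ 2 ^ (p + 1) ∧
      |((crd (dec P H a (m + m) / 2 ^ H) ((2 ^ (P + P) + a * a) ^ m) H p : ℝ) - 2 ^ p) -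
        2 ^ p * sin ((m + m : ℕ) * th P a)| ≤ 1) := by
  obtain ⟨d1, d2⟩ := dec_spec ha hH
  have e : md P a ^ (m + m) = (((2 ^ (P + P) + a * a) ^ m : ℕ) : ℝ) := by
    rw [← two_mul, pow_mul, md_sq, Nat.cast_pow]
  exact ⟨crd_spec (by positivity) d1 (by rw [gz_pow_re, e]) (abs_cos_le_one _),
    crd_spec (by positivity) d2 (by rw [gz_pow_im, e]) (abs_sin_le_one _)⟩

theorem ent_spec {M H a h p m : ℕ} (hM : 8 ≤ M) (h1 : (a : ℝ) ≤ tg (p + M) M)
    (h2 : tg (p + M) M < a + 1) (hm : m ≤ M) (hH : (p + M + 1) * (m + m) + 2 ≤ H) (hp : p < h) :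
    Lv h p 2 (ent (p + M) H a h p m) (ee m M) := by
  have ha : a ≤ 2 ^ (p + M) := by exact_mod_cast h1.trans (tg_lt _ hM).le
  obtain ⟨⟨-, c1⟩, -, c2⟩ := crd_ent (p := p) ha hH
  refine ⟨?_, by rw [norm_ee]; norm_num⟩
  unfold ent
  generalize crd (dec (p + M) H a (m + m) % 2 ^ H) _ H p = U at c1 ⊢
  generalize crd (dec (p + M) H a (m + m) / 2 ^ H) _ H p = V at c2 ⊢
  have h3 : Ap h p ((U + V * 2 ^ h + (Qm h - offQ h p)) % Qm h)
      (Complex.exp ((((m + m : ℕ) : ℝ) * th (p + M) a : ℝ) * Complex.I)) 2 := by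
    refine ⟨⟨U - 2 ^ p, V - 2 ^ p⟩, ?_, ?_⟩
    · rw [cast_subQ (offQ_lt hp).le, cast_offQ, encG_apply]
      push_cast
      rw [IQ]
      ring
    · refine (Complex.norm_le_abs_re_add_abs_im _).trans ?_
      have e : (2 : ℂ) ^ p = ((2 ^ p : ℝ) : ℂ) := by push_cast; rfl
      rw [e, Complex.sub_re, Complex.sub_im, Complex.re_ofReal_mul, Complex.im_ofReal_mul,
        Complex.exp_ofReal_mul_I_re, Complex.exp_ofReal_mul_I_im, ← GaussianInt.intCast_re,
        ← GaussianInt.intCast_im]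
      push_cast at c1 c2 ⊢
      linarith
  refine (h3.congr (exp_close hM h1 h2 hm)).mono ?_
  have h4 : (M : ℝ) ≤ 2 ^ M := by exact_mod_cast Nat.lt_two_pow_self.le
  have h5 : (2 : ℝ) ^ p * (2 * M / 2 ^ (p + M)) = 2 * (M / 2 ^ M) := by
    rw [pow_add]; field_simp
  have h6 : (M : ℝ) / 2 ^ M ≤ 1 := by rwa [div_le_one (by positivity)]
  rw [h5]
  linarith

/-! ### the program -/

variable {W : ℕ} {fn : Option Tm}

/-- `z ^ k` modulo `Qm h` -/
def powT (z k h : Tm) : Tm :=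
  .lett z (.lett (.skip 0 1 h)
    (.iter (.skip 0 2 k) (.const 1) (.redQ (.mul (.var 1) (.var 3)) (.var 2))))

theorem pv_powT {e a k b z K h} {c1 c2 c3 : ℝ} (ha : Pv W fn e a [z] c1)
    (hk : Pv W fn e k [K] c2) (hb : Pv W fn e b [h] c3) (hz : z < Qm h) (hh : 4 * h + 16 ≤ W) :
    Pv W fn e (powT a k b) [z ^ K % Qm h] (c1 + c2 + c3 + K * (600 * (W + 1)) + 30) := by
  have hW : 8 ≤ W := by omega
  have h0 : [1] = [z ^ 0 % Qm h] := by rw [pow_zero, Nat.mod_eq_of_lt (one_lt_Qm h)]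
  refine (Pv.lett ha (Pv.lett (Ev.skip01 hb) (Pv.iter (fun i => [z ^ i % Qm h]) (L := 1)
    (c := 330 * (W + 1) + 170)
    (Ev.skip (A := []) (B := [_, _]) (A' := []) rfl rfl rfl hk)
    (h0 ▸ Pv.constS hW (by norm_num)) (fun i _ => ?_) (by simp)))).mono ?_
  · have h1 : z ^ i % Qm h * z ≤ 2 ^ (4 * h) := by
      rw [show 4 * h = 2 * h + 2 * h by ring, pow_add]
      exact Nat.mul_le_mul (Nat.lt_succ_iff.1 (Nat.mod_lt _ (Qm_pos h))) (Nat.lt_succ_iff.1 hz)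
    refine (Pv.redQ hW (Pv.mul hW (Pv.varS rfl) (Pv.varS rfl)
      (h1.trans_lt (Nat.pow_lt_pow_right (by norm_num) (by omega)))) (Pv.varS rfl) h1
      (by omega)).cast ?_ (by linarith)
    rw [Nat.mod_mul_mod, pow_succ]
  · have h1 : (0 : ℝ) ≤ W := by positivity
    have h2 : (0 : ℝ) ≤ K := by positivity
    simp only [List.length_cons, List.length_nil]
    push_cast
    nlinarith

/-- the term for `dec` -/
def decT (P H b k : Tm) : Tm :=
  .addQ (powT (.add (.pow2 P) (.shl b H)) k H) (.offT H (.sub H (.const 1))) (.qm H)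

theorem pv_decT {e tP tH tb tk P H b k} {c : ℝ} (hP : Pv W fn e tP [P] 2)
    (hH : Pv W fn e tH [H] 2) (hb : Pv W fn e tb [b] 2) (hk : Pv W fn e tk [k] c)
    (hbP : b ≤ 2 ^ P) (hPH : P + 2 ≤ H) (hh : 4 * H + 16 ≤ W) :
    Pv W fn e (decT tP tH tb tk) [dec P H b k] (c + k * (600 * (W + 1)) + 200) := by
  have hW : 8 ≤ W := by omega
  have h1 := Qm_mul_lt (W := W) (h := H) (k := 1) (by omega)
  have h2 : 2 ^ P + b * 2 ^ H < Qm H :=
    lt_of_le_of_lt (Nat.add_le_add_left (Nat.mul_le_mul_right _ hbP) _)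
      (offQ_lt (show P < H by omega))
  have h3 : (2 ^ P + b * 2 ^ H) ^ k % Qm H < Qm H := Nat.mod_lt _ (Qm_pos H)
  have h4 : offQ H (H - 1) < Qm H := offQ_lt (by omega)
  have h5 : 0 < 2 ^ P := by positivity
  refine (Pv.addQ hW (pv_powT (Pv.add (Pv.pow2 hP (by omega)) (Pv.shl hb hH (by omega) (by omega))
    (by omega)) hk hH h2 hh) (Pv.offT hH (Pv.sub hH (Pv.constS hW (by norm_num))) (by omega)
    (by omega)) (Pv.qm hW hH (by omega)) (by omega) (by omega)).mono ?_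
  linarith

/-- the term for `crd` -/
def crdT (u N H p : Tm) : Tm :=
  .div (.shl (.sub (.add u N) (.pow2 (.sub H (.const 1)))) p) N

theorem pv_crdT {e tu tN tH tp u N H p} {c : ℝ} (hu : Pv W fn e tu [u] c)
    (hN : Pv W fn e tN [N] 2) (hH : Pv W fn e tH [H] 2) (hp : Pv W fn e tp [p] 2) (hN0 : 0 < N)
    (hu' : u ≤ 2 ^ H) (hN' : N ≤ 2 ^ H) (hp' : p ≤ H) (hh : 4 * H + 16 ≤ W) :
    Pv W fn e (crdT tu tN tH tp) [crd u N H p] (c + 800 * (W + 1)) := by
  have hW : 8 ≤ W := by omega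
  have h1 : (u + N) * 2 ^ p < 2 ^ W :=
    calc (u + N) * 2 ^ p ≤ 2 ^ (H + 1) * 2 ^ p := Nat.mul_le_mul_right _ (by rw [pow_succ]; omega)
      _ < 2 ^ W := by rw [← pow_add]; exact Nat.pow_lt_pow_right (by norm_num) (by omega)
  have h2 : u + N < 2 ^ W := lt_of_le_of_lt (Nat.le_mul_of_pos_right _ (by positivity)) h1
  refine (Pv.div hW (Pv.shl (Pv.sub (Pv.add hu hN h2) (Pv.pow2 (Pv.sub hH (Pv.constS hW
    (by norm_num))) (by omega))) hp
    (lt_of_le_of_lt (Nat.mul_le_mul_right _ (Nat.sub_le _ _)) h1) (by omega)) hN hN0).mono ?_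
  have h1 : (0 : ℝ) ≤ W := by positivity
  linarith

/-- one step of the bisection; environment `i, a, A0, H, P, M` -/
def bisT : Tm :=
  .lett (.add (.var 1) (.pow2 (.sub (.sub (.var 4) (.const 1)) (.var 0))))
    (.cndLt (.var 3) (.var 0) (.var 2)
      (.cndLt (.shr (decT (.var 5) (.var 4) (.var 0) (.var 6)) (.var 4))
        (.pow2 (.sub (.var 4) (.const 1))) (.var 2) (.var 0)))

theorem pv_bisT {e : Env} {i a H P M : ℕ} (hM : 8 ≤ M) (hi : i < P) (ha : (a : ℝ) ≤ tg P M)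
    (hH : (P + 1) * (M + M) + 2 ≤ H) (hh : 4 * H + 16 ≤ W) :
    Pv W fn ([i] :: [a] :: [2 ^ (P + 2) / M] :: [H] :: [P] :: [M] :: e) bisT
      [if tg P M < (a + 2 ^ (P - 1 - i) : ℕ) then a else a + 2 ^ (P - 1 - i)]
      (M * (600 * (W + 1)) + 300) := by
  have hW : 8 ≤ W := by omega
  have hPH : P + 2 ≤ H := by nlinarith
  have h1 : a < 2 ^ P := by exact_mod_cast ha.trans_lt (tg_lt P hM)
  have h2 : 2 ^ (P - 1 - i) ≤ 2 ^ P := Nat.pow_le_pow_right (by norm_num) (by omega)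
  have h3 : 2 ^ (P + 1) ≤ 2 ^ W := Nat.pow_le_pow_right (by norm_num) (by omega)
  have h4 : 2 ^ (P + 2) / M ≤ 2 ^ P := by
    refine Nat.div_le_of_le_mul ?_
    rw [pow_add]
    nlinarith [show 0 < 2 ^ P by positivity]
  rw [pow_succ] at h3
  refine (Pv.lett (by pv <;> omega) (Pv.cndLt hW (Pv.varS rfl) (Pv.varS rfl)
    (fun _ => Pv.varS rfl) (fun hb => Pv.cndLt hW (Pv.shr (pv_decT (Pv.varS rfl) (Pv.varS rfl)
      (Pv.varS rfl) (Pv.varS rfl) (by omega) hPH hh) (Pv.varS rfl) (by omega)) (by pv; omega)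
      (fun _ => Pv.varS rfl) (fun _ => Pv.varS rfl)))).cast ?_ ?_
  · congr 1
    by_cases hb : 2 ^ (P + 2) / M < a + 2 ^ (P - 1 - i)
    · rw [if_pos hb, if_pos (tg_lt_of hM hb)]
    · rw [if_neg hb]
      have h5 := (dec_spec (P := P) (H := H) (b := a + 2 ^ (P - 1 - i)) (k := M) (by omega)
        (by nlinarith)).2
      refine if_congr ?_ rfl rfl
      rw [← im_neg_iff hM hb, ← Nat.cast_lt (α := ℤ), h5]
      push_cast
      omega
  · have h5 : (0 : ℝ) ≤ M * (600 * (W + 1)) := by positivity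
    simp only [List.length_cons, List.length_nil, max_self]
    rw [max_eq_right (by linarith)]
    push_cast
    linarith

/-- one entry of the table; environment `m, a, A0, H, P, M, h, p` -/
def entT : Tm :=
  .lett (decT (.var 4) (.var 3) (.var 1) (.add (.var 0) (.var 0)))
    (.lett (.pow (.add (.pow2 (.add (.var 5) (.var 5))) (.mul (.var 2) (.var 2))) (.var 1))
      (.subQ (.add (crdT (.low (.var 1) (.var 5)) (.var 0) (.var 5) (.var 9))
          (.shl (crdT (.shr (.var 1) (.var 5)) (.var 0) (.var 5) (.var 9)) (.var 8)))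
        (.offT (.var 8) (.var 9)) (.qm (.var 8))))

theorem pv_entT {e : Env} {m a A H P M h p : ℕ} (hM : 8 ≤ M) (hm : m < M) (ha : a ≤ 2 ^ P)
    (hH : (P + 1) * (M + M) + 2 ≤ H) (hh : 4 * H + 16 ≤ W) (hp : p ≤ P) (hph : p + 4 ≤ h)
    (hh' : 4 * h + 16 ≤ W) :
    Pv W fn ([m] :: [a] :: [A] :: [H] :: [P] :: [M] :: [h] :: [p] :: e) entT
      [ent P H a h p m] (M * (2000 * (W + 1))) := by
  have hW : 8 ≤ W := by omega
  have hW2 : W < 2 ^ W := Nat.lt_two_pow_self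
  have hPH : 2 * P + 2 * M + 2 ≤ H := by nlinarith
  have hH' : (P + 1) * (m + m) + 2 ≤ H := by nlinarith
  have h1 : 2 ^ (P + P) + a * a ≤ 2 ^ (2 * P + 1) := by
    have := Nat.mul_le_mul ha ha
    rw [← pow_add] at this
    rw [pow_succ, two_mul]
    omega
  have h2 : 2 ^ (2 * P + 1) < 2 ^ W := Nat.pow_lt_pow_right (by norm_num) (by omega)
  have h3 : (2 ^ (P + P) + a * a) ^ m ≤ 2 ^ H := by
    refine (Nat.pow_le_pow_left h1 m).trans ?_
    rw [← pow_mul]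
    exact Nat.pow_le_pow_right (by norm_num) (by nlinarith)
  have h4 : 2 ^ H < 2 ^ W := Nat.pow_lt_pow_right (by norm_num) (by omega)
  have h5 : 0 < 2 ^ (P + P) := by positivity
  have h6 : dec P H a (m + m) % 2 ^ H ≤ 2 ^ H := (Nat.mod_lt _ (by positivity)).le
  have h7 : dec P H a (m + m) / 2 ^ H ≤ 2 ^ H := by
    refine Nat.div_le_of_le_mul ?_
    rw [← pow_add, ← two_mul H]
    exact Nat.lt_succ_iff.1 (Nat.mod_lt _ (Qm_pos H))
  obtain ⟨⟨c1, -⟩, c2, -⟩ := crd_ent (p := p) ha hH'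
  have h8 := offQ_lt (show p + 1 < h by omega)
  have h9 := Nat.mul_le_mul_right (2 ^ h) c2
  have h10 := Qm_mul_lt (W := W) (h := h) (k := 1) (by omega)
  unfold offQ at h8
  refine (Pv.lett (pv_decT (Pv.varS rfl) (Pv.varS rfl) (Pv.varS rfl) (by pv; omega) ha (by omega) hh)
    (Pv.lett (Pv.pow hW (by pv <;> omega) (Pv.varS rfl) (by omega) (by omega))
      (Pv.subQ hW (Pv.add (pv_crdT (by pv; omega) (Pv.varS rfl) (Pv.varS rfl) (Pv.varS rfl)
        (by positivity) h6 h3 (by omega) hh) (Pv.shl (pv_crdT (by pv; omega) (Pv.varS rfl)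
        (Pv.varS rfl) (Pv.varS rfl) (by positivity) h7 h3 (by omega) hh) (Pv.varS rfl) (by omega)
        (by omega)) (by omega)) (Pv.offT (Pv.varS rfl) (Pv.varS rfl) (by omega) (by omega))
        (Pv.qm hW (Pv.varS rfl) (by omega)) (by omega) (by omega)))).cast rfl ?_
  have a1 : (m : ℝ) + 1 ≤ M := by exact_mod_cast hm
  have a2 : (8 : ℝ) ≤ M := by exact_mod_cast hM
  have a3 : (8 : ℝ) ≤ W := by exact_mod_cast hW
  have a4 : (0 : ℝ) ≤ m := by positivity
  simp only [List.length_cons, List.length_nil]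
  push_cast
  nlinarith [mul_le_mul_of_nonneg_right a1 (show (0 : ℝ) ≤ W + 1 by linarith),
    mul_le_mul_of_nonneg_right a2 (show (0 : ℝ) ≤ W + 1 by linarith)]

/-- the program; arguments `M, h, p` -/
def rootT : Tm :=
  .lett (.add (.var 2) (.var 0))
    (.lett (.add (.mul (.add (.var 0) (.const 1)) (.add (.var 1) (.var 1))) (.const 2))
      (.lett (.div (.pow2 (.add (.var 1) (.const 2))) (.var 2))
        (.lett (.iter (.var 2) (.const 0) bisT) (.tab (.var 4) entT))))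

theorem pv_rootT {e : Env} {M h p : ℕ} (hM : 8 ≤ M) (hph : p + 4 ≤ h) (hh : 4 * h + 16 ≤ W)
    (hH : 4 * ((p + M + 1) * (M + M) + 2) + 16 ≤ W) :
    ∃ Y, App h p 2 M (fun _ => True) Y (fun m => ee m M) ∧
      Pv W fn ([M] :: [h] :: [p] :: e) rootT Y (5000 * ((W : ℝ) + 1) ^ 3) := by
  have hW : 8 ≤ W := by omega
  have hW2 : W < 2 ^ W := Nat.lt_two_pow_self
  obtain ⟨H, hHe⟩ : ∃ H, H = (p + M + 1) * (M + M) + 2 := ⟨_, rfl⟩
  have hPH : 2 * (p + M) + 2 * M + 2 ≤ H := by nlinarith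
  rw [← hHe] at hH
  obtain ⟨S, ⟨a, rfl, a1, a2⟩, hS⟩ := Pv.iterInv (W := W) (fn := fn)
    (e := [2 ^ (p + M + 2) / M] :: [H] :: [p + M] :: [M] :: [h] :: [p] :: e) (n := .var 2)
    (init := .const 0) (body := bisT) (N := p + M) (S0 := [0])
    (fun i S => ∃ a : ℕ, S = [a] ∧ (a : ℝ) ≤ tg (p + M) M ∧ tg (p + M) M < a + 2 ^ (p + M - i))
    (L := 1) (Pv.varS rfl) (Pv.constS hW (by norm_num))
    ⟨0, rfl, by simpa using tg_nonneg _ hM, by simpa using tg_lt _ hM⟩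
    (by
      rintro i hi S ⟨a, rfl, a1, a2⟩
      refine ⟨_, ⟨_, rfl, ?_⟩, pv_bisT hM hi a1 hHe.ge hH⟩
      have e1 : p + M - (i + 1) = p + M - 1 - i := by omega
      have e2 : (2 : ℝ) ^ (p + M - i) = 2 ^ (p + M - 1 - i) * 2 := by
        rw [← pow_succ]; congr 1; omega
      rw [e1]
      split_ifs with hc
      · exact ⟨a1, by exact_mod_cast hc⟩
      · refine ⟨not_lt.1 hc, ?_⟩
        push_cast
        linarith)
    (by rintro i - S ⟨a, rfl, -⟩; simp)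
  rw [Nat.sub_self, pow_zero] at a2
  have ha : a ≤ 2 ^ (p + M) := by exact_mod_cast a1.trans (tg_lt _ hM).le
  refine ⟨(List.range M).map (ent (p + M) H a h p), ⟨by simp, ?_, fun m hm _ => ?_⟩, ?_⟩
  · intro r hr
    obtain ⟨m, -, rfl⟩ := List.mem_map.1 hr
    exact Nat.mod_lt _ (Qm_pos h)
  · rw [getD_map_range _ hm]
    exact ent_spec hM a1 a2 hm.le (by nlinarith) (by omega)
  · have e1 : Pv W fn ([p + M] :: [M] :: [h] :: [p] :: e)
        (.add (.mul (.add (.var 0) (.const 1)) (.add (.var 1) (.var 1))) (.const 2)) [H]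
        (330 * (W + 1) + 30) := by
      apply Pv.cast
      · pv <;> omega
      · rw [hHe]
      · linarith
    refine (Pv.lett (by pv; omega) (Pv.lett e1 (Pv.lett (by pv <;> omega) (Pv.lett hS
      (Pv.tab (Pv.varS rfl) fun m hm => pv_entT hM hm ha hHe.ge hH (by omega) hph hh))))).mono ?_
    have b1 : (p : ℝ) + M ≤ W := by exact_mod_cast (show p + M ≤ W by omega)
    have b2 : (0 : ℝ) ≤ p := by positivity
    have b3 : (8 : ℝ) ≤ M := by exact_mod_cast hM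
    simp only [List.length_cons, List.length_nil, List.length_map, List.length_range]
    push_cast
    obtain ⟨Z, hZ⟩ : ∃ Z : ℝ, Z = W + 1 := ⟨_, rfl⟩
    rw [← hZ]
    have z1 : (9 : ℝ) ≤ Z := by linarith
    have z2 : (M : ℝ) ≤ Z := by linarith
    have z3 : (p : ℝ) + M ≤ Z := by linarith
    have z4 : ((p : ℝ) + M) * (M * (600 * Z) + 300 + 2 * 1 + 22) ≤ Z * (Z * (600 * Z) + 324) := by
      rw [show (M : ℝ) * (600 * Z) + 300 + 2 * 1 + 22 = M * (600 * Z) + 324 by ring]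
      gcongr
    have z5 : (M : ℝ) * (M * (2000 * Z) + 33) ≤ Z * (Z * (2000 * Z) + 33) := by gcongr
    have z6 : 9 * Z ≤ Z ^ 2 := by nlinarith
    have z7 : 9 * Z ^ 2 ≤ Z ^ 3 := by nlinarith
    nlinarith

end Roots

theorem root_spec (_ : MulSpec) : RootSpec := by
  refine ⟨Roots.rootT, 5000 * 33 ^ 4, 8, ?_⟩
  intro W M h p hW hM hp hph hh fn env
  obtain ⟨V, hV⟩ : ∃ V, V = W + (4 * ((p + M + 1) * (M + M) + 2) + 16) := ⟨_, rfl⟩
  obtain ⟨Y, hY, hP⟩ := Roots.pv_rootT (W := V) (fn := fn) (e := env) hM hph (by omega) (by omega)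
  refine ⟨Y, hY, (Ev.widen hP (by omega) id fun r hr => ?_).mono ?_⟩
  · have := Qm_mul_lt (W := W) (h := h) (k := 0) (by omega)
    have := hY.2.1 r hr
    omega
  · obtain ⟨L, hL⟩ : ∃ L, L = M + W + 1 := ⟨_, rfl⟩
    have h1 : V + 1 ≤ 33 * L ^ 2 := by
      have : (p + M + 1) * (M + M) ≤ L * (L + L) := Nat.mul_le_mul (by omega) (by omega)
      nlinarith
    have h2 : (V : ℝ) + 1 ≤ 33 * (L : ℝ) ^ 2 := by exact_mod_cast h1
    have h3 : (M : ℝ) + W + 1 = L := by rw [hL]; push_cast; ring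
    rw [h3]
    calc 5000 * ((V : ℝ) + 1) ^ 3 * (V + 1) / (W + 1) ≤ 5000 * ((V : ℝ) + 1) ^ 3 * (V + 1) :=
          div_le_self (by positivity) (by linarith [Nat.cast_nonneg (α := ℝ) W])
      _ = 5000 * ((V : ℝ) + 1) ^ 4 := by ring
      _ ≤ 5000 * (33 * (L : ℝ) ^ 2) ^ 4 := by gcongr
      _ = _ := by push_cast; ring

end Crest.Agent.R326
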