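import Crest.Agent.R326.SwapC

/-!
# The fast interchange of two fields: padding, and the specification `SwapSpec`
-/

set_option autoImplicit false

namespace Crest.Agent.R326

namespace Swap

/-- body of the logarithm -/
def logB (b : ℕ) : Tm := .ifLt (.var 0) (.const b) (.const 0)
  (.add (.self (.div (.var 0) (.const b))) (.const 1))

theorem logB_ev {W b : ℕ} (hW : 8 ≤ W) (hb : 2 ≤ b) (hb' : b < 2 ^ W) (k : ℕ) :
    ∀ x, x < 2 ^ k → x < 2 ^ W →
      Ev W (some (logB b)) [[x]] (logB b) [[x]] [Nat.log b x] (800 * (W + 1) * (k + 1)) := by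
  have hW' : (0 : ℝ) ≤ W := by positivity
  have base : ∀ x (k : ℕ), x < b →
      Ev W (some (logB b)) [[x]] (logB b) [[x]] [Nat.log b x] (800 * (W + 1) * (k + 1)) := by
    intro x k hx
    rw [Nat.log_of_lt hx]
    refine (Ev.ifLtT hW (Pv.varS rfl) (Pv.const hb') hx (Pv.constS hW (by norm_num))).mono ?_
    have : (0 : ℝ) ≤ k := by positivity
    nlinarith [mul_nonneg hW' this]
  induction k with
  | zero => intro x hx _; exact base x 0 (by omega)
  | succ k ih =>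
    intro x hx hxW
    by_cases h0 : x < b
    · exact base x _ h0
    · have h2 : x / b ≤ x / 2 := Nat.div_le_div_left hb (by norm_num)
      have h1 := ih (x / b) (by rw [pow_succ] at hx; omega) (by omega)
      have h3 : Nat.log b x = Nat.log b (x / b) + 1 :=
        Nat.log_of_one_lt_of_le (by omega) (not_lt.1 h0)
      have h4 : Nat.log b x < 2 ^ W := (Nat.log_le_self _ _).trans_lt hxW
      rw [h3] at h4 ⊢
      refine (Ev.ifLtF hW (Pv.varS rfl) (Pv.const hb') h0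
        (Pv.add (Pv.self (Pv.div hW (Pv.varS rfl) (Pv.const hb') (by omega)) h1)
          (Pv.constS hW (by norm_num)) h4)).mono ?_
      simp only [List.length_cons, List.length_nil]
      push_cast
      linarith

/-- the logarithm in base `b` -/
def logT (b : ℕ) (a : Tm) : Tm := .fix (logB b) a

theorem logT_ev {W b : ℕ} {fn e a x} {c : ℝ} (hW : 8 ≤ W) (hb : 2 ≤ b) (hb' : b < 2 ^ W)
    (ha : Pv W fn e a [x] c) : Pv W fn e (logT b a) [Nat.log b x] (c + 804 * (W + 1) ^ 2) := by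
  refine Ev.intro fun h0 => ?_
  have hx : x < 2 ^ W := (ha h0).2.1 x (by simp)
  refine (Pv.fix ha (logB_ev hW hb hb' W x hx hx)).mono ?_
  have : (0 : ℝ) ≤ W := by positivity
  simp only [List.length_cons, List.length_nil]
  push_cast
  nlinarith

/-- the interchange of two fields of size `q ^ u`, below a long prefix -/
def PowSpec : Prop := ∃ (q : ℕ) (t : Tm) (C : ℕ), 2 ≤ q ∧
    ∀ (W : ℕ) (X : List ℕ) (lo1 lo2 u : ℕ), 8 ≤ W → 1 ≤ u → lo2 * q ^ u ∣ lo1 →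
      lo1 * q ^ u ∣ X.length → 0 < X.length → lo1 * q ^ u * (W + 1) ^ 62 ≤ X.length →
      C * X.length < 2 ^ W →
      Does W t [X, [lo1], [lo2], [u]] (C * (X.length * (u : ℝ) ^ tauE))
        (Pull X.length (swapDig lo1 lo2 (q ^ u)) X)

theorem tauE_nonneg : 0 ≤ tauE := by rw [tauE]; norm_num

theorem pow_spec (h : CoreSpec) : PowSpec := by
  obtain ⟨m, W0, q, body, C, K, hm, hW0, hW0', hq, h⟩ := h
  refine ⟨q, .lett (.pow (.const W0) (logT m (.var 3)))
    (.lett (.mul (.var 2) (.pow (.const q) (.var 4))) (.lett (.len (.var 2))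
      (.take (.var 0) (.fix body (.cons (.var 4) (.cons (.var 5) (.cons (.var 6)
        (.app (.var 3) (.zeros (.mul (.sub (.var 2) (.mod (.div (.var 0) (.var 1)) (.var 2)))
          (.var 1))))))))))), 2 * C + 2 * K + m + q + W0 + 5000, hq, ?_⟩
  intro W X lo1 lo2 u hW hu h1 h2 h0 hbig hlt fn env
  have hc : ∀ c, c ≤ 2 * C + 2 * K + m + q + W0 + 5000 → c < 2 ^ W := fun c hc =>
    lt_of_le_of_lt (le_trans hc (Nat.le_mul_of_pos_right _ h0)) hlt
  have hV : X.length < 2 ^ W := (Nat.le_mul_of_pos_left _ (by omega)).trans_lt hlt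
  have hS0 : 0 < lo1 * q ^ u := Nat.pos_of_dvd_of_pos h2 h0
  have hS : lo1 * q ^ u < 2 ^ W := (Nat.le_of_dvd h0 h2).trans_lt hV
  have hQ : q ^ u < 2 ^ W :=
    (Nat.le_mul_of_pos_left _ (Nat.pos_of_mul_pos_right hS0)).trans_lt hS
  have huW : u ≤ W := exp_le hq hQ
  have hd1 : m ^ Nat.log m u ≤ u := Nat.pow_log_le_self m (by omega)
  have hd2 : u < m ^ (Nat.log m u + 1) := Nat.lt_pow_succ_log_self (by omega) u
  have hd3 : Nat.log m u ≤ W := (Nat.log_le_self _ _).trans huW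
  have eP := fun e : Env => logT_ev (fn := fn) (e := X :: [lo1] :: [lo2] :: [u] :: e) (a := .var 3)
    hW hm (hc m (by omega)) (Pv.varS rfl)
  generalize Nat.log m u = d at *
  have hP : W0 ^ d ≤ (W + 1) ^ 60 :=
    calc W0 ^ d ≤ (2 ^ 60) ^ d := Nat.pow_le_pow_left hW0' d
      _ = (2 ^ d) ^ 60 := by rw [← pow_mul, ← pow_mul, mul_comm]
      _ ≤ (W + 1) ^ 60 := Nat.pow_le_pow_left
        ((Nat.pow_le_pow_left hm d).trans (hd1.trans (by omega))) 60
  have hP0 : 0 < W0 ^ d := by positivity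
  obtain ⟨G, hG⟩ := id h2
  have hG1 : (W + 1) ^ 62 ≤ G := by
    rw [hG] at hbig
    exact Nat.le_of_mul_le_mul_left hbig hS0
  have hG2 : W0 ^ d * (W + 1) ^ 2 ≤ G :=
    le_trans (Nat.mul_le_mul_right _ hP) (by rw [← pow_add]; exact hG1)
  have hG3 : W0 ^ d ≤ G := le_trans (Nat.le_mul_of_pos_right _ (by positivity)) hG2
  have hG4 : G ≤ X.length := by rw [hG]; exact Nat.le_mul_of_pos_left _ hS0
  have hG5 : (W + 1) ^ 2 ≤ X.length :=
    le_trans (Nat.le_mul_of_pos_left _ hP0) (hG2.trans hG4)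
  have hdiv : X.length / (lo1 * q ^ u) = G := by rw [hG, Nat.mul_div_cancel_left _ hS0]
  obtain ⟨Z, hZ⟩ : ∃ Z, Z = (W0 ^ d - G % W0 ^ d) * (lo1 * q ^ u) := ⟨_, rfl⟩
  have hZ1 : Z ≤ X.length := by
    rw [hZ, hG, mul_comm]
    exact Nat.mul_le_mul_left _ ((Nat.sub_le _ _).trans hG3)
  have hl : (X ++ List.replicate Z 0).length = X.length + Z := by simp
  have hZ2 : lo1 * q ^ u * W0 ^ d ∣ X.length + Z := by
    rw [hZ, hG, mul_comm (_ - _), ← mul_add]
    refine mul_dvd_mul_left _ ⟨G / W0 ^ d + 1, ?_⟩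
    have := Nat.div_add_mod G (W0 ^ d)
    have := Nat.mod_lt G hP0
    rw [mul_add, mul_one]
    omega
  obtain ⟨z, p1, e1⟩ := h W d u lo1 lo2 (X ++ List.replicate Z 0) hW hd2 h1 (hl ▸ hZ2)
    (by omega) (by
      rw [hl]
      refine lt_of_le_of_lt ?_ hlt
      calc K * (X.length + Z) ≤ K * (2 * X.length) := Nat.mul_le_mul_left _ (by omega)
        _ = 2 * K * X.length := by ring
        _ ≤ _ := Nat.mul_le_mul_right _ (by omega)) (by omega)
  rw [hl] at p1 e1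
  refine ⟨z.take X.length, ⟨by rw [List.length_take, p1.1]; omega, fun a ha => ?_⟩, ?_⟩
  · have := p1.2 a (by omega)
    rw [List.getD_append _ _ _ _ (swapDig_lt h1 h2 ha)] at this
    rw [← this]
    simp [List.getD_eq_getElem?_getD, ha]
  · have eZ : Pv W fn ([X.length] :: [lo1 * q ^ u] :: [W0 ^ d] :: X :: [lo1] :: [lo2] :: [u] :: env)
        (.mul (.sub (.var 2) (.mod (.div (.var 0) (.var 1)) (.var 2))) (.var 1)) [Z] _ :=
      (Pv.mul hW (Pv.sub (Pv.varS rfl) (Pv.mod hW (Pv.div hW (Pv.varS rfl) (Pv.varS rfl) hS0)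
        (Pv.varS rfl) hP0)) (Pv.varS rfl) (by rw [hdiv, ← hZ]; omega)).cast
        (by rw [hdiv, ← hZ]) le_rfl
    refine (Pv.lett (Pv.pow hW (Pv.const (hc W0 (by omega))) (eP env) hW0 (by omega))
      (Pv.lett (Pv.mul hW (Pv.varS rfl)
        (Pv.pow hW (Pv.const (hc q (by omega))) (Pv.varS rfl) (by omega) hQ) hS)
        (Pv.lett (Pv.len (Pv.var rfl) hV) (Pv.take (Pv.varS rfl)
          (Pv.fix (Pv.cons (Pv.varS rfl) (Pv.cons (Pv.varS rfl) (Pv.cons (Pv.varS rfl)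
            (Pv.app (Pv.var rfl) (Pv.zeros eZ))))) e1))))).mono ?_
    have a1 : ((W : ℝ) + 1) ^ 2 ≤ X.length := by exact_mod_cast hG5
    have a2 : (W : ℝ) + 1 ≤ X.length := by
      exact_mod_cast (Nat.le_self_pow two_ne_zero _).trans hG5
    have a3 : (1 : ℝ) ≤ X.length := by exact_mod_cast h0
    have a4 : (Z : ℝ) ≤ X.length := by exact_mod_cast hZ1
    have a5 : (d : ℝ) * (W + 1) ≤ X.length := by
      have : (d : ℝ) ≤ W + 1 := by exact_mod_cast (by omega : d ≤ W + 1)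
      refine le_trans ?_ a1
      rw [sq]; gcongr
    have a6 : (u : ℝ) * (W + 1) ≤ X.length := by
      have : (u : ℝ) ≤ W + 1 := by exact_mod_cast (by omega : u ≤ W + 1)
      refine le_trans ?_ a1
      rw [sq]; gcongr
    have a7 : ((m : ℝ) ^ tauE) ^ d ≤ (u : ℝ) ^ tauE := by
      rw [← Real.rpow_natCast, ← Real.rpow_mul (by positivity), mul_comm,
        Real.rpow_mul (by positivity), Real.rpow_natCast]
      exact Real.rpow_le_rpow (by positivity) (by exact_mod_cast hd1) tauE_nonneg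
    have a8 : 1 ≤ (u : ℝ) ^ tauE := Real.one_le_rpow (by exact_mod_cast hu) tauE_nonneg
    have a9 : (C : ℝ) * (X.length + Z) * ((m : ℝ) ^ tauE) ^ d ≤
        C * (2 * X.length) * (u : ℝ) ^ tauE :=
      mul_le_mul (mul_le_mul_of_nonneg_left (by linarith) (Nat.cast_nonneg _)) a7
        (pow_nonneg (Real.rpow_nonneg (Nat.cast_nonneg _) _) _)
        (mul_nonneg (Nat.cast_nonneg _) (by linarith))
    have a10 : (X.length : ℝ) ≤ X.length * (u : ℝ) ^ tauE := le_mul_of_one_le_right (by linarith) a8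
    have a11 : (0 : ℝ) ≤ (2 * K + m + q + W0 : ℕ) * (X.length * (u : ℝ) ^ tauE) :=
      mul_nonneg (Nat.cast_nonneg _) ((Nat.cast_nonneg _).trans a10)
    have a12 : (z.take X.length).length = X.length := by rw [List.length_take, p1.1]; omega
    simp only [List.length_cons, List.length_nil, List.length_append, List.length_replicate, a12,
      p1.1]
    push_cast at a11 ⊢
    linarith

theorem swap_of_pow (h : PowSpec) (hP : PadSpec) : SwapSpec := by
  obtain ⟨q, tA, CA, hq, hA⟩ := h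
  obtain ⟨tP, tU, CP, hP⟩ := hP
  refine ⟨.lett (.add (logT q (.var 3)) (.const 1)) (.lett (.pow (.const q) (.var 0))
    (.lett (.div (.len (.var 2)) (.mul (.var 3) (.var 5)))
    (.lett (.div (.len (.var 3)) (.mul (.var 5) (.var 6)))
    (.lett (.mul (.div (.var 5) (.var 7)) (.var 2))
    (.call tU [.call tU [.call tA [.call tP [.call tP [.var 5, .var 1, .var 7, .var 8, .var 3],
      .var 2, .var 0, .var 8, .var 3], .var 0, .var 7, .var 4], .var 2, .var 0, .var 8, .var 3],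
      .var 1, .var 7, .var 8, .var 3]))))), (CA + 8 * CP + 40) * q ^ 2 + 5000, 62, ?_⟩
  intro W X lo1 lo2 n hW h1 h2 h0 hbig hlt fn env
  have hq2 : q ≤ q ^ 2 := Nat.le_self_pow two_ne_zero q
  have hq3 : ∀ c, c ≤ CA + 8 * CP + 40 → c * (q ^ 2 * X.length) < 2 ^ W := fun c hc => by
    refine lt_of_le_of_lt ?_ hlt
    rw [← mul_assoc]
    exact Nat.mul_le_mul_right _ ((Nat.mul_le_mul_right _ hc).trans (Nat.le_add_right _ _))
  have hqV : q ^ 2 * X.length < 2 ^ W := by simpa using hq3 1 (by omega)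
  have hVq : X.length ≤ q ^ 2 * X.length := Nat.le_mul_of_pos_left _ (by omega)
  have hV : X.length < 2 ^ W := by omega
  have hqlt : q < 2 ^ W := lt_of_le_of_lt (hq2.trans (Nat.le_mul_of_pos_right _ h0)) hqV
  have hS0 : 0 < lo1 * n := Nat.pos_of_dvd_of_pos h2 h0
  have hlo1 : 0 < lo1 := Nat.pos_of_mul_pos_right hS0
  have hn : 0 < n := Nat.pos_of_mul_pos_left hS0
  have hS2 : 0 < lo2 * n := Nat.pos_of_dvd_of_pos h1 hlo1
  have hlo2 : 0 < lo2 := Nat.pos_of_mul_pos_right hS2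
  have hS : lo1 * n < 2 ^ W := (Nat.le_of_dvd h0 h2).trans_lt hV
  have hS' : lo2 * n < 2 ^ W :=
    ((Nat.le_of_dvd hlo1 h1).trans (Nat.le_mul_of_pos_right _ hn)).trans_lt hS
  have hu1 : n ≤ q ^ (Nat.log q n + 1) := (Nat.lt_pow_succ_log_self (by omega) n).le
  have hu2 : q ^ (Nat.log q n + 1) ≤ q * n := by
    rw [pow_succ']; exact Nat.mul_le_mul_left _ (Nat.pow_log_le_self q hn.ne')
  have hu3 : Nat.log q n + 1 ≤ n.size := Nat.log_lt_of_lt_pow hn.ne'
    ((Nat.lt_size_self n).trans_le (Nat.pow_le_pow_left hq _))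
  have hu4 : n.size ≤ W := Nat.size_le.2 ((Nat.le_mul_of_pos_left _ hlo1).trans_lt hS)
  have hWW : W < 2 ^ W := Nat.lt_two_pow_self
  have eu : Pv W fn (X :: [lo1] :: [lo2] :: [n] :: env) (.add (logT q (.var 3)) (.const 1))
      [Nat.log q n + 1] _ :=
    Pv.add (logT_ev hW hq hqlt (Pv.varS rfl)) (Pv.constS hW (by norm_num)) (by omega)
  have hu0 : 1 ≤ Nat.log q n + 1 := by omega
  have hA' := fun X lo1 => hA W X lo1 lo2 _ hW hu0
  generalize Nat.log q n + 1 = u at *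
  obtain ⟨G, hG⟩ := id h2
  obtain ⟨G2, hG2⟩ := id h1
  rw [mul_comm] at hG hG2
  have hG0 : 0 < G := by rw [hG] at h0; exact Nat.pos_of_mul_pos_right h0
  have hG20 : 0 < G2 := by rw [hG2] at hlo1; exact Nat.pos_of_mul_pos_right hlo1
  have hG1 : (W + 1) ^ 62 ≤ G := by
    rw [hG, mul_comm G] at hbig
    exact Nat.le_of_mul_le_mul_left hbig hS0
  have hG5 : (W + 1) ^ 2 ≤ X.length :=
    ((Nat.pow_le_pow_right (by omega) (by norm_num)).trans hG1).trans
      (by rw [hG]; exact Nat.le_mul_of_pos_right _ hS0)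
  have eQ : Pv W fn ([u] :: X :: [lo1] :: [lo2] :: [n] :: env) (.pow (.const q) (.var 0))
      [q ^ u] _ := Pv.pow hW (Pv.const hqlt) (Pv.varS rfl) (by omega)
    (lt_of_le_of_lt (hu2.trans (Nat.mul_le_mul hq2
      ((Nat.le_mul_of_pos_left _ hlo1).trans (Nat.le_of_dvd h0 h2)))) hqV)
  generalize q ^ u = Q at *
  have hQ : 0 < Q := by omega
  obtain ⟨l1, hl1⟩ : ∃ l1, l1 = G2 * (lo2 * Q) := ⟨_, rfl⟩
  obtain ⟨G', hG'⟩ : ∃ G', G' = G * n * G2 := ⟨_, rfl⟩
  have hl0 : 0 < l1 := by rw [hl1]; positivity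
  have hG'0 : 0 < G' := by rw [hG']; positivity
  have v0 : X.length = G' * (lo2 * n) := by rw [hG, hG', hG2]; ring
  have v1 : G' * (lo2 * Q) = G * (l1 * n) := by rw [hG', hl1]; ring
  have v2 : G * (l1 * n) ≤ G * (l1 * Q) := by gcongr
  have v3 : G * (l1 * Q) ≤ q ^ 2 * X.length :=
    calc G * (l1 * Q) = G * G2 * lo2 * (Q * Q) := by rw [hl1]; ring
      _ ≤ G * G2 * lo2 * (q * n * (q * n)) := by gcongr
      _ = q ^ 2 * X.length := by rw [hG, hG2]; ring
  have d1 : X.length / (lo1 * n) = G := by rw [hG, Nat.mul_div_cancel _ hS0]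
  have d2 : X.length / (lo2 * n) = G' := by rw [v0, Nat.mul_div_cancel _ hS2]
  have d3 : lo1 / n * Q = l1 := by
    rw [hG2, ← mul_assoc, Nat.mul_div_cancel _ hn, hl1, mul_assoc]
  have hl1lt : l1 < 2 ^ W :=
    lt_of_le_of_lt (((Nat.le_mul_of_pos_right _ hQ).trans (Nat.le_mul_of_pos_left _ hG0)).trans v3)
      hqV
  have b1 : G' * (lo2 * Q) < 2 ^ W := lt_of_le_of_lt (v1 ▸ v2.trans v3) hqV
  have b2 : G * (l1 * Q) < 2 ^ W := lt_of_le_of_lt v3 hqV
  generalize hE : [l1] :: [G'] :: [G] :: [Q] :: [u] :: X :: [lo1] :: [lo2] :: [n] :: env = E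
  obtain ⟨X1, ⟨l1', p1⟩, e1⟩ := (hP W X G' lo2 n Q hW hG'0 hlo2 hn hu1 b1).1 v0 fn E
  obtain ⟨X2, ⟨l2', p2⟩, e2⟩ := (hP W X1 G l1 n Q hW hG0 hl0 hn hu1 b2).1 (l1'.trans v1) fn E
  obtain ⟨X3, ⟨l3', p3⟩, e3⟩ := hA' X2 l1 (hl1 ▸ Dvd.intro_left _ rfl)
    (l2' ▸ Dvd.intro_left _ rfl) (by rw [l2']; positivity)
    (by rw [l2', mul_comm G]; exact Nat.mul_le_mul_left _ hG1)
    (lt_of_le_of_lt (Nat.mul_le_mul_left _ (l2' ▸ v3)) (hq3 CA (by omega))) fn E
  rw [l2'] at l3' p3 e3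
  obtain ⟨X4, ⟨l4', p4⟩, e4⟩ := (hP W X3 G l1 n Q hW hG0 hl0 hn hu1 b2).2 l3' fn E
  obtain ⟨X5, ⟨l5', p5⟩, e5⟩ := (hP W X4 G' lo2 n Q hW hG'0 hlo2 hn hu1 b1).2
    (l4'.trans v1.symm) fn E
  refine ⟨X5, ⟨l5'.trans v0.symm, fun a ha => ?_⟩, ?_⟩
  · obtain ⟨x, h, y, r, hx, hh, hy, hr, ha'⟩ := exists_mk hG2 hlo1 a
    have hg : a / (lo1 * n) < G := by rw [Nat.div_lt_iff_lt_mul hS0, ← hG]; exact ha
    generalize a / (lo1 * n) = g at ha' hg
    have m1 : ∀ x, x < n → (g * n + x) * G2 + h < G' := fun x hx => by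
      have := mid_lt hg hx hh
      rw [hG']
      exact this.trans_le (le_of_eq (by ring))
    have m2 : ∀ y, y < n → (h * Q + y) * lo2 + r < l1 := fun y hy =>
      hl1 ▸ mid_lt hh (hy.trans_le hu1) hr
    have f1 : ∀ x y, (g * n + x) * lo1 + ((h * n + y) * lo2 + r) =
        (((g * n + x) * G2 + h) * n + y) * lo2 + r := fun x y => by rw [hG2]; ring
    have f2 : ∀ x y, (((g * n + x) * G2 + h) * Q + y) * lo2 + r =
        (g * n + x) * l1 + ((h * Q + y) * lo2 + r) := fun x y => by rw [hl1]; ring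
    rw [ha', swapDig_mk g hG2 hx hh hy hr, f1, f1, p5 _ (m1 x hx) y hy r hr, f2,
      p4 g hg x hx _ (m2 y hy), p3 _ (mid_lt hg (hx.trans_le hu1) (m2 y hy)),
      swapDig_mk g hl1 (hx.trans_le hu1) hh (hy.trans_le hu1) hr,
      p2 g hg y (hy.trans_le hu1) _ (m2 x hx), if_pos hy, ← f2,
      p1 _ (m1 y hy) x (hx.trans_le hu1) r hr, if_pos hx]
  · subst hE
    refine (Pv.lett eu (Pv.lett eQ
      (Pv.lett (v := [G]) ((Pv.div hW (Pv.len (Pv.var rfl) hV)
        (Pv.mul hW (Pv.varS rfl) (Pv.varS rfl) hS) hS0).cast (by rw [d1]) le_rfl)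
      (Pv.lett (v := [G']) ((Pv.div hW (Pv.len (Pv.var rfl) hV)
        (Pv.mul hW (Pv.varS rfl) (Pv.varS rfl) hS') hS2).cast (by rw [d2]) le_rfl)
      (Pv.lett (v := [l1]) ((Pv.mul hW (Pv.div hW (Pv.varS rfl) (Pv.varS rfl) hn) (Pv.varS rfl)
        (d3 ▸ hl1lt)).cast (by rw [d3]) le_rfl)
      (Pv.call (Pvs.cons (Pv.call (Pvs.cons (Pv.call (Pvs.cons (Pv.call (Pvs.cons
        (Pv.call (Pvs.cons (Pv.var rfl) (Pvs.cons (Pv.varS rfl) (Pvs.cons (Pv.varS rfl)
          (Pvs.cons (Pv.varS rfl) (Pvs.cons (Pv.varS rfl) Pvs.nil))))) e1)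
        (Pvs.cons (Pv.varS rfl) (Pvs.cons (Pv.varS rfl)
          (Pvs.cons (Pv.varS rfl) (Pvs.cons (Pv.varS rfl) Pvs.nil))))) e2)
        (Pvs.cons (Pv.varS rfl) (Pvs.cons (Pv.varS rfl) (Pvs.cons (Pv.varS rfl) Pvs.nil)))) e3)
        (Pvs.cons (Pv.varS rfl) (Pvs.cons (Pv.varS rfl)
          (Pvs.cons (Pv.varS rfl) (Pvs.cons (Pv.varS rfl) Pvs.nil))))) e4)
        (Pvs.cons (Pv.varS rfl) (Pvs.cons (Pv.varS rfl)
          (Pvs.cons (Pv.varS rfl) (Pvs.cons (Pv.varS rfl) Pvs.nil))))) e5)))))).mono ?_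
    have a1 : ((W : ℝ) + 1) ^ 2 ≤ X.length := by exact_mod_cast hG5
    have a2 : (W : ℝ) + 1 ≤ X.length := by
      exact_mod_cast (Nat.le_self_pow two_ne_zero _).trans hG5
    have a3 : (1 : ℝ) ≤ X.length := by exact_mod_cast h0
    have a6 : (u : ℝ) * (W + 1) ≤ X.length := by
      have : (u : ℝ) ≤ W + 1 := by exact_mod_cast (hu3.trans hu4).trans (Nat.le_succ W)
      refine le_trans ?_ a1
      rw [sq]; gcongr
    have a7 : (u : ℝ) ^ tauE ≤ ((n.size : ℝ) + 1) ^ tauE :=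
      Real.rpow_le_rpow (by positivity) (by exact_mod_cast hu3.trans (Nat.le_succ _)) tauE_nonneg
    have a8 : 1 ≤ ((n.size : ℝ) + 1) ^ tauE :=
      Real.one_le_rpow (le_add_of_nonneg_left (by positivity)) tauE_nonneg
    have c0 : (X.length : ℝ) ≤ (q ^ 2 * X.length : ℕ) := by exact_mod_cast hVq
    have c1 : ((G' * (lo2 * Q) : ℕ) : ℝ) ≤ (q ^ 2 * X.length : ℕ) := by
      exact_mod_cast v1 ▸ v2.trans v3
    have c2 : ((G * (l1 * Q) : ℕ) : ℝ) ≤ (q ^ 2 * X.length : ℕ) := by exact_mod_cast v3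
    have c3 : ((G * (l1 * n) : ℕ) : ℝ) ≤ (q ^ 2 * X.length : ℕ) := by exact_mod_cast v2.trans v3
    have c4 : (CP : ℝ) * (G' * (lo2 * Q) + W + 1) ≤ CP * (2 * (q ^ 2 * X.length : ℕ)) := by
      push_cast at c0 c1 ⊢
      gcongr; linarith
    have c5 : (CP : ℝ) * (G * (l1 * Q) + W + 1) ≤ CP * (2 * (q ^ 2 * X.length : ℕ)) := by
      push_cast at c0 c2 ⊢
      gcongr; linarith
    have c6 : (CA : ℝ) * ((G * (l1 * Q) : ℕ) * (u : ℝ) ^ tauE) ≤
        CA * ((q ^ 2 * X.length : ℕ) * ((n.size : ℝ) + 1) ^ tauE) := by gcongr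
    have c7 : ((8 * CP + 40) * (q ^ 2 * X.length : ℕ) + 5000 * X.length : ℝ) ≤
        ((8 * CP + 40) * (q ^ 2 * X.length : ℕ) + 5000 * X.length) * ((n.size : ℝ) + 1) ^ tauE :=
      le_mul_of_one_le_right (by positivity) a8
    simp only [List.length_cons, List.length_nil, l1', l2', l3', l4', l5', ← v0]
    push_cast at c0 c1 c2 c3 c4 c5 c6 c7 ⊢
    linarith

end Swap

theorem swap_spec (hX : XNetSpec) (hE : ExecSpec) (hAlg : SwapAlgSpec) (hA : AddDigSpec)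
    (hN : NegDigSpec) (hS : ScaleSpec) (hSN : SwapNaiveSpec) (hP : PadSpec) : SwapSpec :=
  Swap.swap_of_pow (Swap.pow_spec (Swap.core_spec (Swap.step_spec hX hE hAlg hA hN hS) hSN)) hP

end Crest.Agent.R326
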