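import Crest.Agent.R326.SpecA

/-!
# Shears and the interchange as words in elementary operations
-/

set_option autoImplicit false

namespace Crest.Agent.R326

namespace SwapAlg

open Function Finset

variable {m : ℕ}

theorem wsem_append (M : ℕ) (w w' : List (EOp m)) (v : Fin m ⊕ Fin m → ZMod M) :
    wsem M (w ++ w') v = wsem M w (wsem M w' v) := by
  simp [wsem, List.foldr_append]

/-- admissible words without interchange -/
def Flat (w : List (EOp m)) : Prop := ∀ o ∈ w, o.ok ∧ o.isSwap = false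

/-- admissible words without interchange and without scalars -/
def Good (w : List (EOp m)) : Prop := ∀ o ∈ w, o.ok ∧ o.isSwap = false ∧ ∀ M, o.unit M

theorem Good.flat {w : List (EOp m)} (h : Good w) : Flat w := fun o ho => ⟨(h o ho).1, (h o ho).2.1⟩

theorem Good.append {w w' : List (EOp m)} (h : Good w) (h' : Good w') : Good (w ++ w') :=
  fun o ho => (List.mem_append.1 ho).elim (h o) (h' o)

theorem Flat.append {w w' : List (EOp m)} (h : Flat w) (h' : Flat w') : Flat (w ++ w') :=
  fun o ho => (List.mem_append.1 ho).elim (h o) (h' o)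

theorem Flat.count {w : List (EOp m)} (h : Flat w) : w.countP EOp.isSwap = 0 :=
  List.countP_eq_zero.2 fun o ho => by simp [(h o ho).2]

theorem ne_of_rank {i j : Fin m ⊕ Fin m} (h : rank i < rank j) : j ≠ i := fun e => by
  rw [e] at h; exact lt_irrefl _ h

theorem addZ {i j : Fin m ⊕ Fin m} (h : rank i < rank j) (c : ℤ) : ∃ w : List (EOp m), Good w ∧
    ∀ M v, wsem M w v = update v i (v i + (c : ZMod M) * v j) := by
  have hne := ne_of_rank h
  obtain ⟨n, rfl | rfl⟩ := Int.eq_nat_or_neg c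
  · refine ⟨[.add i j n], ?_, fun M v => ?_⟩
    · simp [Good, EOp.ok, EOp.isSwap, EOp.unit, h]
    · simp [wsem, EOp.sem]
  · refine ⟨[.neg i, .add i j n, .neg i], ?_, fun M v => ?_⟩
    · simp [Good, EOp.ok, EOp.isSwap, EOp.unit, h]
    · simp only [wsem, EOp.sem, List.foldr_cons, List.foldr_nil, update_self, update_idem,
        update_of_ne hne]
      congr 1
      push_cast
      ring

theorem rowop (i : Fin m ⊕ Fin m) (c : Fin m → ℤ) (s : Finset (Fin m))
    (h : ∀ j ∈ s, rank i < rank (Sum.inr j : Fin m ⊕ Fin m)) : ∃ w : List (EOp m), Good w ∧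
    ∀ M v, wsem M w v = update v i (v i + ∑ j ∈ s, (c j : ZMod M) * v (.inr j)) := by
  induction s using Finset.induction_on with
  | empty => exact ⟨[], by simp [Good], fun M v => by simp [wsem]⟩
  | insert j s hj ih =>
    obtain ⟨w, hw, e⟩ := ih fun j' hj' => h j' (mem_insert_of_mem hj')
    have hr := h j (mem_insert_self _ _)
    obtain ⟨w', hw', e'⟩ := addZ hr (c j)
    refine ⟨w' ++ w, hw'.append hw, fun M v => ?_⟩
    rw [wsem_append, e, e', update_self, update_idem, update_of_ne (ne_of_rank hr), sum_insert hj]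
    congr 1
    ring

/-- independent updates of several digits -/
theorem par (φ : ∀ M : ℕ, (Fin m ⊕ Fin m) → (Fin m ⊕ Fin m → ZMod M) → ZMod M)
    (s : Finset (Fin m ⊕ Fin m))
    (hw : ∀ i ∈ s, ∃ w : List (EOp m), Good w ∧ ∀ M v, wsem M w v = update v i (φ M i v))
    (hφ : ∀ M, ∀ i ∈ s, ∀ i' ∈ s, i ≠ i' → ∀ v a, φ M i (update v i' a) = φ M i v) :
    ∃ w : List (EOp m), Good w ∧
      ∀ M v, wsem M w v = fun i => if i ∈ s then φ M i v else v i := by
  induction s using Finset.induction_on with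
  | empty => exact ⟨[], by simp [Good], fun M v => by simp [wsem]⟩
  | insert j s hj ih =>
    obtain ⟨w, hw1, e⟩ := ih (fun i hi => hw i (mem_insert_of_mem hi))
      fun M i hi i' hi' => hφ M i (mem_insert_of_mem hi) i' (mem_insert_of_mem hi')
    obtain ⟨w', hw', e'⟩ := hw j (mem_insert_self _ _)
    refine ⟨w ++ w', hw1.append hw', fun M v => ?_⟩
    rw [wsem_append, e', e]
    funext i
    by_cases hi : i ∈ s
    · have hne : i ≠ j := fun h => hj (h ▸ hi)
      rw [if_pos hi, if_pos (mem_insert_of_mem hi),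
        hφ M i (mem_insert_of_mem hi) j (mem_insert_self _ _) hne]
    · by_cases hij : i = j
      · subst hij
        rw [if_neg hi, if_pos (mem_insert_self _ _), update_self]
      · rw [if_neg hi, if_neg (by simp [hi, hij]), update_of_ne hij]

theorem colop (k : Fin m) (c : Fin m → ℤ) (h : ∀ i, c i ≠ 0 → i < k) :
    ∃ w : List (EOp m), Good w ∧ ∀ M v, wsem M w v =
      Sum.elim (fun i => v (.inl i) + (c i : ZMod M) * v (.inl k)) (fun j => v (.inr j)) := by
  obtain ⟨w, hw, e⟩ := par (fun M i v => v i + (Sum.elim c 0 i : ℤ) * v (.inl k))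
    ((univ.filter fun i => c i ≠ 0).map Embedding.inl) (fun i hi => by
      obtain ⟨i, hi1, rfl⟩ := mem_map.1 hi
      have := h i (mem_filter.1 hi1).2
      exact addZ (by simpa [rank] using this) _) (fun M i _ i' hi' hne v a => by
      obtain ⟨i', hi1, rfl⟩ := mem_map.1 hi'
      have := h i' (mem_filter.1 hi1).2
      have h2 : (Sum.inl k : Fin m ⊕ Fin m) ≠ Embedding.inl i' := by
        simpa using this.ne'
      simp only [update_of_ne hne, update_of_ne h2])
  refine ⟨w, hw, fun M v => ?_⟩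
  rw [e]
  funext z
  rcases z with i | j
  · by_cases hi : c i = 0 <;> simp [hi]
  · simp

theorem mulZ (i : Fin m ⊕ Fin m) {c : ℤ} (hc : c ≠ 0) : ∃ w : List (EOp m), Flat w ∧
    ∀ M v, wsem M w v = update v i ((c : ZMod M) * v i) := by
  obtain ⟨n, rfl | rfl⟩ := Int.eq_nat_or_neg c
  · refine ⟨[.mul i n], ?_, fun M v => ?_⟩
    · simpa [Flat, EOp.ok, EOp.isSwap, Nat.pos_iff_ne_zero] using hc
    · simp [wsem, EOp.sem]
  · refine ⟨[.neg i, .mul i n], ?_, fun M v => ?_⟩
    · simpa [Flat, EOp.ok, EOp.isSwap, Nat.pos_iff_ne_zero] using hc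
    · simp [wsem, EOp.sem]

theorem divZ (i : Fin m ⊕ Fin m) {c : ℤ} (hc : c ≠ 0) : ∃ w : List (EOp m), Flat w ∧
    ∀ M, (∀ o ∈ w, o.unit M) → ∃ c' : ZMod M, c' * c = 1 ∧
      ∀ v, wsem M w v = update v i (c' * v i) := by
  obtain ⟨n, rfl | rfl⟩ := Int.eq_nat_or_neg c
  · refine ⟨[.div i n], ?_, fun M hM => ⟨(n : ZMod M)⁻¹, ?_, fun v => ?_⟩⟩
    · simpa [Flat, EOp.ok, EOp.isSwap, Nat.pos_iff_ne_zero] using hc
    · have : Nat.Coprime n M := hM (.div i n) (by simp)
      rw [mul_comm]
      simpa using ZMod.coe_mul_inv_eq_one n this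
    · simp [wsem, EOp.sem]
  · refine ⟨[.neg i, .div i n], ?_, fun M hM => ⟨-(n : ZMod M)⁻¹, ?_, fun v => ?_⟩⟩
    · simpa [Flat, EOp.ok, EOp.isSwap, Nat.pos_iff_ne_zero] using hc
    · have : Nat.Coprime n M := hM (.div i n) (by simp)
      rw [mul_comm]
      simpa using ZMod.coe_mul_inv_eq_one n this
    · simp [wsem, EOp.sem]

/-- `x k += y l` with one interchange -/
def tw (k l : Fin m) : List (EOp m) :=
  [.add (.inr l) (.inl k) 1, .neg (.inr l), .swap k l, .add (.inr l) (.inl k) 1]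

theorem tw_ok (k l : Fin m) : ∀ o ∈ tw k l, o.ok := by
  have : (l : ℕ) < m + k := by omega
  simp [tw, EOp.ok, rank, this]

theorem tw_count (k l : Fin m) : (tw k l).countP EOp.isSwap = 1 := by
  simp [tw, EOp.isSwap, List.countP_cons]

theorem tw_sem (k l : Fin m) (M : ℕ) (v : Fin m ⊕ Fin m → ZMod M) :
    wsem M (tw k l) v = update v (.inl k) (v (.inl k) + v (.inr l)) := by
  funext z
  rcases z with i | j
  · by_cases hi : i = k
    · subst hi; simp [tw, wsem, EOp.sem, add_comm]
    · simp [tw, wsem, EOp.sem, hi]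
  · by_cases hj : j = l
    · subst hj; simp [tw, wsem, EOp.sem]
    · simp [tw, wsem, EOp.sem, hj]

/-- `x k += D⁻¹ b · y` with one interchange -/
theorem stageY {D : ℕ} (hD : 0 < D) (k : Fin m) {b : Fin m → ℤ} (hb : b ≠ 0) :
    ∃ w : List (EOp m), (∀ o ∈ w, o.ok) ∧ w.countP EOp.isSwap ≤ 1 ∧
      ∀ M : ℕ, (∀ o ∈ w, o.unit M) → Nat.Coprime D M → ∀ v, wsem M w v =
        update v (.inl k) (v (.inl k) + (D : ZMod M)⁻¹ * ∑ j, (b j : ZMod M) * v (.inr j)) := by
  have hne : (univ.filter fun j => b j ≠ 0).Nonempty := by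
    obtain ⟨j, hj⟩ := Function.ne_iff.1 hb
    exact ⟨j, by simpa using hj⟩
  obtain ⟨l, hl, hmin⟩ := exists_min_image _ id hne
  have hbl : b l ≠ 0 := (mem_filter.1 hl).2
  set s := (univ.filter fun j => b j ≠ 0).erase l with hs
  have hls : l ∉ s := notMem_erase _ _
  have hr : ∀ j ∈ s, rank (Sum.inr l : Fin m ⊕ Fin m) < rank (Sum.inr j : Fin m ⊕ Fin m) := by
    intro j hj
    have h1 := hmin j (mem_of_mem_erase hj)
    have h2 := ne_of_mem_erase hj
    exact lt_of_le_of_ne h1 fun e => h2 (Fin.ext e.symm)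
  obtain ⟨p1, hp1, e1⟩ := mulZ (.inr l) hbl
  obtain ⟨p2, hp2, e2⟩ := rowop (.inr l) b s hr
  obtain ⟨q2, hq2, f2⟩ := rowop (.inr l) (-b) s hr
  obtain ⟨q1, hq1, f1⟩ := divZ (.inr l) hbl
  have hp3 : Flat [EOp.div (.inr l) D] := by simp [Flat, EOp.ok, EOp.isSwap, hD]
  have hq3 : Flat [EOp.mul (.inr l) D] := by simp [Flat, EOp.ok, EOp.isSwap, hD]
  have hP := (hp3.append hp2.flat).append hp1
  have hQ := (hq1.append hq2.flat).append hq3
  refine ⟨(q1 ++ q2 ++ [EOp.mul (.inr l) D]) ++ tw k l ++ ([EOp.div (.inr l) D] ++ p2 ++ p1),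
    fun o ho => ?_, ?_, fun M hM hDM v => ?_⟩
  · rcases List.mem_append.1 ho with ho | ho
    · rcases List.mem_append.1 ho with ho | ho
      · exact (hQ o ho).1
      · exact tw_ok k l o ho
    · exact (hP o ho).1
  · rw [List.countP_append, List.countP_append, hP.count, hQ.count, tw_count]
  · obtain ⟨c', hc', f1⟩ := f1 M fun o ho => hM o (by simp [ho])
    have hD' : (D : ZMod M) * (D : ZMod M)⁻¹ = 1 := ZMod.coe_mul_inv_eq_one D hDM
    have hsum : ∀ (c : Fin m → ℤ) (v : Fin m ⊕ Fin m → ZMod M) (a : ZMod M),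
        ∑ j ∈ s, (c j : ZMod M) * update v (.inr l) a (.inr j) =
          ∑ j ∈ s, (c j : ZMod M) * v (.inr j) := fun c v a =>
      sum_congr rfl fun j hj => by rw [update_of_ne (ne_of_rank (hr j hj))]
    have hsum' : ∀ (c : Fin m → ℤ) (v : Fin m ⊕ Fin m → ZMod M) (a : ZMod M),
        ∑ j ∈ s, (c j : ZMod M) * update v (.inl k) a (.inr j) =
          ∑ j ∈ s, (c j : ZMod M) * v (.inr j) := fun c v a =>
      sum_congr rfl fun j _ => by rw [update_of_ne (by simp)]
    have htot : ∑ j, (b j : ZMod M) * v (.inr j) =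
        b l * v (.inr l) + ∑ j ∈ s, (b j : ZMod M) * v (.inr j) := by
      rw [hs, add_sum_erase _ (fun j => (b j : ZMod M) * v (.inr j)) hl]
      refine (sum_subset (subset_univ _) fun j _ hj => ?_).symm
      have : b j = 0 := by simpa using hj
      simp [this]
    have hneg : ∑ j ∈ s, ((-b) j : ZMod M) * v (.inr j) = -∑ j ∈ s, (b j : ZMod M) * v (.inr j) := by
      rw [← sum_neg_distrib]
      exact sum_congr rfl fun j _ => by simp
    have hkl : (Sum.inl k : Fin m ⊕ Fin m) ≠ .inr l := by simp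
    have s1 : ∀ (o : EOp m) (v : Fin m ⊕ Fin m → ZMod M), wsem M [o] v = o.sem M v := fun _ _ => rfl
    simp only [wsem_append, s1, EOp.sem, e1, e2, f1, f2, tw_sem, update_self, update_idem, hsum,
      update_of_ne hkl, update_of_ne hkl.symm]
    rw [update_comm hkl.symm, update_idem]
    simp only [hsum, hsum']
    rw [htot, hneg, update_comm hkl]
    congr 1
    rw [update_eq_self_iff]
    linear_combination (c' * (b l * v (.inr l) + ∑ j ∈ s, (b j : ZMod M) * v (.inr j))) * hD'
      + v (.inr l) * hc'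

theorem part1 {D : ℕ} (hD : 0 < D) (a b : Fin m → ℤ) :
    ∃ w : List (EOp m), (∀ o ∈ w, o.ok) ∧ w.countP EOp.isSwap ≤ 1 ∧
      ∀ M : ℕ, (∀ o ∈ w, o.unit M) → Nat.Coprime D M →
        wsem M w = shearM M D (Matrix.vecMulVec a b) := by
  by_cases h0 : a = 0 ∨ b = 0
  · refine ⟨[], by simp, by simp, fun M _ _ => ?_⟩
    funext v z
    rcases h0 with rfl | rfl <;> rcases z with i | j <;> simp [wsem, shearM]
  push Not at h0
  obtain ⟨ha, hb⟩ := h0
  have hne : (univ.filter fun j => a j ≠ 0).Nonempty := by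
    obtain ⟨j, hj⟩ := Function.ne_iff.1 ha
    exact ⟨j, by simpa using hj⟩
  obtain ⟨k, hk, hmax⟩ := exists_max_image _ id hne
  have hak : a k ≠ 0 := (mem_filter.1 hk).2
  have hlt : ∀ i, update a k 0 i ≠ 0 → i < k := by
    intro i hi
    have h1 : i ≠ k := fun e => hi (by rw [e, update_self])
    rw [update_of_ne h1] at hi
    exact lt_of_le_of_ne (hmax i (by simpa using hi)) h1
  obtain ⟨t, ht, hc, et⟩ := stageY hD k hb
  obtain ⟨p1, hp1, e1⟩ := divZ (.inl k) hak
  obtain ⟨p2, hp2, e2⟩ := colop k (-update a k 0) fun i hi => hlt i (by simpa using hi)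
  obtain ⟨q2, hq2, f2⟩ := colop k (update a k 0) hlt
  obtain ⟨q1, hq1, f1⟩ := mulZ (.inl k) hak
  have hP := hp2.flat.append hp1
  have hQ := hq1.append hq2.flat
  refine ⟨(q1 ++ q2) ++ t ++ (p2 ++ p1), fun o ho => ?_, ?_, fun M hM hDM => ?_⟩
  · rcases List.mem_append.1 ho with ho | ho
    · rcases List.mem_append.1 ho with ho | ho
      · exact (hQ o ho).1
      · exact ht o ho
    · exact (hP o ho).1
  · rw [List.countP_append, List.countP_append, hP.count, hQ.count]
    omega
  · obtain ⟨c', hc', e1⟩ := e1 M fun o ho => hM o (by simp [ho])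
    have et := et M (fun o ho => hM o (by simp [ho])) hDM
    funext v z
    simp only [wsem_append, e1, e2, et, f2, f1]
    have hs : ∀ i, ∑ j, ((a i * b j : ℤ) : ZMod M) * v (.inr j) =
        a i * ∑ j, (b j : ZMod M) * v (.inr j) := fun i => by
      rw [mul_sum]
      exact sum_congr rfl fun j _ => by push_cast; ring
    rcases z with i | j
    · by_cases hi : i = k
      · subst hi
        simp only [shearM, Matrix.vecMulVec_apply, hs, update_self, Sum.elim_inl, Sum.elim_inr,
          Pi.neg_apply, ne_eq, reduceCtorEq, not_false_eq_true, update_of_ne]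
        push_cast
        linear_combination v (.inl i) * hc'
      · have hi' : (Sum.inl i : Fin m ⊕ Fin m) ≠ .inl k := by simpa using hi
        simp only [shearM, Matrix.vecMulVec_apply, hs, update_self, Sum.elim_inl, Sum.elim_inr,
          Pi.neg_apply, ne_eq, reduceCtorEq, not_false_eq_true, update_of_ne, hi, hi']
        push_cast
        ring
    · simp [shearM]

/-- `y += c x` -/
theorem diagAdd (c : ℤ) : ∃ w : List (EOp m), Good w ∧ ∀ M v, wsem M w v =
    Sum.elim (fun i => v (.inl i)) (fun j => v (.inr j) + (c : ZMod M) * v (.inl j)) := by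
  obtain ⟨w, hw, e⟩ := par (fun M i v => v i + (c : ZMod M) * v i.swap)
    ((univ : Finset (Fin m)).map Embedding.inr) (fun i hi => by
      obtain ⟨i, -, rfl⟩ := mem_map.1 hi
      have : (i : ℕ) < m + i := by have := i.pos; omega
      exact addZ (by simpa [rank] using this) _) (fun M i hi i' hi' hne v a => by
      obtain ⟨i, -, rfl⟩ := mem_map.1 hi
      obtain ⟨i', -, rfl⟩ := mem_map.1 hi'
      have h2 : (Embedding.inr i : Fin m ⊕ Fin m).swap ≠ Embedding.inr i' := by simp
      simp only [update_of_ne hne, update_of_ne h2])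
  refine ⟨w, hw, fun M v => ?_⟩
  rw [e]
  funext z
  rcases z with i | j <;> simp

/-- `y ↦ -y` -/
theorem diagNeg : ∃ w : List (EOp m), Good w ∧ ∀ M v, wsem M w v =
    Sum.elim (fun i => v (.inl i)) (fun j => -v (.inr j)) := by
  obtain ⟨w, hw, e⟩ := par (fun M i v => -v i)
    ((univ : Finset (Fin m)).map Embedding.inr) (fun i _ =>
      ⟨[.neg i], by simp [Good, EOp.ok, EOp.isSwap, EOp.unit], fun M v => rfl⟩)
    (fun M i _ i' _ hne v a => by simp only [update_of_ne hne])
  refine ⟨w, hw, fun M v => ?_⟩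
  rw [e]
  funext z
  rcases z with i | j <;> simp

end SwapAlg

open SwapAlg in
theorem swapAlg_spec : SwapAlgSpec := by
  intro m D hD
  refine ⟨part1 hD, ?_⟩
  obtain ⟨p, hp, e⟩ := diagAdd (m := m) (-1)
  obtain ⟨q, hq, f⟩ := diagNeg (m := m)
  refine ⟨q ++ p, p, (hq.append hp).append hp, fun M hDM v => ?_⟩
  have hD' : (D : ZMod M) * (D : ZMod M)⁻¹ = 1 := ZMod.coe_mul_inv_eq_one D hDM
  have hs : ∀ (i : Fin m) (y : Fin m → ZMod M),
      ∑ j, (((D • (1 : Matrix (Fin m) (Fin m) ℤ)) i j : ℤ) : ZMod M) * y j = D * y i := by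
    intro i y
    rw [Finset.sum_eq_single i]
    · simp
    · intro j _ hj
      simp [Matrix.one_apply_ne hj.symm]
    · simp
  funext z
  rw [wsem_append, f, e, e]
  rcases z with i | j
  · simp only [shearM, Sum.elim_inl, Sum.elim_inr, hs, Function.comp_apply, Sum.swap_inl]
    push_cast
    linear_combination (v (.inr i) - v (.inl i)) * hD'
  · simp only [shearM, Sum.elim_inl, Sum.elim_inr, hs, Function.comp_apply, Sum.swap_inr]
    push_cast
    linear_combination (v (.inr j) - v (.inl j)) * hD'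

end Crest.Agent.R326
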