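import Crest.Agent.R326.Approx

/-!
# The seven tables of the word for the transform of order `s`
-/

set_option autoImplicit false

namespace Crest.Agent.R326

open Finset

namespace Tb

variable {W : ℕ} {h p : ℕ}

/-- approximation at all addresses -/
abbrev AppT (h p e V : ℕ) (X : List ℕ) (x : ℕ → ℂ) : Prop := App h p e V (fun _ => True) X x

theorem app_map {e N : ℕ} {f : ℕ → ℕ} {z : ℕ → ℂ}
    (hf : ∀ i < N, f i < Qm h ∧ Lv h p e (f i) (z i)) :
    AppT h p e N ((List.range N).map f) z := by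
  refine ⟨by simp, fun r hr => ?_, fun a ha _ => ?_⟩
  · obtain ⟨i, hi, rfl⟩ := List.mem_map.1 hr
    exact (hf i (List.mem_range.1 hi)).1
  · rw [getD_map_range _ ha]; exact (hf a ha).2

theorem app_lt {e V : ℕ} {X : List ℕ} {x : ℕ → ℂ} (H : AppT h p e V X x) (i : ℕ) :
    X.getD i 0 < Qm h := getD_lt (Qm_pos h) H.2.1 i

theorem app_get {e V : ℕ} {X : List ℕ} {x : ℕ → ℂ} (H : AppT h p e V X x) {i : ℕ} (hi : i < V) :
    X.getD i 0 < Qm h ∧ Lv h p e (X.getD i 0) (x i) := ⟨app_lt H i, H.2.2 i hi trivial⟩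

theorem pow_lt_Qm {k : ℕ} (hk : k ≤ 2 * h) : 2 ^ k < Qm h :=
  Nat.lt_succ_of_le (Nat.pow_le_pow_right (by norm_num) hk)

theorem mu_le (W : ℕ) : mu W ≤ (W : ℝ) + 1 := by
  have := Real.rpow_le_rpow_of_exponent_le (x := (W : ℝ) + 1)
    (by linarith [Nat.cast_nonneg (α := ℝ) W]) (show (3 / 5 : ℝ) ≤ 1 by norm_num)
  rwa [Real.rpow_one] at this

theorem lv_inv_two_pow {k : ℕ} (hk : k ≤ p) : Lv h p 0 (2 ^ (p - k)) (1 / 2 ^ k) := by
  refine ⟨(Ap.inv_two_pow hk).mono (by simp), ?_⟩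
  have : (1 : ℝ) ≤ 2 ^ k := one_le_pow₀ (by norm_num)
  simpa using inv_le_one_of_one_le₀ this

/-- a table whose entries cost `O(B ^ 2)` -/
theorem tab_cost {N : ℕ} {B c0 c D : ℝ} (hB : 1 ≤ B) (hN : (N : ℝ) ≤ B) (h0 : c0 ≤ 30)
    (hD : 0 ≤ D) (hc : c ≤ D * B ^ 2) : c0 + N * (c + 33) + 20 ≤ (D + 100) * B ^ 3 := by
  have h1 : B ≤ B ^ 3 := le_self_pow₀ hB (by norm_num)
  have h2 : (N : ℝ) * (c + 33) ≤ B * (D * B ^ 2 + 33) := by
    have : (0 : ℝ) ≤ N := by positivity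
    calc (N : ℝ) * (c + 33) ≤ N * (D * B ^ 2 + 33) := by gcongr
      _ ≤ _ := by gcongr
  nlinarith

/-! ### the chirp and its inverse -/

/-- the chirp -/
def tU : Tm := .tab (.var 2)
  (.nth (.var 1) (.mod (.mul (.var 0) (.var 0)) (.add (.var 2) (.var 2))))

/-- the inverse of the chirp -/
def tV : Tm := .tab (.var 2)
  (.nth (.var 1) (.mod (.sub (.add (.var 2) (.var 2))
    (.mod (.mul (.var 0) (.var 0)) (.add (.var 2) (.var 2)))) (.add (.var 2) (.var 2))))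

theorem chirp_eq {s : ℕ} (hs : 0 < s) (j : ℕ) :
    ee ((j * j % (s + s) : ℕ) : ℤ) (s + s) = chirp s j := by
  rw [chirp, two_mul]
  apply ee_congr (by omega)
  rw [pow_two]
  exact Int.natCast_modEq_iff.2 (Nat.mod_modEq _ _)

theorem chirp_inv_eq {s : ℕ} (hs : 0 < s) (j : ℕ) :
    ee (((s + s - j * j % (s + s)) % (s + s) : ℕ) : ℤ) (s + s) = (chirp s j)⁻¹ := by
  rw [← chirp_eq hs, ← ee_neg]
  apply ee_congr (by omega)
  refine (Int.natCast_modEq_iff.2 (Nat.mod_modEq _ _)).trans ?_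
  rw [Nat.cast_sub (Nat.mod_lt _ (by omega)).le]
  exact Int.modEq_iff_dvd.2 ⟨-1, by ring⟩

theorem does_U {Om : List ℕ} {s N : ℕ} {B : ℝ} (hW : 8 ≤ W) (hs : 0 < s) (hsN : s + s ≤ N)
    (hNW : N * N < 2 ^ W) (hN : (N : ℝ) ≤ B) (hWB : (W : ℝ) + 1 ≤ B)
    (H : AppT h p 2 (s + s) Om fun m => ee m (s + s)) :
    Does W tU [Om, [s], [N]] (3000 * B ^ 3) fun Y => AppT h p 2 N Y (chirp s) := by
  intro fn env
  have r0 : (8 : ℝ) ≤ W := by exact_mod_cast hW
  have r1 : (Om.length : ℝ) ≤ B := by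
    rw [H.1]; exact le_trans (by exact_mod_cast hsN) hN
  have r2 : B ≤ B ^ 2 := le_self_pow₀ (by linarith) (by norm_num)
  have hss : s + s < 2 ^ W := by nlinarith
  refine ⟨(List.range N).map fun j => Om.getD (j * j % (s + s)) 0, app_map fun j _ => ?_, ?_⟩
  · rw [← chirp_eq hs]
    exact app_get H (Nat.mod_lt _ (by omega))
  · refine (Pv.tab (Pv.varS rfl) fun j hj => ?_).mono
      ((tab_cost (D := 2900) (by linarith) hN (by norm_num) (by norm_num) le_rfl).trans (by norm_num))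
    have hj2 : j * j < 2 ^ W := lt_of_le_of_lt (Nat.mul_le_mul hj.le hj.le) hNW
    have r3 : ((j * j % (s + s) : ℕ) : ℝ) ≤ B := by
      refine le_trans ?_ hN
      exact_mod_cast (Nat.mod_lt _ (by omega)).le.trans hsN
    apply Pv.cast
    · pv <;> omega
    · rfl
    · linarith

theorem does_V {Om : List ℕ} {s N : ℕ} {B : ℝ} (hW : 8 ≤ W) (hs : 0 < s) (hsN : s + s ≤ N)
    (hNW : N * N < 2 ^ W) (hN : (N : ℝ) ≤ B) (hWB : (W : ℝ) + 1 ≤ B)
    (H : AppT h p 2 (s + s) Om fun m => ee m (s + s)) :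
    Does W tV [Om, [s], [N]] (3000 * B ^ 3) fun Y => AppT h p 2 N Y fun j => (chirp s j)⁻¹ := by
  intro fn env
  have r0 : (8 : ℝ) ≤ W := by exact_mod_cast hW
  have r1 : (Om.length : ℝ) ≤ B := by
    rw [H.1]; exact le_trans (by exact_mod_cast hsN) hN
  have r2 : B ≤ B ^ 2 := le_self_pow₀ (by linarith) (by norm_num)
  have hss : s + s < 2 ^ W := by nlinarith
  refine ⟨(List.range N).map fun j => Om.getD ((s + s - j * j % (s + s)) % (s + s)) 0,
    app_map fun j _ => ?_, ?_⟩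
  · rw [← chirp_inv_eq hs]
    exact app_get H (Nat.mod_lt _ (by omega))
  · refine (Pv.tab (Pv.varS rfl) fun j hj => ?_).mono
      ((tab_cost (D := 2900) (by linarith) hN (by norm_num) (by norm_num) le_rfl).trans (by norm_num))
    have hj2 : j * j < 2 ^ W := lt_of_le_of_lt (Nat.mul_le_mul hj.le hj.le) hNW
    have r3 : (((s + s - j * j % (s + s)) % (s + s) : ℕ) : ℝ) ≤ B := by
      refine le_trans ?_ hN
      exact_mod_cast (Nat.mod_lt _ (by omega)).le.trans hsN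
    apply Pv.cast
    · pv <;> omega
    · rfl
    · linarith

/-! ### rounded products -/

/-- the specification of the rounded product -/
def MulR (tR : Tm) (C : ℕ) : Prop := ∀ (W x y h p : ℕ), 8 ≤ W → x < Qm h → y < Qm h →
  1 ≤ p → p + 1 ≤ h → 4 * h + 16 ≤ W →
  Does W tR [[x], [y], [h], [p]] (C * mu W) (· = [mulRound h p x y])

theorem MulR.pv {tR : Tm} {C x y : ℕ} {B : ℝ} (H : MulR tR C) (hW : 8 ≤ W) (hx : x < Qm h)
    (hy : y < Qm h) (hp : 1 ≤ p) (hh : p + 1 ≤ h) (hhW : 4 * h + 16 ≤ W) (hWB : (W : ℝ) + 1 ≤ B)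
    (fn : Option Tm) (env : Env) :
    Pv W fn ([[x], [y], [h], [p]] ++ env) tR [mulRound h p x y] (C * B) := by
  obtain ⟨Y, rfl, hY⟩ := H W x y h p hW hx hy hp hh hhW fn env
  exact hY.mono (mul_le_mul_of_nonneg_left ((mu_le W).trans hWB) (by positivity))

/-- a table times a scalar -/
def tS (tR : Tm) : Tm := .tab (.var 2) (.call tR [.nth (.var 1) (.var 0), .var 2, .var 4, .var 5])

theorem does_S {tR : Tm} {C : ℕ} (H : MulR tR C) {A : List ℕ} {y N V e e' : ℕ} {x : ℕ → ℂ} {z : ℂ}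
    {B : ℝ} (hW : 8 ≤ W) (hp : 1 ≤ p) (hh : 2 * p + e + e' + 4 ≤ h) (hhW : 4 * h + 16 ≤ W)
    (hNV : N ≤ V) (hV : (V : ℝ) ≤ B) (hWB : (W : ℝ) + 1 ≤ B) (HA : AppT h p e V A x)
    (hy : y < Qm h) (hz : Lv h p e' y z) :
    Does W (tS tR) [A, [y], [N], [h], [p]] ((C + 300) * B ^ 3)
      fun Y => AppT h p (e + e' + 3) N Y fun j => x j * z := by
  intro fn env
  have r0 : (8 : ℝ) ≤ W := by exact_mod_cast hW
  have r1 : (A.length : ℝ) ≤ B := by rw [HA.1]; exact hV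
  have r2 : B ≤ B ^ 2 := le_self_pow₀ (by linarith) (by norm_num)
  have hN : (N : ℝ) ≤ B := le_trans (by exact_mod_cast hNV) hV
  have r4 : C * B ≤ C * B ^ 2 := by gcongr
  refine ⟨(List.range N).map fun j => mulRound h p (A.getD j 0) y, app_map fun j hj => ?_, ?_⟩
  · exact ⟨mulRound_lt _ _ _ _, (app_get HA (by omega)).2.mulRound hz hh⟩
  · refine (Pv.tab (Pv.varS rfl) fun j hj => ?_).mono
      ((tab_cost (D := C + 200) (by linarith) hN (by norm_num) (by positivity) le_rfl).trans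
        (le_of_eq (by ring)))
    have r3 : (j : ℝ) ≤ B := le_trans (by exact_mod_cast hj.le) hN
    apply Pv.cast
    · apply Pv.call (hf := H.pv hW (app_lt HA j) hy hp (by omega) hhW hWB fn _)
      pv
    · rfl
    · simp only [List.length_cons, List.length_nil]
      push_cast
      linarith

/-! ### the quarters -/

/-- the table of `quart` -/
def tQ : Tm := .tab (.pow2 (.add (.var 2) (.const 1)))
  (.cndLt (.var 0) (.var 4) (.nth (.var 1) (.var 0))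
    (.cndLt (.var 0) (.pow2 (.sub (.var 3) (.const 1))) (.pow2 (.var 5))
      (.cndLt (.var 0) (.add (.pow2 (.sub (.var 3) (.const 1))) (.var 4))
        (.nth (.var 2) (.sub (.var 0) (.pow2 (.sub (.var 3) (.const 1))))) (.pow2 (.var 5)))))

theorem does_Q {A A' : List ℕ} {s K e : ℕ} {u v : ℕ → ℂ} {B : ℝ} (hW : 8 ≤ W) (hK : K + 1 < W)
    (hs : s ≤ 2 ^ (K - 1)) (hph : p ≤ h) (hhW : 4 * h + 16 ≤ W)
    (hN : ((2 ^ (K + 1) : ℕ) : ℝ) ≤ B) (hWB : (W : ℝ) + 1 ≤ B)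
    (HA : AppT h p e (2 ^ (K + 1)) A u) (HA' : AppT h p e (2 ^ (K + 1)) A' v) :
    Does W tQ [A, A', [K], [s], [p]] (400 * B ^ 3)
      fun Y => AppT h p e (2 ^ (K + 1)) Y (quart s K u v) := by
  intro fn env
  have r0 : (8 : ℝ) ≤ W := by exact_mod_cast hW
  have r1 : (A.length : ℝ) ≤ B := by rw [HA.1]; exact hN
  have r1' : (A'.length : ℝ) ≤ B := by rw [HA'.1]; exact hN
  have r2 : B ≤ B ^ 2 := le_self_pow₀ (by linarith) (by norm_num)
  have hWW : W < 2 ^ W := Nat.lt_two_pow_self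
  have b1 : 2 ^ (K + 1) < 2 ^ W := Nat.pow_lt_pow_right (by norm_num) hK
  have b2 : 2 ^ (K - 1) * 2 ≤ 2 ^ (K + 1) := by
    rw [← pow_succ]; exact Nat.pow_le_pow_right (by norm_num) (by omega)
  have h1 : 2 ^ p < Qm h ∧ Lv h p e (2 ^ p) 1 := ⟨pow_lt_Qm (by omega), Lv.one.mono (by omega)⟩
  refine ⟨(List.range (2 ^ (K + 1))).map fun j => if j < s then A.getD j 0 else
    if j < 2 ^ (K - 1) then 2 ^ p else if j < 2 ^ (K - 1) + s then A'.getD (j - 2 ^ (K - 1)) 0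
      else 2 ^ p, app_map fun j hj => ?_, ?_⟩
  · unfold quart
    split_ifs with c1 c2 c3 c4 c5 c6
    · exact app_get HA hj
    · omega
    · exact h1
    · exact app_get HA' (by omega)
    · omega
    · omega
    · exact h1
  · refine (Pv.tab (c0 := 2 + 2 + 5 + 7) (by pv <;> omega) fun j hj => ?_).mono
      ((tab_cost (D := 300) (by linarith) hN (by norm_num) (by positivity) le_rfl).trans
        (le_of_eq (by ring)))
    have r3 : (j : ℝ) ≤ B := le_trans (by exact_mod_cast hj.le) hN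
    have r4 : ((j - 2 ^ (K - 1) : ℕ) : ℝ) ≤ B := le_trans (by exact_mod_cast Nat.sub_le _ _) r3
    apply Pv.cast
    · pv <;> omega
    · rfl
    · simp only [max_def]
      split_ifs <;> linarith

/-! ### the kernel -/

/-- the table of the kernel -/
def tK : Tm := .tab (.pow2 (.add (.var 1) (.const 1)))
  (.cndLt (.var 0) (.var 3) (.nth (.var 1) (.var 0))
    (.cndLt (.sub (.pow2 (.var 2)) (.var 0)) (.var 3)
      (.nth (.var 1) (.sub (.pow2 (.var 2)) (.var 0))) (.const 0)))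

theorem does_K {A : List ℕ} {s K : ℕ} {B : ℝ} (hW : 8 ≤ W) (hK : K + 1 < W)
    (hN : ((2 ^ (K + 1) : ℕ) : ℝ) ≤ B) (hWB : (W : ℝ) + 1 ≤ B)
    (HA : AppT h p 2 (2 ^ (K + 1)) A fun j => (chirp s j)⁻¹) :
    Does W tK [A, [K], [s]] (400 * B ^ 3)
      fun Y => AppT h p 2 (2 ^ (K + 1)) Y (kern s K) := by
  intro fn env
  have r0 : (8 : ℝ) ≤ W := by exact_mod_cast hW
  have r1 : (A.length : ℝ) ≤ B := by rw [HA.1]; exact hN
  have r2 : B ≤ B ^ 2 := le_self_pow₀ (by linarith) (by norm_num)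
  have hWW : W < 2 ^ W := Nat.lt_two_pow_self
  have b1 : 2 ^ (K + 1) < 2 ^ W := Nat.pow_lt_pow_right (by norm_num) hK
  have b2 : 2 ^ K < 2 ^ (K + 1) := Nat.pow_lt_pow_right (by norm_num) (by omega)
  refine ⟨(List.range (2 ^ (K + 1))).map fun j => if j < s then A.getD j 0 else
    if 2 ^ K - j < s then A.getD (2 ^ K - j) 0 else 0, app_map fun j hj => ?_, ?_⟩
  · unfold kern
    split_ifs with c1 c2
    · exact app_get HA hj
    · exact app_get HA (by omega)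
    · exact ⟨Qm_pos h, Lv.zero 2⟩
  · refine (Pv.tab (c0 := 2 + 2 + 5 + 7) (by pv <;> omega) fun j hj => ?_).mono
      ((tab_cost (D := 300) (by linarith) hN (by norm_num) (by positivity) le_rfl).trans
        (le_of_eq (by ring)))
    have r3 : (j : ℝ) ≤ B := le_trans (by exact_mod_cast hj.le) hN
    have r4 : ((2 ^ K - j : ℕ) : ℝ) ≤ B :=
      le_trans (by exact_mod_cast (Nat.sub_le _ _).trans b2.le) hN
    apply Pv.cast
    · pv <;> omega
    · rfl
    · simp only [max_def]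
      split_ifs <;> linarith

/-! ### the eigenvalues and their inverses -/

/-- `1 + ρ` -/
def tE : Tm := .tab (.var 1) (.addQ (.pow2 (.var 4)) (.nth (.var 1) (.var 0)) (.qm (.var 3)))

theorem does_E {A : List ℕ} {N e : ℕ} {x : ℕ → ℂ} {B : ℝ} (hW : 8 ≤ W) (he : 1 ≤ e)
    (hph : p ≤ h) (hhW : 4 * h + 16 ≤ W) (hN : (N : ℝ) ≤ B) (hWB : (W : ℝ) + 1 ≤ B)
    (HA : AppT h p e N A x) (hx : ∀ j < N, ‖x j‖ ≤ 1 / 2) :
    Does W tE [A, [N], [h], [p]] (400 * B ^ 3) fun Y => AppT h p e N Y fun j => 1 + x j := by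
  intro fn env
  have r0 : (8 : ℝ) ≤ W := by exact_mod_cast hW
  have r1 : (A.length : ℝ) ≤ B := by rw [HA.1]; exact hN
  have r2 : B ≤ B ^ 2 := le_self_pow₀ (by linarith) (by norm_num)
  have h1 : 2 ^ p < Qm h := pow_lt_Qm (by omega)
  have h2 := Qm_mul_lt (W := W) (h := h) (k := 1) (by omega)
  refine ⟨(List.range N).map fun j => (2 ^ p + A.getD j 0) % Qm h, app_map fun j hj => ?_, ?_⟩
  · refine ⟨Nat.mod_lt _ (Qm_pos h), (Ap.one.add (app_get HA hj).2.1).mono (by simp), ?_⟩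
    have : (2 : ℝ) ^ 1 ≤ 2 ^ e := pow_le_pow_right₀ (by norm_num) he
    have h3 := norm_add_le 1 (x j)
    rw [norm_one] at h3
    linarith [hx j hj]
  · refine (Pv.tab (Pv.varS rfl) fun j hj => ?_).mono
      ((tab_cost (D := 300) (by linarith) hN (by norm_num) (by positivity) le_rfl).trans
        (le_of_eq (by ring)))
    have r3 : (j : ℝ) ≤ B := le_trans (by exact_mod_cast hj.le) hN
    have h4 := app_lt HA j
    apply Pv.cast
    · pv <;> omega
    · rfl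
    · linarith

theorem norm_inv_le {ρ : ℂ} (hρ : ‖ρ‖ ≤ 1 / 2) : 1 + ρ ≠ 0 ∧ ‖(1 + ρ)⁻¹‖ ≤ 2 := by
  have h1 : 1 / 2 ≤ ‖1 + ρ‖ := by
    have := norm_sub_le (1 + ρ) ρ
    rw [add_sub_cancel_right, norm_one] at this
    linarith
  refine ⟨fun h0 => by rw [h0, norm_zero] at h1; linarith, ?_⟩
  rw [norm_inv]
  exact inv_le_of_inv_le₀ (by norm_num) (by simpa using h1)

/-- one step of the iteration `r ← 1 - r ρ` -/
theorem inv_step {r y : ℕ} {ρ : ℂ} {E F : ℝ} (hh : 2 * p + 4 ≤ h) (hρ : ‖ρ‖ ≤ 1 / 2)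
    (Hr : Ap h p r (1 + ρ)⁻¹ E) (Hy : Ap h p y ρ F) (hE : E ≤ 2 * 2 ^ p) (hF : F ≤ 2 ^ p) :
    Ap h p ((2 ^ p + (Qm h - mulRound h p r y)) % Qm h) (1 + ρ)⁻¹ (E / 2 + 4 * F + 2) := by
  obtain ⟨h0, h1⟩ := norm_inv_le hρ
  have hE0 : 0 ≤ E := by obtain ⟨g, -, hg⟩ := Hr; exact (norm_nonneg _).trans hg
  have hF0 : 0 ≤ F := by obtain ⟨g, -, hg⟩ := Hy; exact (norm_nonneg _).trans hg
  have hP : (0 : ℝ) < 2 ^ p := by positivity
  have h2 := Hr.mulRound (by omega) Hy (by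
    calc (2 ^ p * ‖(1 + ρ)⁻¹‖ + E) * (2 ^ p * ‖ρ‖ + F)
        ≤ (2 ^ p * 2 + 2 * 2 ^ p) * (2 ^ p * (1 / 2) + 2 ^ p : ℝ) := by gcongr
      _ = 6 * 2 ^ (2 * p) := by ring
      _ < 2 ^ (2 * p + 3) := by
          rw [pow_add]; have : (0 : ℝ) < 2 ^ (2 * p) := by positivity
          linarith
      _ ≤ 2 ^ (h - 1) := pow_le_pow_right₀ (by norm_num) (by omega))
  have h3 := Ap.one.sub h2 (mulRound_lt _ _ _ _).le
  have h4 : 1 - (1 + ρ)⁻¹ * ρ = (1 + ρ)⁻¹ := by field_simp; ring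
  rw [h4] at h3
  refine h3.mono ?_
  have a1 : ‖ρ‖ * E ≤ 1 / 2 * E := by gcongr
  have a2 : ‖(1 + ρ)⁻¹‖ * F ≤ 2 * F := by gcongr
  have a3 : E * F / 2 ^ p ≤ 2 * F := by
    rw [div_le_iff₀ hP]; nlinarith
  linarith

/-- the iterates -/
def invIt (h p y : ℕ) : ℕ → ℕ
  | 0 => 2 ^ p
  | n + 1 => (2 ^ p + (Qm h - mulRound h p (invIt h p y n) y)) % Qm h

theorem invIt_lt (hph : p ≤ h) (y n : ℕ) : invIt h p y n < Qm h := by
  cases n with
  | zero => exact pow_lt_Qm (by omega)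
  | succ n => exact Nat.mod_lt _ (Qm_pos h)

theorem invIt_ap {y e : ℕ} {ρ : ℂ} (hh : 2 * p + 4 ≤ h) (he : e + 4 ≤ p) (hρ : ‖ρ‖ ≤ 1 / 2)
    (Hy : Ap h p y ρ (2 ^ e)) (n : ℕ) :
    Ap h p (invIt h p y n) (1 + ρ)⁻¹ (2 ^ p / 2 ^ n + 8 * 2 ^ e + 4) := by
  obtain ⟨h0, h1⟩ := norm_inv_le hρ
  have a1 : (1 : ℝ) ≤ 2 ^ e := one_le_pow₀ (by norm_num)
  have a2 : (2 : ℝ) ^ (e + 4) ≤ 2 ^ p := pow_le_pow_right₀ (by norm_num) he
  rw [pow_add] at a2
  induction n with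
  | zero =>
    refine (Ap.one.congr (z' := (1 + ρ)⁻¹) (D := 1) ?_).mono (by simp; linarith)
    have h4 : 1 - (1 + ρ)⁻¹ = (1 + ρ)⁻¹ * ρ := by field_simp; ring
    rw [h4, norm_mul]
    nlinarith [norm_nonneg ρ, norm_nonneg (1 + ρ)⁻¹]
  | succ n ih =>
    have a3 : (2 : ℝ) ^ p / 2 ^ n ≤ 2 ^ p := div_le_self (by positivity) (one_le_pow₀ (by norm_num))
    refine (inv_step hh hρ ih Hy (by linarith) (by linarith)).mono (le_of_eq ?_)
    rw [pow_succ]
    field_simp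
    ring

theorem invIt_lv {y e : ℕ} {ρ : ℂ} (hh : 2 * p + 4 ≤ h) (he : e + 4 ≤ p) (hρ : ‖ρ‖ ≤ 1 / 2)
    (Hy : Lv h p e y ρ) : Lv h p (e + 4) (invIt h p y p) (1 + ρ)⁻¹ := by
  have a1 : (1 : ℝ) ≤ 2 ^ e := one_le_pow₀ (by norm_num)
  refine ⟨(invIt_ap hh he hρ Hy.1 p).mono ?_, (norm_inv_le hρ).2.trans ?_⟩
  · rw [div_self (by positivity), pow_add]; linarith
  · rw [pow_add]; linarith

/-- `(1 + ρ)⁻¹` -/
def tI (tR : Tm) : Tm := .tab (.var 1) (.lett (.nth (.var 1) (.var 0))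
  (.iter (.var 5) (.pow2 (.var 5))
    (.subQ (.pow2 (.var 7)) (.call tR [.var 1, .var 2, .var 6, .var 7]) (.qm (.var 6)))))

theorem does_I {tR : Tm} {C : ℕ} (H : MulR tR C) {A : List ℕ} {N e : ℕ} {x : ℕ → ℂ} {B : ℝ}
    (hW : 8 ≤ W) (he : e + 4 ≤ p) (hh : 2 * p + 4 ≤ h) (hhW : 4 * h + 16 ≤ W) (hN : (N : ℝ) ≤ B)
    (hWB : (W : ℝ) + 1 ≤ B) (HA : AppT h p e N A x) (hx : ∀ j < N, ‖x j‖ ≤ 1 / 2) :
    Does W (tI tR) [A, [N], [h], [p]] ((C + 500) * B ^ 3)
      fun Y => AppT h p (e + 4) N Y fun j => (1 + x j)⁻¹ := by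
  intro fn env
  have r0 : (8 : ℝ) ≤ W := by exact_mod_cast hW
  have r1 : (A.length : ℝ) ≤ B := by rw [HA.1]; exact hN
  have r2 : B ≤ B ^ 2 := le_self_pow₀ (by linarith) (by norm_num)
  have r5 : (p : ℝ) ≤ B := by
    have : (p : ℝ) ≤ W := by exact_mod_cast (by omega : p ≤ W)
    linarith
  have h1 : 2 ^ p < Qm h := pow_lt_Qm (by omega)
  have h2 := Qm_mul_lt (W := W) (h := h) (k := 1) (by omega)
  refine ⟨(List.range N).map fun j => invIt h p (A.getD j 0) p, app_map fun j hj => ?_, ?_⟩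
  · exact ⟨invIt_lt (by omega) _ _, invIt_lv hh he (hx j hj) (app_get HA hj).2⟩
  · refine (Pv.tab (Pv.varS rfl) fun j hj => ?_).mono
      ((tab_cost (D := C + 400) (by linarith) hN (by norm_num) (by positivity) le_rfl).trans
        (le_of_eq (by ring)))
    have r3 : (j : ℝ) ≤ B := le_trans (by exact_mod_cast hj.le) hN
    have h4 := app_lt HA j
    refine (Pv.lett (Pv.nth (Pv.var rfl) (Pv.varS rfl))
      (Pv.iter (fun n => [invIt h p (A.getD j 0) n]) (c := C * B + 200) (L := 1) (Pv.varS rfl)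
        (Pv.pow2 (Pv.varS rfl) (by omega)) (fun n _ => ?_) (by simp))).mono ?_
    · apply Pv.cast
      · refine Pv.subQ hW (Pv.pow2 (Pv.varS rfl) (by omega))
          (Pv.call (hf := H.pv hW (invIt_lt (by omega) _ n) h4 (by omega) (by omega) hhW hWB fn _)
            (by pv)) (Pv.qm hW (Pv.varS rfl) (by omega)) h1 (by omega)
      · rfl
      · simp only [List.length_cons, List.length_nil]
        push_cast
        linarith
    · have r6 : (p : ℝ) * (C * B + 200 + 2 * 1 + 22) ≤ B * (C * B + 200 + 2 * 1 + 22) := by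
        have : (0 : ℝ) ≤ B := by linarith
        gcongr
      simp only [List.length_cons, List.length_nil]
      push_cast
      nlinarith

/-- the tables `5` and `6` -/
def tH (tR : Tm) : Tm := .tab (.pow2 (.add (.var 1) (.const 1)))
  (.cndLt (.var 0) (.pow2 (.var 2)) (.pow2 (.sub (.var 4) (.var 2)))
    (.call tR [.nth (.var 1) (.sub (.var 0) (.pow2 (.var 2))), .pow2 (.sub (.var 4) (.var 2)),
      .var 3, .var 4]))

theorem does_H {tR : Tm} {C : ℕ} (H : MulR tR C) {A : List ℕ} {K e : ℕ} {x : ℕ → ℂ} {B : ℝ}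
    (hW : 8 ≤ W) (hK : K + 1 ≤ p) (hh : 2 * p + e + 4 ≤ h) (hhW : 4 * h + 16 ≤ W)
    (hN : ((2 ^ (K + 1) : ℕ) : ℝ) ≤ B) (hWB : (W : ℝ) + 1 ≤ B) (HA : AppT h p e (2 ^ K) A x) :
    Does W (tH tR) [A, [K], [h], [p]] ((C + 400) * B ^ 3)
      fun Y => AppT h p (e + 3) (2 ^ (K + 1)) Y
        fun j => if j < 2 ^ K then 1 / 2 ^ K else x (j - 2 ^ K) / 2 ^ K := by
  intro fn env
  have b2 : 2 ^ (K + 1) = 2 ^ K * 2 := pow_succ _ _
  have r0 : (8 : ℝ) ≤ W := by exact_mod_cast hW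
  have r1 : (A.length : ℝ) ≤ B := by
    rw [HA.1]; exact le_trans (by exact_mod_cast (by omega)) hN
  have r2 : B ≤ B ^ 2 := le_self_pow₀ (by linarith) (by norm_num)
  have r4 : C * B ≤ C * B ^ 2 := by gcongr
  have r5 : (0 : ℝ) ≤ C * B := mul_nonneg (by positivity) (by linarith)
  have hWW : W < 2 ^ W := Nat.lt_two_pow_self
  have h1 : 2 ^ (p - K) < Qm h := pow_lt_Qm (by omega)
  have h2 : Lv h p 0 (2 ^ (p - K)) (1 / 2 ^ K) := lv_inv_two_pow (by omega)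
  refine ⟨(List.range (2 ^ (K + 1))).map fun j => if j < 2 ^ K then 2 ^ (p - K) else
    mulRound h p (A.getD (j - 2 ^ K) 0) (2 ^ (p - K)), app_map fun j hj => ?_, ?_⟩
  · split_ifs with c1
    · exact ⟨h1, h2.mono (by omega)⟩
    · refine ⟨mulRound_lt _ _ _ _, ?_⟩
      rw [div_eq_mul_one_div]
      exact (app_get HA (by omega)).2.mulRound h2 hh
  · refine (Pv.tab (c0 := 2 + 2 + 5 + 7) (by pv <;> omega) fun j hj => ?_).mono
      ((tab_cost (D := C + 300) (by linarith) hN (by norm_num) (by positivity) le_rfl).trans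
        (le_of_eq (by ring)))
    have r3 : ((j - 2 ^ K : ℕ) : ℝ) ≤ B :=
      le_trans (by exact_mod_cast (Nat.sub_le _ _).trans hj.le) hN
    apply Pv.cast
    · refine Pv.cndLt hW (Pv.varS rfl) (by pv; omega) (fun _ => by pv; omega) fun _ =>
        Pv.call (hf := H.pv hW (app_lt HA (j - 2 ^ K)) h1 (by omega) (by omega) hhW hWB fn _)
          (by pv <;> omega)
    · rfl
    · simp only [List.length_cons, List.length_nil, max_def]
      push_cast
      split_ifs <;> linarith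

/-- a constant table -/
def tC : Tm := .tab (.var 1) (.var 1)

theorem does_C {y N e : ℕ} {z : ℂ} {B : ℝ} (hB : 1 ≤ B) (hN : (N : ℝ) ≤ B) (hy : y < Qm h)
    (hz : Lv h p e y z) :
    Does W tC [[y], [N]] (200 * B ^ 3) fun Y => AppT h p e N Y fun _ => z := by
  intro fn env
  have r2 : 1 ≤ B ^ 2 := one_le_pow₀ hB
  refine ⟨(List.range N).map fun _ => y, app_map fun j hj => ⟨hy, hz⟩, ?_⟩
  refine (Pv.tab (Pv.varS rfl) fun j hj => ?_).mono
    ((tab_cost (D := 100) hB hN (by norm_num) (by positivity) le_rfl).trans (le_of_eq (by ring)))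
  exact (Pv.varS rfl).mono (by linarith)

/-! ### concatenation -/

/-- the tables `f a, …, f (a + c - 1)`, one after the other -/
def Blk (h p e N : ℕ) (f : ℕ → ℕ → ℂ) (a c : ℕ) (X : List ℕ) : Prop :=
  AppT h p e (c * N) X fun b => f (a + b / N) (b % N)

theorem Blk.one {e e' N a : ℕ} {f : ℕ → ℕ → ℂ} {X : List ℕ} (H : AppT h p e N X (f a))
    (he : e ≤ e') : Blk h p e' N f a 1 X := by
  unfold Blk
  rw [one_mul]
  refine (H.mono he fun _ _ h => h).congr fun b hb _ => ?_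
  rw [Nat.div_eq_of_lt hb, Nat.mod_eq_of_lt hb, add_zero]

theorem Blk.append {e N a c d : ℕ} {f : ℕ → ℕ → ℂ} {X Y : List ℕ} (hN : 0 < N)
    (HX : Blk h p e N f a c X) (HY : Blk h p e N f (a + c) d Y) :
    Blk h p e N f a (c + d) (X ++ Y) := by
  refine ⟨by rw [List.length_append, HX.1, HY.1, add_mul], fun r hr => ?_, fun b hb _ => ?_⟩
  · exact (List.mem_append.1 hr).elim (HX.2.1 r) (HY.2.1 r)
  · by_cases hb' : b < c * N
    · rw [List.getD_append _ _ _ _ (by rw [HX.1]; exact hb')]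
      exact HX.2.2 b hb' trivial
    · rw [List.getD_append_right _ _ _ _ (by rw [HX.1]; omega), HX.1]
      obtain ⟨b', rfl⟩ := Nat.exists_eq_add_of_le (not_lt.1 hb')
      have := HY.2.2 b' (by rw [add_mul] at hb; omega) trivial
      simp only [Nat.add_sub_cancel_left]
      rw [add_comm (c * N), Nat.add_mul_div_right _ _ hN, Nat.add_mul_mod_self_right,
        add_comm (b' / N), ← add_assoc]
      exact this

/-! ### the first five tables -/

/-- arguments: chirp, inverse chirp, `K`, `s`, `h`, `p` -/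
def tA (tR : Tm) : Tm :=
  .app (.call tQ [.var 0, .var 1, .var 2, .var 3, .var 5])
  (.app (.call tQ [.var 1, .var 0, .var 2, .var 3, .var 5])
  (.app (.call tQ [.var 0, .call (tS tR) [.var 1, .shl (.var 3) (.var 5),
      .pow2 (.add (.var 2) (.const 1)), .var 4, .var 5], .var 2, .var 3, .var 5])
  (.app (.call tQ [.var 1, .call (tS tR) [.var 0, .div (.pow2 (.var 5)) (.var 3),
      .pow2 (.add (.var 2) (.const 1)), .var 4, .var 5], .var 2, .var 3, .var 5])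
    (.call tQ [.call tC [.pow2 (.var 5), .pow2 (.add (.var 2) (.const 1))],
      .call tC [.shl (.var 3) (.var 5), .pow2 (.add (.var 2) (.const 1))],
      .var 2, .var 3, .var 5]))))

theorem does_A {tR : Tm} {C : ℕ} (H : MulR tR C) {U V : List ℕ} {s K : ℕ} {B : ℝ} (hW : 8 ≤ W)
    (hs0 : 0 < s) (hs : s ≤ 2 ^ (K - 1)) (hp : 1 ≤ p) (hh : 2 * p + K + 6 ≤ h)
    (hhW : 4 * h + 16 ≤ W) (hN : ((2 ^ (K + 1) : ℕ) : ℝ) ≤ B) (hWB : (W : ℝ) + 1 ≤ B)
    (HU : AppT h p 2 (2 ^ (K + 1)) U (chirp s))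
    (HV : AppT h p 2 (2 ^ (K + 1)) V fun j => (chirp s j)⁻¹) :
    Does W (tA tR) [U, V, [K], [s], [h], [p]] ((2 * C + 5000) * B ^ 3)
      (Blk h p (K + 5) (2 ^ (K + 1)) (tabI s K) 0 5) := by
  intro fn env
  have r0 : (8 : ℝ) ≤ W := by exact_mod_cast hW
  have r2 : B ≤ B ^ 3 := le_self_pow₀ (by linarith) (by norm_num)
  have hB : 1 ≤ B := by linarith
  have hWW : W < 2 ^ W := Nat.lt_two_pow_self
  have hK : K + 1 < W := by omega
  have hsK : s ≤ 2 ^ K := hs.trans (Nat.pow_le_pow_right (by norm_num) (by omega))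
  have b1 : s * 2 ^ p ≤ 2 ^ (K + p) := by rw [pow_add]; exact Nat.mul_le_mul_right _ hsK
  have b2 : s * 2 ^ p < Qm h := b1.trans_lt (pow_lt_Qm (by omega))
  have b3 : s * 2 ^ p < 2 ^ W := b1.trans_lt (Nat.pow_lt_pow_right (by norm_num) (by omega))
  have b4 : 2 ^ p < Qm h := pow_lt_Qm (by omega)
  have b5 : 2 ^ p / s < Qm h := (Nat.div_le_self _ _).trans_lt b4
  have hle : ∀ {e e' : ℕ} {X : List ℕ} {x : ℕ → ℂ}, AppT h p e (2 ^ (K + 1)) X x → e ≤ e' →
      AppT h p e' (2 ^ (K + 1)) X x := fun H he => H.mono he fun _ _ h => h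
  obtain ⟨T0, h0, p0⟩ := does_Q hW hK hs (by omega) hhW hN hWB HU HV fn
    ([U, V, [K], [s], [h], [p]] ++ env)
  obtain ⟨T1, h1, p1⟩ := does_Q hW hK hs (by omega) hhW hN hWB HV HU fn
    ([U, V, [K], [s], [h], [p]] ++ env)
  obtain ⟨S2, g2, q2⟩ := does_S H hW hp (by omega) hhW le_rfl hN hWB HV b2 (Lv.nat hsK) fn
    ([U, V, [K], [s], [h], [p]] ++ env)
  obtain ⟨T2, h2, p2⟩ := does_Q hW hK hs (by omega) hhW hN hWB (hle HU (by omega)) g2 fn
    ([U, V, [K], [s], [h], [p]] ++ env)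
  obtain ⟨S3, g3, q3⟩ := does_S H hW hp (by omega) hhW le_rfl hN hWB HU b5 (Lv.inv_nat hs0) fn
    ([U, V, [K], [s], [h], [p]] ++ env)
  obtain ⟨T3, h3, p3⟩ := does_Q hW hK hs (by omega) hhW hN hWB (hle HV (by omega)) g3 fn
    ([U, V, [K], [s], [h], [p]] ++ env)
  obtain ⟨S4, g4, q4⟩ := does_C (W := W) hB hN b4 (Lv.one.mono (Nat.zero_le K)) fn
    ([U, V, [K], [s], [h], [p]] ++ env)
  obtain ⟨S5, g5, q5⟩ := does_C (W := W) hB hN b2 (Lv.nat hsK) fn
    ([U, V, [K], [s], [h], [p]] ++ env)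
  obtain ⟨T4, h4, p4⟩ := does_Q hW hK hs (by omega) hhW hN hWB g4 g5 fn
    ([U, V, [K], [s], [h], [p]] ++ env)
  have hN0 : 0 < 2 ^ (K + 1) := by positivity
  refine ⟨T0 ++ (T1 ++ (T2 ++ (T3 ++ T4))), ?_, ?_⟩
  · have e2 : (fun j => (chirp s j)⁻¹ * s) = fun j => s * (chirp s j)⁻¹ :=
      funext fun j => mul_comm _ _
    have e3 : (fun j => chirp s j * (1 / s)) = fun j => chirp s j / s :=
      funext fun j => (div_eq_mul_one_div _ _).symm
    rw [e2] at h2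
    rw [e3] at h3
    have k0 : Blk h p (K + 5) (2 ^ (K + 1)) (tabI s K) 0 1 T0 := Blk.one (e := 2) h0 (by omega)
    have k1 : Blk h p (K + 5) (2 ^ (K + 1)) (tabI s K) 1 1 T1 := Blk.one (e := 2) h1 (by omega)
    have k2 : Blk h p (K + 5) (2 ^ (K + 1)) (tabI s K) 2 1 T2 :=
      Blk.one (e := 2 + K + 3) h2 (by omega)
    have k3 : Blk h p (K + 5) (2 ^ (K + 1)) (tabI s K) 3 1 T3 :=
      Blk.one (e := 2 + 0 + 3) h3 (by omega)
    have k4 : Blk h p (K + 5) (2 ^ (K + 1)) (tabI s K) 4 1 T4 := Blk.one (e := K) h4 (by omega)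
    exact k0.append hN0 (k1.append hN0 (k2.append hN0 (k3.append hN0 k4)))
  · apply Pv.cast
    · refine Pv.app (Pv.call (hf := p0) (by pv)) (Pv.app (Pv.call (hf := p1) (by pv))
        (Pv.app (Pv.call (hf := p2) (Pvs.cons (Pv.var rfl)
          (Pvs.cons (Pv.call (hf := q2) (by pv <;> omega)) (by pv))))
        (Pv.app (Pv.call (hf := p3) (Pvs.cons (Pv.var rfl)
          (Pvs.cons (Pv.call (hf := q3) (by pv <;> omega)) (by pv))))
        (Pv.call (hf := p4) (Pvs.cons (Pv.call (hf := q4) (by pv <;> omega))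
          (Pvs.cons (Pv.call (hf := q5) (by pv <;> omega)) (by pv)))))))
    · rfl
    · simp only [List.length_cons, List.length_nil, List.length_append, HU.1, HV.1, h0.1, h1.1,
        h2.1, h3.1, h4.1, g2.1, g3.1, g4.1, g5.1]
      push_cast at hN ⊢
      linarith

/-! ### the last two tables -/

theorem fft_kern (s K : ℕ) {r : ℕ} (hr : r < 2 ^ K) :
    liftS 0 (2 * K - 2) (2 ^ (K + 1)) (fun _ => FM K) 1 (kern s K) r =
      ∑ k ∈ range (2 ^ K), ee (brev K r * k : ℕ) (2 ^ K) * kern s K k := by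
  have b2 : 2 ^ (K + 1) = 2 ^ K + 2 ^ K := by rw [pow_succ]; omega
  have h0 : r < 2 ^ (K + 1) := by omega
  have h1 : dig 1 (2 ^ (K + 1)) r = r := by
    rw [dig, Nat.div_one, Nat.mod_eq_of_lt h0]
  have h2 : ∀ k, setDig 1 (2 ^ (K + 1)) r k = k := fun k => by
    rw [setDig, one_mul, Nat.div_eq_of_lt h0, Nat.mod_one]; simp
  simp only [liftS, lift, mul_zero, add_zero, pow_zero, h1, h2]
  rw [b2, sum_range_add]
  have h3 : ∑ k ∈ range (2 ^ K), FM K r (2 ^ K + k) * kern s K (2 ^ K + k) = 0 := by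
    refine sum_eq_zero fun k _ => ?_
    rw [FM, if_neg, zero_mul]
    rw [Nat.div_eq_of_lt hr, Nat.add_div_left _ (by positivity)]
    exact (Nat.succ_ne_zero _).symm
  rw [h3, add_zero]
  refine sum_congr rfl fun k hk => ?_
  have hk' := mem_range.1 hk
  rw [FM, if_pos (by rw [Nat.div_eq_of_lt hr, Nat.div_eq_of_lt hk']), Nat.mod_eq_of_lt hr,
    Nat.mod_eq_of_lt hk']

theorem norm_kern_le (s K k : ℕ) : ‖kern s K k‖ ≤ 1 := by
  unfold kern chirp
  split_ifs <;> simp [norm_ee]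

theorem norm_rho_le (s K r : ℕ) :
    ‖(∑ k ∈ range (2 ^ K), ee (brev K r * k : ℕ) (2 ^ K) * kern s K k) * (1 / 2 ^ (K + 1))‖ ≤
      1 / 2 := by
  have h1 : ‖∑ k ∈ range (2 ^ K), ee (brev K r * k : ℕ) (2 ^ K) * kern s K k‖ ≤ 2 ^ K := by
    refine (norm_sum_le _ _).trans ((sum_le_card_nsmul _ _ 1 fun k _ => ?_).trans (by simp))
    rw [norm_mul, norm_ee, one_mul]
    exact norm_kern_le s K k
  rw [norm_mul, norm_div, norm_one, norm_pow, Complex.norm_two]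
  calc _ ≤ (2 : ℝ) ^ K * (1 / 2 ^ (K + 1)) := by gcongr
    _ = 1 / 2 := by rw [pow_succ]; field_simp

theorem hcost_le {K : ℕ} {B : ℝ} (hK : 1 ≤ K) (hKW : K ≤ W) (hWB : (W : ℝ) + 1 ≤ B) :
    K * hcost W K 1 2 ≤ 10 * B ^ 2 := by
  have r0 : (1 : ℝ) ≤ K := by exact_mod_cast hK
  have r1 : (K : ℝ) ≤ W := by exact_mod_cast hKW
  have r2 : (W.size : ℝ) ≤ W := by exact_mod_cast Nat.size_le.2 Nat.lt_two_pow_self
  have r3 : (((1 : ℕ) : ℝ) + 1) ^ tauE ≤ 2 := by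
    have := Real.rpow_le_rpow_of_exponent_le (x := ((1 : ℕ) : ℝ) + 1) (by norm_num)
      tauE_lt_one.le
    rw [Real.rpow_one] at this
    exact this.trans (by norm_num)
  have r4 := mu_le W
  have r5 : (((2 : ℕ) : ℝ) * (1 : ℕ) + W.size) / K ≤ W + 2 := by
    refine (div_le_self (by positivity) r0).trans ?_
    push_cast; linarith
  have r6 : hcost W K 1 2 ≤ 10 * B := by
    unfold hcost
    push_cast at r3 r5 ⊢
    generalize ((1 : ℝ) + 1) ^ tauE = a at *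
    generalize ((2 : ℝ) * 1 + W.size) / K = b at *
    linarith
  have r7 := one_le_hcost W K 1 2
  have r8 : (K : ℝ) ≤ B := by linarith
  calc K * hcost W K 1 2 ≤ B * (10 * B) := by gcongr; linarith
    _ = 10 * B ^ 2 := by ring

/-- arguments: the transform of the kernel, `K`, `h`, `p` -/
def tB (tR : Tm) : Tm :=
  .lett (.call (tS tR) [.var 0, .pow2 (.sub (.var 3) (.add (.var 1) (.const 1))), .pow2 (.var 1),
    .var 2, .var 3])
  (.app (.call (tH tR) [.call tE [.var 0, .pow2 (.var 2), .var 3, .var 4], .var 2, .var 3, .var 4])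
    (.call (tH tR) [.call (tI tR) [.var 0, .pow2 (.var 2), .var 3, .var 4],
      .var 2, .var 3, .var 4]))

theorem does_B {tR : Tm} {C : ℕ} (H : MulR tR C) {F : List ℕ} {s K e : ℕ} {B : ℝ} (hW : 8 ≤ W)
    (hKp : K + 1 ≤ p) (he : e + 7 ≤ p) (hh : 2 * p + e + 11 ≤ h)
    (hhW : 4 * h + 16 ≤ W) (hN : ((2 ^ (K + 1) : ℕ) : ℝ) ≤ B) (hWB : (W : ℝ) + 1 ≤ B)
    (HF : AppT h p e (2 ^ (K + 1)) F
      (liftS 0 (2 * K - 2) (2 ^ (K + 1)) (fun _ => FM K) 1 (kern s K))) :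
    Does W (tB tR) [F, [K], [h], [p]] ((4 * C + 3000) * B ^ 3)
      (Blk h p (e + 10) (2 ^ (K + 1)) (tabI s K) 5 2) := by
  intro fn env
  have r0 : (8 : ℝ) ≤ W := by exact_mod_cast hW
  have r2 : B ≤ B ^ 3 := le_self_pow₀ (by linarith) (by norm_num)
  have hWW : W < 2 ^ W := Nat.lt_two_pow_self
  have b1 : 2 ^ K ≤ 2 ^ (K + 1) := Nat.pow_le_pow_right (by norm_num) (by omega)
  have hN' : ((2 ^ K : ℕ) : ℝ) ≤ B := le_trans (by exact_mod_cast b1) hN
  obtain ⟨R, g0, q0⟩ := does_S H hW (by omega) (by omega) hhW b1 hN hWB HF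
    (pow_lt_Qm (k := p - (K + 1)) (by omega)) (lv_inv_two_pow hKp) fn ([F, [K], [h], [p]] ++ env)
  have g1 := g0.congr (y := fun r =>
    (∑ k ∈ range (2 ^ K), ee (brev K r * k : ℕ) (2 ^ K) * kern s K k) * (1 / 2 ^ (K + 1)))
    fun r hr _ => by rw [fft_kern s K hr]
  obtain ⟨E, g2, q2⟩ := does_E hW (by omega) (by omega) hhW hN' hWB g1
    (fun r _ => norm_rho_le s K r) fn (R :: ([F, [K], [h], [p]] ++ env))
  obtain ⟨T5, h5, p5⟩ := does_H H hW hKp (by omega) hhW hN hWB g2 fn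
    (R :: ([F, [K], [h], [p]] ++ env))
  obtain ⟨I, g3, q3⟩ := does_I H hW (by omega) (by omega) hhW hN' hWB g1
    (fun r _ => norm_rho_le s K r) fn (R :: ([F, [K], [h], [p]] ++ env))
  obtain ⟨T6, h6, p6⟩ := does_H H hW hKp (by omega) hhW hN hWB g3 fn
    (R :: ([F, [K], [h], [p]] ++ env))
  have hN0 : 0 < 2 ^ (K + 1) := by positivity
  refine ⟨T5 ++ T6, ?_, ?_⟩
  · refine (Blk.one (a := 5) (h5.congr fun j _ _ => ?_) (by omega)).append hN0
      (Blk.one (a := 6) (h6.congr fun j _ _ => ?_) (by omega))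
    · simp only [tabI, eig, mul_one_div]
    · simp only [tabI, eig, mul_one_div]
  · apply Pv.cast
    · refine Pv.lett (Pv.call (hf := q0) (by pv <;> omega))
        (Pv.app (Pv.call (hf := p5) (Pvs.cons (Pv.call (hf := q2) (by pv; omega)) (by pv)))
          (Pv.call (hf := p6) (Pvs.cons (Pv.call (hf := q3) (by pv; omega)) (by pv))))
    · rfl
    · simp only [List.length_cons, List.length_nil, List.length_append, HF.1, g0.1, g2.1, g3.1,
        h5.1, h6.1]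
      push_cast at hN hN' ⊢
      linarith

/-- the whole term -/
def tAll (tO tF tR : Tm) : Tm :=
  .lett (.pow2 (.add (.var 2) (.const 1)))
  (.lett (.call tO [.add (.var 2) (.var 2), .var 4, .var 5])
  (.lett (.call tU [.var 0, .var 3, .var 1])
  (.lett (.call tV [.var 1, .var 4, .var 2])
  (.app (.call (tA tR) [.var 1, .var 0, .var 6, .var 5, .var 7, .var 8])
    (.call (tB tR) [.call tF [.call tK [.var 0, .var 6, .var 5], .var 4,
      .add (.var 6) (.const 1), .const 0, .var 6, .const 1, .const 2, .var 7, .var 8],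
      .var 6, .var 7, .var 8])))))

end Tb

open Tb

theorem table_spec (hRoot : RootSpec) (hFft : FftSpec) (hMul : MulSpec) : TableSpec := by
  obtain ⟨tO, CO, cO, hO⟩ := hRoot
  obtain ⟨tF, tF', CF, cF, dF, hF⟩ := hFft
  obtain ⟨tR', tR, tR'', CM, hM⟩ := hMul
  have H : MulR tR CM := fun W x y h p h1 h2 h3 h4 h5 h6 => (hM W x y h p h1 h2 h3 h4 h5 h6).2.1
  refine ⟨tAll tO tF tR, CO + 21 * CF + 2 * cF + 48 * CM + 200000, 2 * cF + 3, cO + dF + 3, ?_⟩
  intro W Om s K h p hW hK hs4 hs hroom hp hh hhW HO fn env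
  have hWW : W < 2 ^ W := Nat.lt_two_pow_self
  have e2 : 2 ^ K = 2 * 2 ^ (K - 1) := by
    rw [← pow_succ']; congr 1; omega
  have e3 : 2 ^ (K + 1) = 2 * 2 ^ K := pow_succ' _ _
  simp only [add_mul] at hp hh
  have a1 : 0 ≤ CO * K := Nat.zero_le _
  have a2 : 0 ≤ 48 * CM * K := Nat.zero_le _
  have a3 : 21 * CF * K = 21 * (CF * K) := by ring
  have a4 : 2 * cF * K = 2 * (cF * K) := by ring
  have a5 : cF * (K * (1 + 1)) = 2 * (cF * K) := by ring
  have a6 : CF * (K * (1 + 1)) = 2 * (CF * K) := by ring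
  have hKW : 2 * K + 2 < W := by omega
  have hNN : 2 ^ (K + 1) * 2 ^ (K + 1) < 2 ^ W := by
    rw [← pow_add]; exact Nat.pow_lt_pow_right (by norm_num) (by omega)
  have b1 : 2 ^ (K + 1) < 2 ^ W := Nat.pow_lt_pow_right (by norm_num) (by omega)
  obtain ⟨D, hD⟩ : ∃ D : ℝ, D = (2 : ℝ) ^ K + W + 1 := ⟨_, rfl⟩
  rw [← hD]
  have r0 : (8 : ℝ) ≤ W := by exact_mod_cast hW
  have r1 : (0 : ℝ) < 2 ^ K := by positivity
  have hD1 : 1 ≤ D := by linarith
  have hN : ((2 ^ (K + 1) : ℕ) : ℝ) ≤ 2 * D := by rw [e3]; push_cast; linarith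
  have hWB : (W : ℝ) + 1 ≤ 2 * D := by linarith
  have hss : ((s + s : ℕ) : ℝ) ≤ 2 ^ K := by exact_mod_cast (by omega : s + s ≤ 2 ^ K)
  obtain ⟨O, gO, pO⟩ := hO W (s + s) h p hW (by omega) (by omega) (by omega) hhW fn
    ([2 ^ (K + 1)] :: ([Om, [s], [K], [h], [p]] ++ env))
  have gO' : AppT h p 2 (s + s) O fun m => ee m (s + s) := gO
  obtain ⟨U, gU, pU⟩ := does_U hW (by omega) (by omega) hNN hN hWB gO' fn
    (O :: [2 ^ (K + 1)] :: ([Om, [s], [K], [h], [p]] ++ env))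
  obtain ⟨V, gV, pV⟩ := does_V hW (by omega) (by omega) hNN hN hWB gO' fn
    (U :: O :: [2 ^ (K + 1)] :: ([Om, [s], [K], [h], [p]] ++ env))
  obtain ⟨TA, gA, pA⟩ := does_A H hW (by omega) hs (by omega) (by omega) hhW hN hWB gU gV fn
    (V :: U :: O :: [2 ^ (K + 1)] :: ([Om, [s], [K], [h], [p]] ++ env))
  obtain ⟨X, gX, pX⟩ := does_K hW (by omega) hN hWB gV fn
    (V :: U :: O :: [2 ^ (K + 1)] :: ([Om, [s], [K], [h], [p]] ++ env))
  have hPh : PhOK CF W (K + 1) 0 K 1 2 h p 2 :=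
    ⟨hW, hK, le_rfl, by simp, by norm_num, by omega, Or.inl rfl,
      lt_of_le_of_lt (by rw [e3, ← mul_assoc]; exact Nat.mul_le_mul_right _ (by omega)) hroom,
      by omega, by omega, hhW⟩
  obtain ⟨F, gF, pF⟩ := (hF W X Om (K + 1) 0 K 1 2 h p 2 (kern s K) hPh HO
    (gX.mono le_rfl fun _ _ _ => trivial)).1 fn
    (V :: U :: O :: [2 ^ (K + 1)] :: ([Om, [s], [K], [h], [p]] ++ env))
  have gF' : AppT h p (2 + cF * (K * (1 + 1))) (2 ^ (K + 1)) F
      (liftS 0 (2 * K - 2) (2 ^ (K + 1)) (fun _ => FM K) 1 (kern s K)) :=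
    gF.mono le_rfl fun _ _ _ i hi => by omega
  obtain ⟨TB, gB, pB⟩ := does_B H hW (by omega) (by omega) (by omega) hhW hN hWB gF' fn
    (V :: U :: O :: [2 ^ (K + 1)] :: ([Om, [s], [K], [h], [p]] ++ env))
  have a7 : (2 * cF + 3) * K = 2 * (cF * K) + 3 * K := by ring
  have gA' : Blk h p ((2 * cF + 3) * K) (2 ^ (K + 1)) (tabI s K) 0 5 TA :=
    App.mono gA (by omega) fun _ _ h => h
  have gB' : Blk h p ((2 * cF + 3) * K) (2 ^ (K + 1)) (tabI s K) (0 + 5) 2 TB :=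
    App.mono gB (by omega) fun _ _ h => h
  refine ⟨TA ++ TB, ?_, ?_⟩
  · exact App.congr (gA'.append (by positivity) gB') fun b _ _ => by rw [zero_add]
  · obtain ⟨P, hP⟩ : ∃ P : ℝ, P = D ^ (cO + dF + 3) := ⟨_, rfl⟩
    rw [← hP]
    have c1 : D ^ 3 ≤ P := hP ▸ pow_le_pow_right₀ hD1 (by omega)
    have c2 : D ≤ D ^ 3 := le_self_pow₀ hD1 (by norm_num)
    have c3 : (CO : ℝ) * (((s + s : ℕ) : ℝ) + W + 1) ^ cO ≤ CO * P := by
      refine mul_le_mul_of_nonneg_left ?_ (by positivity)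
      calc _ ≤ D ^ cO := pow_le_pow_left₀ (by positivity) (by linarith) _
        _ ≤ P := hP ▸ pow_le_pow_right₀ hD1 (by omega)
    have c4 : (CF : ℝ) * (2 ^ (K + 1) * (K * hcost W K 1 2) + ((2 : ℝ) ^ K + W + 1) ^ dF) ≤
        CF * (21 * P) := by
      refine mul_le_mul_of_nonneg_left ?_ (by positivity)
      have d1 : K * hcost W K 1 2 ≤ 10 * D ^ 2 := hcost_le (by omega) (by omega) (by linarith)
      have d2 : (2 : ℝ) ^ (K + 1) ≤ 2 * D := by rw [pow_succ]; linarith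
      have d3 : D ^ dF ≤ P := hP ▸ pow_le_pow_right₀ hD1 (by omega)
      have d4 : (2 : ℝ) ^ (K + 1) * (K * hcost W K 1 2) ≤ 2 * D * (10 * D ^ 2) :=
        mul_le_mul d2 d1 (mul_nonneg (by positivity) (by linarith [one_le_hcost W K 1 2]))
          (by linarith)
      rw [← hD]
      linarith
    have c5 : (CM : ℝ) * D ^ 3 ≤ CM * P := by gcongr
    have c6 : (0 : ℝ) ≤ cF * P := mul_nonneg (by positivity) (by linarith)
    apply Pv.cast
    · refine Pv.lett (by pv <;> omega) (Pv.lett (Pv.call (hf := pO) (by pv; omega))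
        (Pv.lett (Pv.call (hf := pU) (by pv)) (Pv.lett (Pv.call (hf := pV) (by pv))
        (Pv.app (Pv.call (hf := pA) (by pv))
          (Pv.call (hf := pB) (Pvs.cons (Pv.call (hf := pF)
            (Pvs.cons (Pv.call (hf := pX) (by pv)) (by pv; omega))) (by pv)))))))
    · rfl
    · simp only [List.length_cons, List.length_nil, List.length_append, HO.1, gO.1, gU.1, gV.1,
        gA.1, gX.1, gF.1, gB.1]
      push_cast at hN hss c3 ⊢
      linarith

end Crest.Agent.R326
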