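import Crest.Agent.R326.TopB

/-!
# Top level: from the product of polynomials to the product of integers
-/

set_option autoImplicit false

namespace Crest.Agent.R326

open Crest.LogicCS.IntMul Crest.DTime

variable {fn : Option Tm}

/-- the exponent of the final bound -/
noncomputable def tauT : ℝ := 1 - 1 / (2 : ℝ) ^ 182

theorem half_le_tauT : 1 / 2 ≤ tauT := by unfold tauT; norm_num

theorem tauC_le_tauT : tauC ≤ tauT := by unfold tauC tauT; norm_num

theorem tauC_nonneg : 0 ≤ tauC := by unfold tauC; norm_num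

theorem tauC_le_one : tauC ≤ 1 := by unfold tauC; norm_num

/-- the order of the cost -/
noncomputable def GG (n : ℕ) : ℝ := n * (n.size : ℝ) ^ tauT + 1

theorem one_le_size_rpow {n : ℕ} (hn : 1 ≤ n) : 1 ≤ (n.size : ℝ) ^ tauT :=
  Real.one_le_rpow (by exact_mod_cast Nat.size_pos.2 hn) (by linarith [half_le_tauT])

theorem le_GG (n : ℕ) : (n : ℝ) + 1 ≤ GG n := by
  unfold GG
  rcases Nat.eq_zero_or_pos n with rfl | hn
  · simp
  · have := one_le_size_rpow hn
    have h0 : (0 : ℝ) ≤ n := by positivity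
    nlinarith

theorem size_size_le (n : ℕ) : (n.size.size : ℝ) ≤ 2 * (n.size : ℝ) ^ tauT := by
  rcases Nat.eq_zero_or_pos n with rfl | hn
  · simp only [Nat.size_zero, Nat.cast_zero]; positivity
  · have h1 : (1 : ℝ) ≤ n.size := by exact_mod_cast Nat.size_pos.2 hn
    have h2 : (n.size : ℝ) ^ (1 / 2 : ℝ) ≤ (n.size : ℝ) ^ tauT :=
      Real.rpow_le_rpow_of_exponent_le h1 half_le_tauT
    rw [← Real.sqrt_eq_rpow] at h2
    have h3 : (n.size.size : ℝ) / 2 ≤ √(n.size : ℝ) := by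
      apply Real.le_sqrt_of_sq_le
      have : ((n.size.size : ℝ)) ^ 2 ≤ 4 * n.size := by exact_mod_cast size_sq_le n.size
      linarith
    linarith

/-- the number of passes -/
def betaT (L0 n : ℕ) : ℕ := if n.size < L0 then n.size else n.size.size

theorem betaT_le (L0 n : ℕ) : betaT L0 n ≤ n.size := by
  unfold betaT; split_ifs
  · exact le_rfl
  · exact size_le_self _

theorem two_pow_betaT_le (L0 n : ℕ) : 2 ^ betaT L0 n ≤ 2 * n + 1 := by
  unfold betaT; split_ifs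
  · exact two_pow_size_le n
  · have := two_pow_size_le n.size
    have := size_le_self n
    omega

theorem betaT_mul_le (L0 n : ℕ) : (betaT L0 n : ℝ) * (n + 1) ≤ (2 * L0 + 4) * GG n := by
  have h0 : (0 : ℝ) ≤ L0 := by positivity
  have h1 := le_GG n
  have hn0 : (0 : ℝ) ≤ n := by positivity
  unfold betaT; split_ifs with h
  · have : (n.size : ℝ) ≤ L0 := by exact_mod_cast h.le
    have : (n.size : ℝ) * (n + 1) ≤ L0 * GG n := by gcongr
    nlinarith
  · rcases Nat.eq_zero_or_pos n with rfl | hn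
    · simp only [Nat.size_zero, Nat.cast_zero, zero_mul]
      have : (0 : ℝ) ≤ GG 0 := by linarith
      positivity
    · have h2 := size_size_le n
      have h3 : (1 : ℝ) ≤ n := by exact_mod_cast hn
      have h4 : (n.size.size : ℝ) * (n + 1) ≤ 2 * (n.size : ℝ) ^ tauT * (2 * n) := by
        gcongr; linarith
      have h5 : (n : ℝ) * (n.size : ℝ) ^ tauT ≤ GG n := by unfold GG; linarith
      nlinarith

/-- the product for short inputs -/
def fbT : Tm := .app (.mul (.nth (.var 0) (.const 0)) (.nth (.var 1) (.const 0))) (.const 0)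

theorem getD_of_length_le_one {x : ℕ} {A : List ℕ} (h : A.length ≤ 1) :
    A.getD 0 0 = Nat.ofDigits x A := by
  rcases A with _ | ⟨a, _ | ⟨b, A⟩⟩
  · rfl
  · simp
  · simp at h

theorem fbT_ev {b β : ℕ} {A B : List ℕ} (hA : Bd b A) (hB : Bd b B) (hA1 : A.length ≤ 1)
    (hB1 : B.length ≤ 1) (hβ : β ≤ b) :
    EvR fn [A, B, [β]] fbT [A, B, [β]] [A.getD 0 0 * B.getD 0 0, 0] (440 * (2 * b + 9) ^ 2) := by
  have hW : 8 ≤ 2 * b + 8 := by omega
  have h1 : A.getD 0 0 < 2 ^ b := by cases A <;> simp_all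
  have h2 : B.getD 0 0 < 2 ^ b := by cases B <;> simp_all
  have h3 : A.getD 0 0 * B.getD 0 0 < 2 ^ (2 * b + 8) := by
    refine lt_of_lt_of_le ?_ (Nat.pow_le_pow_right (by norm_num) (show b + b ≤ 2 * b + 8 by omega))
    rw [pow_add]
    exact Nat.mul_lt_mul'' h1 h2
  have h4 : Pv (2 * b + 8) fn [A, B, [β]] fbT ([A.getD 0 0 * B.getD 0 0] ++ [0]) _ :=
    Pv.app (Pv.mul hW (Pv.nth (Pv.var rfl) (Pv.constS hW (by norm_num)))
      (Pv.nth (Pv.var rfl) (Pv.constS hW (by norm_num))) h3) (Pv.constS hW (by norm_num))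
  refine (h4.toR ?_).mono ?_
  · have : β < 2 ^ (2 * b + 8) :=
      Nat.lt_two_pow_self.trans_le (Nat.pow_le_pow_right (by norm_num) (by omega))
    simp [hA.mono (show b ≤ 2 * b + 8 by omega), hB.mono (show b ≤ 2 * b + 8 by omega), this]
  · have h5 : (A.length : ℝ) ≤ 1 := by exact_mod_cast hA1
    have h6 : (B.length : ℝ) ≤ 1 := by exact_mod_cast hB1
    have h7 : (0 : ℝ) ≤ b := by positivity
    simp only [List.length_cons, List.length_nil]
    push_cast
    nlinarith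

/-- what is used of the product of polynomials -/
def ConvOK (tc : Tm) (C cW β0 : ℕ) : Prop := ∀ (A B : List ℕ) (β : ℕ), β0 ≤ β →
  A.length = B.length → 2 ^ β ≤ 4 * A.length.size → A.length.size ≤ 2 ^ β →
  (∀ r ∈ A, r < 2 ^ 2 ^ β) → (∀ r ∈ B, r < 2 ^ 2 ^ β) →
  4 ≤ cW ∧ Does (cW * 2 ^ β) tc [A, B, [β]] (C * (A.length * ((2 : ℝ) ^ β) ^ tauC)) (· = convL A B)

theorem two_mul_size_le {L : ℕ} (h : 6 ≤ L) : 2 * L.size ≤ L := by
  have key : ∀ k : ℕ, 2 * k + 7 < 2 ^ (k + 3) := by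
    intro k
    induction k with
    | zero => norm_num
    | succ k ih => rw [show k + 1 + 3 = k + 3 + 1 by ring, pow_succ]; omega
  have : L.size ≤ L / 2 := by
    apply Nat.size_le.2
    have := key (L / 2 - 3)
    rw [show L / 2 - 3 + 3 = L / 2 by omega] at this
    omega
  omega

theorem convMainTop {tc : Tm} {C cW β0 n U V : ℕ} (hc : ConvOK tc C cW β0)
    (hL : 2 ^ β0 + 6 ≤ n.size) {β N : ℕ} (hβ : β = n.size.size) (hN : N = cl β n) :
    Bd (cW * 2 ^ β) (convL (digs (2 ^ β) U N) (digs (2 ^ β) V N)) ∧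
    EvR fn [digs (2 ^ β) U N, digs (2 ^ β) V N, [β]] tc [digs (2 ^ β) U N, digs (2 ^ β) V N, [β]]
      (convL (digs (2 ^ β) U N) (digs (2 ^ β) V N)) (12 * C * (cW + 1) * GG n) := by
  have h0 : 0 < 2 ^ β0 := by positivity
  have hn : 1 ≤ n := Nat.size_pos.1 (by omega)
  have h1 : n.size < 2 ^ β := hβ ▸ Nat.lt_size_self _
  have h2 : 2 ^ β ≤ 2 * n.size + 1 := hβ ▸ two_pow_size_le _
  have h3 : 2 * β ≤ n.size := hβ ▸ two_mul_size_le (by omega)
  have h4 : n ≤ 2 ^ β * N := hN ▸ le_cl β n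
  have h5 : 2 ^ β * N < n + 2 ^ β := hN ▸ cl_lt β n
  have h6 : β0 ≤ β := by
    have : β0 < n.size.size := Nat.lt_size.2 (by omega)
    omega
  have h7 : N ≤ n := by
    by_contra h
    have : 2 ^ β * (n + 1) ≤ 2 ^ β * N := Nat.mul_le_mul_left _ (by omega)
    nlinarith
  have h8 : n.size ≤ β + N.size := by
    apply Nat.size_le.2
    have := Nat.lt_size_self N
    rw [pow_add]
    calc n ≤ 2 ^ β * N := h4
      _ < 2 ^ β * 2 ^ N.size := Nat.mul_lt_mul_of_pos_left this (by positivity)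
  have h9 : 2 ^ β ≤ 4 * N.size := by
    have : 2 ^ β ≠ 2 * n.size + 1 := by
      rw [show β = (β - 1) + 1 by
        have : 0 < β := hβ ▸ Nat.size_pos.2 (by omega)
        omega, pow_succ]
      omega
    omega
  have h10 : N.size ≤ 2 ^ β := (Nat.size_le_size h7).trans h1.le
  obtain ⟨h11, h12⟩ := hc (digs (2 ^ β) U N) (digs (2 ^ β) V N) β h6 (by simp) (by simpa using h9)
    (by simpa using h10) (bd_digs _ _ _) (bd_digs _ _ _)
  obtain ⟨Y, rfl, h13⟩ := h12 fn []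
  have h14 : 2 ^ β ≤ cW * 2 ^ β := Nat.le_mul_of_pos_left _ (by omega)
  have hb : BdE (cW * 2 ^ β) ([digs (2 ^ β) U N, digs (2 ^ β) V N, [β]] ++ []) := by
    have : β < 2 ^ (cW * 2 ^ β) := Nat.lt_two_pow_self.trans
      (Nat.lt_two_pow_self.trans_le (Nat.pow_le_pow_right (by norm_num) h14))
    simp [(bd_digs _ U N).mono h14, (bd_digs _ V N).mono h14, this]
  refine ⟨(h13 hb).2.1, (h13.toR hb).mono ?_⟩
  simp only [length_digs]
  have hL1 : (1 : ℝ) ≤ n.size := by exact_mod_cast (by omega : 1 ≤ n.size)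
  have e1 : ((2 : ℝ) ^ β) ^ tauC ≤ 3 * (n.size : ℝ) ^ tauT := by
    have : (2 : ℝ) ^ β ≤ 3 * n.size := by exact_mod_cast (by omega : 2 ^ β ≤ 3 * n.size)
    calc ((2 : ℝ) ^ β) ^ tauC ≤ (3 * n.size) ^ tauC :=
          Real.rpow_le_rpow (by positivity) this tauC_nonneg
      _ = 3 ^ tauC * (n.size : ℝ) ^ tauC := Real.mul_rpow (by norm_num) (by positivity)
      _ ≤ 3 * (n.size : ℝ) ^ tauT := by
          gcongr
          · calc (3 : ℝ) ^ tauC ≤ 3 ^ (1 : ℝ) :=
                Real.rpow_le_rpow_of_exponent_le (by norm_num) tauC_le_one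
              _ = 3 := Real.rpow_one _
          · exact tauC_le_tauT
  have e2 : N * (cW * 2 ^ β + 1) ≤ (cW + 1) * (4 * n) := by
    have := size_le_self n
    have h15 : 1 ≤ 2 ^ β := Nat.one_le_two_pow
    calc N * (cW * 2 ^ β + 1) ≤ N * (cW * 2 ^ β + 2 ^ β) := by gcongr
      _ = (cW + 1) * (2 ^ β * N) := by ring
      _ ≤ (cW + 1) * (4 * n) := Nat.mul_le_mul_left _ (by omega)
  have e3 : (N : ℝ) * (((cW * 2 ^ β : ℕ) : ℝ) + 1) ≤ (cW + 1) * (4 * n) := by exact_mod_cast e2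
  have e4 : (n : ℝ) * (n.size : ℝ) ^ tauT ≤ GG n := by unfold GG; linarith
  calc (C : ℝ) * (N * ((2 : ℝ) ^ β) ^ tauC) * (((cW * 2 ^ β : ℕ) : ℝ) + 1)
      = C * (N * (((cW * 2 ^ β : ℕ) : ℝ) + 1)) * ((2 : ℝ) ^ β) ^ tauC := by ring
    _ ≤ C * ((cW + 1) * (4 * n)) * (3 * (n.size : ℝ) ^ tauT) := by gcongr
    _ = 12 * C * (cW + 1) * (n * (n.size : ℝ) ^ tauT) := by ring
    _ ≤ 12 * C * (cW + 1) * GG n := by gcongr

theorem convStage {tc : Tm} {C cW β0 n U V : ℕ} (hc : ConvOK tc C cW β0) (hU : U < 2 ^ n)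
    (hV : V < 2 ^ n) {L0 β N : ℕ} (hL0 : L0 = 2 ^ β0 + 6) (hβ : β = betaT L0 n) (hN : N = cl β n)
    (x y z u v : List ℕ) :
    ∃ Z : List ℕ, Nat.ofDigits (2 ^ 2 ^ β) Z = U * V ∧ 2 * N ≤ Z.length ∧ Z.length ≤ 2 * N + 2 ∧
      Bd ((cW + 2) * 2 ^ β) Z ∧
      EvR fn [digs (2 ^ β) U N, digs (2 ^ β) V N, [β], x, y, [if n.size < L0 then 1 else 0], z, u, v]
        (.ite (.var 5) (.skip 3 6 fbT) (.skip 3 6 tc))
        [digs (2 ^ β) U N, digs (2 ^ β) V N, [β], x, y, [if n.size < L0 then 1 else 0], z, u, v] Z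
        ((12 * C * (cW + 1) + 440 * (2 * 2 ^ L0 + 9) ^ 2 + 6) * GG n) := by
  have h4 : n ≤ 2 ^ β * N := hN ▸ le_cl β n
  have h5 : 2 ^ β * N < n + 2 ^ β := hN ▸ cl_lt β n
  have hU' := ofDigits_digs (2 ^ β) U N (hU.trans_le (Nat.pow_le_pow_right (by norm_num) h4))
  have hV' := ofDigits_digs (2 ^ β) V N (hV.trans_le (Nat.pow_le_pow_right (by norm_num) h4))
  have hG : 1 ≤ GG n := by
    have := le_GG n
    have : (0 : ℝ) ≤ n := by positivity
    linarith
  have k1 : (0 : ℝ) ≤ 12 * C * (cW + 1) := by positivity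
  have k2 : (0 : ℝ) ≤ 440 * (2 * 2 ^ L0 + 9) ^ 2 := by positivity
  by_cases h : n.size < L0
  · have hβ' : β = n.size := by rw [hβ, betaT, if_pos h]
    have h1 : n < 2 ^ β := hβ' ▸ Nat.lt_size_self n
    have hN1 : N ≤ 1 := by
      by_contra h2
      have : 2 ^ β * 2 ≤ 2 ^ β * N := Nat.mul_le_mul_left _ (by omega)
      omega
    have h2 := fbT_ev (fn := fn) (β := β) (bd_digs (2 ^ β) U N) (bd_digs (2 ^ β) V N)
      (by simpa using hN1) (by simpa using hN1) Nat.lt_two_pow_self.le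
    rw [getD_of_length_le_one (x := 2 ^ 2 ^ β) (by simpa using hN1),
      getD_of_length_le_one (x := 2 ^ 2 ^ β) (by simpa using hN1), hU', hV'] at h2
    refine ⟨[U * V, 0], by simp [Nat.ofDigits_cons], by simp; omega, by simp, ?_, ?_⟩
    · have : U * V < 2 ^ ((cW + 2) * 2 ^ β) := by
        refine lt_of_lt_of_le ?_ (Nat.pow_le_pow_right (by norm_num)
          (show n + n ≤ (cW + 2) * 2 ^ β by nlinarith))
        rw [pow_add]
        exact Nat.mul_lt_mul'' hU hV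
      simp [this]
    · rw [if_pos h]
      refine (EvR.iteT (EvR.var (x := [1]) rfl) (by simp) (EvR.skip (A := [_, _, _])
        (B := [x, y, [1], z, u, v]) (C := []) (A' := [_, _, _]) (C' := []) rfl rfl rfl h2)).mono ?_
      have h3 : (2 : ℝ) ^ β ≤ 2 ^ L0 := pow_le_pow_right₀ (by norm_num) (by omega)
      have h6 : (440 : ℝ) * (2 * ((2 ^ β : ℕ) : ℝ) + 9) ^ 2 ≤ 440 * (2 * 2 ^ L0 + 9) ^ 2 := by
        push_cast; gcongr
      simp only [sz_cons, sz_nil, Nat.size_one]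
      push_cast at h6 ⊢
      nlinarith
  · have hβ' : β = n.size.size := by rw [hβ, betaT, if_neg h]
    obtain ⟨h1, h2⟩ := convMainTop (fn := fn) (U := U) (V := V) hc (by omega) hβ' hN
    refine ⟨_, by rw [ofDigits_convL _ _ _ (by simp), hU', hV'], by simp [length_convL],
      by simp [length_convL], h1.mono (Nat.mul_le_mul_right _ (by omega)), ?_⟩
    rw [if_neg h]
    refine (EvR.iteF (EvR.var (x := [0]) rfl) (by simp) (EvR.skip (A := [_, _, _])
      (B := [x, y, [0], z, u, v]) (C := []) (A' := [_, _, _]) (C' := []) rfl rfl rfl h2)).mono ?_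
    simp only [sz_cons, sz_nil, Nat.size_zero]
    push_cast
    nlinarith

/-- the whole program -/
def topT (tc : Tm) (L0 : ℕ) : Tm :=
  .lett (.sizeU (.var 0))
  (.lett (.bin .lt (.len (.var 0)) (.const L0))
  (.lett (.ite (.var 0) (.var 1) (.sizeU (.var 1)))
  (.lett (.pow2 (.len (.var 0)))
  (.lett (.len (.var 1))
  (.lett (.loop3 (.var 2) (.const 1) (.var 6) 7 packB)
  (.lett (.loop3 (.var 3) (.const 1) (.var 6) 8 packB)
  (.lett (.ite (.var 5) (.skip 3 6 fbT) (.skip 3 6 tc))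
  (.lett (.skip 1 3 carryT)
  (.lett (.loop3 (.var 6) (.var 5) (.var 0) 11 unpB)
  (.skip 1 9 outT))))))))))

theorem EvR.const1 {e : Env} : EvR fn e (.const 1) e [1] 3 := ⟨_, by norm_num, EvB.const⟩

theorem sz_replicate (k : ℕ) : sz (List.replicate k 0) = k := by
  induction k with
  | zero => rfl
  | succ k ih => simp [List.replicate_succ, ih]; ring

theorem sz_digs_le (b P m : ℕ) : (sz (digs b P m) : ℝ) ≤ m * (b + 1) := by
  simpa using (bd_digs b P m).sz_le'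

theorem sz_single_le (a : ℕ) : (sz [a] : ℝ) ≤ a + 1 := by
  have : (a.size : ℝ) ≤ a := by exact_mod_cast size_le_self a
  simpa using this

theorem top_arith {n L L0 β b N M cW : ℕ} (hβL : β ≤ L) (hLn : L ≤ n) (hLL : L ^ 2 ≤ 4 * n)
    (hb : b ≤ 2 * n + 1) (hb1 : 1 ≤ b) (h5 : b * N < n + b) (hM : M ≤ 2 * N + 2) :
    N * (b + 1) ≤ 6 * (n + 1) ∧ b * (M + 1) ≤ 12 * (n + 1) ∧ M * (b + 1) ≤ 24 * (n + 1) ∧
    (21 * L + 20) * (L + L0 + 8 + 1) ≤ 500 * ((L0 + 1) * (n + 1)) ∧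
    (21 * β + 20) * (β + 8 + 1) ≤ 500 * (n + 1) ∧
    (90 * M + 20) * ((cW + 2) * b + 1 + 1) ≤ 2000 * ((cW + 3) * (n + 1)) ∧
    β * (n + b) ≤ 3 * (β * (n + 1)) := by
  have hS : b * (M + 1) ≤ 12 * (n + 1) := by nlinarith
  refine ⟨by nlinarith, hS, by nlinarith, by nlinarith, by nlinarith, ?_, by nlinarith⟩
  calc (90 * M + 20) * ((cW + 2) * b + 1 + 1) ≤ (90 * (M + 1)) * ((cW + 4) * b) :=
        Nat.mul_le_mul (by omega) (by nlinarith)
    _ = 90 * (cW + 4) * (b * (M + 1)) := by ring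
    _ ≤ 90 * (cW + 4) * (12 * (n + 1)) := Nat.mul_le_mul_left _ hS
    _ ≤ 2000 * ((cW + 3) * (n + 1)) := by nlinarith

theorem topT_ev {tc : Tm} {C cW β0 : ℕ} (hc : ConvOK tc C cW β0) : ∃ K : ℕ, ∀ n U V : ℕ,
    U < 2 ^ n → V < 2 ^ n →
    EvR fn [digs 1 U n, digs 1 V n] (topT tc (2 ^ β0 + 6)) [[], []]
      (digs 1 (U * V) (2 * n)).reverse (K * GG n) := by
  obtain ⟨L0, hL0⟩ : ∃ L0, L0 = 2 ^ β0 + 6 := ⟨_, rfl⟩
  rw [← hL0]
  refine ⟨(12 * C * (cW + 1) + 440 * (2 * 2 ^ L0 + 9) ^ 2 + 6) + 20000 * (L0 + 1) +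
    2000 * (cW + 3), fun n U V hU hV => ?_⟩
  obtain ⟨β, hβ⟩ : ∃ β, β = betaT L0 n := ⟨_, rfl⟩
  obtain ⟨N, hN⟩ : ∃ N, N = cl β n := ⟨_, rfl⟩
  obtain ⟨L, hL⟩ : ∃ L, L = n.size := ⟨_, rfl⟩
  obtain ⟨fl, hfl⟩ : ∃ fl, fl = if L < L0 then 1 else 0 := ⟨_, rfl⟩
  have hfl1 : fl ≤ 1 := by rw [hfl]; split_ifs <;> omega
  have hβL : β ≤ L := hβ ▸ hL ▸ betaT_le L0 n
  have hLn : L ≤ n := hL ▸ size_le_self n
  have hLL : L ^ 2 ≤ 4 * n := hL ▸ size_sq_le n
  have hb : 2 ^ β ≤ 2 * n + 1 := hβ ▸ two_pow_betaT_le L0 n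
  have hb1 : 1 ≤ 2 ^ β := Nat.one_le_two_pow
  have hβG : (β : ℝ) * (n + 1) ≤ (2 * L0 + 4) * GG n := hβ ▸ betaT_mul_le L0 n
  have h4 : n ≤ 2 ^ β * N := hN ▸ le_cl β n
  have h5 : 2 ^ β * N < n + 2 ^ β := hN ▸ cl_lt β n
  obtain ⟨Z, hZ1, hZ2, hZ3, hZ4, s8⟩ := convStage (fn := fn) hc hU hV hL0 hβ hN [2 ^ β]
    (List.replicate β 0) (List.replicate L 0) (digs 1 U n) (digs 1 V n)
  rw [← hL, ← hfl] at s8
  obtain ⟨M, hM⟩ : ∃ M, M = Z.length := ⟨_, rfl⟩
  rw [← hM] at hZ2 hZ3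
  have h6 : n + n ≤ 2 ^ β * M := by
    have := Nat.mul_le_mul_left (2 ^ β) hZ2
    rw [mul_left_comm] at this
    omega
  have hbW : 2 ^ β ≤ (cW + 2) * 2 ^ β + 1 :=
    (Nat.le_mul_of_pos_left _ (by omega)).trans (Nat.le_succ _)
  obtain ⟨n1, hS, n2, n4, n5, n6, n7⟩ := top_arith (L0 := L0) (cW := cW) hβL hLn hLL hb hb1 h5 hZ3
  have n3 : 2 ^ β * M ≤ 12 * (n + 1) := (Nat.mul_le_mul_left _ (Nat.le_succ M)).trans hS
  have r1 := (Nat.cast_le (α := ℝ)).2 n1
  have r2 := (Nat.cast_le (α := ℝ)).2 n2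
  have r3 := (Nat.cast_le (α := ℝ)).2 n3
  have r4 := (Nat.cast_le (α := ℝ)).2 n4
  have r5 := (Nat.cast_le (α := ℝ)).2 n5
  have r6 := (Nat.cast_le (α := ℝ)).2 n6
  have r7 := (Nat.cast_le (α := ℝ)).2 n7
  have r8 := (Nat.cast_le (α := ℝ)).2 hb
  have r9 := (Nat.cast_le (α := ℝ)).2 hβL
  have r10 := (Nat.cast_le (α := ℝ)).2 hLn
  have r11 := (Nat.cast_le (α := ℝ)).2 hfl1
  have hG := le_GG n
  have r12 : ((L0 : ℝ) + 1) * (n + 1) ≤ (L0 + 1) * GG n :=
    mul_le_mul_of_nonneg_left hG (by positivity)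
  have r13 : ((cW : ℝ) + 3) * (n + 1) ≤ (cW + 3) * GG n :=
    mul_le_mul_of_nonneg_left hG (by positivity)
  have r14 : (0 : ℝ) ≤ n := by positivity
  have r15 : (0 : ℝ) ≤ L0 * GG n := mul_nonneg (by positivity) (by linarith only [hG, r14])
  have r16 : (0 : ℝ) ≤ β := by positivity
  have z1 := sz_digs_le 1 U n
  have z2 := sz_digs_le 1 V n
  have z3 := sz_digs_le 1 (U * V) (2 * n)
  have z4 := sz_digs_le 1 (U * V) (2 ^ β * M)
  have z5 : (sz ((digs 1 (U * V) (2 ^ β * M)).drop (2 * n)) : ℝ) ≤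
      sz (digs 1 (U * V) (2 ^ β * M)) := by
    conv_rhs => rw [← List.take_append_drop (2 * n) (digs 1 (U * V) (2 ^ β * M)), sz_append]
    rw [Nat.cast_add]
    exact le_add_of_nonneg_left (by positivity)
  have z6 := sz_digs_le (2 ^ β) U N
  have z7 := sz_digs_le (2 ^ β) V N
  have z8 := sz_digs_le (2 ^ β) (U * V) M
  have z9 := sz_single_le fl
  have z10 := sz_single_le β
  have z11 := sz_single_le (2 ^ β)
  have z12 := sz_single_le 1
  push_cast at r1 r2 r3 r4 r5 r6 r7 r8 r11 z1 z2 z3 z4 z6 z7 z8 z11 z12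
  have bd1 : ∀ {W : ℕ} (P : ℕ), 1 ≤ W → Bd W (digs 1 P n) := fun P h => (bd_digs 1 P n).mono h
  have bdf : ∀ {W : ℕ}, 1 ≤ W → fl < 2 ^ W := fun h =>
    lt_of_le_of_lt hfl1 (Nat.one_lt_two_pow (by omega))
  -- the parameters
  have s1 := (Pv.sizeU (W := 8) (fn := fn) (e := [digs 1 U n, digs 1 V n]) (Pv.var (i := 0) rfl)).toR
    (by simp [bd1])
  rw [length_digs, ← hL] at s1
  replace s1 := s1.mono (c' := 600 * GG n) (by push_cast; linarith only [hG, r14])
  have s2 := (Pv.lt (W := L + L0 + 8) (fn := fn)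
    (e := [List.replicate L 0, digs 1 U n, digs 1 V n]) (by omega)
    (Pv.len (Pv.var (i := 0) rfl) (by
      rw [List.length_replicate]
      exact Nat.lt_two_pow_self.trans_le (Nat.pow_le_pow_right (by norm_num) (by omega))))
    (Pv.const (c := L0)
      (Nat.lt_two_pow_self.trans_le (Nat.pow_le_pow_right (by norm_num) (by omega))))).toR
    (by simp [bd1, bd_replicate])
  rw [List.length_replicate, ← hfl] at s2
  replace s2 := s2.mono (c' := 500 * ((L0 + 1) * GG n)) (by push_cast; linarith only [r4, r12])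
  have s3 : EvR fn [[fl], List.replicate L 0, digs 1 U n, digs 1 V n]
      (.ite (.var 0) (.var 1) (.sizeU (.var 1))) [[fl], List.replicate L 0, digs 1 U n, digs 1 V n]
      (List.replicate β 0) ((66 * L + 11) * ((8 : ℕ) + 1)) := by
    refine Ev.toR (W := 8) ?_ (by simp [bd1, bd_replicate, show fl < 256 by omega])
    have h0 : (0 : ℝ) ≤ L := by positivity
    by_cases h : L < L0
    · refine (Ev.iteT (Pv.varS rfl) (by simp [hfl, h]) (Pv.var rfl)).cast rfl
        (by rw [hβ, betaT, ← hL, if_pos h]) |>.mono ?_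
      simp; linarith only [h0]
    · refine (Ev.iteF (Pv.varS rfl) (by simp [hfl, h]) (Pv.sizeU (Pv.var rfl))).cast rfl
        (by rw [hβ, betaT, ← hL, if_neg h, List.length_replicate]) |>.mono ?_
      simp; linarith only [h0]
  replace s3 := s3.mono (c' := 600 * GG n) (by push_cast; linarith only [hG, r14, r10])
  have hβW : β < 2 ^ (β + 8) :=
    Nat.lt_two_pow_self.trans_le (Nat.pow_le_pow_right (by norm_num) (by omega))
  have s4 := (Pv.pow2 (W := β + 8) (fn := fn)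
    (e := [List.replicate β 0, [fl], List.replicate L 0, digs 1 U n, digs 1 V n])
    (Pv.len (Pv.var (i := 0) rfl) (by rwa [List.length_replicate]))
    (by rw [List.length_replicate]; omega)).toR (by simp [bd1, bd_replicate, bdf])
  rw [List.length_replicate] at s4
  replace s4 := s4.mono (c' := 500 * GG n) (by push_cast; linarith only [hG, r5])
  have s5 := (Pv.len (W := β + 8) (fn := fn)
    (e := [[2 ^ β], List.replicate β 0, [fl], List.replicate L 0, digs 1 U n, digs 1 V n])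
    (Pv.var (i := 1) rfl) (by rwa [List.length_replicate])).toR (by
      simp [bd1, bd_replicate, bdf, Nat.pow_lt_pow_right])
  rw [List.length_replicate] at s5
  replace s5 := s5.mono (c' := 500 * GG n) (by push_cast; linarith only [hG, r5, r16])
  -- packing
  have p1 := packAll_ev (fn := fn) n (2 ^ β) V β 1 n le_rfl (by omega) (by omega) (by simpa using hV)
  have p2 := packAll_ev (fn := fn) n (2 ^ β) U β 1 n le_rfl (by omega) (by omega) (by simpa using hU)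
  rw [one_mul, ← hN] at p1 p2
  have s6 := (EvR.loop3 (e := [[β], [2 ^ β], List.replicate β 0, [fl], List.replicate L 0,
    digs 1 U n, digs 1 V n]) (k := 7) rfl (EvR.var (i := 2) rfl) EvR.const1
    (EvR.var (i := 6) rfl) p1).mono (c' := 800 * (L0 * GG n) + 2400 * GG n) (by
      rw [sz_replicate]; push_cast
      linarith only [hG, r14, r9, r10, r8, r7, hβG, r1, z2, z7, z11, r15])
  have s7 := (EvR.loop3 (e := [digs (2 ^ β) V N, [β], [2 ^ β], List.replicate β 0, [fl],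
    List.replicate L 0, digs 1 U n, digs 1 V n]) (k := 8) rfl (EvR.var (i := 3) rfl) EvR.const1
    (EvR.var (i := 6) rfl) p2).mono (c' := 800 * (L0 * GG n) + 2400 * GG n) (by
      rw [sz_replicate]; push_cast
      linarith only [hG, r14, r9, r10, r8, r7, hβG, r1, z1, z6, z11, r15])
  -- carries
  have c1 := (carryT_ev (W := (cW + 2) * 2 ^ β + 1) (fn := fn)
    (e := [List.replicate β 0, [fl], List.replicate L 0, digs 1 U n, digs 1 V n])
    hb1 hbW le_rfl hZ4).toR (by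
      have : 2 ^ β < 2 ^ ((cW + 2) * 2 ^ β + 1) :=
        Nat.lt_two_pow_self.trans_le (Nat.pow_le_pow_right (by norm_num) hbW)
      simp [bd1, bd_replicate, bdf, hZ4.mono (Nat.le_succ _), this])
  rw [hZ1, ← hM] at c1
  have s9 := (EvR.skip (A := [Z]) (B := [digs (2 ^ β) U N, digs (2 ^ β) V N, [β]]) (A' := [[]])
    (j := 1) (k := 3) rfl rfl rfl c1).mono (c' := 2000 * ((cW + 3) * GG n))
    (by push_cast; linarith only [r6, r13])
  -- unpacking
  have s10 := (EvR.loop3 (e := [digs (2 ^ β) (U * V) M, [], digs (2 ^ β) U N, digs (2 ^ β) V N, [β],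
    [2 ^ β], List.replicate β 0, [fl], List.replicate L 0, digs 1 U n, digs 1 V n]) (k := 11) rfl
    (EvR.var (i := 6) rfl) (EvR.var (i := 5) rfl) (EvR.var (i := 0) rfl)
    (unpAll_ev (fn := fn) _ (U * V) β M hS)).mono (c' := 5000 * (L0 * GG n) + 10000 * GG n) (by
      rw [sz_replicate]; push_cast
      linarith only [hG, r14, r9, r10, r8, hβG, r2, r3, z4, z8, z11, z12, r15])
  have o1 := (outT_ev (W := 1) (fn := fn) (digs 1 (U * V) (2 ^ β * M)) (digs 1 U n)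
    (digs 1 V n)).toR (by simp [bd_digs])
  rw [length_digs, length_digs, take_digs _ _ h6, ← two_mul] at o1
  have s11 := (EvR.skip (A := [_]) (B := [digs (2 ^ β) (U * V) M, [], digs (2 ^ β) U N,
    digs (2 ^ β) V N, [β], [2 ^ β], List.replicate β 0, [fl], List.replicate L 0]) (A' := [_])
    (j := 1) (k := 9) rfl rfl rfl o1).mono (c' := 80 * GG n)
    (by push_cast; linarith only [hG, r14])
  refine (EvR.lett s1 (EvR.lett s2 (EvR.lett s3 (EvR.lett s4 (EvR.lett s5 (EvR.lett s6 (EvR.lett s7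
    (EvR.lett s8 (EvR.lett s9 (EvR.lett s10 s11)))))))))).mono ?_
  rw [sz_replicate, sz_replicate, sz_reverse, sz_nil]
  push_cast
  linarith only [hG, r14, r9, r10, r8, r11, r1, r2, r3, r15, z3, z4, z5, z6, z7, z8, z9, z10, z11]

theorem top_spec (hB : BridgeSpec) (hC : ConvSpec) :
    ∃ c : ℕ, TimeBoundComputable EqLenPair.enc (Computability.encodingList Bool).encode mulOutput
      (fun N => c * ⌈(N : ℝ) * (Real.logb 2 N) ^ (1 - 1 / (2 : ℝ) ^ 182)⌉₊ + c) := by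
  obtain ⟨tc, C, cW, β0, hc⟩ := hC
  obtain ⟨K, hK⟩ := topT_ev (fn := none) (tc := tc) (C := C) (cW := cW) (β0 := β0) hc
  obtain ⟨C', M, hM⟩ := hB mulOutput (topT tc (2 ^ β0 + 6))
    (fun n => K * (⌈(n : ℝ) * (n.size : ℝ) ^ tauT⌉₊ + 1)) fun q => by
      obtain ⟨k, h1, h2⟩ := hK q.1.1.length (bitsVal q.1.1) (bitsVal q.1.2) (bitsVal_lt _)
        (q.2 ▸ bitsVal_lt _)
      rw [bitsW_reverse, bitsW_reverse, ← q.2, mulOutput, bitsW_toBits]
      refine h2.mono ?_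
      have h3 : GG q.1.1.length ≤
          (⌈(q.1.1.length : ℝ) * (q.1.1.length.size : ℝ) ^ tauT⌉₊ : ℝ) + 1 := by
        unfold GG
        linarith [Nat.le_ceil ((q.1.1.length : ℝ) * (q.1.1.length.size : ℝ) ^ tauT)]
      have h4 : (k : ℝ) ≤
          K * ((⌈(q.1.1.length : ℝ) * (q.1.1.length.size : ℝ) ^ tauT⌉₊ : ℝ) + 1) :=
        h1.trans (by gcongr)
      exact_mod_cast h4
  refine ⟨C' * (K + 2), M, fun N => (hM N).trans ?_⟩
  change C' * (K * (⌈((N / 2 : ℕ) : ℝ) * ((N / 2).size : ℝ) ^ tauT⌉₊ + 1) + N + 1) ≤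
    C' * (K + 2) * ⌈(N : ℝ) * (Real.logb 2 N) ^ tauT⌉₊ + C' * (K + 2)
  rw [← Nat.mul_succ, mul_assoc]
  refine Nat.mul_le_mul_left _ ?_
  rcases Nat.lt_or_ge N 2 with h | h
  · rw [Nat.div_eq_of_lt h]
    simp only [Nat.cast_zero, zero_mul, Nat.ceil_zero, Nat.succ_eq_add_one]
    nlinarith [Nat.zero_le (K * ⌈(N : ℝ) * (Real.logb 2 N) ^ tauT⌉₊)]
  · have h0 : 0 ≤ tauT := by linarith [half_le_tauT]
    have hN : (2 : ℝ) ≤ N := by exact_mod_cast h
    have h1 : ((N / 2).size : ℝ) ≤ Real.logb 2 N := by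
      rw [Real.le_logb_iff_rpow_le (by norm_num) (by linarith), Real.rpow_natCast]
      have h2 := two_pow_size_le (N / 2)
      have h3 : 2 ^ (N / 2).size ≠ 2 * (N / 2) + 1 := by
        have : 0 < (N / 2).size := Nat.size_pos.2 (by omega)
        rw [show (N / 2).size = ((N / 2).size - 1) + 1 by omega, pow_succ]
        omega
      exact_mod_cast (by omega : 2 ^ (N / 2).size ≤ N)
    have h2 : 1 ≤ Real.logb 2 N := by
      rw [Real.le_logb_iff_rpow_le (by norm_num) (by linarith), Real.rpow_one]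
      exact hN
    have h3 : ⌈((N / 2 : ℕ) : ℝ) * ((N / 2).size : ℝ) ^ tauT⌉₊ ≤
        ⌈(N : ℝ) * (Real.logb 2 N) ^ tauT⌉₊ := by
      apply Nat.ceil_mono
      have : ((N / 2 : ℕ) : ℝ) ≤ N := by exact_mod_cast Nat.div_le_self N 2
      gcongr
    have h4 : N ≤ ⌈(N : ℝ) * (Real.logb 2 N) ^ tauT⌉₊ := by
      have h5 := Real.one_le_rpow h2 h0
      have h6 := Nat.le_ceil ((N : ℝ) * (Real.logb 2 N) ^ tauT)
      have : (N : ℝ) ≤ ⌈(N : ℝ) * (Real.logb 2 N) ^ tauT⌉₊ := by nlinarith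
      exact_mod_cast this
    simp only [Nat.succ_eq_add_one]
    nlinarith [Nat.mul_le_mul_left K h3]

end Crest.Agent.R326
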