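import Crest.Agent.R326.Approx

/-!
# The whole transform: three phases, with a mask of the valid addresses in between
-/

set_option autoImplicit false

namespace Crest.Agent.R326

open Finset

namespace Trf

variable {W : ℕ} {fn : Option Tm}

/-! ### the mask -/

/-- `t` copies of `M` followed by zeros, `n` blocks in all -/
def extL (n t : ℕ) (M : List ℕ) : List ℕ :=
  (List.range n).flatMap fun y => if y < t then M else List.replicate M.length 0

theorem extL_piece (n t : ℕ) (M : List ℕ) :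
    ∀ y < n, (if y < t then M else List.replicate M.length 0).length = M.length := by
  intro y _
  split_ifs <;> simp

theorem extL_length (n t : ℕ) (M : List ℕ) : (extL n t M).length = n * M.length :=
  length_flatMap_eq (extL_piece n t M)

theorem extL_getD {n t : ℕ} {M : List ℕ} {b : ℕ} (hb : b < n * M.length) :
    (extL n t M).getD b 0 ≠ 0 ↔ b / M.length < t ∧ M.getD (b % M.length) 0 ≠ 0 := by
  rw [extL, getD_flatMap' (extL_piece n t M) hb]
  split_ifs with h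
  · simp [h]
  · simp only [h, false_and, iff_false, not_not]
    rcases getD_zero_or_mem (List.replicate M.length 0) (b % M.length) with h | h
    · exact h
    · exact List.eq_of_mem_replicate h

def extT : Tm := .lett (.zeros (.len (.var 0)))
  (.strm0 (.var 2) (.ifLt (.var 0) (.var 4) (.var 2) (.var 1)))

theorem extT_pv {M : List ℕ} {n t : ℕ} {env : Env} (hW : 8 ≤ W) (hn : 1 ≤ n)
    (hM1 : 1 ≤ M.length) (hM : M.length < 2 ^ W) :
    Pv W fn (M :: [n] :: [t] :: env) extT (extL n t M) (200 * (n * M.length : ℕ)) := by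
  refine (Pv.lett (Pv.zeros (Pv.len (Pv.var rfl) hM))
    (Pv.strm0 (c := M.length + 12) (L := M.length) (Pv.varS rfl) (fun y _ => ?_)
      fun y hy => by rw [extL_piece n t M y hy])).mono ?_
  · refine (Pv.ifLt hW (Pv.varS rfl) (Pv.varS rfl) (fun _ => Pv.var rfl)
      (fun _ => Pv.var rfl)).mono ?_
    rw [List.length_replicate, max_self]
    linarith
  · rw [length_flatMap_eq (extL_piece n t M), List.length_replicate]
    have r1 : (1 : ℝ) ≤ n := by exact_mod_cast hn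
    have r2 : (1 : ℝ) ≤ M.length := by exact_mod_cast hM1
    push_cast
    nlinarith [mul_le_mul_of_nonneg_left r2 (by linarith : (0 : ℝ) ≤ n),
      mul_le_mul_of_nonneg_right r1 (by linarith : (0 : ℝ) ≤ M.length)]

/-- the mask of the first `i` fields -/
def mk (K : ℕ) (ts : List ℕ) : ℕ → List ℕ
  | 0 => [1]
  | i + 1 => extL (2 ^ (K - 1)) (ts.getD i 0) (mk K ts i)

theorem mk_length (K : ℕ) (ts : List ℕ) (i : ℕ) : (mk K ts i).length = 2 ^ ((K - 1) * i) := by
  induction i with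
  | zero => rfl
  | succ i ih => rw [mk, extL_length, ih, ← pow_add, Nat.mul_succ, add_comm]

theorem dig_mod {lo n L : ℕ} (h : lo * n ∣ L) (a : ℕ) : dig lo n (a % L) = dig lo n a := by
  rw [dig_eq_mod, dig_eq_mod, Nat.mod_mod_of_dvd _ h]

theorem mk_getD (K : ℕ) (ts : List ℕ) (i : ℕ) : ∀ b < 2 ^ ((K - 1) * i),
    ((mk K ts i).getD b 0 ≠ 0 ↔
      ∀ m < i, dig (2 ^ ((K - 1) * m)) (2 ^ (K - 1)) b < ts.getD m 0) := by
  induction i with
  | zero =>
    intro b hb
    obtain rfl : b = 0 := by simpa using hb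
    simp [mk]
  | succ i ih =>
    intro b hb
    have hb' : b < 2 ^ (K - 1) * 2 ^ ((K - 1) * i) := by
      rwa [← pow_add, add_comm, ← Nat.mul_succ]
    have hd : dig (2 ^ ((K - 1) * i)) (2 ^ (K - 1)) b = b / 2 ^ ((K - 1) * i) :=
      Nat.mod_eq_of_lt ((Nat.div_lt_iff_lt_mul (by positivity)).2 hb')
    rw [mk, extL_getD (by rwa [mk_length]), mk_length, ih _ (Nat.mod_lt _ (by positivity)),
      Nat.forall_lt_succ_right, hd, and_comm]
    refine and_congr_left fun _ => forall₂_congr fun m hm => ?_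
    rw [dig_mod (two_pow_mul_dvd (by rw [← Nat.mul_succ]; exact Nat.mul_le_mul_left _ hm))]

/-- the mask of the valid addresses -/
def maskL (K j : ℕ) (ts : List ℕ) : List ℕ := extL (2 ^ (j + 2)) (2 ^ j) (mk K ts ts.length)

theorem maskL_length (K j : ℕ) (ts : List ℕ) :
    (maskL K j ts).length = 2 ^ ((K - 1) * ts.length + j + 2) := by
  rw [maskL, extL_length, mk_length, ← pow_add]
  congr 1
  ring

theorem maskL_getD {K j : ℕ} {ts : List ℕ} {b : ℕ} (hb : b < 2 ^ ((K - 1) * ts.length + j + 2)) :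
    (maskL K j ts).getD b 0 ≠ 0 ↔ valid K j ts b := by
  rw [← maskL_length, maskL, extL_length] at hb
  rw [maskL, extL_getD hb, mk_length, mk_getD K ts _ _ (Nat.mod_lt _ (by positivity)), valid,
    and_comm]
  refine and_congr_left fun _ => forall₂_congr fun m hm => ?_
  rw [dig_mod (two_pow_mul_dvd (by rw [← Nat.mul_succ]; exact Nat.mul_le_mul_left _ hm))]

/-- arguments: `ts, K, a2, j` -/
def maskT : Tm := .call extT
  [.iter (.var 2) (.const 1)
    (.call extT [.var 1, .pow2 (.sub (.var 3) (.const 1)), .nth (.var 2) (.var 0)]),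
   .pow2 (.add (.var 3) (.const 2)), .pow2 (.var 3)]

theorem maskT_pv {ts : List ℕ} {K j : ℕ} {env : Env} (hW : 8 ≤ W) (hK : 2 ≤ K) (hKj : K ≤ j + 1)
    (hL : (K - 1) * ts.length + j + 2 < W) :
    Pv W fn (ts :: [K] :: [ts.length] :: [j] :: env) maskT (maskL K j ts)
      (1000 * ((ts.length + 1) * (2 ^ ((K - 1) * ts.length + j + 2) + W + 1))) := by
  have hWW : W < 2 ^ W := Nat.lt_two_pow_self
  have hlen : ts.length ≤ W := by
    have : 1 * ts.length ≤ (K - 1) * ts.length := Nat.mul_le_mul_right _ (by omega)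
    omega
  obtain ⟨V, hV⟩ : ∃ V : ℕ, V = 2 ^ ((K - 1) * ts.length + j + 2) := ⟨_, rfl⟩
  have hVW : V < 2 ^ W := hV ▸ Nat.pow_lt_pow_right (by norm_num) hL
  have hmk : ∀ i ≤ ts.length, (mk K ts i).length ≤ V := fun i hi => by
    rw [mk_length, hV]
    have : (K - 1) * i ≤ (K - 1) * ts.length := Nat.mul_le_mul_left _ hi
    exact Nat.pow_le_pow_right (by norm_num) (by omega)
  have hmk1 : ∀ i, 1 ≤ (mk K ts i).length := fun i => by
    rw [mk_length]; exact Nat.one_le_two_pow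
  have rV : (0 : ℝ) ≤ V := by positivity
  have rW : (8 : ℝ) ≤ W := by exact_mod_cast hW
  have rl : (ts.length : ℝ) ≤ W := by exact_mod_cast hlen
  have rl0 : (0 : ℝ) ≤ ts.length := by positivity
  have h1 : Pv W fn (ts :: [K] :: [ts.length] :: [j] :: env) (.iter (.var 2) (.const 1)
      (.call extT [.var 1, .pow2 (.sub (.var 3) (.const 1)), .nth (.var 2) (.var 0)]))
      (mk K ts ts.length) (2 + 2 + ts.length * (210 * (V + W) + 2 * V + 22) + 4 * V + 13) := by
    refine Pv.iter (mk K ts) (Pv.varS rfl) (Pv.constS hW (by norm_num)) (fun i hi => ?_)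
      fun i hi => by exact_mod_cast hmk i hi
    have r1 : ((mk K ts i).length : ℝ) ≤ V := by exact_mod_cast hmk i hi.le
    have r2 : ((2 ^ (K - 1) * (mk K ts i).length : ℕ) : ℝ) ≤ V := by
      rw [← extL_length _ (ts.getD i 0)]
      exact_mod_cast hmk (i + 1) hi
    have r3 : (i : ℝ) ≤ W := by exact_mod_cast hi.le.trans hlen
    refine (Pv.call (Pvs.cons (Pv.var rfl) (Pvs.cons (Pv.pow2 (Pv.sub (Pv.varS rfl)
      (Pv.constS hW (by norm_num))) (by omega)) (Pvs.cons (Pv.nth (Pv.var rfl) (Pv.varS rfl))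
        Pvs.nil))) (extT_pv hW Nat.one_le_two_pow (hmk1 i) ((hmk i hi.le).trans_lt hVW))).mono ?_
    rw [extL_length]
    simp only [List.length_cons, List.length_nil]
    push_cast [-Nat.cast_mul]
    linarith
  have r2 : ((2 ^ (j + 2) * (mk K ts ts.length).length : ℕ) : ℝ) = V := by
    rw [← extL_length _ (2 ^ j), hV]
    exact_mod_cast maskL_length K j ts
  have r1 : ((mk K ts ts.length).length : ℝ) ≤ V := by exact_mod_cast hmk _ le_rfl
  refine (Pv.call (Pvs.cons h1 (Pvs.cons (Pv.pow2 (Pv.add (Pv.varS rfl)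
    (Pv.constS hW (by norm_num)) (by omega)) (by omega)) (Pvs.cons (Pv.pow2 (Pv.varS rfl)
      (by omega)) Pvs.nil)))
    (extT_pv hW Nat.one_le_two_pow (hmk1 _) ((hmk _ le_rfl).trans_lt hVW))).mono ?_
  have e : ((2 : ℝ) ^ ((K - 1) * ts.length + j + 2)) = V := by rw [hV]; push_cast; rfl
  rw [extL_length, r2, e]
  simp only [List.length_cons, List.length_nil]
  push_cast
  nlinarith [mul_nonneg rl0 rV, mul_nonneg rl0 (by linarith : (0 : ℝ) ≤ W)]

/-! ### application of the mask -/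

/-- the words of `Y` at the positions where `M` is not zero -/
def appL (V : ℕ) (Y M : List ℕ) : List ℕ :=
  (List.range V).map fun i => if M.getD i 0 = 0 then 0 else Y.getD i 0

/-- arguments: `Y, M, LV` -/
def appT : Tm := .map2 (.pow2 (.var 2)) (.var 0) (.var 1)
  (.cndEq (.var 1) (.const 0) (.const 0) (.var 0))

theorem appT_pv {Y M : List ℕ} {LV : ℕ} {env : Env} (hW : 8 ≤ W) (hL : LV < W)
    (hY : Y.length = 2 ^ LV) (hM : M.length = 2 ^ LV) :
    Pv W fn (Y :: M :: [LV] :: env) appT (appL (2 ^ LV) Y M) (300 * 2 ^ LV) := by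
  refine (Pv.map2 (c := 13) hW (Pv.pow2 (Pv.varS rfl) hL) (Pv.var rfl) (Pv.var rfl) hY.ge hM.ge
    (fun i _ => (Pv.cndEq (Pv.varS rfl) (Pv.constS hW (by norm_num))
      (fun _ => Pv.constS hW (by norm_num)) (fun _ => Pv.varS rfl)).mono (by norm_num))).mono ?_
  rw [hY, hM]
  have : (1 : ℝ) ≤ 2 ^ LV := one_le_pow₀ (by norm_num)
  push_cast
  linarith

theorem app_mask {h p e K j : ℕ} {ts Y : List ℕ} {ok : ℕ → Prop} {y : ℕ → ℂ}
    (H : App h p e (2 ^ ((K - 1) * ts.length + j + 2)) ok Y y) (hok : ∀ b, valid K j ts b → ok b)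
    (hy : Supp K j ts y) :
    App h p e (2 ^ ((K - 1) * ts.length + j + 2)) (fun _ => True)
      (appL (2 ^ ((K - 1) * ts.length + j + 2)) Y (maskL K j ts)) y := by
  refine ⟨by simp [appL], fun r hr => ?_, fun b hb _ => ?_⟩
  · obtain ⟨i, -, rfl⟩ := List.mem_map.1 hr
    split_ifs
    · exact Qm_pos h
    · exact getD_lt (Qm_pos h) H.2.1 i
  · rw [appL, getD_map_range _ hb]
    split_ifs with h0
    · rw [hy b fun hv => (maskL_getD hb).2 hv h0]
      exact Lv.zero e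
    · exact H.2.2 b hb (hok b ((maskL_getD hb).1 h0))

/-! ### every second modulus -/

/-- arguments: `ts, a, o` -/
def selT : Tm := .tab (.var 1) (.nth (.var 1) (.add (.add (.var 0) (.var 0)) (.var 3)))

theorem selT_pv {ts : List ℕ} {a o : ℕ} {env : Env} (hl : ts.length = 2 * a)
    (ha : 2 * a ≤ W) (ho : o ≤ 1) :
    Pv W fn (ts :: [a] :: [o] :: env) selT ((List.range a).map fun i => ts.getD (2 * i + o) 0)
      (100 * ((W : ℝ) + 1) ^ 2) := by
  have hWW : W < 2 ^ W := Nat.lt_two_pow_self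
  have ra : 2 * (a : ℝ) ≤ W := by exact_mod_cast ha
  have ra0 : (0 : ℝ) ≤ a := by positivity
  refine (Pv.tab (c := 47 * W + 50) (Pv.varS rfl) (fun i hi => ?_)).mono (by nlinarith)
  refine (Pv.nth (Pv.var rfl) (Pv.add (Pv.add (Pv.varS rfl) (Pv.varS rfl) (by omega))
    (Pv.varS rfl) (by omega))).cast (by rw [two_mul]) ?_
  have r1 : ((i + i + o : ℕ) : ℝ) ≤ W := by exact_mod_cast (by omega : i + i + o ≤ W)
  rw [hl]
  push_cast at r1 ⊢
  linarith

theorem valid_room {K j g m b : ℕ} {ts : List ℕ} (hK : 4 ≤ K)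
    (gap : ∀ t ∈ ts, t + 4 * 2 ^ g + 4 ≤ 2 ^ (K - 1)) (hb : valid K j ts b) (hm : m < ts.length) :
    dig (2 ^ ((K - 1) * m + 2)) (2 ^ (K - 3)) b + 1 + 2 ^ g ≤ 2 ^ (K - 3) := by
  have h1 := hb.1 m hm
  have h2 := gap (ts.getD m 0) (by rw [List.getD_eq_getElem _ _ hm]; exact List.getElem_mem hm)
  have h3 : 2 ^ (K - 1) = 2 ^ 2 * 2 ^ (K - 3) := by rw [← pow_add]; congr 1; omega
  rw [pow_add, ← dig_dig (n := 2 ^ (K - 1)) (dvd_of_eq h3.symm)]
  have h4 : dig (2 ^ 2) (2 ^ (K - 3)) (dig (2 ^ ((K - 1) * m)) (2 ^ (K - 1)) b) ≤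
      dig (2 ^ ((K - 1) * m)) (2 ^ (K - 1)) b / 2 ^ 2 := Nat.mod_le _ _
  omega

/-- arguments: `X, ts, K, a, j, g, h, p` -/
def trT (tP : Tm) : Tm :=
  .lett (.add (.var 3) (.var 3))
  (.lett (.mul (.sub (.var 3) (.const 1)) (.var 0))
  (.lett (.add (.add (.var 0) (.var 6)) (.const 2))
  (.lett (.call maskT [.var 4, .var 5, .var 2, .var 7])
  (.lett (.call appT [.call tP [.var 4, .call selT [.var 5, .var 7, .const 0], .var 1, .const 0,
    .var 6, .var 7, .var 9, .var 10, .var 11], .var 0, .var 1])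
  (.lett (.call appT [.call tP [.var 0, .call selT [.var 6, .var 8, .const 1], .var 2,
    .sub (.var 7) (.const 1), .var 7, .var 8, .var 10, .var 11, .var 12], .var 1, .var 2])
  (.call tP [.var 0, .pow2 (.var 10), .var 3, .var 4, .add (.var 10) (.const 1), .const 1,
    .var 11, .var 12, .var 13]))))))

end Trf

open Trf

set_option maxHeartbeats 400000 in
theorem transform_spec : PhaseSpec → CrtMathSpec → TransformSpec := by
  rintro ⟨tP, Cp, c, c1, hP⟩ hM
  refine ⟨trT tP, 8 * c + 3 * Cp + 10000, 6 * c, c1 + 2, ?_⟩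
  intro W X ts K a j g h p e x hT hx hX fn env
  obtain ⟨hW, hK, ha, hj, hts, hlen, gap, hg, hgW, room, hp, lev, hh⟩ := hT
  obtain ⟨-, -, -, hsupp, -⟩ := hM K a j ts (by omega) hts hlen
  obtain ⟨l3, hl3⟩ : ∃ l3, l3 = (K - 1) * (2 * a) := ⟨_, rfl⟩
  have hl3' : (K - 1) * ts.length = l3 := by rw [hlen, hl3]
  rw [← hl3] at room lev hX ⊢
  obtain ⟨LV, hLV⟩ : ∃ LV, LV = l3 + j + 2 := ⟨_, rfl⟩
  have hLV' : (K - 1) * ts.length + j + 2 = LV := by rw [hl3', hLV]
  rw [← hLV] at room lev hX ⊢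
  have hWW : W < 2 ^ W := Nat.lt_two_pow_self
  have hLW : LV < W := by
    have h1 : 1 * 2 ^ LV ≤ (8 * c + 3 * Cp + 10000) * 2 ^ LV := Nat.mul_le_mul_right _ (by omega)
    exact (Nat.pow_lt_pow_iff_right (by norm_num : 1 < 2)).1 (by omega)
  obtain ⟨k, rfl⟩ : ∃ k, K = k + 1 := ⟨K - 1, by omega⟩
  obtain ⟨a', rfl⟩ : ∃ a', a = a' + 1 := ⟨a - 1, by omega⟩
  have e1 : (2 * (k + 1) - 2) * (a' + 1 - 1) = 2 * (k * a') := by
    rw [show 2 * (k + 1) - 2 = 2 * k by omega, Nat.add_sub_cancel, mul_assoc]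
  have e2 : l3 = 2 * (k * a') + 2 * k := by rw [hl3, Nat.add_sub_cancel]; ring
  have e3 : 3 * a' ≤ k * a' := Nat.mul_le_mul_right _ (by omega)
  have e4 : (k + 1) * (a' + 1 + 1) ≤ 2 * LV := by
    have : (k + 1) * (a' + 1 + 1) = k * a' + 2 * k + a' + 2 := by ring
    omega
  have hgK : g + 4 ≤ 2 * (k + 1) := by
    have h1 := gap _ (List.getElem_mem (show 0 < ts.length by omega))
    have h2 : 2 ^ (g + 2) ≤ 2 ^ (k + 1 - 1) := by rw [pow_add]; omega
    have := (Nat.pow_le_pow_iff_right (by norm_num : 1 < 2)).1 h2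
    omega
  have room' : Cp * 2 ^ LV < 2 ^ W :=
    lt_of_le_of_lt (Nat.mul_le_mul_right _ (by omega)) room
  have hp' : Cp * (j + 1) ≤ p := le_trans (Nat.mul_le_mul_right _ (by omega)) hp
  have hpK : Cp * (k + 1) ≤ p := le_trans (Nat.mul_le_mul_left _ hj) hp'
  have m1 : Cp * ((k + 1) * (a' + 1 + 1)) ≤ 2 * (Cp * LV) := by
    rw [mul_left_comm 2]; exact Nat.mul_le_mul_left _ e4
  have m2 : c * ((k + 1) * (a' + 1 + 1)) ≤ 2 * (c * LV) := by
    rw [mul_left_comm 2]; exact Nat.mul_le_mul_left _ e4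
  have m3 : Cp * ((j + 1) * (1 + 1)) ≤ 2 * (Cp * LV) := by
    rw [mul_left_comm 2]; exact Nat.mul_le_mul_left _ (by omega)
  have m4 : c * ((j + 1) * (1 + 1)) ≤ 2 * (c * LV) := by
    rw [mul_left_comm 2]; exact Nat.mul_le_mul_left _ (by omega)
  have lev' : 2 * p + 2 * e + (8 * (c * LV) + 3 * (Cp * LV) + 10000 * LV) ≤ h := by
    refine le_trans (le_of_eq ?_) lev
    ring
  have hss : ∀ o ≤ 1, ∀ s ∈ (List.range (a' + 1)).map fun i => ts.getD (2 * i + o) 0,
      4 ≤ s ∧ s ≤ 2 ^ (k + 1 - 1) := by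
    intro o ho s hs
    obtain ⟨i, hi, rfl⟩ := List.mem_map.1 hs
    have hi' : 2 * i + o < ts.length := by have := List.mem_range.1 hi; omega
    exact hts.le _ (by rw [List.getD_eq_getElem _ _ hi']; exact List.getElem_mem hi')
  have hMk : (maskL (k + 1) j ts).length = 2 ^ LV := by rw [maskL_length, hLV']
  -- phase 1
  obtain ⟨Y1, hY1, p1⟩ := hP W X _ LV 0 (k + 1) (a' + 1) g h p e x
    ⟨hW, hK, ha, by omega, hg, hgW, Or.inr hgK, room', hpK, by omega, hh⟩ (by simp)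
    (hss 0 (by norm_num)) (hX.mono le_rfl fun _ _ _ => trivial) fn
    (maskL (k + 1) j ts :: [LV] :: [l3] :: [ts.length] :: X :: ts :: [k + 1] :: [a' + 1] :: [j] ::
      [g] :: [h] :: [p] :: env)
  rw [liftS_congr (N := fun i => Ft (ts.getD (2 * i) 0))
    (fun i hi => by rw [getD_map_range _ hi]; exact fun _ _ _ _ => rfl)] at hY1
  have hZ1 : App h p (e + 2 * (c * LV)) (2 ^ LV) (fun _ => True)
      (appL (2 ^ LV) Y1 (maskL (k + 1) j ts)) (dftE (k + 1) (a' + 1) ts x) := by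
    rw [← hLV'] at hY1 ⊢
    refine (app_mask hY1 (fun b hb i hi => ?_) (hsupp x hx).1).mono (by rw [hLV']; omega)
      fun _ _ _ => trivial
    have := valid_room (m := 2 * i + 1) hK gap hb (by omega)
    rwa [show (k + 1 - 1) * (2 * i + 1) + 2 = 0 + (2 * (k + 1) - 2) * i + (k + 1) + 1 by
      rw [show 2 * (k + 1) - 2 = 2 * k by omega, Nat.add_sub_cancel]; ring] at this
  -- phase 2
  obtain ⟨Y2, hY2, p2⟩ := hP W _ _ LV (k + 1 - 1) (k + 1) (a' + 1) g h p _ _
    ⟨hW, hK, ha, by omega, hg, hgW, Or.inr hgK, room', hpK, by omega, hh⟩ (by simp)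
    (hss 1 le_rfl) (hZ1.mono le_rfl fun _ _ _ => trivial) fn
    (appL (2 ^ LV) Y1 (maskL (k + 1) j ts) :: maskL (k + 1) j ts :: [LV] :: [l3] :: [ts.length] ::
      X :: ts :: [k + 1] :: [a' + 1] :: [j] :: [g] :: [h] :: [p] :: env)
  rw [liftS_congr (N := fun i => Ft (ts.getD (2 * i + 1) 0))
    (fun i hi => by rw [getD_map_range _ hi]; exact fun _ _ _ _ => rfl)] at hY2
  have hZ2 : App h p (e + 4 * (c * LV)) (2 ^ LV) (fun _ => True)
      (appL (2 ^ LV) Y2 (maskL (k + 1) j ts))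
      (dftO (k + 1) (a' + 1) ts (dftE (k + 1) (a' + 1) ts x)) := by
    have m2' : e + 2 * (c * LV) + c * ((k + 1) * (a' + 1 + 1)) ≤ e + 4 * (c * LV) := by omega
    replace hY2 := hY2.mono m2' fun _ _ h => h
    generalize e + 4 * (c * LV) = e' at hY2 ⊢
    rw [← hLV'] at hY2 ⊢
    refine app_mask hY2 (fun b hb i hi => ?_) (hsupp _ (hsupp x hx).1).2.1
    have := valid_room (m := 2 * i + 2) hK gap hb (by omega)
    rwa [show (k + 1 - 1) * (2 * i + 2) + 2 = k + 1 - 1 + (2 * (k + 1) - 2) * i + (k + 1) + 1 by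
      rw [show 2 * (k + 1) - 2 = 2 * k by omega, Nat.add_sub_cancel]; ring] at this
  -- phase 3
  obtain ⟨Y3, hY3, p3⟩ := hP W _ [2 ^ j] LV l3 (j + 1) 1 g h p _ _
    ⟨hW, by omega, le_rfl, by omega, by omega, hgW, Or.inl rfl, room', hp', by omega, hh⟩ rfl
    (fun s hs => by
      rw [List.mem_singleton.1 hs]
      exact ⟨Nat.pow_le_pow_right (n := 2) (i := 2) (by norm_num) (by omega), le_rfl⟩)
    (hZ2.mono le_rfl fun _ _ _ => trivial) fn
    (appL (2 ^ LV) Y2 (maskL (k + 1) j ts) :: appL (2 ^ LV) Y1 (maskL (k + 1) j ts) ::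
      maskL (k + 1) j ts :: [LV] :: [l3] :: [ts.length] ::
      X :: ts :: [k + 1] :: [a' + 1] :: [j] :: [g] :: [h] :: [p] :: env)
  refine ⟨Y3, ?_, ?_⟩
  · have e5 : liftS l3 (2 * (j + 1) - 2) (2 ^ (j + 1 - 1)) (fun i => Ft ([2 ^ j].getD i 0)) 1
        (dftO (k + 1) (a' + 1) ts (dftE (k + 1) (a' + 1) ts x)) =
        dftAll (k + 1) (a' + 1) j ts x := by
      rw [hl3]; rfl
    rw [e5] at hY3
    refine hY3.mono ?_ fun b _ _ i hi => by omega
    rw [mul_assoc 6]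
    omega
  · have q0 := maskT_pv (fn := fn) (ts := ts) (K := k + 1) (j := j)
      (env := [LV] :: [l3] :: [ts.length] :: X :: ts :: [k + 1] :: [a' + 1] :: [j] ::
        [g] :: [h] :: [p] :: env) hW (by omega) hj (by omega)
    rw [hLV'] at q0
    have hA : ∀ Y M, (appL (2 ^ LV) Y M).length = 2 ^ LV := fun Y M => by simp [appL]
    have s1 : Pv W fn (X :: ts :: [k + 1] :: [a' + 1] :: [j] :: [g] :: [h] :: [p] :: env)
        (.add (.var 3) (.var 3)) [ts.length] 9 :=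
      (Pv.add (Pv.varS rfl) (Pv.varS rfl) (by omega)).cast (by rw [hlen, two_mul]) (by norm_num)
    have s2 : Pv W fn ([ts.length] :: X :: ts :: [k + 1] :: [a' + 1] :: [j] :: [g] :: [h] :: [p] ::
        env) (.mul (.sub (.var 3) (.const 1)) (.var 0)) [l3] (11 + 330 * (W + 1)) :=
      (Pv.mul hW (Pv.sub (Pv.varS rfl) (Pv.constS hW (by norm_num))) (Pv.varS rfl)
        (by omega)).cast (by rw [hl3']) (by norm_num)
    have s3 : Pv W fn ([l3] :: [ts.length] :: X :: ts :: [k + 1] :: [a' + 1] :: [j] :: [g] :: [h] ::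
        [p] :: env) (.add (.add (.var 0) (.var 6)) (.const 2)) [LV] 16 :=
      (Pv.add (Pv.add (Pv.varS rfl) (Pv.varS rfl) (by omega)) (Pv.constS hW (by norm_num))
        (by omega)).cast (by rw [hLV]) (by norm_num)
    have haW : 2 * (a' + 1) ≤ W := by omega
    refine (Pv.lett s1 (Pv.lett s2 (Pv.lett s3 (Pv.lett
      (Pv.call (Pvs.cons (Pv.var rfl) (Pvs.cons (Pv.varS rfl) (Pvs.cons (Pv.varS rfl)
        (Pvs.cons (Pv.varS rfl) Pvs.nil)))) q0)
      (Pv.lett (Pv.call (Pvs.cons (Pv.call (Pvs.cons (Pv.var rfl) (Pvs.cons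
        (Pv.call (Pvs.cons (Pv.var rfl) (Pvs.cons (Pv.varS rfl)
          (Pvs.cons (Pv.constS hW (by norm_num)) Pvs.nil))) (selT_pv hlen haW (by norm_num)))
        (Pvs.cons (Pv.varS rfl) (Pvs.cons (Pv.constS hW (by norm_num)) (Pvs.cons (Pv.varS rfl)
        (Pvs.cons (Pv.varS rfl) (Pvs.cons (Pv.varS rfl) (Pvs.cons (Pv.varS rfl)
        (Pvs.cons (Pv.varS rfl) Pvs.nil))))))))) p1)
        (Pvs.cons (Pv.var rfl) (Pvs.cons (Pv.varS rfl) Pvs.nil))) (appT_pv hW hLW hY1.1 hMk))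
      (Pv.lett (Pv.call (Pvs.cons (Pv.call (Pvs.cons (Pv.var rfl) (Pvs.cons
        (Pv.call (Pvs.cons (Pv.var rfl) (Pvs.cons (Pv.varS rfl)
          (Pvs.cons (Pv.constS hW (by norm_num)) Pvs.nil))) (selT_pv hlen haW le_rfl))
        (Pvs.cons (Pv.varS rfl) (Pvs.cons (Pv.sub (Pv.varS rfl) (Pv.constS hW (by norm_num)))
        (Pvs.cons (Pv.varS rfl)
        (Pvs.cons (Pv.varS rfl) (Pvs.cons (Pv.varS rfl) (Pvs.cons (Pv.varS rfl)
        (Pvs.cons (Pv.varS rfl) Pvs.nil))))))))) p2)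
        (Pvs.cons (Pv.var rfl) (Pvs.cons (Pv.varS rfl) Pvs.nil))) (appT_pv hW hLW hY2.1 hMk))
      (Pv.call (Pvs.cons (Pv.var rfl) (Pvs.cons (Pv.pow2 (Pv.varS rfl) (by omega))
        (Pvs.cons (Pv.varS rfl) (Pvs.cons (Pv.varS rfl) (Pvs.cons (Pv.add (Pv.varS rfl)
          (Pv.constS hW (by norm_num)) (by omega)) (Pvs.cons (Pv.constS hW (by norm_num))
        (Pvs.cons (Pv.varS rfl) (Pvs.cons (Pv.varS rfl) (Pvs.cons (Pv.varS rfl)
        Pvs.nil))))))))) p3))))))).mono ?_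
    simp only [hA, hMk, hX.1, hY1.1, hY2.1, hY3.1, hlen, List.length_cons, List.length_nil,
      List.length_map, List.length_range, tcost]
    have r0 : (1 : ℝ) ≤ ((((k + 1 : ℕ) : ℝ)) + 1) ^ tauE :=
      Real.one_le_rpow (by linarith [Nat.cast_nonneg (α := ℝ) (k + 1)]) tauE_pos.le
    have r1 := one_le_hcost W (k + 1) (a' + 1) g
    have r2 := one_le_hcost W (j + 1) 1 g
    generalize hcost W (k + 1) (a' + 1) g = H1 at *
    generalize hcost W (j + 1) 1 g = H2 at *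
    generalize ((((k + 1 : ℕ) : ℝ)) + 1) ^ tauE = T at *
    clear p1 p2 p3 q0 s1 s2 s3 hP hY1 hY2 hY3 hZ1 hZ2
    have rW : (8 : ℝ) ≤ W := by exact_mod_cast hW
    have b0 : (1 : ℝ) ≤ 2 ^ (j + 1) := one_le_pow₀ (by norm_num)
    have b1 : (2 : ℝ) ^ (k + 1) ≤ 2 ^ (j + 1) := pow_le_pow_right₀ (by norm_num) hj
    have b2 : ((2 : ℝ) ^ (j + 1) + W + 1) ^ c1 ≤ (2 ^ (j + 1) + W + 1) ^ (c1 + 2) :=
      pow_le_pow_right₀ (by linarith) (by omega)
    have b3 : ((2 : ℝ) ^ (k + 1) + W + 1) ^ c1 ≤ (2 ^ (j + 1) + W + 1) ^ (c1 + 2) :=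
      le_trans (by gcongr) b2
    have b4 : ((W : ℝ) + 1) ^ 2 ≤ (2 ^ (j + 1) + W + 1) ^ (c1 + 2) :=
      le_trans (by gcongr; linarith) (pow_le_pow_right₀ (by linarith) (by omega : 2 ≤ c1 + 2))
    generalize ((2 : ℝ) ^ (j + 1) + W + 1) ^ (c1 + 2) = B at *
    generalize ((2 : ℝ) ^ (j + 1) + W + 1) ^ c1 = B2 at *
    generalize ((2 : ℝ) ^ (k + 1) + W + 1) ^ c1 = B1 at *
    have rV : (1 : ℝ) ≤ 2 ^ LV := one_le_pow₀ (by norm_num)
    have ra : 2 * ((a' : ℝ) + 1) ≤ W := by exact_mod_cast haW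
    have ra0 : (0 : ℝ) ≤ a' := by positivity
    have rk : (0 : ℝ) ≤ k := by positivity
    have rj : (0 : ℝ) ≤ j := by positivity
    have rc : (0 : ℝ) ≤ c := by positivity
    have rC : (0 : ℝ) ≤ Cp := by positivity
    push_cast
    generalize (2 : ℝ) ^ LV = V at *
    have t1 : 0 ≤ ((k : ℝ) + 1) * H1 := by positivity
    have t2 : 0 ≤ ((j : ℝ) + 1) * H2 := by positivity
    have t3 : (a' : ℝ) + 1 + 1 ≤ (a' + 1 + 1) * T :=
      le_mul_of_one_le_right (by linarith only [ra0]) r0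
    generalize ((k : ℝ) + 1) * H1 = U1 at *
    generalize ((j : ℝ) + 1) * H2 = U2 at *
    generalize ((a' : ℝ) + 1 + 1) * T = U3 at *
    have rV0 : 0 ≤ V := by linarith only [rV]
    have u1 : V * (U1 + (a' + 1)) + B1 ≤ V * (U1 + U2 + U3) + B :=
      add_le_add (mul_le_mul_of_nonneg_left (by linarith only [t2, t3]) rV0) b3
    have u2 : V * (U2 + 1) + B2 ≤ V * (U1 + U2 + U3) + B :=
      add_le_add (mul_le_mul_of_nonneg_left (by linarith only [t1, t3, ra0]) rV0) b2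
    have u3 : V * (a' + 1 + 1) ≤ V * (U1 + U2 + U3) :=
      mul_le_mul_of_nonneg_left (by linarith only [t1, t2, t3]) rV0
    have u4 : 0 ≤ V * a' := mul_nonneg rV0 ra0
    have u5 : (2 * ((a' : ℝ) + 1) + 1) * (W + 1) ≤ (W + 1) ^ 2 := by
      rw [sq]; exact mul_le_mul_of_nonneg_right (by linarith only [ra]) (by linarith only [rW])
    have u6 : 9 * ((W : ℝ) + 1) ≤ (W + 1) ^ 2 := by
      rw [sq]; exact mul_le_mul_of_nonneg_right (by linarith only [rW]) (by linarith only [rW])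
    have v1 := mul_le_mul_of_nonneg_left u1 rC
    have v2 := mul_le_mul_of_nonneg_left u2 rC
    have v3 : 0 ≤ (c : ℝ) * (V * (U1 + U2 + U3) + B) :=
      mul_nonneg rc (by linarith only [u3, u4, rV, b4, u6, rW])
    linarith only [v1, v2, v3, u3, u4, u5, u6, b4, rV, rW, ra, ra0]

end Crest.Agent.R326
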