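import Crest.Agent.R326.WordB

/-!
# The word for the transform of order `s`
-/

set_option autoImplicit false

namespace Crest.Agent.R326
namespace Word

open Finset

variable {s K : ℕ}

theorem tab0 : tabI s K 0 = quart s K (chirp s) fun j => (chirp s j)⁻¹ := by rw [tabI]
theorem tab1 : tabI s K 1 = quart s K (fun j => (chirp s j)⁻¹) (chirp s) := by rw [tabI]
theorem tab2 : tabI s K 2 = quart s K (chirp s) fun j => s * (chirp s j)⁻¹ := by rw [tabI]
theorem tab3 : tabI s K 3 = quart s K (fun j => (chirp s j)⁻¹) fun j => chirp s j / s := by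
  rw [tabI]
theorem tab4 : tabI s K 4 = quart s K (fun _ => 1) fun _ => s := by rw [tabI]
theorem tab5 : tabI s K 5 =
    fun x => if x < 2 ^ K then 1 / 2 ^ K else eig s K (x - 2 ^ K) / 2 ^ K := by rw [tabI]
theorem tab6 : tabI s K 6 = fun x => if x < 2 ^ K then 1 / 2 ^ K else
    (fun r => (eig s K r)⁻¹) (x - 2 ^ K) / 2 ^ K := by
  rw [tabI] <;> omega

theorem step_shT (hK : 1 ≤ K) (hs : s ≤ 2 ^ (K - 1)) (x y z : ℕ → ℂ) :
    Step s K wShT x y z x (fun i => y i + To s x i) z := by
  have h2 := two_pow_eq hK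
  have s1 := (step_02 hK hs false 0 x y z).append (step_conj hK hs tab5 _ _ _)
  have s2 := s1.append (step_21 hK hs true 0 _ _ _)
  have s3 := (s2.append (step_conj hK hs (d := fun r => (eig s K r)⁻¹) tab6 _ _ _)).congr
    (EqN.refl _ _) (EqN.refl _ _) (Cj_inv_Cj _)
  have s4 := (s3.append (step_02 hK hs false 1 _ _ _)).congr (EqN.refl _ _) (EqN.refl _ _)
    (z'' := z) fun i _ => by simp [sgn2]
  have s5 := s4.append (step_conj hK hs tab5 _ _ _)
  have s6 := s5.append (step_21 hK hs true 1 _ _ _)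
  have s7 := (s6.append (step_conj hK hs (d := fun r => (eig s K r)⁻¹) tab6 _ _ _)).congr
    (EqN.refl _ _) (EqN.refl _ _) (Cj_inv_Cj _)
  have s8 := s7.append (step_01 hK hs true 1 _ _ _)
  refine s8.congr (EqN.refl _ _) (fun i hi => ?_) (EqN.refl _ _)
  simp only [sgn2, if_true, Bool.false_eq_true, if_false, pow_zero, one_mul, one_ne_zero]
  rw [Cj_add, Cj_eig_ext0 (by omega) hi]
  have h3 : (2 : ℂ) ^ (K + 1) ≠ 0 := pow_ne_zero _ two_ne_zero
  field_simp
  ring

/-- the transform of order `s` -/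
noncomputable def Ao (s : ℕ) (x : ℕ → ℂ) : ℕ → ℂ := fun j => ∑ k ∈ range s, ee (j * k) s * x k

theorem Ao_congr {u v : ℕ → ℂ} (h : EqN s u v) : Ao s u = Ao s v := by
  funext j
  exact sum_congr rfl fun k hk => by rw [h k (mem_range.1 hk)]

theorem ee_two_mul (m : ℤ) (s : ℕ) : ee (2 * m) (2 * s) = ee m s := by
  unfold ee
  congr 1
  push_cast
  rcases eq_or_ne (s : ℂ) 0 with h | h
  · simp [h]
  · field_simp

theorem chirp_To (j : ℕ) (x : ℕ → ℂ) :
    chirp s j * To s (fun k => chirp s k * x k) j = Ao s x j := by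
  simp only [To, Ao, mul_sum]
  refine sum_congr rfl fun k _ => ?_
  rw [← mul_assoc, ← mul_assoc]
  congr 1
  unfold chirp
  rw [← ee_neg, ← ee_add, ← ee_add, ← ee_two_mul (j * k)]
  congr 1
  split_ifs with h
  · push_cast [h]; ring
  · push_cast [show j ≤ k by omega]; ring

theorem step_sh1 (hK : 1 ≤ K) (hs : s ≤ 2 ^ (K - 1)) (x y z : ℕ → ℂ) :
    Step s K wSh1 x y z x (fun i => y i + Ao s x i) z := by
  refine (((step_diag tab0 x y z).append (step_shT hK hs _ _ _)).append
    (step_diag tab1 _ _ _)).congr ?_ ?_ (EqN.refl _ _)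
  · intro i _
    exact inv_mul_cancel_left₀ (chirp_ne_zero _ _) _
  · intro i _
    simp only [mul_add, chirp_To, mul_inv_cancel_left₀ (chirp_ne_zero _ _)]

theorem step_sh2 (hK : 1 ≤ K) (hs1 : 1 ≤ s) (hs : s ≤ 2 ^ (K - 1)) (x y z : ℕ → ℂ) :
    Step s K wSh2 x y z x (fun i => y i + Ao s x i / s) z := by
  refine (((step_diag tab2 x y z).append (step_shT hK hs _ _ _)).append
    (step_diag tab3 _ _ _)).congr ?_ ?_ (EqN.refl _ _)
  · intro i _
    exact inv_mul_cancel_left₀ (chirp_ne_zero _ _) _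
  · intro i _
    have h1 : (s : ℂ) ≠ 0 := by exact_mod_cast (by omega : s ≠ 0)
    have h2 := chirp_ne_zero s i
    simp only [← chirp_To i x]
    field_simp

theorem step_J (hK : 1 ≤ K) (hs : s ≤ 2 ^ (K - 1)) (x y z : ℕ → ℂ) :
    Step s K wJ x y z (fun i => -y i) x z := by
  refine ((step_01 hK hs false 0 x y z).append ((step_10 hK hs false 1 _ _ _).append
    (step_01 hK hs false 0 _ _ _))).congr ?_ ?_ (EqN.refl _ _) <;> intro i _ <;> simp [sgn2]

theorem step_J' (hK : 1 ≤ K) (hs : s ≤ 2 ^ (K - 1)) (x y z : ℕ → ℂ) :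
    Step s K wJ' x y z y (fun i => -x i) z := by
  refine ((step_01 hK hs false 1 x y z).append ((step_10 hK hs false 0 _ _ _).append
    (step_01 hK hs false 1 _ _ _))).congr ?_ ?_ (EqN.refl _ _) <;> intro i _ <;> simp [sgn2]

theorem ng_lt {i : ℕ} (hi : i < s) : ng s i < s := by
  unfold ng; split_ifs <;> omega

theorem ng_ng {i : ℕ} (hi : i < s) : ng s (ng s i) = i := by
  unfold ng; split_ifs <;> omega

theorem dvd_add_iff_ng {i k : ℕ} (hi : i < s) (hk : k < s) :
    (s : ℤ) ∣ (i : ℤ) + k ↔ k = ng s i := by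
  unfold ng
  split_ifs with h
  · subst h
    rw [← dvd_sub_iff_eq hk hi]
    simp
  · rw [← dvd_sub_iff_eq hk (by omega), ← dvd_sub_left (dvd_refl (s : ℤ)), Nat.cast_sub hi.le]
    congr! 1; ring

theorem Ao_Ao {i : ℕ} (hi : i < s) (y : ℕ → ℂ) : Ao s (Ao s y) i = s * y (ng s i) := by
  simp only [Ao, mul_sum]
  rw [sum_comm]
  have h1 : ∀ k ∈ range s, ∑ m ∈ range s, ee (i * m) s * (ee (m * k) s * y k) =
      if k = ng s i then s * y k else 0 := by
    intro k hk
    have h2 : ∀ m : ℕ, ee (i * m) s * (ee (m * k) s * y k) = ee (m * ((i : ℤ) + k)) s * y k := by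
      intro m
      rw [← mul_assoc, ← ee_add]
      congr 2; ring
    simp only [h2]
    rw [← sum_mul, sum_ee (by omega), if_congr (dvd_add_iff_ng hi (mem_range.1 hk)) rfl rfl]
    split_ifs <;> simp
  rw [sum_congr rfl h1, sum_ite_eq', if_pos (mem_range.2 (ng_lt hi))]

theorem ee_ng (i k : ℕ) (hi : i < s) : ee (ng s i * k) s = ee (-(i * k)) s := by
  unfold ng
  split_ifs with h
  · subst h; simp
  · rw [Nat.cast_sub hi.le, sub_mul, sub_eq_add_neg, ee_add,
      (ee_eq_one_iff (by omega) _).2 (Dvd.intro _ rfl), one_mul]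

theorem Ao_ng_Ao {i : ℕ} (hi : i < s) (x : ℕ → ℂ) :
    Ao s (fun m => Ao s x (ng s m)) i = s * x i := by
  simp only [Ao, mul_sum]
  rw [sum_comm]
  have h1 : ∀ k ∈ range s, ∑ m ∈ range s, ee (i * m) s * (ee (ng s m * k) s * x k) =
      if k = i then s * x k else 0 := by
    intro k hk
    have h2 : ∀ m ∈ range s, ee (i * m) s * (ee (ng s m * k) s * x k) =
        ee (m * -((k : ℤ) - i)) s * x k := by
      intro m hm
      rw [ee_ng m k (mem_range.1 hm), ← mul_assoc, ← ee_add]
      congr 2; ring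
    rw [sum_congr rfl h2, ← sum_mul, sum_ee (by omega),
      if_congr (dvd_neg.trans (dvd_sub_iff_eq (mem_range.1 hk) hi)) rfl rfl]
    split_ifs <;> simp
  rw [sum_congr rfl h1, sum_ite_eq', if_pos (mem_range.2 hi)]

theorem Ao_lin (a b : ℂ) (u v : ℕ → ℂ) (i : ℕ) :
    Ao s (fun k => a * u k + b * v k) i = a * Ao s u i + b * Ao s v i := by
  simp only [Ao, mul_sum, ← sum_add_distrib]
  exact sum_congr rfl fun k _ => by ring

theorem step_half (hK : 1 ≤ K) (hs1 : 1 ≤ s) (hs : s ≤ 2 ^ (K - 1)) (x y z : ℕ → ℂ) :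
    Step s K wHalf x y z (Ao s x) (Ao s y) z := by
  have h1 : (s : ℂ) ≠ 0 := by exact_mod_cast (by omega : s ≠ 0)
  have s1 := (step_neg hK hs x y z).append (step_sh1 hK hs _ _ _)
  have s2 := s1.append ((step_neg hK hs _ _ _).congr (EqN.refl _ _)
    (y'' := fun i => y i + Ao s x (ng s i)) (fun i hi => by simp only [ng_ng hi]) (EqN.refl _ _))
  have s3 := s2.append (step_J hK hs _ _ _)
  have s4 := s3.append ((step_sh2 hK hs1 hs _ _ _).congr (EqN.refl _ _)
    (y'' := fun i => -(Ao s y i / s)) (fun i hi => by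
      have h2 := Ao_lin (s := s) (-1) (-1) y (fun m => Ao s x (ng s m)) i
      rw [Ao_ng_Ao hi] at h2
      have h3 : (fun k => -(y k + Ao s x (ng s k))) =
          fun k => -1 * y k + -1 * Ao s x (ng s k) := by funext k; ring
      simp only [h3, h2]
      field_simp
      ring) (EqN.refl _ _))
  have s5 := s4.append (step_J' hK hs _ _ _)
  have s6 := s5.append (step_neg hK hs _ _ _)
  have s7 := s6.append ((step_sh1 hK hs _ _ _).congr (EqN.refl _ _) (y'' := Ao s x)
    (fun i hi => by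
      have h2 := Ao_lin (s := s) (-1 / s) 0 (Ao s y) y i
      rw [Ao_Ao hi] at h2
      have h3 : (fun k => -(Ao s y k / s)) = fun k => -1 / s * Ao s y k + 0 * y k := by
        funext k; ring
      simp only [h3, h2, ng_ng hi]
      field_simp
      ring) (EqN.refl _ _))
  have s8 := s7.append (step_J' hK hs _ _ _)
  have s9 := s8.append (step_diag tab4 _ _ _)
  refine s9.congr (fun i _ => one_mul _) (fun i _ => ?_) (EqN.refl _ _)
  simp only [neg_neg]
  field_simp

/-- the transform on the first two quarters -/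
noncomputable def half (s K : ℕ) (v : ℕ → ℂ) : ℕ → ℂ :=
  build s K (Ao s v) (Ao s fun k => v (2 ^ (K - 1) + k)) v fun k => v (2 ^ K + k)

theorem build_self (v : ℕ → ℂ) :
    build s K v (fun k => v (2 ^ (K - 1) + k)) v (fun k => v (2 ^ K + k)) = v := by
  funext j
  unfold build
  split_ifs with h1 h2 h3
  · rfl
  · simp only []; congr 1; omega
  · rfl
  · simp only []; congr 1; omega

theorem act_half (hK : 1 ≤ K) (hs1 : 1 ≤ s) (hs : s ≤ 2 ^ (K - 1)) (v : ℕ → ℂ) :
    EqN (2 ^ (K + 1)) (act s K wHalf v) (half s K v) := by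
  have h := step_half hK hs1 hs v (fun k => v (2 ^ (K - 1) + k)) (fun k => v (2 ^ K + k)) v
  rwa [build_self] at h

theorem rotP_low {j : ℕ} (hj : j < 2 ^ K) : rotP K j = 2 ^ K + j := by
  unfold rotP
  rw [Nat.mod_eq_of_lt (by omega), add_comm]

theorem rotP_high {j : ℕ} (hj : j < 2 ^ K) : rotP K (2 ^ K + j) = j := by
  unfold rotP
  rw [show 2 ^ K + j + 2 ^ K = 2 ^ (K + 1) + j by omega, Nat.add_mod_left,
    Nat.mod_eq_of_lt (by omega)]

theorem act_rot (v : ℕ → ℂ) :
    EqN (2 ^ (K + 1)) (act s K [.rot] v) fun j => v (rotP K j) := by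
  intro j _
  simp only [act, Let.mat]
  exact mv_mperm (Nat.mod_lt _ (by positivity)) v

/-- the transform on one quarter -/
noncomputable def quarter (s : ℕ) (v : ℕ → ℂ) (i : ℕ) : ℂ := if i < s then Ao s v i else v i

theorem half_q0 {i : ℕ} (hK : 1 ≤ K) (hi : i < 2 ^ (K - 1)) (v : ℕ → ℂ) :
    half s K v i = quarter s v i := by
  have := two_pow_eq hK
  unfold half build quarter
  split_ifs <;> first | rfl | omega

theorem half_q1 {i : ℕ} (hK : 1 ≤ K) (hs : s ≤ 2 ^ (K - 1)) (hi : i < 2 ^ (K - 1)) (v : ℕ → ℂ) :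
    half s K v (2 ^ (K - 1) + i) = quarter s (fun k => v (2 ^ (K - 1) + k)) i := by
  have := two_pow_eq hK
  unfold half build quarter
  rw [Nat.add_sub_cancel_left]
  split_ifs <;> first | rfl | omega

theorem half_high (hK : 1 ≤ K) (hs : s ≤ 2 ^ (K - 1)) (i : ℕ) (v : ℕ → ℂ) :
    half s K v (2 ^ K + i) = v (2 ^ K + i) := build_z hK hs _ _ _ _ _

theorem quarter_congr {Q i : ℕ} (hs : s ≤ Q) (hi : i < Q) {u v : ℕ → ℂ} (h : EqN Q u v) :
    quarter s u i = quarter s v i := by
  unfold quarter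
  rw [Ao_congr fun j hj => h j (by omega), h i hi]

theorem act_all (hK : 1 ≤ K) (hs1 : 1 ≤ s) (hs : s ≤ 2 ^ (K - 1)) (v : ℕ → ℂ) {q i : ℕ}
    (hq : q < 4) (hi : i < 2 ^ (K - 1)) :
    act s K wAll v (q * 2 ^ (K - 1) + i) = quarter s (fun k => v (q * 2 ^ (K - 1) + k)) i := by
  have h2 := two_pow_eq hK
  have h1 : EqN (2 ^ (K + 1)) (act s K wAll v)
      fun j => half s K (fun j => half s K v (rotP K j)) (rotP K j) := by
    unfold wAll
    rw [act_append, act_append, act_append]
    refine (act_congr s K _ ?_).trans (act_rot _)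
    refine EqN.trans (act_congr s K _ ?_) (act_half hK hs1 hs _)
    exact (act_congr s K _ (act_half hK hs1 hs v)).trans (act_rot _)
  have h3 : q * 2 ^ (K - 1) ≤ 3 * 2 ^ (K - 1) := Nat.mul_le_mul_right _ (by omega)
  rw [h1 _ (by omega)]
  simp only []
  interval_cases q
  · simp only [zero_mul, zero_add]
    rw [rotP_low (by omega), half_high hK hs, rotP_high (by omega), half_q0 hK hi]
  · simp only [one_mul]
    rw [rotP_low (by omega), half_high hK hs, rotP_high (by omega), half_q1 hK hs hi]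
  · rw [← h2, rotP_high (by omega), half_q0 hK hi]
    refine quarter_congr hs hi fun k hk => ?_
    rw [rotP_low (by omega), half_high hK hs]
  · rw [show 3 * 2 ^ (K - 1) + i = 2 ^ K + (2 ^ (K - 1) + i) by omega, rotP_high (by omega),
      half_q1 hK hs hi]
    refine quarter_congr hs hi fun k hk => ?_
    rw [rotP_low (by omega), half_high hK hs]
    congr 1; omega

end Word

open Word Finset in
theorem word_spec : WordSpec := by
  intro s K hK hs1 hs j hj k hk
  have hK1 : 1 ≤ K := by omega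
  have h2 := two_pow_eq hK1
  have hQ : 0 < 2 ^ (K - 1) := by positivity
  rw [← mv_single hk (wmat s K wAll) j, mv_wmat s K wAll _ j hj]
  have hjq : j / 2 ^ (K - 1) < 4 := by
    rw [Nat.div_lt_iff_lt_mul hQ]; omega
  have hj1 := Nat.div_add_mod' j (2 ^ (K - 1))
  have hk1 := Nat.div_add_mod' k (2 ^ (K - 1))
  have hj2 := Nat.mod_lt j hQ
  have hk2 := Nat.mod_lt k hQ
  have h3 := act_all hK1 hs1 hs (fun i => if i = k then 1 else 0) hjq hj2
  rw [hj1] at h3
  rw [h3]
  simp only [msub, dig, one_mul, Nat.mod_one, and_true, Nat.div_one, quarter, Ao, Ft]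
  generalize hjq' : j / 2 ^ (K - 1) = q at *
  generalize j % 2 ^ (K - 1) = i at *
  have key : ∀ m < 2 ^ (K - 1), (q * 2 ^ (K - 1) + m = k ↔
      k / 2 ^ (K - 1) = q ∧ m = k % 2 ^ (K - 1)) := by
    intro m hm
    constructor
    · rintro rfl
      rw [add_comm, Nat.add_mul_div_right _ _ hQ, Nat.add_mul_mod_self_right, Nat.div_eq_of_lt hm,
        Nat.mod_eq_of_lt hm]
      simp
    · rintro ⟨rfl, rfl⟩
      exact hk1
  by_cases hi : i < s
  · rw [if_pos hi, sum_congr rfl fun m hm => by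
      rw [if_congr (key m (by have := mem_range.1 hm; omega)) rfl rfl]]
    by_cases hq : k / 2 ^ (K - 1) = q
    · simp only [hq, true_and, if_true, mul_ite, mul_one, mul_zero, hi]
      rw [sum_ite_eq']
      by_cases hk3 : k % 2 ^ (K - 1) < s
      · rw [if_pos (mem_range.2 hk3), if_pos hk3, Nat.cast_mul]
      · rw [if_neg (fun h => hk3 (mem_range.1 h)), if_neg hk3, if_neg (by omega)]
    · simp [hq]
  · rw [if_neg hi, if_congr (key i hj2) rfl rfl]
    by_cases hq : k / 2 ^ (K - 1) = q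
    · simp [hq, hi]
    · simp [hq]

end Crest.Agent.R326
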