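import Crest.Agent.R326.Machine
import Crest.Agent.R326.BitOps
import Crest.Agent.R326.Compile
import Crest.Agent.R326.Perm1
import Crest.Agent.R326.Perm2
import Crest.Agent.R326.Perm3
import Crest.Agent.R326.Exec
import Crest.Agent.R326.SwapAlg
import Crest.Agent.R326.Swap
import Crest.Agent.R326.NetH
import Crest.Agent.R326.Kara
import Crest.Agent.R326.Pxor
import Crest.Agent.R326.Hrec
import Crest.Agent.R326.Hsel
import Crest.Agent.R326.Letters
import Crest.Agent.R326.Word
import Crest.Agent.R326.Crt
import Crest.Agent.R326.CrtMath
import Crest.Agent.R326.Diag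
import Crest.Agent.R326.Roots
import Crest.Agent.R326.Fft
import Crest.Agent.R326.Tables
import Crest.Agent.R326.Phase
import Crest.Agent.R326.Transform
import Crest.Agent.R326.Core
import Crest.Agent.R326.Conv
import Crest.Agent.R326.Top

/-!
# Assembly of the specifications
-/

set_option autoImplicit false

namespace Crest.Agent.R326

theorem bridge_all : BridgeSpec := bridge_spec machine_spec bin_spec unary_spec

theorem swap_all : SwapSpec :=
  swap_spec xnet_spec exec_spec swapAlg_spec (addDig_spec rot_spec) negDig_spec
    (scale_spec gather_spec scatter_spec) (swapNaive_spec gather_spec scatter_spec) pad_spec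

theorem mul_all : MulSpec := mul_spec kara_spec

theorem hrec_all : HrecSpec := hrec_spec hnet_spec exec_spec gam_spec (pxor_spec rot_spec swap_all)

theorem core_of_hsel (hH : HselSpec) : CoreSpec :=
  have hF : FftSpec := fft_spec hH (diag_spec mul_all)
  have hR : RootSpec := root_spec mul_all
  core_spec (crt_spec rot_spec pad_spec (shuffle_spec gather_spec scatter_spec) swap_all)
    crtMath_spec
    (transform_spec (phase_spec hR (table_spec hR hF mul_all) (diag_spec mul_all) hF
      (letter_spec rot_spec rev_spec) word_spec) crtMath_spec)
    (zipMul_spec mul_all) mul_all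

theorem conv_of_hsel (hH : HselSpec) : ConvSpec := conv_spec greedy_spec (core_of_hsel hH)

theorem conv_all : ConvSpec :=
  conv_of_hsel (hsel_spec gather_spec scatter_spec gam_spec hrec_all mul_all)

end Crest.Agent.R326
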