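import Crest.Agent.R326.Lang
import Crest.Prelude.Def_IntMul
import Crest.Prelude.Def_TimeBound

/-!
# The symbol-level language (stacks of bits and separators) and the interface to `FinTM2`
-/

set_option autoImplicit false

namespace Crest.Agent.R326

open Crest.LogicCS.IntMul Crest.DTime

/-- symbols: a bit, or the separator `none` -/
abbrev Sym : Type := Option Bool

/-- contents of the stacks -/
abbrev St : Type := ℕ → List Sym

/-- structured programs on stacks of symbols -/
inductive P : Type
  | nop
  | push (k : ℕ) (a : Sym)
  | seq (p q : P)
  /-- pop stack `k`; branch on: empty, separator, `false`, `true` -/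
  | case (k : ℕ) (pe ps pf pt : P)
  /-- while stack `k` is not empty (nothing is popped by the test) -/
  | wh (k : ℕ) (p : P)
  /-- pop stack `k`; stop on empty or separator; on a bit run the branch and repeat -/
  | word (k : ℕ) (pf pt : P)
  /-- run `p` with all stacks other than stack `0` hidden -/
  | scope (p : P)
  | fix (p : P)
  | self

/-- only stack `0` is kept -/
def St.only0 (l : List Sym) : St := fun k => if k = 0 then l else []

/-- big-step semantics with a bound on the number of steps -/
inductive Exec : Option P → P → St → St → ℕ → Prop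
  | mono {fn p s s' n n'} : Exec fn p s s' n → n ≤ n' → Exec fn p s s' n'
  | nop {fn s} : Exec fn .nop s s 1
  | push {fn k a s} : Exec fn (.push k a) s (Function.update s k (a :: s k)) 1
  | seq {fn p q s s' s'' n m} : Exec fn p s s' n → Exec fn q s' s'' m →
      Exec fn (.seq p q) s s'' (n + m)
  | caseE {fn k pe ps pf pt s s' n} : s k = [] → Exec fn pe s s' n →
      Exec fn (.case k pe ps pf pt) s s' (n + 1)
  | caseS {fn k pe ps pf pt s s' n l} : s k = none :: l → Exec fn ps (Function.update s k l) s' n →
      Exec fn (.case k pe ps pf pt) s s' (n + 1)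
  | caseF {fn k pe ps pf pt s s' n l} : s k = some false :: l →
      Exec fn pf (Function.update s k l) s' n → Exec fn (.case k pe ps pf pt) s s' (n + 1)
  | caseT {fn k pe ps pf pt s s' n l} : s k = some true :: l →
      Exec fn pt (Function.update s k l) s' n → Exec fn (.case k pe ps pf pt) s s' (n + 1)
  | whE {fn k p s} : s k = [] → Exec fn (.wh k p) s s 1
  | whC {fn k p s s' s'' n m} : s k ≠ [] → Exec fn p s s' n → Exec fn (.wh k p) s' s'' m →
      Exec fn (.wh k p) s s'' (n + m + 1)
  | wordE {fn k pf pt s} : s k = [] → Exec fn (.word k pf pt) s s 1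
  | wordS {fn k pf pt s l} : s k = none :: l →
      Exec fn (.word k pf pt) s (Function.update s k l) 1
  | wordF {fn k pf pt s s' s'' n m l} : s k = some false :: l →
      Exec fn pf (Function.update s k l) s' n → Exec fn (.word k pf pt) s' s'' m →
      Exec fn (.word k pf pt) s s'' (n + m + 1)
  | wordT {fn k pf pt s s' s'' n m l} : s k = some true :: l →
      Exec fn pt (Function.update s k l) s' n → Exec fn (.word k pf pt) s' s'' m →
      Exec fn (.word k pf pt) s s'' (n + m + 1)
  | scope {fn p s l n} : Exec fn p (St.only0 (s 0)) (St.only0 l) n →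
      Exec fn (.scope p) s (Function.update s 0 l) (n + 2)
  | fix {fn p s s' n} : Exec (some p) p s s' n → Exec fn (.fix p) s s' (n + 2)
  | self {p s s' n} : Exec (some p) p s s' n → Exec (some p) .self s s' (n + 2)

/-- code of a word: binary digits, least significant first, then a separator -/
def encW (x : ℕ) : List Sym := x.bits.map some ++ [none]

/-- code of a list of words -/
def enc (x : List ℕ) : List Sym := x.flatMap encW

@[simp] theorem enc_nil : enc [] = [] := rfl
@[simp] theorem enc_cons (a : ℕ) (x : List ℕ) : enc (a :: x) = encW a ++ enc x := rfl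
@[simp] theorem enc_append (x y : List ℕ) : enc (x ++ y) = enc x ++ enc y := by simp [enc]

theorem length_encW (a : ℕ) : (encW a).length = a.size + 1 := by
  simp [encW, Nat.size_eq_bits_len]

theorem length_enc (x : List ℕ) : (enc x).length = sz x := by
  induction x with
  | nil => rfl
  | cons a x ih => simp [length_encW, ih]

/-- initial stacks: the bits of the two inputs, least significant first, one word per bit -/
def initSt (q : EqLenPair) : St := fun k =>
  if k = 1 then enc (bitsW q.1.1.reverse) else if k = 2 then enc (bitsW q.1.2.reverse) else []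

/-- TASK Machine: a symbol-level program gives a machine of the library. -/
def MachineSpec : Prop :=
  ∀ (f : EqLenPair → List Bool) (p : P) (T : ℕ → ℕ),
    (∀ q : EqLenPair, (f q).length ≤ T q.1.1.length ∧
      Exec none p (initSt q) (St.only0 (enc (bitsW (f q).reverse))) (T q.1.1.length)) →
    ∃ C : ℕ, TimeBoundComputable EqLenPair.enc (Computability.encodingList Bool).encode f
      (fun N => C * (T (N / 2) + N + 1))

/-- TASK BitOps (a): the binary operations; operands on stacks `d`, `d + 1`, scratch above. -/
def BinSpec : Prop :=
  ∃ (prog : Op → ℕ → P) (C : ℕ), ∀ (op : Op) (d : ℕ) (fn : Option P) (s : St) (va vb : List ℕ),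
    s d = enc va → s (d + 1) = enc vb → (∀ k, d + 2 ≤ k → s k = []) →
    Exec fn (prog op d) s
      (Function.update (Function.update s (d + 1) []) d
        (enc [op.ev (va.headD 0) (vb.headD 0)]))
      (C * (sz va + sz vb + (op.ev (va.headD 0) (vb.headD 0)).size + op.extra (vb.headD 0) + 2))

/-- TASK BitOps (b): conversion to unary; operand on stack `d`, scratch above. -/
def UnarySpec : Prop :=
  ∃ (prog : ℕ → P) (C : ℕ), ∀ (d : ℕ) (fn : Option P) (s : St) (v : List ℕ),
    s d = enc v → (∀ k, d + 1 ≤ k → s k = []) →
    Exec fn (prog d) s (Function.update s d (enc (List.replicate (v.headD 0) 0)))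
      (C * (sz v + v.headD 0 + 1))

/-- TASK Compile: a term of the list language gives a machine of the library. -/
def BridgeSpec : Prop :=
  ∀ (f : EqLenPair → List Bool) (t : Tm) (T : ℕ → ℕ),
    (∀ q : EqLenPair, EvB none [bitsW q.1.1.reverse, bitsW q.1.2.reverse] t [[], []]
      (bitsW (f q)) (T q.1.1.length)) →
    ∃ C : ℕ, TimeBoundComputable EqLenPair.enc (Computability.encodingList Bool).encode f
      (fun N => C * (T (N / 2) + N + 1))

end Crest.Agent.R326
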