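import Crest.Agent.R326.Base

/-!
# Small routines on stacks of symbols, used by the compiler
-/

set_option autoImplicit false

namespace Crest.Agent.R326

open Function

namespace Cmp

/-- empty stack `k` -/
def clear (k : ℕ) : P := .wh k (.case k .nop .nop .nop .nop)

/-- move the symbols of `a` onto `b`, reversing them -/
def pour (a b : ℕ) : P :=
  .wh a (.case a .nop (.push b none) (.push b (some false)) (.push b (some true)))

/-- move the symbols of `a` onto both `b` and `c`, reversing them -/
def pour2 (a b c : ℕ) : P :=
  .wh a (.case a .nop (.seq (.push b none) (.push c none))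
    (.seq (.push b (some false)) (.push c (some false)))
    (.seq (.push b (some true)) (.push c (some true))))

/-- move the symbols of `a` onto `b`, through the empty stack `t` -/
def move (a b t : ℕ) : P := .seq (pour a t) (pour t b)

/-- copy the symbols of `a` onto `b`, through the empty stack `t` -/
def copy (a b t : ℕ) : P := .seq (pour a t) (pour2 t a b)

/-- push a fixed list -/
def pushL (k : ℕ) : List Sym → P
  | [] => .nop
  | a :: l => .seq (pushL k l) (.push k a)

/-- move the first word of `a` onto `b`, through the empty stack `t` -/
def mw (a b t : ℕ) : P :=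
  .seq (.word a (.push t (some false)) (.push t (some true))) (.seq (.push b none) (pour t b))

/-- run `p` if stack `a` is not empty -/
def ifne (a : ℕ) (p : P) : P :=
  .case a .nop (.seq (.push a none) p) (.seq (.push a (some false)) p)
    (.seq (.push a (some true)) p)

/-- move the words of `a` onto `b`, reversing their order -/
def revw (a b t : ℕ) : P := .wh a (mw a b t)

variable {fn : Option P}

theorem _root_.Crest.Agent.R326.Exec.cast {p : P} {s s' s'' : St} {n m : ℕ}
    (h : Exec fn p s s' n) (hs : s' = s'') (hn : n ≤ m) : Exec fn p s s'' m := by
  subst hs; exact h.mono hn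

/-- one `case` step on a nonempty stack, all three branches described by one family -/
theorem case_cons {k : ℕ} {pe : P} {q : Sym → P} {s s' : St} {n : ℕ} {a : Sym} {l : List Sym}
    (h : s k = a :: l) (hq : Exec fn (q a) (update s k l) s' n) :
    Exec fn (.case k pe (q none) (q (some false)) (q (some true))) s s' (n + 1) := by
  rcases a with _ | _ | _
  · exact .caseS h hq
  · exact .caseF h hq
  · exact .caseT h hq

theorem clear_ok (k : ℕ) (l : List Sym) (s : St) (h : s k = l) :
    Exec fn (clear k) s (update s k []) (3 * l.length + 1) := by
  induction l generalizing s with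
  | nil => exact (Exec.whE h).cast (by rw [← h, update_eq_self]) (by simp)
  | cons a l ih =>
    have h1 : Exec fn (.case k .nop .nop .nop .nop) s (update s k l) (1 + 1) :=
      case_cons (q := fun _ => .nop) h .nop
    have h2 := ih (update s k l) (by simp)
    exact (Exec.whC (by simp [h]) h1 h2).cast (by simp) (by simp; omega)

theorem pour_ok {a b : ℕ} (hab : a ≠ b) (l : List Sym) (s : St) (h : s a = l) :
    Exec fn (pour a b) s (update (update s a []) b (l.reverse ++ s b)) (3 * l.length + 1) := by
  induction l generalizing s with
  | nil =>
    refine (Exec.whE h).cast ?_ (by simp)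
    funext k
    simp only [update_apply]
    split_ifs <;> simp_all
  | cons x l ih =>
    have h1 : Exec fn (.case a .nop (.push b none) (.push b (some false)) (.push b (some true))) s
        (update (update s a l) b (x :: s b)) (1 + 1) := by
      have := case_cons (fn := fn) (pe := .nop) (q := fun x => .push b x) h .push
      simpa [update_of_ne hab.symm] using this
    have h2 := ih (update (update s a l) b (x :: s b)) (by simp [update_of_ne hab])
    refine (Exec.whC (by simp [h]) h1 h2).cast ?_ (by simp; omega)
    funext k
    simp only [update_apply]
    split_ifs <;> simp_all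

theorem pour2_ok {a b c : ℕ} (hab : a ≠ b) (hac : a ≠ c) (hbc : b ≠ c) (l : List Sym) (s : St)
    (h : s a = l) :
    Exec fn (pour2 a b c) s
      (update (update (update s a []) b (l.reverse ++ s b)) c (l.reverse ++ s c))
      (4 * l.length + 1) := by
  induction l generalizing s with
  | nil =>
    refine (Exec.whE h).cast ?_ (by simp)
    funext k
    simp only [update_apply]
    split_ifs <;> simp_all
  | cons x l ih =>
    have h1 : Exec fn (.case a .nop (.seq (.push b none) (.push c none))
        (.seq (.push b (some false)) (.push c (some false)))
        (.seq (.push b (some true)) (.push c (some true)))) s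
        (update (update (update s a l) b (x :: s b)) c (x :: s c)) (1 + 1 + 1) := by
      have := case_cons (fn := fn) (pe := .nop) (q := fun x => .seq (.push b x) (.push c x)) h
        (.seq .push .push)
      simpa [update_of_ne hab.symm, update_of_ne hac.symm, update_of_ne hbc.symm] using this
    have h2 := ih (update (update (update s a l) b (x :: s b)) c (x :: s c))
      (by simp [update_of_ne hab, update_of_ne hac])
    refine (Exec.whC (by simp [h]) h1 h2).cast ?_ (by simp; omega)
    funext k
    simp only [update_apply]
    split_ifs <;> simp_all

theorem move_ok {a b t : ℕ} (hab : a ≠ b) (hat : a ≠ t) (hbt : b ≠ t) (s : St) (ht : s t = []) :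
    Exec fn (move a b t) s (update (update s a []) b (s a ++ s b)) (6 * (s a).length + 2) := by
  have h1 := pour_ok (fn := fn) hat (s a) s rfl
  have h2 := pour_ok (fn := fn) hbt.symm ((s a).reverse)
    (update (update s a []) t ((s a).reverse ++ s t)) (by simp [ht])
  refine (Exec.seq h1 h2).cast ?_ (by simp; omega)
  funext k
  simp only [update_apply]
  split_ifs <;> simp_all

theorem copy_ok {a b t : ℕ} (hab : a ≠ b) (hat : a ≠ t) (hbt : b ≠ t) (s : St) (ht : s t = []) :
    Exec fn (copy a b t) s (update s b (s a ++ s b)) (7 * (s a).length + 2) := by
  have h1 := pour_ok (fn := fn) hat (s a) s rfl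
  have h2 := pour2_ok (fn := fn) hat.symm hbt.symm hab ((s a).reverse)
    (update (update s a []) t ((s a).reverse ++ s t)) (by simp [ht])
  refine (Exec.seq h1 h2).cast ?_ (by simp; omega)
  funext k
  simp only [update_apply]
  split_ifs <;> simp_all

theorem pushL_ok (k : ℕ) (l : List Sym) (s : St) :
    Exec fn (pushL k l) s (update s k (l ++ s k)) (l.length + 1) := by
  induction l with
  | nil => exact Exec.nop.cast (by simp) (by simp)
  | cons a l ih => exact (Exec.seq ih .push).cast (by simp) (by simp)

theorem word_ok {a t : ℕ} (hat : a ≠ t) (w : List Bool) (l : List Sym) (s : St)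
    (h : s a = w.map some ++ none :: l) :
    Exec fn (.word a (.push t (some false)) (.push t (some true))) s
      (update (update s a l) t ((w.map some).reverse ++ s t)) (2 * w.length + 1) := by
  induction w generalizing s with
  | nil =>
    refine (Exec.wordS h).cast ?_ (by simp)
    funext k
    simp only [update_apply]
    split_ifs <;> simp_all
  | cons x w ih =>
    have h2 := ih (update (update s a (w.map some ++ none :: l)) t (some x :: s t))
      (by simp [update_of_ne hat])
    have h1 : Exec fn (.push t (some x)) (update s a (w.map some ++ none :: l))
        (update (update s a (w.map some ++ none :: l)) t (some x :: s t)) 1 := by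
      simpa [update_of_ne hat.symm] using
        (Exec.push (fn := fn) (k := t) (a := some x) (s := update s a (w.map some ++ none :: l)))
    cases x
    · refine (Exec.wordF h h1 h2).cast ?_ (by simp; omega)
      funext k
      simp only [update_apply]
      split_ifs <;> simp_all
    · refine (Exec.wordT h h1 h2).cast ?_ (by simp; omega)
      funext k
      simp only [update_apply]
      split_ifs <;> simp_all

theorem mw_ok {a b t : ℕ} (hab : a ≠ b) (hat : a ≠ t) (hbt : b ≠ t) (x : ℕ) (l : List Sym)
    (s : St) (h : s a = encW x ++ l) (ht : s t = []) :
    Exec fn (mw a b t) s (update (update s a l) b (encW x ++ s b)) (5 * x.size + 3) := by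
  have h1 := word_ok (fn := fn) hat x.bits l s (by simpa [encW] using h)
  have h3 := pour_ok (fn := fn) hbt.symm ((x.bits.map some).reverse)
    (update (update (update s a l) t ((x.bits.map some).reverse ++ s t)) b
      (none :: (update (update s a l) t ((x.bits.map some).reverse ++ s t)) b))
    (by simp [update_of_ne hbt.symm, ht])
  refine (Exec.seq h1 (Exec.seq .push h3)).cast ?_ (by simp [Nat.size_eq_bits_len]; omega)
  funext k
  simp only [update_apply]
  split_ifs <;> simp_all [encW]

theorem ifne_nil {a : ℕ} {p : P} {s : St} (h : s a = []) : Exec fn (ifne a p) s s 2 :=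
  .caseE h .nop

theorem ifne_cons {a : ℕ} {p : P} {s s' : St} {n : ℕ} (h : s a ≠ []) (hp : Exec fn p s s' n) :
    Exec fn (ifne a p) s s' (n + 2) := by
  obtain ⟨x, l, hx⟩ := List.exists_cons_of_ne_nil h
  have h1 : Exec fn (.push a x) (update s a l) s 1 :=
    Exec.push.cast (by simp [← hx]) le_rfl
  exact (case_cons (q := fun x => .seq (.push a x) p) hx (.seq h1 hp)).cast rfl (by omega)

theorem encW_ne_nil (x : ℕ) : encW x ≠ [] := by simp [encW]

theorem revw_ok {a b t : ℕ} (hab : a ≠ b) (hat : a ≠ t) (hbt : b ≠ t) (v : List ℕ) (s : St)
    (h : s a = enc v) (ht : s t = []) :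
    Exec fn (revw a b t) s (update (update s a []) b (enc v.reverse ++ s b)) (5 * sz v + 1) := by
  induction v generalizing s with
  | nil =>
    refine (Exec.whE h).cast ?_ (by simp)
    funext k
    simp only [update_apply]
    split_ifs <;> simp_all
  | cons x v ih =>
    have h1 := mw_ok (fn := fn) hab hat hbt x (enc v) s h ht
    have h2 := ih (update (update s a (enc v)) b (encW x ++ s b)) (by simp [update_of_ne hab])
      (by simp [update_of_ne hat.symm, update_of_ne hbt.symm, ht])
    refine (Exec.whC (by simp [h, encW_ne_nil]) h1 h2).cast ?_ (by simp; omega)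
    funext k
    simp only [update_apply]
    split_ifs <;> simp_all

end Cmp

end Crest.Agent.R326
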