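import Crest.Agent.R326.SpecB

/-!
# The parameters of the product of polynomials
-/

set_option autoImplicit false

namespace Crest.Agent.R326

open Filter

theorem exists_beta0 (D m : ℕ) : ∃ β0 : ℕ, ∀ β, β0 ≤ β →
    D * (2 ^ β) ^ m ≤ 2 ^ (2 ^ (β / 4 + 1) - 1) ∧ D * 2 ^ (β / 4 + 1) ≤ 2 ^ β ∧
      D ≤ 2 ^ (β / 4 + 1) := by
  have h1 := tendsto_pow_const_div_const_pow_of_one_lt (4 * m) (show (1 : ℝ) < 2 by norm_num)
  have h2 : (0 : ℝ) < 1 / (2 * D + 1) := by positivity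
  obtain ⟨K0, hK0⟩ := eventually_atTop.1 (h1.eventually (gt_mem_nhds h2))
  refine ⟨4 * (K0 + 16 * D + 1), fun β hβ => ?_⟩
  set K := 2 ^ (β / 4 + 1) with hK
  have hK1 : β / 4 + 1 < K := Nat.lt_two_pow_self
  have hK2 : K0 + 16 * D + 1 ≤ K := by omega
  have hb1 : 2 ^ β ≤ K ^ 4 := by
    rw [hK, ← pow_mul]; exact Nat.pow_le_pow_right (by norm_num) (by omega)
  have hb2 : K ^ 4 ≤ 16 * 2 ^ β := by
    rw [hK, ← pow_mul, show 16 = 2 ^ 4 by norm_num, ← pow_add]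
    exact Nat.pow_le_pow_right (by norm_num) (by omega)
  refine ⟨?_, ?_, by omega⟩
  · have h3 := hK0 K (by omega)
    rw [div_lt_div_iff₀ (by positivity) (by positivity), one_mul] at h3
    have h4 : K ^ (4 * m) * (2 * D + 1) < 2 ^ K := by exact_mod_cast h3
    have h5 : (2 ^ β) ^ m ≤ K ^ (4 * m) := by
      rw [pow_mul]; exact Nat.pow_le_pow_left hb1 _
    have h6 : 2 ^ K = 2 * 2 ^ (K - 1) := by rw [← pow_succ']; congr 1; omega
    have h7 : D * (2 ^ β) ^ m ≤ D * K ^ (4 * m) := Nat.mul_le_mul_left _ h5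
    have h8 : K ^ (4 * m) * (2 * D + 1) = 2 * (D * K ^ (4 * m)) + K ^ (4 * m) := by ring
    omega
  · have h3 : 16 * D ≤ K ^ 3 := le_trans (by omega) (Nat.le_self_pow (by norm_num) K)
    have h4 : 16 * D * K ≤ K ^ 3 * K := Nat.mul_le_mul_right _ h3
    have h5 : K ^ 3 * K = K ^ 4 := by ring
    rw [mul_assoc] at h4
    omega

/-- the numerical facts on the parameters -/
structure CPar (c0 c1 cg cW β l0 K a j : ℕ) : Prop where
  K16 : 16 ≤ K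
  Kl : 3 * K ≤ l0
  a1 : 1 ≤ a
  aK : (K - 1) * (2 * a) + K ≤ l0
  hLV : (K - 1) * (2 * a) + j + 2 = l0 + 5
  jlo : K + 3 ≤ j
  jhi : j ≤ 3 * K
  w1 : (cW * 2 ^ β + 1) ^ c0 ≤ 2 ^ (K - 1)
  gK : β + 2 ≤ K - 1
  w2 : 2 * a * (cW * 2 ^ β + 1) ^ 171 + 4 * 2 ^ (β + 2) + 4 ≤ 2 ^ (K - 1 - (β + 2))
  w3 : 2 * a + cW * 2 ^ β + 1 ≤ 2 ^ (K - 1)
  e1 : K * cg + 1 ≤ l0
  e2 : (3 * K + 2) * c1 + 1 ≤ l0

theorem w2_aux {a b cW n : ℕ} (hab : 2 * a ≤ b) (hb1 : 1 ≤ b) :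
    (2 * a * (cW * b + 1) ^ n + 4 * (4 * b) + 4) * (4 * b) ≤
      4 * ((cW + 1) ^ n + 20) * b ^ (n + 2) := by
  have hW : cW * b + 1 ≤ (cW + 1) * b := by rw [add_mul]; omega
  have k1 : 2 * a * (cW * b + 1) ^ n ≤ b * ((cW + 1) * b) ^ n :=
    Nat.mul_le_mul hab (Nat.pow_le_pow_left hW _)
  have k2 : b ≤ b ^ (n + 1) := Nat.le_self_pow (by omega) b
  have k3 : b * ((cW + 1) * b) ^ n = (cW + 1) ^ n * b ^ (n + 1) := by rw [mul_pow]; ring
  have k4 : 2 * a * (cW * b + 1) ^ n + 4 * (4 * b) + 4 ≤ ((cW + 1) ^ n + 20) * b ^ (n + 1) := by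
    rw [add_mul ((cW + 1) ^ n), ← k3]
    generalize b ^ (n + 1) = z at *
    omega
  calc _ ≤ ((cW + 1) ^ n + 20) * b ^ (n + 1) * (4 * b) := Nat.mul_le_mul_right _ k4
    _ = _ := by ring

theorem exists_cpar (c0 c1 cg cW : ℕ) : ∃ β0 : ℕ, ∀ β, β0 ≤ β → ∀ l0 K a j, 2 ^ β ≤ 4 * l0 →
    l0 ≤ 2 ^ β → K = 2 ^ (β / 4 + 1) → a = (l0 - K) / (K - 1 + (K - 1)) →
    j = l0 + 3 - (K - 1) * (a + a) → CPar c0 c1 cg cW β l0 K a j := by
  obtain ⟨D, d1, d2, d3, d4, d5, d6⟩ : ∃ D, 16 ≤ D ∧ (cW + 1) ^ c0 ≤ D ∧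
      4 * ((cW + 1) ^ 171 + 20) ≤ D ∧ cW + 2 ≤ D ∧ 4 * (cg + 1) ≤ D ∧ 4 * (5 * c1 + 1) ≤ D := by
    generalize (cW + 1) ^ 171 = x
    generalize (cW + 1) ^ c0 = y
    exact ⟨16 + y + 4 * (x + 20) + (cW + 2) + 4 * (cg + 1) + 4 * (5 * c1 + 1), by omega, by omega,
      by omega, by omega, by omega, by omega⟩
  obtain ⟨β0, h⟩ := exists_beta0 D (173 + c0)
  refine ⟨β0, fun β hβ l0 K a j hl1 hl2 hK ha hj => ?_⟩
  obtain ⟨h1, h2, h3⟩ := h β hβ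
  rw [← hK] at h1 h2 h3
  clear h hK hβ
  obtain ⟨b, hb⟩ : ∃ b, b = 2 ^ β := ⟨_, rfl⟩
  rw [← hb] at h1 h2 hl1 hl2
  have hb1 : 1 ≤ b := hb ▸ Nat.one_le_two_pow
  have hmul : ∀ x, x ≤ D → x * K ≤ 4 * l0 := fun x hx =>
    ((Nat.mul_le_mul_right _ hx).trans h2).trans hl1
  have hbig : ∀ x n, x ≤ D → n ≤ 173 + c0 → x * b ^ n ≤ 2 ^ (K - 1) := fun x n hx hn =>
    (Nat.mul_le_mul hx (Nat.pow_le_pow_right hb1 hn)).trans h1
  have b1 := hbig _ (171 + 2) d3 (Nat.le_add_right _ _)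
  have b2 := hbig _ c0 d2 (Nat.le_add_left _ _)
  have b3 := hbig _ 1 d4 (le_add_right (by norm_num))
  have m1 := hmul _ d5
  have m2 := hmul _ d6
  have m3 := hmul 12 (le_trans (by norm_num) d1)
  have hK16 : 16 ≤ K := d1.trans h3
  revert b1 b2
  clear h1 h2 hmul hbig d1 d2 d3 d4 d5 d6 h3
  have hKl : 3 * K ≤ l0 := by omega
  have hdm := Nat.div_add_mod (l0 - K) (K - 1 + (K - 1))
  have hmod := Nat.mod_lt (l0 - K) (show 0 < K - 1 + (K - 1) by omega)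
  rw [← ha] at hdm
  have he : (K - 1 + (K - 1)) * a = (K - 1) * (2 * a) := by ring
  have he' : (K - 1) * (a + a) = (K - 1) * (2 * a) := by ring
  rw [he] at hdm
  rw [he'] at hj
  clear ha he he'
  generalize (l0 - K) % (K - 1 + (K - 1)) = r at hdm hmod
  have ha1 : 1 ≤ a := by
    rcases Nat.eq_zero_or_pos a with h0 | h0
    · rw [h0] at hdm; omega
    · exact h0
  have hab : 2 * a ≤ b := by
    have : 1 * (2 * a) ≤ (K - 1) * (2 * a) := Nat.mul_le_mul_right _ (by omega)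
    omega
  have hW : cW * b + 1 ≤ (cW + 1) * b := by rw [add_mul]; omega
  have hg : 2 ^ (β + 2) = 4 * b := by rw [pow_add, hb]; ring
  have f1 : (K - 1) * (2 * a) + K ≤ l0 := by omega
  have f2 : (K - 1) * (2 * a) + j + 2 = l0 + 5 := by omega
  have f3 : K + 3 ≤ j := by omega
  have f4 : j ≤ 3 * K := by omega
  have f5 : 2 * a + cW * b + 1 ≤ 2 ^ (K - 1) := by
    rw [pow_one, add_mul] at b3
    omega
  have f6 : K * cg + 1 ≤ l0 := by
    have e : 4 * (cg + 1) * K = 4 * (K * cg) + 4 * K := by ring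
    omega
  have f7 : (3 * K + 2) * c1 + 1 ≤ l0 := by
    have e : 4 * (5 * c1 + 1) * K = 20 * (K * c1) + 4 * K := by ring
    have e' : (3 * K + 2) * c1 = 3 * (K * c1) + 2 * c1 := by ring
    have e'' : 1 * c1 ≤ K * c1 := Nat.mul_le_mul_right _ (by omega)
    omega
  intro b1 b2
  have hw2 := (w2_aux (cW := cW) (n := 171) hab hb1).trans b1
  rw [← hg] at hw2
  have hgK : β + 2 ≤ K - 1 := by
    have : 1 * 2 ^ (β + 2) ≤ 2 ^ (K - 1) :=
      (Nat.mul_le_mul_right _ (le_add_left (by norm_num))).trans hw2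
    rw [one_mul] at this
    exact (Nat.pow_le_pow_iff_right (by norm_num)).1 this
  subst hb
  refine ⟨hK16, hKl, ha1, f1, f2, f3, f4, ?_, hgK, ?_, f5, f6, f7⟩
  · refine le_trans ?_ b2
    rw [← mul_pow]; exact Nat.pow_le_pow_left hW _
  · have : 2 ^ (K - 1) = 2 ^ (K - 1 - (β + 2)) * 2 ^ (β + 2) := by
      rw [← pow_add, Nat.sub_add_cancel hgK]
    rw [this] at hw2
    exact Nat.le_of_mul_le_mul_right hw2 (by positivity)

theorem tauE_posC : 0 < tauE := by unfold tauE; norm_num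
theorem tauE_le : tauE ≤ 1 := by unfold tauE; norm_num

/-- the cost per word -/
theorem tcost_le {c0 c1 cg cW β l0 K a j : ℕ} (h : CPar c0 c1 cg cW β l0 K a j)
    (hK : K = 2 ^ (β / 4 + 1)) (hl : l0 ≤ 2 ^ β) :
    tcost (cW * 2 ^ β) K a j (β + 2) ≤
      (16 * (90 * 2 ^ 101 + (7 * cW + 9)) : ℕ) * ((2 : ℝ) ^ β) ^ tauC := by
  obtain ⟨y, hy⟩ : ∃ y : ℝ, y = (K : ℝ) := ⟨_, rfl⟩
  obtain ⟨κ, hκ⟩ : ∃ κ : ℝ, κ = ((β / 4 + 1 : ℕ) : ℝ) := ⟨_, rfl⟩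
  have hy16 : (16 : ℝ) ≤ y := by rw [hy]; exact_mod_cast h.K16
  have hy1 : (1 : ℝ) ≤ y := by linarith
  have hy0 : (0 : ℝ) < y := by linarith
  have hb1 : (2 : ℝ) ^ β ≤ y ^ 4 := by
    have : 2 ^ β ≤ K ^ 4 := by
      rw [hK, ← pow_mul]; exact Nat.pow_le_pow_right (by norm_num) (by omega)
    rw [hy]; exact_mod_cast this
  have hb2 : y ^ 4 ≤ 16 * (2 : ℝ) ^ β := by
    have : K ^ 4 ≤ 16 * 2 ^ β := by
      rw [hK, ← pow_mul, show 16 = 2 ^ 4 by norm_num, ← pow_add]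
      exact Nat.pow_le_pow_right (by norm_num) (by omega)
    rw [hy]; exact_mod_cast this
  have hκ1 : (1 : ℝ) ≤ κ := by rw [hκ]; exact_mod_cast Nat.le_add_left 1 _
  have hβ : (β : ℝ) + 3 ≤ 6 * κ := by
    have : β + 3 ≤ 6 * (β / 4 + 1) := by omega
    rw [hκ]; exact_mod_cast this
  obtain ⟨δ, hδ⟩ : ∃ δ : ℝ, δ = 1 / 2 ^ 100 := ⟨_, rfl⟩
  have hδ0 : 0 < δ := by rw [hδ]; positivity
  have hδ1 : δ ≤ 1 / 100 := by rw [hδ]; norm_num
  have hκy : κ ≤ 2 ^ 101 * y ^ δ := by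
    have h1 : Real.log y = κ * Real.log 2 := by
      rw [hy, hK, hκ]; push_cast; rw [Real.log_pow]; push_cast; ring
    have h2 := Real.log_le_rpow_div hy0.le hδ0
    have h3 := Real.log_two_gt_d9
    have h4 : y ^ δ / δ = 2 ^ 100 * y ^ δ := by rw [hδ]; field_simp
    nlinarith
  obtain ⟨E, hE⟩ : ∃ E : ℝ, E = y ^ (4 * tauC) := ⟨_, rfl⟩
  obtain ⟨Q, hQ⟩ : ∃ Q : ℝ, Q = κ * y ^ (4 - 3 * δ) := ⟨_, rfl⟩
  have hτ : 4 * tauC = 4 - δ / 256 := by unfold tauC; rw [hδ]; norm_num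
  have hle : ∀ s, s ≤ 4 - δ → y ^ s ≤ E := fun s hs =>
    hE ▸ Real.rpow_le_rpow_of_exponent_le hy1 (by rw [hτ]; linarith)
  have hle' : ∀ s, s ≤ 4 - 3 * δ → κ * y ^ s ≤ Q := fun s hs =>
    hQ ▸ mul_le_mul_of_nonneg_left (Real.rpow_le_rpow_of_exponent_le hy1 hs) (by linarith)
  have hQE : Q ≤ 2 ^ 101 * E := by
    calc Q ≤ 2 ^ 101 * y ^ δ * y ^ (4 - 3 * δ) :=
          hQ ▸ mul_le_mul_of_nonneg_right hκy (by positivity)
      _ = 2 ^ 101 * y ^ (δ + (4 - 3 * δ)) := by rw [Real.rpow_add hy0]; ring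
      _ ≤ _ := mul_le_mul_of_nonneg_left (hle _ (by linarith)) (by positivity)
  have hEb : E ≤ 16 * ((2 : ℝ) ^ β) ^ tauC := by
    have hτ0 : 0 ≤ tauC := by unfold tauC; norm_num
    have hτ1 : tauC ≤ 1 := by unfold tauC; norm_num
    calc E = (y ^ 4) ^ tauC := by
          rw [hE, Real.rpow_mul hy0.le]; norm_num
      _ ≤ (16 * (2 : ℝ) ^ β) ^ tauC := Real.rpow_le_rpow (by positivity) hb2 hτ0
      _ = 16 ^ tauC * ((2 : ℝ) ^ β) ^ tauC := Real.mul_rpow (by norm_num) (by positivity)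
      _ ≤ _ := by
          refine mul_le_mul_of_nonneg_right ?_ (by positivity)
          simpa using Real.rpow_le_rpow_of_exponent_le (show (1 : ℝ) ≤ 16 by norm_num) hτ1
  have hE1 : 1 ≤ E := by simpa using hle 0 (by linarith)
  have hQ0 : κ ≤ Q := by simpa using hle' 0 (by linarith)
  have hQ1 : κ * y ≤ Q := by simpa using hle' 1 (by linarith)
  have hQ3 : κ * y ^ 3 ≤ Q := by
    have := hle' 3 (by linarith)
    rwa [show (3 : ℝ) = (3 : ℕ) by norm_num, Real.rpow_natCast] at this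
  -- `a + 1 ≤ 2 y ^ 3`
  have ha : (a : ℝ) + 1 ≤ 2 * y ^ 3 := by
    have h1 : K * a ≤ 2 ^ β := by
      have := h.aK
      have h2 : K * a ≤ (K - 1) * (2 * a) := by
        have := h.K16
        calc K * a ≤ ((K - 1) * 2) * a := Nat.mul_le_mul_right _ (by omega)
          _ = _ := by ring
      omega
    have h2 : y * a ≤ (2 : ℝ) ^ β := by rw [hy]; exact_mod_cast h1
    have h3 : y * a ≤ y * y ^ 3 := by nlinarith
    have h4 := le_of_mul_le_mul_left h3 hy0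
    have h5 : 1 ≤ y ^ 3 := one_le_pow₀ hy1
    linarith
  have ha0 : (0 : ℝ) ≤ a := by positivity
  have hj : (j : ℝ) + 1 ≤ 4 * y := by
    have : (j : ℝ) ≤ 3 * y := by rw [hy]; exact_mod_cast h.jhi
    linarith
  have hj0 : (0 : ℝ) < (j : ℝ) + 1 := by positivity
  have hsz : (((cW * 2 ^ β).size : ℕ) : ℝ) ≤ cW + 6 * κ := by
    have h1 : (cW * 2 ^ β).size ≤ cW + β := by
      rw [Nat.size_le, pow_add]
      exact Nat.mul_lt_mul_of_pos_right Nat.lt_two_pow_self (by positivity)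
    have h2 : (((cW * 2 ^ β).size : ℕ) : ℝ) ≤ cW + β := by exact_mod_cast h1
    linarith
  have hcW : (0 : ℝ) ≤ cW := by positivity
  have hmu : y * mu (cW * 2 ^ β) ≤ (cW + 1) * E := by
    have h1 : ((cW * 2 ^ β : ℕ) : ℝ) + 1 ≤ (cW + 1) * y ^ 4 := by
      push_cast
      have : 1 ≤ y ^ 4 := one_le_pow₀ hy1
      nlinarith
    have h2 : mu (cW * 2 ^ β) ≤ (cW + 1) * y ^ (12 / 5 : ℝ) := by
      unfold mu
      calc _ ≤ ((cW + 1) * y ^ 4) ^ (3 / 5 : ℝ) := Real.rpow_le_rpow (by positivity) h1 (by norm_num)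
        _ = ((cW : ℝ) + 1) ^ (3 / 5 : ℝ) * (y ^ 4) ^ (3 / 5 : ℝ) :=
            Real.mul_rpow (by positivity) (by positivity)
        _ ≤ _ := by
            refine mul_le_mul ?_ (le_of_eq ?_) (by positivity) (by positivity)
            · simpa using Real.rpow_le_rpow_of_exponent_le (show (1 : ℝ) ≤ cW + 1 by linarith)
                (show (3 / 5 : ℝ) ≤ 1 by norm_num)
            · rw [← Real.rpow_natCast, ← Real.rpow_mul hy0.le]; norm_num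
    have h3 : y * y ^ (12 / 5 : ℝ) ≤ E := by
      have := hle (1 + 12 / 5) (by linarith)
      rwa [Real.rpow_add hy0, Real.rpow_one] at this
    calc _ ≤ y * ((cW + 1) * y ^ (12 / 5 : ℝ)) := mul_le_mul_of_nonneg_left h2 hy0.le
      _ = (cW + 1) * (y * y ^ (12 / 5 : ℝ)) := by ring
      _ ≤ _ := mul_le_mul_of_nonneg_left h3 (by positivity)
  have hmu0 : 0 ≤ mu (cW * 2 ^ β) := by unfold mu; positivity
  have hτE : tauE = 1 - δ := by rw [hδ]; rfl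
  have two : ∀ z : ℝ, 0 ≤ z → (2 * z) ^ tauE ≤ 2 * z ^ tauE := fun z hz => by
    rw [Real.mul_rpow (by norm_num) hz]
    refine mul_le_mul_of_nonneg_right ?_ (by positivity)
    simpa using Real.rpow_le_rpow_of_exponent_le (show (1 : ℝ) ≤ 2 by norm_num) tauE_le
  have t1 : y * (((β : ℝ) + 3) * ((a : ℝ) + 1) ^ tauE) ≤ 12 * Q := by
    have h1 : ((a : ℝ) + 1) ^ tauE ≤ 2 * (y ^ 3) ^ tauE :=
      (Real.rpow_le_rpow (by positivity) ha tauE_posC.le).trans (two _ (by positivity))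
    have h2 : y * (y ^ 3) ^ tauE = y ^ (4 - 3 * δ) := by
      rw [← Real.rpow_natCast, ← Real.rpow_mul hy0.le, hτE,
        show 4 - 3 * δ = 1 + ((3 : ℕ) : ℝ) * (1 - δ) by push_cast; ring, Real.rpow_add hy0,
        Real.rpow_one]
    calc _ ≤ y * ((6 * κ) * (2 * (y ^ 3) ^ tauE)) :=
          mul_le_mul_of_nonneg_left (mul_le_mul hβ h1 (by positivity) (by positivity)) hy0.le
      _ = 12 * (κ * (y * (y ^ 3) ^ tauE)) := by ring
      _ = _ := by rw [h2, hQ]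
  have t2 : ((β : ℝ) + 2) * a ≤ 12 * Q := by
    calc _ ≤ (6 * κ) * (2 * y ^ 3) := mul_le_mul (by linarith) (by linarith) ha0 (by linarith)
      _ ≤ _ := by linarith
  have t5 : ((j : ℝ) + 1) * (((β : ℝ) + 3) * ((1 : ℝ) + 1) ^ tauE) ≤ 48 * Q := by
    have h1 : ((1 : ℝ) + 1) ^ tauE ≤ 2 := by
      simpa [one_add_one_eq_two] using two 1 zero_le_one
    calc _ ≤ (4 * y) * ((6 * κ) * 2) :=
          mul_le_mul hj (mul_le_mul hβ h1 (by positivity) (by positivity)) (by positivity)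
            (by positivity)
      _ ≤ _ := by linarith
  have t7 : ((j : ℝ) + 1) * mu (cW * 2 ^ β) ≤ 4 * ((cW + 1) * E) := by
    have := mul_le_mul_of_nonneg_right hj hmu0
    linarith
  have t8 : ((a : ℝ) + 1) * (y + 1) ^ tauE ≤ 4 * E := by
    have h1 : (y + 1) ^ tauE ≤ 2 * y ^ tauE :=
      (Real.rpow_le_rpow (by positivity) (by linarith) tauE_posC.le).trans (two _ hy0.le)
    have h2 : y ^ 3 * y ^ tauE ≤ E := by
      have := hle (((3 : ℕ) : ℝ) + tauE) (by rw [hτE]; push_cast; linarith)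
      rwa [Real.rpow_add hy0, Real.rpow_natCast] at this
    calc _ ≤ (2 * y ^ 3) * (2 * y ^ tauE) := mul_le_mul ha h1 (by positivity) (by positivity)
      _ ≤ _ := by linarith
  have hcE : (cW : ℝ) ≤ cW * E := le_mul_of_one_le_right hcW hE1
  have key : tcost (cW * 2 ^ β) K a j (β + 2) ≤ 90 * Q + (7 * cW + 9) * E := by
    unfold tcost hcost
    rw [← hy]
    have e1 : y * ((((β + 2 : ℕ) : ℝ) + 1) * ((a : ℝ) + 1) ^ tauE +
        (((β + 2 : ℕ) : ℝ) * a + ((cW * 2 ^ β).size : ℕ)) / y + mu (cW * 2 ^ β)) =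
        y * (((β : ℝ) + 3) * ((a : ℝ) + 1) ^ tauE) + ((β : ℝ) + 2) * a +
          ((cW * 2 ^ β).size : ℕ) + y * mu (cW * 2 ^ β) := by
      push_cast; field_simp; ring
    have e2 : ((j : ℝ) + 1) * ((((β + 2 : ℕ) : ℝ) + 1) * (((1 : ℕ) : ℝ) + 1) ^ tauE +
        (((β + 2 : ℕ) : ℝ) * (1 : ℕ) + ((cW * 2 ^ β).size : ℕ)) / ((j + 1 : ℕ) : ℝ) +
          mu (cW * 2 ^ β)) =
        ((j : ℝ) + 1) * (((β : ℝ) + 3) * ((1 : ℝ) + 1) ^ tauE) + ((β : ℝ) + 2) +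
          ((cW * 2 ^ β).size : ℕ) + ((j : ℝ) + 1) * mu (cW * 2 ^ β) := by
      push_cast; field_simp; ring
    rw [e1, e2]
    linarith
  have hfin : 90 * Q + (7 * cW + 9) * E ≤ (90 * 2 ^ 101 + (7 * cW + 9)) * E := by linarith
  calc _ ≤ (90 * 2 ^ 101 + (7 * cW + 9)) * E := key.trans hfin
    _ ≤ (90 * 2 ^ 101 + (7 * cW + 9)) * (16 * ((2 : ℝ) ^ β) ^ tauC) :=
        mul_le_mul_of_nonneg_left hEb (by positivity)
    _ = _ := by push_cast; ring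

/-- Bernoulli's inequality for the product of the moduli -/
theorem two_pow_le_prod {k g d : ℕ} {ts : List ℕ} (hg : g ≤ k) (hd : 2 * d ≤ 2 ^ g)
    (hlen : ts.length = d) (h : ∀ t ∈ ts, 2 ^ k - 2 ^ (k - g) ≤ t) :
    2 ^ (k * d) ≤ 2 * ts.prod := by
  have h1 : (2 ^ k - 2 ^ (k - g)) ^ d ≤ ts.prod := by
    rw [← hlen]; exact List.pow_card_le_prod ts _ h
  have h2 : 2 ^ (k - g) ≤ 2 ^ k := Nat.pow_le_pow_right (by norm_num) (by omega)
  have h3 : (((2 ^ k - 2 ^ (k - g) : ℕ)) : ℝ) = 2 ^ k * (1 + -(1 / 2 ^ g)) := by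
    rw [Nat.cast_sub h2]
    push_cast
    rw [show (2 : ℝ) ^ k = 2 ^ (k - g) * 2 ^ g by rw [← pow_add]; congr 1; omega]
    field_simp
    ring
  have hg1 : (1 : ℝ) / 2 ^ g ≤ 1 := by
    rw [div_le_one (by positivity)]; exact one_le_pow₀ (by norm_num)
  have h4 := one_add_mul_le_pow (a := -(1 / 2 ^ g : ℝ)) (by linarith) d
  have h5 : (d : ℝ) * (1 / 2 ^ g) ≤ 1 / 2 := by
    have : (2 : ℝ) * d ≤ 2 ^ g := by exact_mod_cast hd
    rw [mul_one_div, div_le_iff₀ (by positivity)]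
    linarith
  have h6 : ((2 : ℝ) ^ k * (1 + -(1 / 2 ^ g))) ^ d ≤ ts.prod := by
    rw [← h3]; exact_mod_cast h1
  rw [mul_pow, ← pow_mul] at h6
  have h7 : (2 : ℝ) ^ (k * d) * (1 / 2) ≤ 2 ^ (k * d) * (1 + -(1 / 2 ^ g)) ^ d :=
    mul_le_mul_of_nonneg_left (by linarith) (by positivity)
  have h8 : (2 : ℝ) ^ (k * d) ≤ 2 * (ts.prod : ℕ) := by linarith
  exact_mod_cast h8

end Crest.Agent.R326
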