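import Crest.Agent.R326.SpecB

/-!
# The layout of the Chinese remainder theorem, part A: digits
-/

set_option autoImplicit false

namespace Crest.Agent.R326

namespace Crt

open Finset

/-- the address with top part `top` and `d` digits `r` in base `R` -/
def ad (R d top : ℕ) (r : ℕ → ℕ) : ℕ := top * R ^ d + ∑ i ∈ range d, r i * R ^ i

theorem mk_lt {K n k x : ℕ} (hk : k < K) (hx : x < n) : k * n + x < K * n := by
  calc k * n + x < k * n + n := by omega
    _ = (k + 1) * n := by ring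
    _ ≤ K * n := Nat.mul_le_mul_right _ hk

theorem low_lt {R d : ℕ} {r : ℕ → ℕ} (h : ∀ l < d, r l < R) :
    ∑ i ∈ range d, r i * R ^ i < R ^ d := by
  induction d with
  | zero => simp
  | succ d ih =>
    rw [sum_range_succ, add_comm, pow_succ']
    exact mk_lt (h d (by omega)) (ih fun l hl => h l (by omega))

theorem ad_succ (R d top : ℕ) (r : ℕ → ℕ) : ad R (d + 1) top r = ad R d (top * R + r d) r := by
  unfold ad
  rw [sum_range_succ]
  ring

theorem ad_congr {R d top : ℕ} {r r' : ℕ → ℕ} (h : ∀ l < d, r l = r' l) :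
    ad R d top r = ad R d top r' := by
  unfold ad
  rw [sum_congr rfl fun l hl => by rw [h l (mem_range.1 hl)]]

theorem ad_add (R i m top : ℕ) (r : ℕ → ℕ) :
    ad R (i + m) top r = ad R i (ad R m top fun l => r (i + l)) r := by
  unfold ad
  rw [sum_range_add, add_mul, sum_mul, pow_add]
  simp only [pow_add]
  have : ∀ l, r (i + l) * R ^ l * R ^ i = r (i + l) * (R ^ i * R ^ l) := fun l => by ring
  simp only [this]
  ring

theorem ad_split {R d i : ℕ} (hi : i < d) (top : ℕ) (r : ℕ → ℕ) :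
    ad R d top r = (ad R (d - 1 - i) top (fun l => r (i + 1 + l)) * R + r i) * R ^ i +
      ∑ l ∈ range i, r l * R ^ l := by
  obtain ⟨m, rfl⟩ : ∃ m, d = i + 1 + m := ⟨d - 1 - i, by omega⟩
  rw [ad_add, ad_succ, show i + 1 + m - 1 - i = m by omega]
  rfl

theorem dig_ad {R d i : ℕ} {r : ℕ → ℕ} (hi : i < d) (h : ∀ l < d, r l < R) (top : ℕ) :
    dig (R ^ i) R (ad R d top r) = r i := by
  rw [ad_split hi, dig_mk _ (h i hi) (low_lt fun l hl => h l (by omega))]

theorem div_ad' {R d i : ℕ} {r : ℕ → ℕ} (hi : i < d) (h : ∀ l < d, r l < R) (top : ℕ) :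
    ad R d top r / (R ^ i * R) = ad R (d - 1 - i) top fun l => r (i + 1 + l) := by
  rw [ad_split hi, div_mk _ (h i hi) (low_lt fun l hl => h l (by omega))]

theorem setDig_ad {R d i : ℕ} {r : ℕ → ℕ} (hi : i < d) (h : ∀ l < d, r l < R) (top v : ℕ) :
    setDig (R ^ i) R (ad R d top r) v = ad R d top (Function.update r i v) := by
  rw [ad_split hi, setDig_mk _ _ (h i hi) (low_lt fun l hl => h l (by omega)), ad_split hi,
    Function.update_self]
  congr 1
  · congr 3
    exact ad_congr fun l _ => by rw [Function.update_of_ne (by omega)]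
  · refine sum_congr rfl fun l hl => ?_
    rw [Function.update_of_ne (mem_range.1 hl).ne]

theorem div_ad {R d : ℕ} {r : ℕ → ℕ} (h : ∀ l < d, r l < R) (top : ℕ) :
    ad R d top r / R ^ d = top := by
  have h1 := low_lt h
  unfold ad
  rw [add_comm, Nat.add_mul_div_right _ _ (by omega), Nat.div_eq_of_lt h1, zero_add]

theorem ad_lt {R d T top : ℕ} {r : ℕ → ℕ} (h : ∀ l < d, r l < R) (ht : top < T) :
    ad R d top r < T * R ^ d := mk_lt ht (low_lt h)

theorem le_ad {R d T top : ℕ} (r : ℕ → ℕ) (ht : T ≤ top) : T * R ^ d ≤ ad R d top r :=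
  (Nat.mul_le_mul_right _ ht).trans (Nat.le_add_right _ _)

theorem eq_ad (R d a : ℕ) : a = ad R d (a / R ^ d) fun l => dig (R ^ l) R a := by
  induction d with
  | zero => simp [ad]
  | succ d ih =>
    rw [ad_succ, pow_succ, ← Nat.div_div_eq_div_mul]
    unfold dig at ih ⊢
    rw [Nat.div_add_mod']
    exact ih

theorem update_lt {R d i v : ℕ} {r : ℕ → ℕ} (h : ∀ l < d, r l < R) (hv : v < R) :
    ∀ l < d, Function.update r i v l < R := by
  intro l hl
  by_cases hli : l = i
  · rw [hli, Function.update_self]; exact hv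
  · rw [Function.update_of_ne hli]; exact h l hl

theorem swapDig_ad {R d i i' : ℕ} {r : ℕ → ℕ} (hi : i < d) (hi' : i' < d) (h : ∀ l < d, r l < R)
    (top : ℕ) : swapDig (R ^ i') (R ^ i) R (ad R d top r) =
      ad R d top (Function.update (Function.update r i (r i')) i' (r i)) := by
  rw [swapDig, dig_ad hi h, dig_ad hi' h, setDig_ad hi h, setDig_ad hi' (update_lt h (h i' hi'))]

/-! ### products of the moduli -/

/-- the product of the moduli from number `m` on -/
def dp (ts : List ℕ) (m : ℕ) : ℕ := (ts.drop m).prod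

theorem dp_succ {ts : List ℕ} {m : ℕ} (h : m < ts.length) :
    dp ts m = ts.getD m 0 * dp ts (m + 1) := by
  unfold dp
  rw [List.drop_eq_getElem_cons h, List.prod_cons, List.getD_eq_getElem _ _ h]

theorem dp_length (ts : List ℕ) : dp ts ts.length = 1 := by simp [dp]

theorem dp_zero (ts : List ℕ) : dp ts 0 = ts.prod := rfl

theorem getD_mem {ts : List ℕ} {m : ℕ} (h : m < ts.length) : ts.getD m 0 ∈ ts := by
  rw [List.getD_eq_getElem _ _ h]; exact List.getElem_mem h

theorem dp_pos {ts : List ℕ} (h : ∀ t ∈ ts, 0 < t) (m : ℕ) : 0 < dp ts m :=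
  List.prod_pos fun t ht => h t (List.mem_of_mem_drop ht)

theorem dp_dvd (ts : List ℕ) {m m' : ℕ} (h : m ≤ m') : dp ts m' ∣ dp ts m := by
  obtain ⟨c, rfl⟩ := Nat.exists_eq_add_of_le h
  unfold dp
  rw [← List.drop_drop]
  exact (List.drop_sublist _ _).prod_dvd_prod

/-- the product of the moduli number `i, …, i + m - 1` -/
def pp (ts : List ℕ) (i m : ℕ) : ℕ := ∏ l ∈ range m, ts.getD (i + l) 0

theorem pp_mul_dp {ts : List ℕ} {i m : ℕ} (h : i + m ≤ ts.length) :
    pp ts i m * dp ts (i + m) = dp ts i := by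
  induction m with
  | zero => simp [pp]
  | succ m ih =>
    rw [← ih (by omega), dp_succ (m := i + m) (by omega), pp, prod_range_succ, ← pp, add_assoc]
    ring

theorem pp_eq_dp {ts : List ℕ} {i m : ℕ} (h : i + m = ts.length) : pp ts i m = dp ts i := by
  rw [← pp_mul_dp h.le, h, dp_length, mul_one]

theorem pp_le {ts : List ℕ} {R : ℕ} (h : ∀ l, ts.getD l 0 ≤ R) (i m : ℕ) : pp ts i m ≤ R ^ m := by
  have := prod_le_pow_card (range m) (fun l => ts.getD (i + l) 0) R fun l _ => h _
  rwa [card_range] at this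

theorem getD_le {ts : List ℕ} {R : ℕ} (h : ∀ t ∈ ts, t ≤ R) (l : ℕ) : ts.getD l 0 ≤ R :=
  (getD_zero_or_mem ts l).elim (fun h0 => by omega) (h _)

theorem coprime_dp {ts : List ℕ} (h : ts.Pairwise Nat.Coprime) {i : ℕ} (hi : i < ts.length) :
    Nat.Coprime (dp ts (i + 1)) (ts.getD i 0) := by
  have h1 : (ts.drop i).Pairwise Nat.Coprime := h.sublist (List.drop_sublist _ _)
  rw [List.drop_eq_getElem_cons hi, List.pairwise_cons] at h1
  rw [List.getD_eq_getElem _ _ hi, dp]
  exact Nat.coprime_list_prod_left_iff.2 fun t ht => (h1.1 t ht).symm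

/-- the inverse of `p` modulo `t`, by search -/
def inv (t p : ℕ) : ℕ := ∑ o ∈ range t, if p * o % t = 1 then o else 0

theorem inv_spec {t p : ℕ} (ht : 1 < t) (h : Nat.Coprime p t) : inv t p < t ∧ p * inv t p % t = 1 := by
  obtain ⟨m, hm, h1⟩ := Nat.exists_mul_mod_eq_one_of_coprime h ht
  have : inv t p = m := by
    rw [inv, sum_eq_single m, if_pos h1]
    · intro o ho hne
      refine if_neg fun h2 => hne ?_
      have h3 : p * o ≡ p * m [MOD t] := h2.trans h1.symm
      exact Nat.ModEq.eq_of_lt_of_lt (h3.cancel_left_of_coprime h.symm) (mem_range.1 ho) hm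
    · intro h; exact absurd (mem_range.2 hm) h
  rw [this]
  exact ⟨hm, h1⟩

/-- Horner's scheme for the mixed radix system with the moduli number `i, i + 1, …` -/
def hor (ts : List ℕ) (r : ℕ → ℕ) (i : ℕ) : ℕ → ℕ
  | 0 => 0
  | m + 1 => hor ts r i m * ts.getD (i + m) 0 + r m

theorem hor_lt {ts : List ℕ} {R : ℕ} (h : ∀ l, ts.getD l 0 ≤ R) {r : ℕ → ℕ} (i : ℕ) {m : ℕ}
    (hr : ∀ l < m, r l < R) : hor ts r i m < R ^ m := by
  induction m with
  | zero => simp [hor]
  | succ m ih =>
    rw [hor, pow_succ]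
    exact lt_of_le_of_lt (Nat.add_le_add_right (Nat.mul_le_mul_left _ (h _)) _)
      (mk_lt (ih fun l hl => hr l (by omega)) (hr m (by omega)))

theorem hor_congr (ts : List ℕ) {r r' : ℕ → ℕ} (i : ℕ) {m : ℕ} (hr : ∀ l < m, r l = r' l) :
    hor ts r i m = hor ts r' i m := by
  induction m with
  | zero => rfl
  | succ m ih => rw [hor, hor, ih fun l hl => hr l (by omega), hr m (by omega)]

/-- the digit number `l` of `x` in the mixed radix system -/
def kd (ts : List ℕ) (x l : ℕ) : ℕ := x / dp ts (l + 1) % ts.getD l 0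

theorem hor_kd {ts : List ℕ} (h : ∀ t ∈ ts, 0 < t) (x : ℕ) {i m : ℕ} (him : i + m ≤ ts.length) :
    hor ts (fun l => kd ts x (i + l)) i m = x % dp ts i / dp ts (i + m) := by
  induction m with
  | zero => rw [hor, add_zero, Nat.div_eq_of_lt (Nat.mod_lt _ (dp_pos h _))]
  | succ m ih =>
    have h1 : kd ts x (i + m) = x % dp ts i / dp ts (i + m + 1) % ts.getD (i + m) 0 := by
      have h2 : dp ts (i + m + 1) * ts.getD (i + m) 0 ∣ dp ts i := by
        rw [mul_comm, ← dp_succ (by omega)]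
        exact dp_dvd ts (by omega)
      rw [kd, ← Nat.mod_mul_right_div_self, ← Nat.mod_mul_right_div_self, Nat.mod_mod_of_dvd _ h2]
    rw [hor, ih (by omega), h1, dp_succ (m := i + m) (by omega), mul_comm (ts.getD _ _),
      ← Nat.div_div_eq_div_mul, Nat.div_add_mod', add_assoc]

theorem kd_add {ts : List ℕ} {l : ℕ} (hl : l < ts.length) (u x : ℕ) :
    kd ts (u * ts.prod + x) l = kd ts x l := by
  obtain ⟨c, hc⟩ : dp ts (l + 1) * ts.getD l 0 ∣ ts.prod := by
    rw [mul_comm, ← dp_succ hl]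
    exact dp_dvd ts (Nat.zero_le _)
  rw [kd, kd, ← Nat.mod_mul_right_div_self, ← Nat.mod_mul_right_div_self, hc, mul_comm u,
    mul_assoc, Nat.mul_add_mod]

/-- the multiplier of the rotation of the field `i` -/
def cf (ts : List ℕ) (j i md : ℕ) : ℕ :=
  if md = 0 then inv (ts.getD i 0) (2 ^ j * dp ts (i + 1) % ts.getD i 0)
  else ts.getD i 0 - inv (ts.getD i 0) (2 ^ j * dp ts (i + 1) % ts.getD i 0)

/-- the amount of the rotation of the field `i`; `r` lists the higher digits -/
def off (ts : List ℕ) (j i md top : ℕ) (r : ℕ → ℕ) : ℕ :=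
  cf ts j i md * ((top + hor ts r (i + 1) (ts.length - 1 - i) * 2 ^ j) % ts.getD i 0) %
    ts.getD i 0

/-- the rotation of the field `i` -/
def rmap (ts : List ℕ) (j i md top : ℕ) (r : ℕ → ℕ) : ℕ → ℕ :=
  if r i < ts.getD i 0 then
    Function.update r i ((r i + off ts j i md top fun l => r (i + 1 + l)) % ts.getD i 0)
  else r

theorem resid_lt {ts : List ℕ} {i : ℕ} (h : 0 < ts.getD i 0) (j k : ℕ) :
    resid j ts i k < ts.getD i 0 := by
  have : NeZero (ts.getD i 0) := ⟨h.ne'⟩
  exact ZMod.val_lt _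

theorem resid_eq {K : ℕ} {ts : List ℕ} (hts : TsOK K ts) {i : ℕ} (hi : i < ts.length) (j k : ℕ) :
    (kd ts (k / 2 ^ j) i + off ts j i 0 (k % 2 ^ j) fun l => kd ts (k / 2 ^ j) (i + 1 + l)) %
      ts.getD i 0 = resid j ts i k ∧
    (resid j ts i k + off ts j i 1 (k % 2 ^ j) fun l => kd ts (k / 2 ^ j) (i + 1 + l)) %
      ts.getD i 0 = kd ts (k / 2 ^ j) i := by
  have hpos : ∀ t ∈ ts, 0 < t := fun t ht => by have := (hts.le t ht).1; omega
  have ht4 := (hts.le _ (getD_mem hi)).1
  have hcop : Nat.Coprime (2 ^ j * dp ts (i + 1)) (ts.getD i 0) :=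
    Nat.Coprime.mul_left (Nat.Coprime.pow_left _ (hts.odd _ (getD_mem hi)).symm)
      (coprime_dp hts.cop hi)
  have hh := hor_kd hpos (k / 2 ^ j) (i := i + 1) (m := ts.length - 1 - i) (by omega)
  rw [show i + 1 + (ts.length - 1 - i) = ts.length by omega, dp_length, Nat.div_one] at hh
  have hr : resid j ts i k = ((k : ZMod (ts.getD i 0)) *
      ((2 ^ j * dp ts (i + 1) : ℕ) : ZMod (ts.getD i 0))⁻¹).val := rfl
  have hkd : kd ts (k / 2 ^ j) i = k / 2 ^ j / dp ts (i + 1) % ts.getD i 0 := rfl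
  simp only [off, cf, hh, if_true, one_ne_zero, if_false]
  rw [hr, hkd]
  generalize ts.getD i 0 = t at *
  generalize dp ts (i + 1) = p at *
  have : NeZero t := ⟨by omega⟩
  have hcop' : Nat.Coprime (2 ^ j * p % t) t := by
    rw [Nat.Coprime, ← Nat.gcd_rec, Nat.gcd_comm]; exact hcop
  obtain ⟨h1, h2⟩ := inv_spec (by omega) hcop'
  generalize inv t (2 ^ j * p % t) = c at *
  have h3 : ((2 ^ j * p : ℕ) : ZMod t) * c = 1 := by
    have := congrArg (Nat.cast : ℕ → ZMod t) h2
    rwa [ZMod.natCast_mod, Nat.cast_mul, ZMod.natCast_mod, Nat.cast_one] at this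
  have h4 : ((2 ^ j * p : ℕ) : ZMod t)⁻¹ = c := ZMod.inv_eq_of_mul_eq_one _ _ _ h3
  have h5 : k = k / 2 ^ j / p * (2 ^ j * p) + (k % 2 ^ j + k / 2 ^ j % p * 2 ^ j) := by
    have e1 := Nat.div_add_mod k (2 ^ j)
    have e2 := Nat.div_add_mod (k / 2 ^ j) p
    generalize k / 2 ^ j / p = a at *
    generalize k / 2 ^ j % p = b at *
    rw [← e2] at e1
    rw [← e1]
    simp only [Nat.mul_add_mod, Nat.mod_mod]
    ring
  generalize k % 2 ^ j + k / 2 ^ j % p * 2 ^ j = H at *
  generalize k / 2 ^ j / p = a at *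
  have h6 : (k : ZMod t) * c = a + c * H := by
    rw [h5, Nat.cast_add, Nat.cast_mul a]
    linear_combination (a : ZMod t) * h3
  rw [h4, h6]
  constructor
  · rw [← ZMod.val_natCast]
    congr 1
    simp
  · rw [← ZMod.val_natCast, ← ZMod.val_natCast]
    simp [Nat.cast_sub h1.le]

end Crt

end Crest.Agent.R326
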