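import Crest.Agent.R326.CrtA

/-!
# The layout of the Chinese remainder theorem, part B: padding all fields, reversing the fields
-/

set_option autoImplicit false

namespace Crest.Agent.R326

namespace Crt

open Finset

/-- the address of `κ` after `i` paddings -/
def psi (R : ℕ) (ts : List ℕ) (i κ : ℕ) : ℕ :=
  ad R i (κ / dp ts (ts.length - i)) fun l => kd ts κ (ts.length - 1 - l)

theorem kd_lt {ts : List ℕ} (h : ∀ t ∈ ts, 0 < t) {l : ℕ} (hl : l < ts.length) (κ : ℕ) :
    kd ts κ l < ts.getD l 0 := Nat.mod_lt _ (h _ (getD_mem hl))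

theorem psi_step {R G i m κ : ℕ} {ts : List ℕ} (h : ∀ t ∈ ts, 0 < t ∧ t ≤ R)
    (hd : ts.length = i + 1 + m) (hκ : κ < G * ts.prod) :
    ∃ g < G * pp ts 0 m, ∃ y < ts.getD m 0, ∃ r < R ^ i,
      psi R ts i κ = (g * ts.getD m 0 + y) * R ^ i + r ∧
      psi R ts (i + 1) κ = (g * R + y) * R ^ i + r := by
  have hpos : ∀ t ∈ ts, 0 < t := fun t ht => (h t ht).1
  refine ⟨κ / dp ts m, ?_, kd ts κ m, kd_lt hpos (by omega) _,
    ∑ l ∈ range i, kd ts κ (ts.length - 1 - l) * R ^ l, low_lt fun l hl => ?_, ?_, ?_⟩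
  · rw [Nat.div_lt_iff_lt_mul (dp_pos hpos _), mul_assoc]
    have := pp_mul_dp (ts := ts) (i := 0) (m := m) (by omega)
    rw [zero_add] at this
    rw [this]
    exact hκ
  · exact (kd_lt hpos (by omega) _).trans_le (getD_le (fun t ht => (h t ht).2) _)
  · rw [psi, ad, show ts.length - i = m + 1 by omega, kd, dp_succ (m := m) (by omega),
      mul_comm (ts.getD m 0), ← Nat.div_div_eq_div_mul, Nat.div_add_mod']
  · rw [psi, ad_succ, ad, show ts.length - (i + 1) = m by omega,
      show ts.length - 1 - i = m by omega]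

theorem pp_succ (ts : List ℕ) (m : ℕ) : pp ts 0 (m + 1) = pp ts 0 m * ts.getD m 0 := by
  rw [pp, prod_range_succ, zero_add, ← pp]

theorem pp_pos {ts : List ℕ} (h : ∀ t ∈ ts, 0 < t) {i m : ℕ} (hm : i + m ≤ ts.length) :
    0 < pp ts i m := prod_pos fun l hl => h _ (getD_mem (by have := mem_range.1 hl; omega))

theorem exp_lt {k d G V W : ℕ} (hG : 0 < G) (h : G * (2 ^ k) ^ d ≤ V) (hV : V < 2 ^ W) :
    k * d < W := by
  have h1 : 2 ^ (k * d) < 2 ^ W := by
    rw [pow_mul]
    exact ((Nat.le_mul_of_pos_left _ hG).trans h).trans_lt hV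
  exact (Nat.pow_lt_pow_iff_right (by norm_num)).1 h1

def PadAll : Prop := ∃ (tP tU : Tm) (C : ℕ), ∀ (W : ℕ) (X ts : List ℕ) (k G V : ℕ), 8 ≤ W →
  1 ≤ k → 0 < G → (∀ t ∈ ts, 0 < t ∧ t ≤ 2 ^ k) → G * (2 ^ k) ^ ts.length ≤ V → W + 1 ≤ V →
  V < 2 ^ W →
  (X.length = G * ts.prod →
    Does W tP [X, ts, [k], [ts.length]] (C * ((ts.length + 1) * V)) fun Y =>
      Y.length = G * (2 ^ k) ^ ts.length ∧
      (∀ κ < G * ts.prod, Y.getD (psi (2 ^ k) ts ts.length κ) 0 = X.getD κ 0) ∧
      ∀ top r, (∀ l < ts.length, r l < 2 ^ k) →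
        (∃ l < ts.length, ts.getD (ts.length - 1 - l) 0 ≤ r l) →
        Y.getD (ad (2 ^ k) ts.length top r) 0 = 0) ∧
  (X.length = G * (2 ^ k) ^ ts.length →
    Does W tU [X, ts, [k], [ts.length]] (C * ((ts.length + 1) * V)) fun Y =>
      Y.length = G * ts.prod ∧
      ∀ κ < G * ts.prod, Y.getD κ 0 = X.getD (psi (2 ^ k) ts ts.length κ) 0)

theorem padAll (hP : PadSpec) : PadAll := by
  obtain ⟨tP, tU, C, ht⟩ := hP
  refine ⟨.iter (.var 3) (.var 0) (.lett (.pow2 (.mul (.var 4) (.var 0)))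
      (.lett (.nth (.var 4) (.sub (.sub (.var 6) (.const 1)) (.var 1)))
        (.call tP [.var 3, .div (.len (.var 3)) (.mul (.var 1) (.var 0)), .var 1, .var 0,
          .pow2 (.var 6)]))),
    .iter (.var 3) (.var 0)
      (.lett (.pow2 (.mul (.var 4) (.sub (.sub (.var 5) (.const 1)) (.var 0))))
        (.lett (.pow2 (.var 5))
          (.call tU [.var 3, .div (.len (.var 3)) (.mul (.var 1) (.var 0)), .var 1,
            .nth (.var 5) (.var 2), .var 0]))), 2 * C + 2000, ?_⟩
  intro W X ts k G V hW hk hG hts hV hWV hVW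
  have hpos : ∀ t ∈ ts, 0 < t := fun t ht => (hts t ht).1
  have hle := getD_le fun t ht => (hts t ht).2
  have hkd := exp_lt hG hV hVW
  have hdW : ts.length < W := lt_of_le_of_lt (Nat.le_mul_of_pos_left _ hk) hkd
  have hW2 : W < 2 ^ W := Nat.lt_two_pow_self
  have hlen : ∀ i m, ts.length = i + m → G * pp ts 0 m * (2 ^ k) ^ i ≤ V := by
    intro i m him
    refine le_trans ?_ hV
    rw [him, add_comm, pow_add, mul_assoc]
    exact Nat.mul_le_mul_left _ (Nat.mul_le_mul_right _ (pp_le hle _ _))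
  have r1 : (W : ℝ) + 1 ≤ V := by exact_mod_cast hWV
  have r2 : (ts.length : ℝ) ≤ W := by exact_mod_cast hdW.le
  have r3 : (8 : ℝ) ≤ W := by exact_mod_cast hW
  have r4 : (0 : ℝ) ≤ ts.length := by positivity
  have r5 : (0 : ℝ) ≤ C := by positivity
  have cost : ∀ x : ℝ, x ≤ V → 2 + (x + 1) + ts.length * ((2 * C + 1900) * V + 2 * V + 22) +
      4 * V + 13 ≤ ((2 * C + 2000 : ℕ) : ℝ) * ((ts.length + 1) * V) := by
    intro x hx
    have h1 : (0 : ℝ) ≤ ts.length * (V - 1) := mul_nonneg r4 (by linarith)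
    have h2 : (0 : ℝ) ≤ C * V := mul_nonneg r5 (by linarith)
    push_cast
    nlinarith
  constructor
  · intro hX fn env
    obtain ⟨Y, hY, hp⟩ := Pv.iterInv (W := W) (fn := fn)
      (e := X :: ts :: [k] :: [ts.length] :: env) (n := .var 3) (init := .var 0)
      (body := .lett (.pow2 (.mul (.var 4) (.var 0)))
        (.lett (.nth (.var 4) (.sub (.sub (.var 6) (.const 1)) (.var 1)))
          (.call tP [.var 3, .div (.len (.var 3)) (.mul (.var 1) (.var 0)), .var 1, .var 0,
            .pow2 (.var 6)])))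
      (fun i Z => Z.length = G * pp ts 0 (ts.length - i) * (2 ^ k) ^ i ∧
        (∀ κ < G * ts.prod, Z.getD (psi (2 ^ k) ts i κ) 0 = X.getD κ 0) ∧
        ∀ top r, (∀ l < i, r l < 2 ^ k) → (∃ l < i, ts.getD (ts.length - 1 - l) 0 ≤ r l) →
          Z.getD (ad (2 ^ k) i top r) 0 = 0)
      (c := (2 * C + 1900) * V) (L := V) (Pv.varS rfl) (Pv.var rfl)
      ⟨by rw [Nat.sub_zero, pp_eq_dp (zero_add _), dp_zero, hX, pow_zero, mul_one],
        fun κ _ => by simp [psi, ad, dp_length], fun top r _ ⟨l, hl, _⟩ => by omega⟩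
      (fun i hi Z ⟨hZ, hZ1, hZ2⟩ => by
        obtain ⟨m, hm⟩ : ∃ m, ts.length = i + 1 + m := ⟨ts.length - 1 - i, by omega⟩
        have e1 : ts.length - 1 - i = m := by omega
        have ht0 : 0 < ts.getD m 0 := hpos _ (getD_mem (by omega))
        have hG' : 0 < G * pp ts 0 m := Nat.mul_pos hG (pp_pos hpos (by omega))
        have hZ' : Z.length = G * pp ts 0 m * ((2 ^ k) ^ i * ts.getD m 0) := by
          rw [hZ, show ts.length - i = m + 1 by omega, pp_succ]; ring
        have b1 : G * pp ts 0 m * ((2 ^ k) ^ i * 2 ^ k) ≤ V := by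
          rw [← pow_succ]; exact hlen _ _ hm
        have b2 : Z.length ≤ V := by
          rw [hZ]; exact hlen _ _ (by omega)
        have b3 : (2 ^ k) ^ i * ts.getD m 0 ≤ Z.length := by
          rw [hZ']; exact Nat.le_mul_of_pos_left _ hG'
        have b4 : k * i + k ≤ k * ts.length := by rw [← Nat.mul_succ]; exact Nat.mul_le_mul_left _ hi
        obtain ⟨Z', ⟨hl, hZ3⟩, hp⟩ := (ht W Z (G * pp ts 0 m) ((2 ^ k) ^ i) (ts.getD m 0) (2 ^ k) hW
          hG' (by positivity) ht0 (hle _) (b1.trans_lt hVW)).1 hZ' fn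
          ([ts.getD m 0] :: [(2 ^ k) ^ i] :: [i] :: Z :: X :: ts :: [k] :: [ts.length] :: env)
        refine ⟨Z', ⟨?_, fun κ hκ => ?_, fun top r hr ⟨l, hl1, hl2⟩ => ?_⟩, ?_⟩
        · rw [hl, show ts.length - (i + 1) = m by omega, pow_succ]
        · obtain ⟨g, hg, y, hy, r, hr, e2, e3⟩ := psi_step hts hm hκ
          rw [e3, hZ3 g hg y (hy.trans_le (hle _)) r hr, if_pos hy, ← e2, hZ1 κ hκ]
        · by_cases htop : top < G * pp ts 0 m
          · rw [ad_succ, ad, hZ3 top htop (r i) (hr i (by omega)) _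
              (low_lt fun l hl => hr l (by omega))]
            split_ifs with h1
            · refine hZ2 _ r (fun l hl => hr l (by omega)) ⟨l, ?_, hl2⟩
              by_contra h2
              obtain rfl : l = i := by omega
              rw [e1] at hl2
              omega
            · rfl
          · refine List.getD_eq_default _ _ ?_
            rw [hl, ← pow_succ]
            exact le_ad _ (by omega)
        · apply Pv.cast
          · apply Pv.lett ((Pv.pow2 (Pv.mul hW (Pv.varS rfl) (Pv.varS rfl) (by omega))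
              (by omega)).cast (by rw [pow_mul]) le_rfl)
            apply Pv.lett ((Pv.nth (Pv.var rfl) (Pv.sub (Pv.sub (Pv.varS rfl)
              (Pv.constS hW (by norm_num))) (Pv.varS rfl))).cast (by rw [e1]) le_rfl)
            apply Pv.call (hf := hp)
            apply Pvs.cons (Pv.var rfl)
            apply Pvs.cons ((Pv.div hW (Pv.len (Pv.var rfl) (by omega))
              (Pv.mul hW (Pv.varS rfl) (Pv.varS rfl) (by omega)) (by positivity)).cast
                (by rw [hZ', Nat.mul_div_cancel _ (by positivity)]) le_rfl)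
            pv
            omega
          · rfl
          · have s1 : (Z.length : ℝ) ≤ V := by exact_mod_cast b2
            have s2 : (Z'.length : ℝ) ≤ V := by rw [hl]; exact_mod_cast b1
            have s3 : ((G * pp ts 0 m : ℕ) : ℝ) * (((2 ^ k) ^ i : ℕ) * (2 ^ k : ℕ)) ≤ V := by
              exact_mod_cast b1
            have s4 : ((ts.length - 1 - i : ℕ) : ℝ) ≤ W := by exact_mod_cast (by omega)
            have s5 := mul_le_mul_of_nonneg_left (add_le_add s3 r1) r5
            simp only [List.length_cons, List.length_nil]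
            generalize ((G * pp ts 0 m : ℕ) : ℝ) * (((2 ^ k) ^ i : ℕ) * (2 ^ k : ℕ)) = u at *
            generalize ((ts.length - 1 - i : ℕ) : ℝ) = u' at *
            push_cast
            linarith)
      (fun i hi Z hZ => by
        have := hlen i (ts.length - i) (by omega)
        rw [← hZ.1] at this
        exact_mod_cast this)
    refine ⟨Y, ⟨by simpa [pp] using hY.1, hY.2⟩, hp.mono (cost _ ?_)⟩
    have := hlen 0 ts.length (by omega)
    rw [pp_eq_dp (zero_add _), dp_zero, pow_zero, mul_one, ← hX] at this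
    exact_mod_cast this
  · intro hX fn env
    obtain ⟨Y, hY, hp⟩ := Pv.iterInv (W := W) (fn := fn)
      (e := X :: ts :: [k] :: [ts.length] :: env) (n := .var 3) (init := .var 0)
      (body := .lett (.pow2 (.mul (.var 4) (.sub (.sub (.var 5) (.const 1)) (.var 0))))
        (.lett (.pow2 (.var 5))
          (.call tU [.var 3, .div (.len (.var 3)) (.mul (.var 1) (.var 0)), .var 1,
            .nth (.var 5) (.var 2), .var 0])))
      (fun m Z => Z.length = G * pp ts 0 m * (2 ^ k) ^ (ts.length - m) ∧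
        ∀ κ < G * ts.prod, Z.getD (psi (2 ^ k) ts (ts.length - m) κ) 0 =
          X.getD (psi (2 ^ k) ts ts.length κ) 0)
      (c := (2 * C + 1900) * V) (L := V) (Pv.varS rfl) (Pv.var rfl)
      ⟨by simpa [pp] using hX, fun κ _ => rfl⟩
      (fun m hm Z ⟨hZ, hZ1⟩ => by
        obtain ⟨i, hi⟩ : ∃ i, ts.length = i + 1 + m := ⟨ts.length - 1 - m, by omega⟩
        have e1 : ts.length - 1 - m = i := by omega
        have ht0 : 0 < ts.getD m 0 := hpos _ (getD_mem (by omega))
        have hG' : 0 < G * pp ts 0 m := Nat.mul_pos hG (pp_pos hpos (by omega))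
        have hZ' : Z.length = G * pp ts 0 m * ((2 ^ k) ^ i * 2 ^ k) := by
          rw [hZ, show ts.length - m = i + 1 by omega, pow_succ]
        have b1 : G * pp ts 0 m * ((2 ^ k) ^ i * 2 ^ k) ≤ V := by
          rw [← pow_succ]; exact hlen _ _ hi
        have b3 : (2 ^ k) ^ i * 2 ^ k ≤ Z.length := by
          rw [hZ']; exact Nat.le_mul_of_pos_left _ hG'
        have b4 : k * i + k ≤ k * ts.length := by
          rw [← Nat.mul_succ]; exact Nat.mul_le_mul_left _ (by omega)
        obtain ⟨Z', ⟨hl, hZ3⟩, hp⟩ := (ht W Z (G * pp ts 0 m) ((2 ^ k) ^ i) (ts.getD m 0) (2 ^ k) hW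
          hG' (by positivity) ht0 (hle _) (b1.trans_lt hVW)).2 hZ' fn
          ([2 ^ k] :: [(2 ^ k) ^ i] :: [m] :: Z :: X :: ts :: [k] :: [ts.length] :: env)
        have hl' : Z'.length = G * pp ts 0 (m + 1) * (2 ^ k) ^ i := by rw [hl, pp_succ]; ring
        refine ⟨Z', ⟨?_, fun κ hκ => ?_⟩, ?_⟩
        · rw [hl', show ts.length - (m + 1) = i by omega]
        · obtain ⟨g, hg, y, hy, r, hr, e2, e3⟩ := psi_step hts hi hκ
          rw [show ts.length - (m + 1) = i by omega, e2, hZ3 g hg y hy r hr, ← e3, ← hZ1 κ hκ,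
            show ts.length - m = i + 1 by omega]
        · apply Pv.cast
          · apply Pv.lett ((Pv.pow2 (Pv.mul hW (Pv.varS rfl) (Pv.sub (Pv.sub (Pv.varS rfl)
              (Pv.constS hW (by norm_num))) (Pv.varS rfl)) (by rw [e1]; omega))
              (by rw [e1]; omega)).cast (by rw [e1, pow_mul]) le_rfl)
            apply Pv.lett (Pv.pow2 (Pv.varS rfl) (by omega))
            apply Pv.call (hf := hp)
            apply Pvs.cons (Pv.var rfl)
            apply Pvs.cons ((Pv.div hW (Pv.len (Pv.var rfl) (by omega))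
              (Pv.mul hW (Pv.varS rfl) (Pv.varS rfl) (by omega)) (by positivity)).cast
                (by rw [hZ', Nat.mul_div_cancel _ (by positivity)]) le_rfl)
            pv
          · rfl
          · have s1 : (Z.length : ℝ) ≤ V := by rw [hZ']; exact_mod_cast b1
            have s2 : (Z'.length : ℝ) ≤ V := by
              rw [hl']; exact_mod_cast hlen i (m + 1) (by omega)
            have s3 : ((G * pp ts 0 m : ℕ) : ℝ) * (((2 ^ k) ^ i : ℕ) * (2 ^ k : ℕ)) ≤ V := by
              exact_mod_cast b1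
            have s4 : (m : ℝ) ≤ W := by exact_mod_cast (by omega)
            have s5 := mul_le_mul_of_nonneg_left (add_le_add s3 r1) r5
            simp only [List.length_cons, List.length_nil]
            generalize ((G * pp ts 0 m : ℕ) : ℝ) * (((2 ^ k) ^ i : ℕ) * (2 ^ k : ℕ)) = u at *
            push_cast
            linarith)
      (fun i hi Z hZ => by
        have := hlen (ts.length - i) i (by omega)
        rw [← hZ.1] at this
        exact_mod_cast this)
    refine ⟨Y, ⟨?_, fun κ hκ => ?_⟩, hp.mono (cost _ ?_)⟩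
    · rw [hY.1, pp_eq_dp (zero_add _), dp_zero, Nat.sub_self, pow_zero, mul_one]
    · rw [← hY.2 κ hκ]
      simp [psi, ad, dp_length]
    · rw [hX]; exact_mod_cast hV

/-! ### reversal of the order of the fields -/

def RevAll : Prop := ∃ (t : Tm) (C c0 : ℕ), ∀ (W : ℕ) (X : List ℕ) (k d T : ℕ), 8 ≤ W →
  1 ≤ k → X.length = T * (2 ^ k) ^ d → (W + 1) ^ c0 ≤ T → W + 1 ≤ T → C * X.length < 2 ^ W →
  Does W t [X, [k], [d]] (C * ((d + 1) * (X.length * ((k : ℝ) + 2) ^ tauE))) fun Y =>
    Y.length = X.length ∧ ∀ top < T, ∀ r, (∀ l < d, r l < 2 ^ k) →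
      Y.getD (ad (2 ^ k) d top r) 0 = X.getD (ad (2 ^ k) d top fun l => r (d - 1 - l)) 0

theorem tauE_pos : 0 < tauE := by
  unfold tauE
  norm_num

theorem revAll (hS : SwapSpec) : RevAll := by
  obtain ⟨t, C, c0, ht⟩ := hS
  refine ⟨.iter (.shr (.var 2) (.const 1)) (.var 0)
    (.call t [.var 1, .pow2 (.mul (.var 3) (.sub (.sub (.var 4) (.const 1)) (.var 0))),
      .pow2 (.mul (.var 3) (.var 0)), .pow2 (.var 3)]), C + 1000, c0, ?_⟩
  intro W X k d T hW hk hX hT hWT hC fn env
  have hT0 : 0 < T := by omega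
  have hV0 : 0 < X.length := by rw [hX]; positivity
  have hVW : X.length < 2 ^ W := lt_of_le_of_lt (Nat.le_mul_of_pos_left _ (by omega)) hC
  have hkd := exp_lt hT0 hX.ge hVW
  have hW2 : W < 2 ^ W := Nat.lt_two_pow_self
  have hWV : W + 1 ≤ X.length := by
    rw [hX]; exact hWT.trans (Nat.le_mul_of_pos_right _ (by positivity))
  have r1 : (W : ℝ) + 1 ≤ X.length := by exact_mod_cast hWV
  have r3 : (8 : ℝ) ≤ W := by exact_mod_cast hW
  have r5 : (0 : ℝ) ≤ C := by positivity
  have r6 : (1 : ℝ) ≤ ((k : ℝ) + 2) ^ tauE :=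
    Real.one_le_rpow (by linarith [Nat.cast_nonneg (α := ℝ) k]) tauE_pos.le
  have r7 : (X.length : ℝ) ≤ X.length * ((k : ℝ) + 2) ^ tauE :=
    le_mul_of_one_le_right (by positivity) r6
  obtain ⟨Y, hY, hp⟩ := Pv.iterInv (W := W) (fn := fn)
    (e := X :: [k] :: [d] :: env) (n := .shr (.var 2) (.const 1)) (init := .var 0)
    (body := .call t [.var 1, .pow2 (.mul (.var 3) (.sub (.sub (.var 4) (.const 1)) (.var 0))),
      .pow2 (.mul (.var 3) (.var 0)), .pow2 (.var 3)])
    (fun i Z => Z.length = X.length ∧ ∀ top < T, ∀ r, (∀ l < d, r l < 2 ^ k) →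
      Z.getD (ad (2 ^ k) d top r) 0 =
        X.getD (ad (2 ^ k) d top fun l => r (if l < i ∨ d - i ≤ l then d - 1 - l else l)) 0)
    (c := (C + 800) * (X.length * ((k : ℝ) + 2) ^ tauE)) (L := X.length)
    (Pv.shr (Pv.varS rfl) (Pv.constS hW (by norm_num)) (by omega)) (Pv.var rfl)
    ⟨rfl, fun top _ r _ => by
      congr 1
      exact ad_congr fun l hl => by rw [if_neg (by omega)]⟩
    (fun i hi Z ⟨hZ, hZ1⟩ => by
      rw [pow_one] at hi
      have b4 : k * (d - 1 - i) + k ≤ k * d := by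
        rw [← Nat.mul_succ]; exact Nat.mul_le_mul_left _ (by omega)
      have b5 : k * i ≤ k * d := Nat.mul_le_mul_left _ (by omega)
      have b6 : (2 ^ k) ^ (d - 1 - i) * 2 ^ k ∣ (2 ^ k) ^ d := by
        rw [← pow_succ]; exact pow_dvd_pow _ (by omega)
      obtain ⟨Z', ⟨hl, hZ3⟩, hp⟩ := ht W Z ((2 ^ k) ^ (d - 1 - i)) ((2 ^ k) ^ i) (2 ^ k) hW
        (by rw [← pow_succ]; exact pow_dvd_pow _ (by omega))
        (by rw [hZ, hX]; exact b6.mul_left _) (hZ ▸ hV0)
        (by rw [hZ, hX, mul_comm T]; exact Nat.mul_le_mul (Nat.le_of_dvd (by positivity) b6) hT)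
        (by rw [hZ]; exact lt_of_le_of_lt (Nat.mul_le_mul_right _ (by omega)) hC) fn
        ([i] :: Z :: X :: [k] :: [d] :: env)
      refine ⟨Z', ⟨hl.trans hZ, fun top htop r hr => ?_⟩, ?_⟩
      · rw [hZ3 _ (by rw [hZ, hX]; exact ad_lt hr htop), swapDig_ad (by omega) (by omega) hr,
          hZ1 top htop _ (update_lt (update_lt hr (hr _ (by omega))) (hr _ (by omega)))]
        congr 1
        refine ad_congr fun l hl => ?_
        simp only [Function.update_apply]
        split_ifs <;> first | rfl | (congr 1; omega)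
      · apply Pv.cast
        · apply Pv.call (hf := hp)
          apply Pvs.cons (Pv.var rfl)
          apply Pvs.cons ((Pv.pow2 (Pv.mul hW (Pv.varS rfl) (Pv.sub (Pv.sub (Pv.varS rfl)
            (Pv.constS hW (by norm_num))) (Pv.varS rfl)) (by omega))
            (by omega)).cast (by rw [pow_mul]) le_rfl)
          apply Pvs.cons ((Pv.pow2 (Pv.mul hW (Pv.varS rfl) (Pv.varS rfl) (by omega))
            (by omega)).cast (by rw [pow_mul]) le_rfl)
          pv
          omega
        · rfl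
        · have e : (((2 ^ k).size : ℕ) : ℝ) + 1 = k + 2 := by
            rw [Nat.size_pow]; push_cast; ring
          simp only [List.length_cons, List.length_nil, hl, hZ, e]
          push_cast
          linarith)
    (fun i hi Z hZ => by rw [hZ.1])
  refine ⟨Y, ⟨hY.1, fun top htop r hr => ?_⟩, hp.mono ?_⟩
  · rw [hY.2 top htop r hr]
    congr 1
    refine ad_congr fun l hl => ?_
    rw [pow_one]
    split_ifs
    · rfl
    · congr 1; omega
  · have s1 : ((d / 2 ^ 1 : ℕ) : ℝ) ≤ d := by exact_mod_cast Nat.div_le_self _ _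
    have s0 : (0 : ℝ) ≤ (d / 2 ^ 1 : ℕ) := by positivity
    generalize ((d / 2 ^ 1 : ℕ) : ℝ) = u at *
    generalize (X.length : ℝ) * ((k : ℝ) + 2) ^ tauE = v at *
    have s2 : u * ((C + 800) * v + 2 * X.length + 22) ≤ d * ((C + 1000) * v) :=
      mul_le_mul s1 (by linarith) (by nlinarith) (by positivity)
    have s3 : (0 : ℝ) ≤ C * v := mul_nonneg r5 (by linarith)
    push_cast
    linarith

end Crt

end Crest.Agent.R326
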