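import Crest.Agent.R326.CrtB

/-!
# The layout of the Chinese remainder theorem, part C: rotation of one field
-/

set_option autoImplicit false

namespace Crest.Agent.R326

namespace Crt

open Finset

/-- one entry of the table of rotations -/
def tEnt : Tm := .mod (.mul (.var 2) (.mod (.add (.shr (.var 0) (.mul (.var 9) (.var 5)))
  (.shl (.iter (.var 5) (.const 0)
    (.add (.mul (.var 1) (.nth (.var 10) (.add (.add (.var 14) (.const 1)) (.var 0))))
      (.bits (.var 2) (.mul (.var 11) (.var 0)) (.var 11)))) (.var 11))) (.var 6))) (.var 6)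

theorem pv_ent {W : ℕ} {fn : Option Tm} {g c m t k j i : ℕ} {a1 a3 a4 a7 a10 ts : List ℕ}
    {env : Env} (hW : 8 ≤ W) (hle : ∀ l, ts.getD l 0 ≤ 2 ^ k) (ht0 : 0 < t) (hk : 1 ≤ k)
    (hd : ts.length = i + 1 + m) (hkd : k * ts.length + j < W) (hc : c * t < 2 ^ W)
    (hg : g + 2 ^ j * (2 ^ k) ^ m < 2 ^ W) :
    Pv W fn ([g] :: a1 :: [c] :: a3 :: a4 :: [m] :: [t] :: a7 :: ts :: [k] :: a10 :: [j] :: [i] ::
      env) tEnt
      [c * ((g / 2 ^ (k * m) + hor ts (fun l => g / 2 ^ (k * l) % 2 ^ k) (i + 1) m * 2 ^ j) % t) % t]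
      (1200 * ((W : ℝ) + 1) ^ 2) := by
  have hW2 : W < 2 ^ W := Nat.lt_two_pow_self
  have hdW : ts.length < W := lt_of_le_of_lt (Nat.le_mul_of_pos_left _ hk) (by omega)
  have hkW : k < W := lt_of_le_of_lt (Nat.le_mul_of_pos_right _ (by omega)) (by omega : k * ts.length < W)
  have hkm : ∀ l ≤ m, k * l < W := fun l hl =>
    lt_of_le_of_lt (Nat.mul_le_mul_left _ (by omega)) (by omega : k * ts.length < W)
  have hh : ∀ l ≤ m, hor ts (fun l => g / 2 ^ (k * l) % 2 ^ k) (i + 1) l < (2 ^ k) ^ m :=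
    fun l hl => (hor_lt hle _ fun l _ => Nat.mod_lt _ (by positivity)).trans_le
      (Nat.pow_le_pow_right (by positivity) hl)
  have b1 : (2 ^ k) ^ m ≤ 2 ^ j * (2 ^ k) ^ m := Nat.le_mul_of_pos_left _ (by positivity)
  have r2 : (ts.length : ℝ) ≤ W := by exact_mod_cast hdW.le
  have r3 : (8 : ℝ) ≤ W := by exact_mod_cast hW
  have h1 : Pv W fn ([g] :: a1 :: [c] :: a3 :: a4 :: [m] :: [t] :: a7 :: ts :: [k] :: a10 :: [j] ::
      [i] :: env) (.iter (.var 5) (.const 0)
      (.add (.mul (.var 1) (.nth (.var 10) (.add (.add (.var 14) (.const 1)) (.var 0))))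
        (.bits (.var 2) (.mul (.var 11) (.var 0)) (.var 11))))
      [hor ts (fun l => g / 2 ^ (k * l) % 2 ^ k) (i + 1) m] _ :=
    Pv.iter (fun l => [hor ts (fun l => g / 2 ^ (k * l) % 2 ^ k) (i + 1) l]) (L := 1)
      (c := 730 * (W + 1)) (Pv.varS rfl) (Pv.constS hW (by norm_num)) (fun l hl => by
        have h2 := hh (l + 1) hl
        have h3 := hkm l hl.le
        rw [hor] at h2
        apply Pv.cast
        · pv <;> omega
        · rfl
        · have s1 : ((i + 1 + l : ℕ) : ℝ) ≤ W := by exact_mod_cast (by omega)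
          generalize ((i + 1 + l : ℕ) : ℝ) = u at *
          linarith) (by simp)
  have h4 := hh m le_rfl
  have h5 := hkm m le_rfl
  have h6 : hor ts (fun l => g / 2 ^ (k * l) % 2 ^ k) (i + 1) m * 2 ^ j ≤ 2 ^ j * (2 ^ k) ^ m := by
    rw [mul_comm]; exact Nat.mul_le_mul_left _ h4.le
  have h7 := Nat.div_le_self g (2 ^ (k * m))
  have h8 : ∀ x, c * (x % t) < 2 ^ W := fun x =>
    lt_of_le_of_lt (Nat.mul_le_mul_left _ (Nat.mod_lt _ ht0).le) hc
  refine (Pv.mod hW (Pv.mul hW (Pv.varS rfl) (Pv.mod hW (Pv.add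
    (Pv.shr (Pv.varS rfl) (Pv.mul hW (Pv.varS rfl) (Pv.varS rfl) (by omega)) (by omega))
    (Pv.shl h1 (Pv.varS rfl) (by omega) (by omega)) (by omega)) (Pv.varS rfl) ht0) (h8 _))
    (Pv.varS rfl) ht0).mono ?_
  have s1 : (m : ℝ) ≤ W := by exact_mod_cast (by omega)
  have s2 : (m : ℝ) * (730 * (W + 1) + 2 * 1 + 22) ≤ W * (740 * (W + 1)) :=
    mul_le_mul s1 (by linarith) (by positivity) (by positivity)
  nlinarith

def RotStep : Prop := ∃ (t : Tm) (C : ℕ), ∀ (W : ℕ) (X ts : List ℕ) (k j i md : ℕ), 8 ≤ W →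
  TsOK (k + 1) ts → i < ts.length → k ≤ j → X.length = 2 ^ (j + 2) * (2 ^ k) ^ ts.length →
  (W + 1) ^ 2 ≤ 2 ^ k → 2 * X.length < 2 ^ W →
  Does W t [X, ts, [k], [ts.length], [j], [i], [md]] (C * X.length) fun Y =>
    Y.length = X.length ∧ ∀ top < 2 ^ (j + 2), ∀ r, (∀ l < ts.length, r l < 2 ^ k) →
      Y.getD (ad (2 ^ k) ts.length top r) 0 =
        X.getD (ad (2 ^ k) ts.length top (rmap ts j i md top r)) 0

theorem rotStep (hR : RotSpec) : RotStep := by
  obtain ⟨tR, C, ht⟩ := hR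
  refine ⟨.lett (.nth (.var 1) (.var 5)) (.lett (.sub (.sub (.var 4) (.const 1)) (.var 6))
    (.lett (.mod (.iter (.var 0) (.pow2 (.var 6))
        (.mul (.var 1) (.nth (.var 5) (.add (.add (.var 9) (.const 1)) (.var 0))))) (.var 1))
      (.lett (.sum (.var 2)
          (.cndEq (.mod (.mul (.var 2) (.var 0)) (.var 4)) (.const 1) (.var 0) (.const 0)))
        (.lett (.cndEq (.var 10) (.const 0) (.var 0) (.sub (.var 3) (.var 0)))
          (.lett (.pow2 (.add (.add (.var 9) (.const 2)) (.mul (.var 7) (.var 3))))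
            (.call tR [.var 6, .tab (.var 0) tEnt, .var 0, .pow2 (.mul (.var 8) (.var 11)),
              .pow2 (.var 8), .var 5])))))), 2 * C + 5000, ?_⟩
  intro W X ts k j i md hW hts hi hkj hX hWk hXW fn env
  obtain ⟨m, hm⟩ : ∃ m, ts.length = i + 1 + m := ⟨ts.length - 1 - i, by omega⟩
  have e1 : ts.length - 1 - i = m := by omega
  have hle : ∀ l, ts.getD l 0 ≤ 2 ^ k := getD_le fun t ht => (hts.le t ht).2
  have ht4 : 4 ≤ ts.getD i 0 := (hts.le _ (getD_mem hi)).1
  have htk := hle i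
  have hk : 1 ≤ k := Nat.pos_of_ne_zero (by rintro rfl; omega)
  have hW2 : W < 2 ^ W := Nat.lt_two_pow_self
  have hkd : k * ts.length + j + 2 < W := by
    have h1 : 2 ^ (k * ts.length + j + 2) < 2 ^ W := by
      rw [add_assoc, pow_add, pow_mul, mul_comm, ← hX]; omega
    exact (Nat.pow_lt_pow_iff_right (by norm_num)).1 h1
  have hdW : ts.length < W := lt_of_le_of_lt (Nat.le_mul_of_pos_left _ hk) (by omega)
  have hkm : k * m + k * i + k = k * ts.length := by rw [hm]; ring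
  have hcop : Nat.Coprime (2 ^ j * dp ts (i + 1) % ts.getD i 0) (ts.getD i 0) := by
    rw [Nat.Coprime, ← Nat.gcd_rec, Nat.gcd_comm]
    exact Nat.Coprime.mul_left (Nat.Coprime.pow_left _ (hts.odd _ (getD_mem hi)).symm)
      (coprime_dp hts.cop hi)
  have hinv := (inv_spec (by omega) hcop).1
  have hcf : cf ts j i md ≤ ts.getD i 0 := by
    unfold cf; split_ifs <;> omega
  obtain ⟨G, hG⟩ : ∃ G, G = 2 ^ (j + 2) * (2 ^ k) ^ m := ⟨_, rfl⟩
  have hG0 : 0 < G := by rw [hG]; positivity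
  have hX' : X.length = G * ((2 ^ k) ^ i * 2 ^ k) := by rw [hX, hG, hm]; ring
  have b1 : G * 2 ^ k ≤ X.length := by
    rw [hX']; exact Nat.mul_le_mul_left _ (Nat.le_mul_of_pos_left _ (by positivity))
  have b2 : G ≤ X.length := (Nat.le_mul_of_pos_right _ (by positivity)).trans b1
  have b3 : 2 ^ j * (2 ^ k) ^ m ≤ G := by
    rw [hG]; exact Nat.mul_le_mul_right _ (Nat.pow_le_pow_right (by norm_num) (by omega))
  have b4 : 2 ^ k ≤ G :=
    (Nat.pow_le_pow_right (by norm_num) hkj).trans ((Nat.le_mul_of_pos_right _ (by positivity)).trans b3)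
  have b5 : 2 ^ k * 2 ^ k ≤ X.length := (Nat.mul_le_mul_right _ b4).trans b1
  have b6 : ∀ x y, x ≤ ts.getD i 0 → y ≤ ts.getD i 0 → x * y < 2 ^ W := fun x y hx hy =>
    lt_of_le_of_lt ((Nat.mul_le_mul (hx.trans htk) (hy.trans htk)).trans b5) (by omega)
  obtain ⟨T, hT⟩ : ∃ T, T = (List.range G).map fun g =>
      off ts j i md (g / 2 ^ (k * m)) fun l => g / 2 ^ (k * l) % 2 ^ k := ⟨_, rfl⟩
  have hTl : T.length = G := by rw [hT, List.length_map, List.length_range]
  obtain ⟨Y, ⟨hl, hY⟩, hp⟩ := ht W X T G ((2 ^ k) ^ i) (2 ^ k) (ts.getD i 0) hW hX' (by omega) hG0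
    (by positivity) (by positivity) htk hTl (by
      intro x hx
      rw [hT, List.mem_map] at hx
      obtain ⟨g, -, rfl⟩ := hx
      exact (Nat.mod_lt _ (by omega)).le) fn
    ([G] :: [cf ts j i md] :: [inv (ts.getD i 0) (2 ^ j * dp ts (i + 1) % ts.getD i 0)] ::
      [2 ^ j * dp ts (i + 1) % ts.getD i 0] :: [m] :: [ts.getD i 0] :: X :: ts :: [k] ::
      [ts.length] :: [j] :: [i] :: [md] :: env)
  refine ⟨Y, ⟨hl, fun top htop r hr => ?_⟩, ?_⟩
  · have hr' : ∀ l < m, r (i + 1 + l) < 2 ^ k := fun l hl => hr _ (by omega)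
    rw [hY _ (by rw [hX]; exact ad_lt hr htop), rotA, dig_ad hi hr, div_ad' hi hr, e1, rmap]
    split_ifs with h1
    · rw [setDig_ad hi hr, hT, getD_map_range _ (by rw [hG]; exact ad_lt hr' htop), pow_mul,
        div_ad hr']
      congr 4
      unfold off
      rw [e1, hor_congr (r' := fun l => r (i + 1 + l))]
      intro l hl
      rw [pow_mul]
      exact dig_ad hl hr' top
    · rfl
  · have r1 : ((W : ℝ) + 1) ^ 2 ≤ (2 ^ k : ℕ) := by exact_mod_cast hWk
    have r2 : (ts.length : ℝ) ≤ W := by exact_mod_cast hdW.le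
    have r3 : (8 : ℝ) ≤ W := by exact_mod_cast hW
    have h1 : Pv W fn ([m] :: [ts.getD i 0] :: X :: ts :: [k] :: [ts.length] :: [j] :: [i] ::
        [md] :: env) (.iter (.var 0) (.pow2 (.var 6))
        (.mul (.var 1) (.nth (.var 5) (.add (.add (.var 9) (.const 1)) (.var 0)))))
        [2 ^ j * dp ts (i + 1)] _ :=
      (Pv.iter (fun l => [2 ^ j * pp ts (i + 1) l]) (L := 1) (c := 400 * (W + 1)) (Pv.varS rfl)
        ((Pv.pow2 (Pv.varS rfl) (by omega)).cast (by simp [pp]) le_rfl) (fun l hl => by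
          have h2 : 2 ^ j * pp ts (i + 1) l * ts.getD (i + 1 + l) 0 =
              2 ^ j * pp ts (i + 1) (l + 1) := by
            rw [pp, pp, prod_range_succ, mul_assoc]
          have h3 : 2 ^ j * pp ts (i + 1) (l + 1) ≤ 2 ^ j * (2 ^ k) ^ m :=
            Nat.mul_le_mul_left _ ((pp_le hle _ _).trans (Nat.pow_le_pow_right (by positivity) hl))
          apply Pv.cast
          · pv <;> omega
          · rw [h2]
          · have s1 : ((i + 1 + l : ℕ) : ℝ) ≤ W := by exact_mod_cast (by omega)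
            generalize ((i + 1 + l : ℕ) : ℝ) = u at *
            linarith) (by simp)).cast (by rw [pp_eq_dp hm.symm]) le_rfl
    have h2 : Pv W fn ([2 ^ j * dp ts (i + 1) % ts.getD i 0] :: [m] :: [ts.getD i 0] :: X :: ts ::
        [k] :: [ts.length] :: [j] :: [i] :: [md] :: env) (.sum (.var 2)
          (.cndEq (.mod (.mul (.var 2) (.var 0)) (.var 4)) (.const 1) (.var 0) (.const 0)))
        [inv (ts.getD i 0) (2 ^ j * dp ts (i + 1) % ts.getD i 0)] _ :=
      Pv.sum (c := 1060 * (W + 1)) (Pv.varS rfl) (fun o ho s => by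
        have h3 := b6 _ _ (Nat.mod_lt (2 ^ j * dp ts (i + 1)) (by omega)).le ho.le
        apply Pv.cast
        · pv <;> omega
        · rfl
        · simp only [max_self]
          linarith) (hinv.trans_le (htk.trans (by omega)))
    have h3 : ∀ g < G, Pv W fn ([g] :: [G] :: [cf ts j i md] ::
        [inv (ts.getD i 0) (2 ^ j * dp ts (i + 1) % ts.getD i 0)] ::
        [2 ^ j * dp ts (i + 1) % ts.getD i 0] :: [m] :: [ts.getD i 0] :: X :: ts :: [k] ::
        [ts.length] :: [j] :: [i] :: [md] :: env) tEnt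
        [off ts j i md (g / 2 ^ (k * m)) fun l => g / 2 ^ (k * l) % 2 ^ k]
        (1200 * ((W : ℝ) + 1) ^ 2) := fun g hg => by
      unfold off
      rw [e1]
      exact pv_ent hW hle (by omega) hk hm (by omega) (b6 _ _ hcf le_rfl) (by omega)
    apply Pv.cast
    · simp only [List.cons_append, List.nil_append]
      apply Pv.lett (Pv.nth (Pv.var rfl) (Pv.varS rfl))
      apply Pv.lett ((Pv.sub (Pv.sub (Pv.varS rfl) (Pv.constS hW (by norm_num)))
        (Pv.varS rfl)).cast (by rw [e1]) le_rfl)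
      apply Pv.lett (Pv.mod hW h1 (Pv.varS rfl) (by omega))
      apply Pv.lett h2
      apply Pv.lett ((Pv.cndEq (Pv.varS rfl) (Pv.constS hW (by norm_num)) (fun _ => Pv.varS rfl)
        fun _ => Pv.sub (Pv.varS rfl) (Pv.varS rfl)).cast (v' := [cf ts j i md]) rfl le_rfl)
      apply Pv.lett ((Pv.pow2 (Pv.add (Pv.add (Pv.varS rfl) (Pv.constS hW (by norm_num)) (by omega))
        (Pv.mul hW (Pv.varS rfl) (Pv.varS rfl) (by omega)) (by omega)) (by omega)).cast
        (v' := [G]) (by rw [hG, pow_add, pow_mul]) le_rfl)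
      apply Pv.call (hf := hp)
      apply Pvs.cons (Pv.var rfl)
      apply Pvs.cons ((Pv.tab (Pv.varS rfl) h3).cast hT.symm le_rfl)
      apply Pvs.cons (Pv.varS rfl)
      apply Pvs.cons ((Pv.pow2 (Pv.mul hW (Pv.varS rfl) (Pv.varS rfl) (by omega))
        (by omega)).cast (by rw [pow_mul]) le_rfl)
      pv
      omega
    · rfl
    · have s1 : (G : ℝ) * (2 ^ k : ℕ) ≤ X.length := by exact_mod_cast b1
      have s2 : (G : ℝ) ≤ X.length := by exact_mod_cast b2
      have s3 : ((2 ^ k : ℕ) : ℝ) ≤ G := by exact_mod_cast b4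
      have s4 : ((ts.getD i 0 : ℕ) : ℝ) ≤ (2 ^ k : ℕ) := by exact_mod_cast htk
      have s5 : (i : ℝ) ≤ W := by exact_mod_cast (by omega)
      have s6 : (m : ℝ) ≤ W := by exact_mod_cast (by omega)
      have s7 : (0 : ℝ) ≤ (ts.getD i 0 : ℕ) := by positivity
      have s8 : (0 : ℝ) ≤ G := by positivity
      have s9 : (0 : ℝ) ≤ C := by positivity
      simp only [List.length_cons, List.length_nil, hl, hTl]
      generalize ((2 ^ k : ℕ) : ℝ) = R at *
      generalize ((ts.getD i 0 : ℕ) : ℝ) = t at *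
      have u0 : 9 * ((W : ℝ) + 1) ≤ R := by nlinarith
      have u1 : (G : ℝ) * ((W : ℝ) + 1) ^ 2 ≤ X.length :=
        (mul_le_mul_of_nonneg_left r1 s8).trans s1
      have u2 : t * (1060 * (W + 1) + 31) ≤ G * (130 * R) :=
        mul_le_mul (s4.trans s3) (by linarith) (by positivity) s8
      have u3 : (m : ℝ) * (400 * (W + 1) + 2 * 1 + 22) ≤ G * (50 * R) :=
        mul_le_mul (by linarith) (by linarith) (by positivity) s8
      have u4 : (C : ℝ) * (X.length + W + 1) ≤ C * (2 * X.length) :=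
        mul_le_mul_of_nonneg_left (by linarith) s9
      have u5 : max (2 : ℝ) (2 + 2 + 5) = 9 := by norm_num
      rw [u5]
      push_cast
      linarith

end Crt

end Crest.Agent.R326
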