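import Crest.Agent.R326.Approx

/-!
# Entrywise products and tensor products of diagonal matrices
-/

set_option autoImplicit false

namespace Crest.Agent.R326

open Finset

namespace Diag

variable {W : ℕ} {fn : Option Tm} {h p : ℕ}

theorem getD_lt {X : List ℕ} (hX : ∀ r ∈ X, r < Qm h) (i : ℕ) : X.getD i 0 < Qm h := by
  by_cases hi : i < X.length
  · rw [List.getD_eq_getElem _ _ hi]
    exact hX _ (List.getElem_mem hi)
  · rw [List.getD_eq_default _ _ (not_lt.1 hi)]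
    exact Qm_pos h

theorem one_le_mu (W : ℕ) : 1 ≤ mu W :=
  Real.one_le_rpow (by linarith [(Nat.cast_nonneg W : (0 : ℝ) ≤ W)]) (by norm_num)

/-- the rounded product is available at cost `cm` -/
def HasR (W h p : ℕ) (tR : Tm) (cm : ℝ) : Prop := ∀ (fn : Option Tm) (env : Env) (x y : ℕ),
  x < Qm h → y < Qm h → Pv W fn ([[x], [y], [h], [p]] ++ env) tR [mulRound h p x y] cm

theorem HasR.call {tR : Tm} {cm : ℝ} (H : HasR W h p tR cm) {e : Env} {i j k l x y : ℕ}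
    (hi : e[i]? = some [x]) (hj : e[j]? = some [y]) (hk : e[k]? = some [h]) (hl : e[l]? = some [p])
    (hx : x < Qm h) (hy : y < Qm h) :
    Pv W fn e (.call tR [.var i, .var j, .var k, .var l]) [mulRound h p x y] (cm + 20) := by
  refine (Pv.call (Pvs.cons (Pv.varS hi) (Pvs.cons (Pv.varS hj) (Pvs.cons (Pv.varS hk)
    (Pvs.cons (Pv.varS hl) Pvs.nil)))) (H fn e x y hx hy)).mono ?_
  simp only [List.length_cons, List.length_nil]
  push_cast
  linarith

/-! ### the entrywise product -/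

/-- entrywise rounded product -/
def zipL (h p : ℕ) (X Y : List ℕ) : List ℕ :=
  (List.range X.length).map fun i => mulRound h p (X.getD i 0) (Y.getD i 0)

/-- the program -/
def zipT (tR : Tm) : Tm :=
  .map2 (.len (.var 0)) (.var 0) (.var 1) (.call tR [.var 0, .var 1, .var 5, .var 6])

theorem zipT_ev {tR : Tm} {cm : ℝ} (H : HasR W h p tR cm) (hW : 8 ≤ W) {X Y : List ℕ} {e : Env}
    (hl : Y.length = X.length) (hV : X.length < 2 ^ W) (hX : ∀ r ∈ X, r < Qm h)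
    (hY : ∀ r ∈ Y, r < Qm h) :
    Pv W fn ([X, Y, [h], [p]] ++ e) (zipT tR) (zipL h p X Y) (X.length * (cm + 220) + 70) := by
  refine (Pv.map2 hW (Pv.len (Pv.var rfl) hV) (Pv.var rfl) (Pv.var rfl) le_rfl hl.ge
    fun i _ => H.call rfl rfl rfl rfl (getD_lt hX i) (getD_lt hY i)).mono ?_
  rw [hl]
  have : (0 : ℝ) ≤ X.length := by positivity
  linarith

theorem app_zip {e1 e2 V : ℕ} {ok : ℕ → Prop} {X Y : List ℕ} {x y : ℕ → ℂ}
    (hh : 2 * p + e1 + e2 + 4 ≤ h) (hX : App h p e1 V ok X x) (hY : App h p e2 V ok Y y) :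
    App h p (e1 + e2 + 3) V ok (zipL h p X Y) fun a => x a * y a := by
  refine ⟨by simp [zipL, hX.1], fun r hr => ?_, fun a ha hok => ?_⟩
  · obtain ⟨i, -, rfl⟩ := List.mem_map.1 hr
    exact mulRound_lt _ _ _ _
  · rw [zipL, getD_map_range _ (hX.1 ▸ ha)]
    exact (hX.2.2 a ha hok).mulRound (hY.2.2 a ha hok) hh

theorem hasR_of_mul (H : MulSpec) : ∃ (tR : Tm) (C : ℕ), ∀ W h p, 8 ≤ W → 1 ≤ p → p + 1 ≤ h →
    4 * h + 16 ≤ W → HasR W h p tR (C * mu W) := by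
  obtain ⟨tQ, tR, tE, C, H⟩ := H
  refine ⟨tR, C, fun W h p hW hp hh hW' fn env x y hx hy => ?_⟩
  obtain ⟨Y, rfl, h1⟩ := (H W x y h p hW hx hy hp hh hW').2.1 fn env
  exact h1

/-! ### the Kronecker product -/

/-- the table of the products -/
def kronL (h p : ℕ) (U F : List ℕ) : List ℕ :=
  (List.range F.length).flatMap fun k =>
    (List.range U.length).map fun b => mulRound h p (U.getD b 0) (F.getD k 0)

/-- the program -/
def kronT (tR : Tm) : Tm :=
  .lett (.len (.var 0)) (.strm1 (.len (.var 2)) (.var 2) (.const 1)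
    (.map1 (.var 2) (.var 3) (.call tR [.var 0, .var 2, .var 7, .var 8])))

theorem kronL_length (U F : List ℕ) : (kronL h p U F).length = F.length * U.length :=
  length_flatMap_eq fun _ _ => by simp

theorem kronT_ev {tR : Tm} {cm : ℝ} (H : HasR W h p tR cm) (hW : 8 ≤ W) {U F : List ℕ} {e : Env}
    (hU1 : 1 ≤ U.length) (hF1 : 1 ≤ F.length) (hU2 : U.length < 2 ^ W) (hF2 : F.length < 2 ^ W)
    (hU : ∀ r ∈ U, r < Qm h) (hF : ∀ r ∈ F, r < Qm h) :
    Pv W fn ([U, F, [h], [p]] ++ e) (kronT tR) (kronL h p U F)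
      (F.length * U.length * (cm + 500)) := by
  refine (Pv.lett (Pv.len (Pv.var rfl) hU2) (Pv.strm1 (L := U.length)
    (c := 2 + (U.length + 1) + U.length + U.length * (cm + 20 + 100) + 70)
    (Pv.len (Pv.var rfl) hF2) (Pv.var rfl) (Pv.constS hW (by norm_num)) (fun k hk => ?_)
    (fun _ _ => by simp))).mono ?_
  · rw [chunk_one hk]
    exact Pv.map1 hW (Pv.varS rfl) (Pv.var rfl) le_rfl
      fun i _ => H.call rfl rfl rfl rfl (getD_lt hU i) (getD_lt hF k)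
  · have h0 := kronL_length (h := h) (p := p) U F
    unfold kronL at h0
    rw [h0]
    have h1 : (1 : ℝ) ≤ U.length := by exact_mod_cast hU1
    have h2 : (1 : ℝ) ≤ F.length := by exact_mod_cast hF1
    have h3 : (U.length : ℝ) ≤ F.length * U.length := by nlinarith
    have h4 : (F.length : ℝ) ≤ F.length * U.length := by nlinarith
    simp only [List.length_cons, List.length_nil]
    push_cast
    nlinarith

theorem app_kron {e δ V n : ℕ} {U F : List ℕ} {x y : ℕ → ℂ} (hh : 2 * p + e + δ + 4 ≤ h)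
    (hU : App h p e V (fun _ => True) U x) (hF : App h p δ n (fun _ => True) F y) :
    App h p (e + δ + 3) (n * V) (fun _ => True) (kronL h p U F)
      fun b => x (b % V) * y (b / V) := by
  refine ⟨by rw [kronL_length, hU.1, hF.1], fun r hr => ?_, fun b hb _ => ?_⟩
  · obtain ⟨k, -, hk⟩ := List.mem_flatMap.1 hr
    obtain ⟨i, -, rfl⟩ := List.mem_map.1 hk
    exact mulRound_lt _ _ _ _
  · have hV : 0 < V := Nat.pos_of_ne_zero (by rintro rfl; simp at hb)
    rw [kronL, hU.1, hF.1, getD_flatMap' (L := V) (fun _ _ => by simp) hb,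
      getD_map_range _ (Nat.mod_lt _ hV)]
    exact (hU.2.2 _ (Nat.mod_lt _ hV) trivial).mulRound
      (hF.2.2 _ ((Nat.div_lt_iff_lt_mul hV).2 hb) trivial) hh

theorem app_repl {e V : ℕ} {U : List ℕ} {x : ℕ → ℂ} (N : ℕ)
    (hU : App h p e V (fun _ => True) U x) (hx : ∀ b, x (b % V) = x b) :
    App h p e (N * V) (fun _ => True) ((List.range N).flatMap fun _ => U) x := by
  refine ⟨length_flatMap_eq fun _ _ => hU.1, fun r hr => ?_, fun b hb _ => ?_⟩
  · obtain ⟨k, -, hk⟩ := List.mem_flatMap.1 hr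
    exact hU.2.1 r hk
  · have hV : 0 < V := Nat.pos_of_ne_zero (by rintro rfl; simp at hb)
    rw [getD_flatMap' (fun _ _ => hU.1) hb, ← hx b]
    exact hU.2.2 _ (Nat.mod_lt _ hV) trivial

theorem app_chunk {δ a n i : ℕ} {Tb : List ℕ} {φ : ℕ → ℕ → ℂ} (hi : i < a)
    (H : App h p δ (a * n) (fun _ => True) Tb fun b => φ (b / n) (b % n)) :
    App h p δ n (fun _ => True) (chunk n Tb i) (φ i) := by
  refine ⟨chunk_length (by rw [H.1]; exact Nat.mul_le_mul_right _ hi), fun r hr =>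
    H.2.1 r (List.mem_of_mem_drop (List.mem_of_mem_take hr)), fun b hb _ => ?_⟩
  have := H.2.2 (i * n + b) (by nlinarith) trivial
  rw [chunk_getD _ _ _ hb]
  simp only [mod_mk i hb] at this
  rwa [Nat.add_comm, Nat.add_mul_div_right _ _ (by omega), Nat.div_eq_of_lt hb, Nat.zero_add,
    Nat.add_comm] at this

/-! ### the table -/

/-- logarithm of the length of the table after `i` steps -/
def lg (l0 σ kn : ℕ) : ℕ → ℕ
  | 0 => 0
  | i + 1 => l0 + σ * i + kn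

/-- the table after `i` steps -/
def tabL (h p l0 σ kn : ℕ) (Tb : List ℕ) : ℕ → List ℕ
  | 0 => [2 ^ p]
  | i + 1 => kronL h p ((List.range (if i = 0 then 2 ^ l0 else 2 ^ (σ - kn))).flatMap
      fun _ => tabL h p l0 σ kn Tb i) (chunk (2 ^ kn) Tb i)

/-- the value of the table -/
noncomputable def tabV (l0 σ kn : ℕ) (φ : ℕ → ℕ → ℂ) (i b : ℕ) : ℂ :=
  ∏ j ∈ range i, φ j (dig (2 ^ (l0 + σ * j)) (2 ^ kn) b)

theorem copies {l0 σ kn : ℕ} (hk : kn ≤ σ) (i : ℕ) :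
    (if i = 0 then 2 ^ l0 else 2 ^ (σ - kn)) * 2 ^ lg l0 σ kn i = 2 ^ (l0 + σ * i) := by
  cases i with
  | zero => simp [lg]
  | succ i =>
    rw [if_neg (Nat.succ_ne_zero i), lg, ← pow_add, Nat.mul_succ]
    congr 1
    omega

theorem tabV_mod {l0 σ kn : ℕ} (φ : ℕ → ℕ → ℂ) {i m : ℕ} (hm : lg l0 σ kn i ≤ m) (b : ℕ) :
    tabV l0 σ kn φ i (b % 2 ^ m) = tabV l0 σ kn φ i b := by
  refine prod_congr rfl fun j hj => ?_
  obtain ⟨i, rfl⟩ := Nat.exists_eq_succ_of_ne_zero (Nat.ne_zero_of_lt (mem_range.1 hj))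
  have h1 : σ * j ≤ σ * i := Nat.mul_le_mul_left _ (Nat.lt_succ_iff.1 (mem_range.1 hj))
  rw [lg] at hm
  rw [dig_eq_mod, dig_eq_mod, ← pow_add, Nat.mod_mod_of_dvd _ (pow_dvd_pow _ (by omega))]

theorem lg_le {l0 σ kn : ℕ} (hk : kn ≤ σ) (i : ℕ) : lg l0 σ kn i ≤ l0 + σ * i := by
  cases i with
  | zero => simp [lg]
  | succ i => rw [lg, Nat.mul_succ]; omega

theorem app_pre {l0 σ kn e i : ℕ} {φ : ℕ → ℕ → ℂ} {S : List ℕ} (hk : kn ≤ σ)
    (H : App h p e (2 ^ lg l0 σ kn i) (fun _ => True) S (tabV l0 σ kn φ i)) :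
    App h p e (2 ^ (l0 + σ * i)) (fun _ => True)
      ((List.range (if i = 0 then 2 ^ l0 else 2 ^ (σ - kn))).flatMap fun _ => S)
      (tabV l0 σ kn φ i) :=
  copies hk i ▸ app_repl _ H (tabV_mod φ le_rfl)

theorem app_tab {l0 σ kn a δ : ℕ} {Tb : List ℕ} {φ : ℕ → ℕ → ℂ} (hk : kn ≤ σ)
    (hh : 2 * p + (δ + 3) * a + 8 ≤ h)
    (H : App h p δ (a * 2 ^ kn) (fun _ => True) Tb fun b => φ (b / 2 ^ kn) (b % 2 ^ kn)) :
    ∀ i ≤ a, App h p ((δ + 3) * i) (2 ^ lg l0 σ kn i) (fun _ => True) (tabL h p l0 σ kn Tb i)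
      (tabV l0 σ kn φ i) := by
  intro i
  induction i with
  | zero =>
    refine fun _ => ⟨rfl, fun r hr => ?_, fun b hb _ => ?_⟩
    · obtain rfl : r = 2 ^ p := by simpa [tabL] using hr
      exact Nat.lt_succ_of_le (Nat.pow_le_pow_right (by norm_num) (by omega))
    · obtain rfl : b = 0 := by simpa [lg] using hb
      simpa [tabL, tabV] using Lv.one
  | succ i ih =>
    intro hi
    have h1 : (δ + 3) * (i + 1) ≤ (δ + 3) * a := Nat.mul_le_mul_left _ hi
    rw [Nat.mul_succ] at h1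
    have h2 := app_kron (by omega) (app_pre hk (ih (by omega))) (app_chunk hi H)
    rw [← pow_add, add_comm kn] at h2
    refine h2.congr fun b hb _ => ?_
    rw [tabV_mod φ (lg_le hk i), tabV, tabV, prod_range_succ, dig, Nat.mod_eq_of_lt]
    rw [Nat.div_lt_iff_lt_mul (by positivity), ← pow_add, add_comm kn]
    exact hb

theorem geom_le {l0 σ kn : ℕ} (hσ : 1 ≤ σ) (a : ℕ) :
    ∑ i ∈ range (a + 1), 2 ^ (l0 + σ * i + kn) ≤ 2 * 2 ^ (l0 + σ * a + kn) := by
  induction a with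
  | zero => simp
  | succ a ih =>
    have : 2 * 2 ^ (l0 + σ * a + kn) ≤ 2 ^ (l0 + σ * (a + 1) + kn) := by
      rw [← pow_succ', Nat.mul_succ]
      exact Nat.pow_le_pow_right (by norm_num) (by omega)
    rw [sum_range_succ]
    omega

theorem sq_le (a : ℕ) : (a + 1) * (a + 1) ≤ 4 * 2 ^ a := by
  induction a with
  | zero => simp
  | succ a ih =>
    have : a < 2 ^ a := Nat.lt_two_pow_self
    rw [pow_succ]
    nlinarith

/-- iteration, with the lengths of the states charged one by one -/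
theorem iter_sum {e n init body N} (S : ℕ → List ℕ) (c : ℕ → ℝ) {c0 c1 : ℝ}
    (hn : Pv W fn e n [N] c0) (hi : Pv W fn e init (S 0) c1)
    (hb : ∀ i < N, ∃ c', Pv W fn ([i] :: S i :: e) body (S (i + 1)) c' ∧
      c' + (S i).length + (S (i + 1)).length ≤ c i) :
    Pv W fn e (.iter n init body) (S N)
      (c0 + c1 + ∑ i ∈ range N, c i + 22 * N + 4 * (S N).length + 13) := by
  have h1 := Ev.rep (W := W) (fn := fn) (e := S 0 :: e) (n := .skip 0 1 n)
    (body := .set 1 body) (N := N) (fun j => S j :: e) (fun _ => []) (fun j => c j + 1)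
    (Ev.skip01 hn)
    (fun j hj => by
      obtain ⟨c', h1, h2⟩ := hb j hj
      refine (Ev.set h1 rfl).cast rfl rfl |>.mono ?_
      linarith)
  refine (Ev.lett hi (Ev.seq h1 (Ev.var rfl))).mono ?_
  simp only [List.length_nil, Finset.sum_add_distrib, Finset.sum_const, Finset.card_range,
    nsmul_eq_mul]
  push_cast
  linarith

/-- one step -/
def stepT (tR : Tm) : Tm := .call (kronT tR)
  [.repl (.cndEq (.var 0) (.const 0) (.pow2 (.var 5)) (.pow2 (.sub (.var 6) (.var 7)))) (.var 1),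
    .take (.pow2 (.var 7)) (.drop (.shl (.var 0) (.var 7)) (.var 3)), .var 9, .var 10]

/-- the program -/
def diagT (tR : Tm) : Tm :=
  .lett (.iter (.var 6) (.pow2 (.var 8)) (stepT tR))
    (.lett (.repl (.div (.pow2 (.var 3)) (.len (.var 0))) (.var 0))
      (.call (zipT tR) [.var 2, .var 0, .var 9, .var 10]))

theorem stepT_ev {tR : Tm} {cm : ℝ} (H : HasR W h p tR cm) (hW : 8 ≤ W) {X Tb : List ℕ} {e : Env}
    {LV l0 σ kn a δ i : ℕ} {φ : ℕ → ℕ → ℂ} (hkn : 1 ≤ kn) (hk : kn ≤ σ) (hσ : σ ≤ W)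
    (hi : i < a) (hLV : l0 + σ * i + kn < W) (hh : 2 * p + (δ + 3) * a + 8 ≤ h)
    (hT : App h p δ (a * 2 ^ kn) (fun _ => True) Tb fun b => φ (b / 2 ^ kn) (b % 2 ^ kn)) :
    ∃ c', Pv W fn ([i] :: tabL h p l0 σ kn Tb i ::
        ([X, Tb, [LV], [l0], [σ], [kn], [a], [h], [p]] ++ e)) (stepT tR)
        (tabL h p l0 σ kn Tb (i + 1)) c' ∧
      c' + (tabL h p l0 σ kn Tb i).length + (tabL h p l0 σ kn Tb (i + 1)).length ≤
        2 ^ (l0 + σ * i + kn) * (cm + 800) + 100 * (a * 2 ^ kn) := by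
  have h1 := app_tab (l0 := l0) hk hh hT i hi.le
  have h2 := app_pre hk h1
  have h3 := app_chunk hi hT
  have h4 : (tabL h p l0 σ kn Tb (i + 1)).length = 2 ^ (l0 + σ * i + kn) :=
    (app_tab (l0 := l0) hk hh hT (i + 1) hi).1
  have h5 : i * 2 ^ kn < 2 ^ W := by
    have h6 : i ≤ σ * i := Nat.le_mul_of_pos_left _ (by omega)
    calc i * 2 ^ kn < 2 ^ i * 2 ^ kn := Nat.mul_lt_mul_of_pos_right Nat.lt_two_pow_self (by positivity)
      _ ≤ 2 ^ W := by rw [← pow_add]; exact Nat.pow_le_pow_right (by norm_num) (by omega)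
  refine ⟨_, Pv.call (Pvs.cons (Pv.repl (Pv.cndEq (Pv.varS rfl) (Pv.constS hW (by norm_num))
      (fun _ => Pv.pow2 (Pv.varS rfl) (by omega))
      (fun _ => Pv.pow2 (Pv.sub (Pv.varS rfl) (Pv.varS rfl)) (by omega))) (Pv.var rfl))
    (Pvs.cons (Pv.take (Pv.pow2 (Pv.varS rfl) (by omega))
      (Pv.drop (Pv.shl (Pv.varS rfl) (Pv.varS rfl) h5 (by omega)) (Pv.var rfl)))
    (Pvs.cons (Pv.varS rfl) (Pvs.cons (Pv.varS rfl) Pvs.nil))))
    (kronT_ev H hW (by rw [h2.1]; exact Nat.one_le_two_pow)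
      (le_of_le_of_eq Nat.one_le_two_pow h3.1.symm)
      (by rw [h2.1]; exact Nat.pow_lt_pow_right (by norm_num) (by omega))
      (lt_of_eq_of_lt h3.1 (Nat.pow_lt_pow_right (by norm_num) (by omega))) h2.2.1 h3.2.1), ?_⟩
  have e1 := h3.1
  unfold chunk at e1
  have e2 : ((Tb.drop (i * 2 ^ kn)).length : ℝ) ≤ a * 2 ^ kn := by
    have : (Tb.drop (i * 2 ^ kn)).length ≤ a * 2 ^ kn := by simp [hT.1]
    exact_mod_cast this
  have e3 := congrArg (Nat.cast : ℕ → ℝ) (copies (l0 := l0) hk i)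
  rw [h4, h2.1, e1, h1.1, hT.1, max_eq_right (by norm_num)]
  simp only [List.length_cons, List.length_nil]
  rw [Nat.cast_mul] at e3
  have e5 : (1 : ℝ) ≤ ((if i = 0 then 2 ^ l0 else 2 ^ (σ - kn) : ℕ) : ℝ) := by
    split_ifs <;> exact_mod_cast Nat.one_le_two_pow
  generalize ((if i = 0 then 2 ^ l0 else 2 ^ (σ - kn) : ℕ) : ℝ) = N at *
  have e6 : (i : ℝ) + 1 ≤ a := by exact_mod_cast hi
  push_cast at *
  rw [pow_add (2 : ℝ) (l0 + σ * i) kn]
  have e7 : (1 : ℝ) ≤ 2 ^ lg l0 σ kn i := one_le_pow₀ (by norm_num)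
  have e8 : (1 : ℝ) ≤ 2 ^ kn := one_le_pow₀ (by norm_num)
  generalize (2 : ℝ) ^ lg l0 σ kn i = s at *
  generalize (2 : ℝ) ^ (l0 + σ * i) = V at *
  generalize (2 : ℝ) ^ kn = n at *
  have e9 : N ≤ V := by nlinarith
  have e10 : s ≤ V := by nlinarith
  have e11 : V ≤ V * n := by nlinarith
  have e12 : n ≤ V * n := by nlinarith
  have e13 : (i : ℝ) * n + n ≤ a * n := by nlinarith
  have e14 : (0 : ℝ) ≤ i * n := by positivity
  nlinarith

end Diag

open Diag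

theorem zipMul_spec (H : MulSpec) : ZipMulSpec := by
  obtain ⟨tR, C, H⟩ := hasR_of_mul H
  refine ⟨zipT tR, C + 220, fun W X Y V h p e1 e2 ok x y hW hV hp hh hW' hX hY fn env => ?_⟩
  refine ⟨_, app_zip hh hX hY, (zipT_ev (H W h p hW hp (by omega) hW') hW (hY.1.trans hX.1.symm)
    (hX.1 ▸ hV) hX.2.1 hY.2.1).mono ?_⟩
  have h1 := one_le_mu W
  have h2 : (0 : ℝ) ≤ V := by positivity
  have h3 : (0 : ℝ) ≤ C := by positivity
  rw [hX.1]
  push_cast
  nlinarith [mul_le_mul_of_nonneg_left h1 h2]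

theorem diag_spec (H : MulSpec) : DiagSpec := by
  obtain ⟨tR, C, H⟩ := hasR_of_mul H
  refine ⟨diagT tR, 3 * C + 3000, fun W X Tb LV l0 σ kn a h p e δ ok x φ hW ha hkn hk hσ hLV hLW hp
    hh hW' hX hT fn env => ?_⟩
  have HR := H W h p hW hp (by omega) hW'
  obtain ⟨a, rfl⟩ := Nat.exists_eq_add_of_le' ha
  rw [Nat.add_sub_cancel] at hLV
  have h1 := app_tab (l0 := l0) hk (by omega) hT (a + 1) le_rfl
  have h2 : 2 ^ LV / 2 ^ lg l0 σ kn (a + 1) * 2 ^ lg l0 σ kn (a + 1) = 2 ^ LV :=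
    Nat.div_mul_cancel (pow_dvd_pow _ hLV)
  have h3 := app_repl (2 ^ LV / 2 ^ lg l0 σ kn (a + 1)) h1 (tabV_mod φ le_rfl)
  rw [h2] at h3
  have h4 := app_zip (by omega) hX (h3.mono le_rfl fun _ _ _ => trivial)
  have hV : 2 ^ LV < 2 ^ W := Nat.pow_lt_pow_right (by norm_num) hLW
  refine ⟨_, h4.congr fun b _ _ => (liftS_mdiag (by positivity) φ x b).symm, ?_⟩
  have h5 := iter_sum (W := W) (fn := fn)
    (e := [X, Tb, [LV], [l0], [σ], [kn], [a + 1], [h], [p]] ++ env) (n := .var 6)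
    (init := .pow2 (.var 8)) (body := stepT tR) (tabL h p l0 σ kn Tb)
    (fun i => 2 ^ (l0 + σ * i + kn) * (C * mu W + 800) + 100 * ((a + 1 : ℕ) * 2 ^ kn))
    (Pv.varS rfl) (Pv.pow2 (Pv.varS rfl) (by omega)) fun i hi => by
      have : σ * i ≤ σ * a := Nat.mul_le_mul_left _ (Nat.lt_succ_iff.1 hi)
      exact stepT_ev HR hW hkn hk hσ hi (by omega) (by omega) hT
  have h6 : (tabL h p l0 σ kn Tb (a + 1)).length ≤ 2 ^ LV :=
    h1.1 ▸ Nat.pow_le_pow_right (by norm_num) hLV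
  refine (Pv.lett h5 (Pv.lett (Pv.repl ((Pv.div hW (Pv.pow2 (Pv.varS rfl) hLW)
      (Pv.len (Pv.var rfl) (h6.trans_lt hV)) (by rw [h1.1]; positivity)).cast (by rw [h1.1]) le_rfl)
      (Pv.var rfl))
    (Pv.call (Pvs.cons (Pv.var rfl) (Pvs.cons (Pv.var rfl) (Pvs.cons (Pv.varS rfl)
      (Pvs.cons (Pv.varS rfl) Pvs.nil))))
      (zipT_ev HR hW (h3.1.trans hX.1.symm) (hX.1 ▸ hV) hX.2.1 h3.2.1)))).mono ?_
  have e1 : ∑ i ∈ range (a + 1), (2 : ℝ) ^ (l0 + σ * i + kn) ≤ 2 * 2 ^ LV := by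
    have := (geom_le (l0 := l0) (kn := kn) (hkn.trans hk) a).trans
      (Nat.mul_le_mul_left 2 (Nat.pow_le_pow_right (by norm_num) hLV))
    exact_mod_cast this
  have e2 : ((a : ℝ) + 1) * ((a + 1) * 2 ^ kn) ≤ 4 * 2 ^ LV := by
    have h7 : a ≤ σ * a := Nat.le_mul_of_pos_left _ (by omega)
    have h8 : (a + 1) * ((a + 1) * 2 ^ kn) ≤ 4 * 2 ^ LV := by
      rw [← mul_assoc]
      refine (Nat.mul_le_mul_right _ (sq_le a)).trans ?_
      rw [mul_assoc, ← pow_add]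
      exact Nat.mul_le_mul_left _ (Nat.pow_le_pow_right (by norm_num) (by omega))
    exact_mod_cast h8
  have e3 : (a : ℝ) ≤ W := by
    have h7 : a ≤ σ * a := Nat.le_mul_of_pos_left _ (by omega)
    exact_mod_cast (by omega : a ≤ W)
  have e4 := congrArg (Nat.cast : ℕ → ℝ) h2
  have e5 := one_le_mu W
  have e6 : (0 : ℝ) ≤ C := by positivity
  have e7 : (0 : ℝ) ≤ C * mu W + 800 := by positivity
  have e8 := mul_le_mul_of_nonneg_right e1 e7
  rw [h4.1, h3.1, hX.1, h1.1, sum_add_distrib, ← sum_mul, sum_const, card_range, nsmul_eq_mul]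
  simp only [List.length_cons, List.length_nil]
  rw [Nat.cast_mul] at e4
  have e9 : (0 : ℝ) ≤ ((2 ^ LV / 2 ^ lg l0 σ kn (a + 1) : ℕ) : ℝ) := by positivity
  generalize ((2 ^ LV / 2 ^ lg l0 σ kn (a + 1) : ℕ) : ℝ) = N at *
  have e10 : ((2 ^ lg l0 σ kn (a + 1) : ℕ) : ℝ) ≤ 2 ^ LV := by exact_mod_cast h1.1 ▸ h6
  push_cast at *
  have e11 : (1 : ℝ) ≤ 2 ^ lg l0 σ kn (a + 1) := one_le_pow₀ (by norm_num)
  generalize (2 : ℝ) ^ lg l0 σ kn (a + 1) = s at *
  have e12 : (1 : ℝ) ≤ 2 ^ LV := one_le_pow₀ (by norm_num)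
  generalize (2 : ℝ) ^ LV = V at *
  have e13 : N ≤ V := by nlinarith
  have e14 : V ≤ V * mu W := by nlinarith
  have e15 : (0 : ℝ) ≤ C * W := by positivity
  have e16 : (0 : ℝ) ≤ W := by positivity
  nlinarith

end Crest.Agent.R326
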