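import Mathlib

/-!
# Addresses as mixed-radix numbers; operators acting on one field of the address
-/

set_option autoImplicit false

namespace Crest.Agent.R326

open Finset

/-- the digit of `a` in the field of size `n` at place value `lo` -/
def dig (lo n a : ℕ) : ℕ := a / lo % n

/-- `a` with the digit in the field `(lo, n)` replaced by `k` -/
def setDig (lo n a k : ℕ) : ℕ := a / (lo * n) * (lo * n) + k * lo + a % lo

theorem dig_lt {n : ℕ} (hn : 0 < n) (lo a : ℕ) : dig lo n a < n := Nat.mod_lt _ hn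

theorem dig_mk {lo n y r : ℕ} (g : ℕ) (hy : y < n) (hr : r < lo) :
    dig lo n ((g * n + y) * lo + r) = y := by
  have hlo : 0 < lo := by omega
  unfold dig
  rw [Nat.add_comm, Nat.add_mul_div_right _ _ hlo, Nat.div_eq_of_lt hr, Nat.zero_add, Nat.add_comm,
    Nat.add_mul_mod_self_right, Nat.mod_eq_of_lt hy]

theorem div_mk {lo n y r : ℕ} (g : ℕ) (hy : y < n) (hr : r < lo) :
    ((g * n + y) * lo + r) / (lo * n) = g := by
  have hlo : 0 < lo := by omega
  rw [← Nat.div_div_eq_div_mul, Nat.add_comm, Nat.add_mul_div_right _ _ hlo, Nat.div_eq_of_lt hr,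
    Nat.zero_add, Nat.add_comm, Nat.add_mul_div_right _ _ (by omega), Nat.div_eq_of_lt hy,
    Nat.zero_add]

theorem mod_mk {lo r : ℕ} (g : ℕ) (hr : r < lo) : (g * lo + r) % lo = r := by
  rw [Nat.add_comm, Nat.add_mul_mod_self_right, Nat.mod_eq_of_lt hr]

theorem setDig_eq (lo n a k : ℕ) : setDig lo n a k = (a / (lo * n) * n + k) * lo + a % lo := by
  unfold setDig; ring

theorem setDig_mk {lo n y r : ℕ} (g k : ℕ) (hy : y < n) (hr : r < lo) :
    setDig lo n ((g * n + y) * lo + r) k = (g * n + k) * lo + r := by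
  rw [setDig_eq, div_mk g hy hr, mod_mk _ hr]

theorem addr_eq (lo n a : ℕ) : a = (a / (lo * n) * n + dig lo n a) * lo + a % lo := by
  unfold dig
  rw [← Nat.div_div_eq_div_mul, Nat.div_add_mod', Nat.div_add_mod']

@[simp] theorem setDig_dig (lo n a : ℕ) : setDig lo n a (dig lo n a) = a := by
  rw [setDig_eq, ← addr_eq]

theorem dig_setDig {lo n k : ℕ} (hlo : 0 < lo) (hk : k < n) (a : ℕ) :
    dig lo n (setDig lo n a k) = k := by
  rw [setDig_eq, dig_mk _ hk (Nat.mod_lt _ hlo)]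

theorem setDig_setDig {lo n k : ℕ} (hlo : 0 < lo) (hk : k < n) (a k' : ℕ) :
    setDig lo n (setDig lo n a k) k' = setDig lo n a k' := by
  rw [setDig_eq lo n a k, setDig_mk _ _ hk (Nat.mod_lt _ hlo), setDig_eq]

theorem setDig_div {lo n k : ℕ} (hlo : 0 < lo) (hk : k < n) (a : ℕ) :
    setDig lo n a k / (lo * n) = a / (lo * n) := by
  rw [setDig_eq, div_mk _ hk (Nat.mod_lt _ hlo)]

theorem setDig_mod {lo : ℕ} (hlo : 0 < lo) (n a k : ℕ) : setDig lo n a k % lo = a % lo := by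
  rw [setDig_eq, mod_mk _ (Nat.mod_lt _ hlo)]

theorem setDig_div_of_dvd {lo n k L : ℕ} (hlo : 0 < lo) (hk : k < n) (h : lo * n ∣ L) (a : ℕ) :
    setDig lo n a k / L = a / L := by
  obtain ⟨c, rfl⟩ := h
  rw [← Nat.div_div_eq_div_mul, setDig_div hlo hk, Nat.div_div_eq_div_mul]

theorem setDig_mod_of_dvd {lo L : ℕ} (hlo : 0 < lo) (h : L ∣ lo) (n a k : ℕ) :
    setDig lo n a k % L = a % L := by
  rw [← Nat.mod_mod_of_dvd _ h, setDig_mod hlo, Nat.mod_mod_of_dvd _ h]

theorem setDig_lt {lo n k V a : ℕ} (hlo : 0 < lo) (hk : k < n) (h : lo * n ∣ V) (ha : a < V) :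
    setDig lo n a k < V := by
  have h1 := setDig_div_of_dvd hlo hk h a
  rw [Nat.div_eq_of_lt ha] at h1
  exact (Nat.div_eq_zero_iff_lt (by omega)).1 h1

theorem dig_eq_mod (lo n a : ℕ) : dig lo n a = a % (lo * n) / lo := by
  unfold dig; rw [Nat.mod_mul_right_div_self]

/-- changing a lower field does not change a higher digit -/
theorem dig_setDig_high {lo n k lo' : ℕ} (hlo : 0 < lo) (hk : k < n) (h : lo * n ∣ lo')
    (n' a : ℕ) : dig lo' n' (setDig lo n a k) = dig lo' n' a := by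
  unfold dig; rw [setDig_div_of_dvd hlo hk h]

/-- changing a higher field does not change a lower digit -/
theorem dig_setDig_low {lo n lo' : ℕ} (hlo : 0 < lo') (h : lo * n ∣ lo') (n' a k : ℕ) :
    dig lo n (setDig lo' n' a k) = dig lo n a := by
  rw [dig_eq_mod, dig_eq_mod, setDig_mod_of_dvd hlo h]

theorem addr_ext {lo n a b : ℕ} (h1 : a / (lo * n) = b / (lo * n)) (h2 : dig lo n a = dig lo n b)
    (h3 : a % lo = b % lo) : a = b := by
  rw [addr_eq lo n a, addr_eq lo n b, h1, h2, h3]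

theorem setDig_comm {lo n k lo' n' k' : ℕ} (hlo : 0 < lo) (hk : k < n) (hlo' : 0 < lo')
    (hk' : k' < n') (h : lo * n ∣ lo') (a : ℕ) :
    setDig lo n (setDig lo' n' a k') k = setDig lo' n' (setDig lo n a k) k' := by
  apply addr_ext (lo := lo') (n := n')
  · rw [setDig_div_of_dvd hlo hk (h.mul_right _), setDig_div hlo' hk', setDig_div hlo' hk',
      setDig_div_of_dvd hlo hk (h.mul_right _)]
  · rw [dig_setDig_high hlo hk h, dig_setDig hlo' hk', dig_setDig hlo' hk']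
  · rw [setDig_mod hlo']
    apply addr_ext (lo := lo) (n := n)
    · obtain ⟨c, rfl⟩ := h
      rw [Nat.mod_mul_right_div_self, Nat.mod_mul_right_div_self, setDig_div hlo hk,
        setDig_div hlo hk, ← Nat.mod_mul_right_div_self, ← Nat.mod_mul_right_div_self,
        setDig_mod hlo']
    · rw [dig_eq_mod, dig_eq_mod, Nat.mod_mod_of_dvd _ h, Nat.mod_mod_of_dvd _ h, ← dig_eq_mod,
        ← dig_eq_mod, dig_setDig hlo hk, dig_setDig hlo hk]
    · have h' : lo ∣ lo' := (Dvd.intro _ rfl).trans h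
      rw [Nat.mod_mod_of_dvd _ h', Nat.mod_mod_of_dvd _ h', setDig_mod hlo, setDig_mod hlo,
        setDig_mod_of_dvd hlo' h']

theorem dig_add_of_dvd {lo n c : ℕ} (h : lo * n ∣ c) (a : ℕ) : dig lo n (c + a) = dig lo n a := by
  obtain ⟨d, rfl⟩ := h
  rw [dig_eq_mod, dig_eq_mod, Nat.mul_add_mod]

theorem setDig_add_of_dvd {lo n c : ℕ} (hlo : 0 < lo) (hn : 0 < n) (h : lo * n ∣ c) (a k : ℕ) :
    setDig lo n (c + a) k = c + setDig lo n a k := by
  obtain ⟨d, rfl⟩ := h
  unfold setDig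
  rw [Nat.mul_add_div (by positivity), mul_assoc lo n d, Nat.mul_add_mod]
  ring

/-- a sub-field of a field -/
theorem dig_dig {m r n : ℕ} (h : m * r ∣ n) (lo a : ℕ) :
    dig m r (dig lo n a) = dig (lo * m) r a := by
  rw [dig_eq_mod m r, dig, Nat.mod_mod_of_dvd _ h, ← dig_eq_mod, dig, dig, Nat.div_div_eq_div_mul]

theorem setDig_nest {m r n lo k : ℕ} (hlo : 0 < lo) (hm : 0 < m) (hk : k < r) (hn : 0 < n)
    (h : m * r ∣ n) (a : ℕ) :
    setDig (lo * m) r a k = setDig lo n a (setDig m r (dig lo n a) k) := by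
  have h1 : setDig m r (dig lo n a) k < n := setDig_lt hm hk h (dig_lt hn _ _)
  have hlm : 0 < lo * m := by positivity
  apply addr_ext (lo := lo) (n := n)
  · rw [setDig_div hlo h1, setDig_div_of_dvd hlm hk (by rw [mul_assoc]; exact mul_dvd_mul_left _ h)]
  · rw [dig_setDig hlo h1]
    apply addr_ext (lo := m) (n := r)
    · rw [setDig_div hm hk]
      obtain ⟨c, rfl⟩ := h
      unfold dig
      rw [Nat.mod_mul_right_div_self, Nat.mod_mul_right_div_self, Nat.div_div_eq_div_mul,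
        Nat.div_div_eq_div_mul, ← mul_assoc, setDig_div hlm hk]
    · rw [dig_dig h, dig_setDig hlm hk, dig_setDig hm hk]
    · rw [setDig_mod hm]
      have h' : m ∣ n := (Dvd.intro _ rfl).trans h
      unfold dig
      rw [Nat.mod_mod_of_dvd _ h', Nat.mod_mod_of_dvd _ h', ← Nat.mod_mul_right_div_self,
        ← Nat.mod_mul_right_div_self, setDig_mod hlm]
  · rw [setDig_mod hlo, setDig_mod_of_dvd hlm (Dvd.intro _ rfl)]

theorem two_pow_dvd {a b : ℕ} (h : a ≤ b) : 2 ^ a ∣ 2 ^ b := pow_dvd_pow 2 h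

theorem two_pow_mul_dvd {a b c : ℕ} (h : a + b ≤ c) : 2 ^ a * 2 ^ b ∣ 2 ^ c := by
  rw [← pow_add]; exact pow_dvd_pow 2 h

/-- exchange of the digits in two fields of the same size -/
def swapDig (lo1 lo2 n a : ℕ) : ℕ :=
  setDig lo1 n (setDig lo2 n a (dig lo1 n a)) (dig lo2 n a)

/-- `Y` is `X` read through the address map `π` -/
def Pull (V : ℕ) (π : ℕ → ℕ) (X Y : List ℕ) : Prop :=
  Y.length = V ∧ ∀ a < V, Y.getD a 0 = X.getD (π a) 0

/-- every word of `Y` is zero or a word of `X` -/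
def Sub (X Y : List ℕ) : Prop := ∀ y ∈ Y, y = 0 ∨ y ∈ X

theorem getD_zero_or_mem (X : List ℕ) (a : ℕ) : X.getD a 0 = 0 ∨ X.getD a 0 ∈ X := by
  by_cases h : a < X.length
  · right; rw [List.getD_eq_getElem _ _ h]; exact List.getElem_mem h
  · left; exact List.getD_eq_default _ _ (by omega)

theorem forall_mem_of_getD {Y : List ℕ} {P : ℕ → Prop} (h : ∀ a < Y.length, P (Y.getD a 0)) :
    ∀ y ∈ Y, P y := by
  intro y hy
  obtain ⟨a, ha, rfl⟩ := List.getElem_of_mem hy
  have := h a ha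
  rwa [List.getD_eq_getElem _ _ ha] at this

theorem Pull.sub {V π X Y} (h : Pull V π X Y) : Sub X Y :=
  forall_mem_of_getD fun a ha => by rw [h.2 a (h.1 ▸ ha)]; exact getD_zero_or_mem _ _

theorem Sub.refl (X : List ℕ) : Sub X X := fun _ h => Or.inr h

theorem Sub.trans {X Y Z} (h : Sub X Y) (h' : Sub Y Z) : Sub X Z := fun z hz =>
  (h' z hz).elim Or.inl (h z)

theorem Sub.lt {X Y : List ℕ} {B : ℕ} (h : Sub X Y) (hB : 0 < B) (hX : ∀ x ∈ X, x < B) :
    ∀ y ∈ Y, y < B := fun y hy => (h y hy).elim (fun h0 => h0 ▸ hB) (hX y)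

theorem getD_lt {X : List ℕ} {B : ℕ} (hB : 0 < B) (hX : ∀ x ∈ X, x < B) (a : ℕ) :
    X.getD a 0 < B := (getD_zero_or_mem X a).elim (fun h0 => by rw [h0]; exact hB) (hX _)

theorem Pull.trans {V π π' X Y Z} (h : Pull V π X Y) (h' : Pull V π' Y Z)
    (hπ : ∀ a < V, π' a < V) : Pull V (fun a => π (π' a)) X Z :=
  ⟨h'.1, fun a ha => by rw [h'.2 a ha, h.2 _ (hπ a ha)]⟩

theorem Pull.congr {V π π' X Y} (h : Pull V π X Y) (hπ : ∀ a < V, π a = π' a) : Pull V π' X Y :=
  ⟨h.1, fun a ha => by rw [h.2 a ha, hπ a ha]⟩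

/-! ### matrices acting on a field -/

section lift

variable {R : Type} [CommRing R]

/-- the matrix `M` of order `n` acts on the field `(lo, n)` of the address -/
def lift (lo n : ℕ) (M : ℕ → ℕ → R) (x : ℕ → R) : ℕ → R :=
  fun a => ∑ k ∈ range n, M (dig lo n a) k * x (setDig lo n a k)

/-- product of matrices of order `n` -/
def mmul (n : ℕ) (M N : ℕ → ℕ → R) : ℕ → ℕ → R := fun j k => ∑ l ∈ range n, M j l * N l k

/-- identity matrix -/
def mone : ℕ → ℕ → R := fun j k => if j = k then 1 else 0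

/-- diagonal matrix -/
def mdiag (d : ℕ → R) : ℕ → ℕ → R := fun j k => if j = k then d j else 0

/-- the matrix of `v ↦ v ∘ π` -/
def mperm (π : ℕ → ℕ) : ℕ → ℕ → R := fun j k => if k = π j then 1 else 0

/-- equality of matrices of order `n` -/
def MEq (n : ℕ) (M N : ℕ → ℕ → R) : Prop := ∀ j < n, ∀ k < n, M j k = N j k

theorem lift_congr {lo n : ℕ} {M N : ℕ → ℕ → R} (h : MEq n M N) (x : ℕ → R) :
    lift lo n M x = lift lo n N x := by
  funext a
  refine sum_congr rfl fun k hk => ?_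
  have hk' := mem_range.1 hk
  rw [h _ (dig_lt (by omega) _ _) _ hk']

theorem lift_local {lo n : ℕ} (M : ℕ → ℕ → R) {x y : ℕ → R} {a : ℕ}
    (h : ∀ k < n, x (setDig lo n a k) = y (setDig lo n a k)) : lift lo n M x a = lift lo n M y a :=
  sum_congr rfl fun k hk => by rw [h k (mem_range.1 hk)]

theorem lift_lift {lo n : ℕ} (hlo : 0 < lo) (M N : ℕ → ℕ → R) (x : ℕ → R) :
    lift lo n M (lift lo n N x) = lift lo n (mmul n M N) x := by
  funext a
  simp only [lift, mmul, sum_mul, mul_sum]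
  rw [sum_comm]
  refine sum_congr rfl fun k _ => sum_congr rfl fun l hl => ?_
  rw [dig_setDig hlo (mem_range.1 hl), setDig_setDig hlo (mem_range.1 hl), mul_assoc]

theorem lift_mdiag {lo n : ℕ} (hn : 0 < n) (d : ℕ → R) (x : ℕ → R) (a : ℕ) :
    lift lo n (mdiag d) x a = d (dig lo n a) * x a := by
  simp only [lift, mdiag, ite_mul, zero_mul]
  rw [sum_ite_eq, if_pos (mem_range.2 (dig_lt hn _ _)), setDig_dig]

theorem lift_mone {lo n : ℕ} (hn : 0 < n) (x : ℕ → R) : lift lo n mone x = x := by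
  funext a
  exact (lift_mdiag hn (fun _ => 1) x a).trans (one_mul _)

theorem lift_mperm {lo n : ℕ} {π : ℕ → ℕ} (x : ℕ → R) (a : ℕ) (h : π (dig lo n a) < n) :
    lift lo n (mperm π) x a = x (setDig lo n a (π (dig lo n a))) := by
  simp only [lift, mperm, ite_mul, zero_mul, one_mul]
  rw [sum_ite_eq', if_pos (mem_range.2 h)]

theorem lift_comm {lo n lo' n' : ℕ} (hlo : 0 < lo) (hlo' : 0 < lo') (h : lo * n ∣ lo')
    (M N : ℕ → ℕ → R) (x : ℕ → R) :
    lift lo n M (lift lo' n' N x) = lift lo' n' N (lift lo n M x) := by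
  funext a
  simp only [lift, mul_sum]
  rw [sum_comm]
  refine sum_congr rfl fun k' hk' => sum_congr rfl fun k hk => ?_
  rw [dig_setDig_high hlo (mem_range.1 hk) h, dig_setDig_low hlo' h,
    setDig_comm hlo (mem_range.1 hk) hlo' (mem_range.1 hk') h]
  ring

/-- the matrix, on a field, of an operator on a sub-field -/
def msub (m r : ℕ) (M : ℕ → ℕ → R) : ℕ → ℕ → R :=
  fun j k => if k / (m * r) = j / (m * r) ∧ k % m = j % m then M (dig m r j) (dig m r k) else 0

theorem lift_msub {lo n m r : ℕ} (hlo : 0 < lo) (hm : 0 < m) (hr : 0 < r) (hn : 0 < n)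
    (h : m * r ∣ n) (M : ℕ → ℕ → R) (x : ℕ → R) :
    lift lo n (msub m r M) x = lift (lo * m) r M x := by
  funext a
  simp only [lift, msub, ite_mul, zero_mul]
  rw [← sum_filter]
  symm
  refine sum_bij' (fun k _ => setDig m r (dig lo n a) k) (fun k _ => dig m r k) ?_ ?_ ?_ ?_ ?_
  · intro k hk
    have hk' := mem_range.1 hk
    exact mem_filter.2 ⟨mem_range.2 (setDig_lt hm hk' h (dig_lt hn _ _)), setDig_div hm hk' _,
      setDig_mod hm _ _ _⟩
  · intro k _
    exact mem_range.2 (dig_lt hr _ _)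
  · intro k hk
    exact dig_setDig hm (mem_range.1 hk) _
  · intro k hk
    obtain ⟨-, h1, h2⟩ := mem_filter.1 hk
    rw [setDig_eq, ← h1, ← h2, ← addr_eq]
  · intro k hk
    have hk' := mem_range.1 hk
    rw [dig_dig h, dig_setDig hm hk', ← setDig_nest hlo hm hk' hn h]

theorem lift_map {S : Type} [CommRing S] (φ : R →+* S) (lo n : ℕ) (M : ℕ → ℕ → R) (x : ℕ → R)
    (a : ℕ) : φ (lift lo n M x a) = lift lo n (fun j k => φ (M j k)) (fun b => φ (x b)) a := by
  simp [lift]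

theorem lift_add (lo n : ℕ) (M : ℕ → ℕ → R) (x y : ℕ → R) :
    lift lo n M (x + y) = lift lo n M x + lift lo n M y := by
  funext a; simp [lift, mul_add, sum_add_distrib]

theorem lift_sub (lo n : ℕ) (M : ℕ → ℕ → R) (x y : ℕ → R) :
    lift lo n M (x - y) = lift lo n M x - lift lo n M y := by
  funext a; simp [lift, mul_sub, sum_sub_distrib]

theorem lift_smul (lo n : ℕ) (M : ℕ → ℕ → R) (c : R) (x : ℕ → R) :
    lift lo n M (c • x) = c • lift lo n M x := by
  funext a; simp [lift, mul_sum, mul_left_comm]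

/-- `M i` acts on the field of size `n` at place value `2 ^ (l0 + σ * i)`, for all `i < a` -/
def liftS (l0 σ n : ℕ) (M : ℕ → ℕ → ℕ → R) : ℕ → (ℕ → R) → (ℕ → R)
  | 0, x => x
  | a + 1, x => lift (2 ^ (l0 + σ * a)) n (M a) (liftS l0 σ n M a x)

theorem field_dvd {l0 σ n i j : ℕ} (hn : n ∣ 2 ^ σ) (hij : i < j) :
    2 ^ (l0 + σ * i) * n ∣ 2 ^ (l0 + σ * j) :=
  (mul_dvd_mul_left _ hn).trans (two_pow_mul_dvd (by nlinarith))

theorem liftS_congr {l0 σ n a : ℕ} {M N : ℕ → ℕ → ℕ → R} (h : ∀ i < a, MEq n (M i) (N i))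
    (x : ℕ → R) : liftS l0 σ n M a x = liftS l0 σ n N a x := by
  induction a with
  | zero => rfl
  | succ a ih => rw [liftS, liftS, ih fun i hi => h i (by omega), lift_congr (h a (by omega))]

theorem lift_liftS_comm {l0 σ n a lo n' : ℕ} (hlo : 0 < lo)
    (h : ∀ i < a, 2 ^ (l0 + σ * i) * n ∣ lo ∨ lo * n' ∣ 2 ^ (l0 + σ * i))
    (M : ℕ → ℕ → ℕ → R) (N : ℕ → ℕ → R) (x : ℕ → R) :
    lift lo n' N (liftS l0 σ n M a x) = liftS l0 σ n M a (lift lo n' N x) := by
  induction a with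
  | zero => rfl
  | succ a ih =>
    rw [liftS, liftS, ← ih fun i hi => h i (by omega)]
    rcases h a (by omega) with h1 | h1
    · exact (lift_comm (by positivity) hlo h1 _ _ _).symm
    · exact lift_comm hlo (by positivity) h1 _ _ _

theorem liftS_liftS {l0 σ n a : ℕ} (hn : n ∣ 2 ^ σ) (M N : ℕ → ℕ → ℕ → R) (x : ℕ → R) :
    liftS l0 σ n M a (liftS l0 σ n N a x) = liftS l0 σ n (fun i => mmul n (M i) (N i)) a x := by
  induction a with
  | zero => rfl
  | succ a ih =>
    rw [liftS, liftS, liftS, ← lift_liftS_comm (by positivity)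
      (fun i hi => Or.inl (field_dvd hn hi)), lift_lift (by positivity), ih]

theorem liftS_mone {l0 σ n a : ℕ} (hn : 0 < n) (x : ℕ → R) :
    liftS l0 σ n (fun _ => mone) a x = x := by
  induction a with
  | zero => rfl
  | succ a ih => rw [liftS, ih, lift_mone hn]

theorem liftS_mdiag {l0 σ n a : ℕ} (hn : 0 < n) (d : ℕ → ℕ → R) (x : ℕ → R) (b : ℕ) :
    liftS l0 σ n (fun i => mdiag (d i)) a x b =
      x b * ∏ i ∈ range a, d i (dig (2 ^ (l0 + σ * i)) n b) := by
  induction a with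
  | zero => simp [liftS]
  | succ a ih => rw [liftS, lift_mdiag hn, ih, prod_range_succ]; ring

theorem liftS_msub {l0 σ n a l r : ℕ} (hr : 0 < r) (hn : 0 < n) (h : 2 ^ l * r ∣ n)
    (M : ℕ → ℕ → ℕ → R) (x : ℕ → R) :
    liftS l0 σ n (fun i => msub (2 ^ l) r (M i)) a x = liftS (l0 + l) σ r M a x := by
  induction a with
  | zero => rfl
  | succ a ih =>
    rw [liftS, liftS, ih, lift_msub (by positivity) (by positivity) hr hn h, ← pow_add]
    congr 2; ring

theorem liftS_map {S : Type} [CommRing S] (φ : R →+* S) (l0 σ n a : ℕ) (M : ℕ → ℕ → ℕ → R)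
    (x : ℕ → R) (b : ℕ) :
    φ (liftS l0 σ n M a x b) =
      liftS l0 σ n (fun i j k => φ (M i j k)) a (fun b => φ (x b)) b := by
  induction a generalizing b with
  | zero => rfl
  | succ a ih => rw [liftS, liftS, lift_map]; congr 1; funext c; exact ih c

theorem liftS_sub (l0 σ n a : ℕ) (M : ℕ → ℕ → ℕ → R) (x y : ℕ → R) :
    liftS l0 σ n M a (x - y) = liftS l0 σ n M a x - liftS l0 σ n M a y := by
  induction a with
  | zero => rfl
  | succ a ih => rw [liftS, liftS, liftS, ih, lift_sub]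

theorem liftS_smul (l0 σ n a : ℕ) (M : ℕ → ℕ → ℕ → R) (c : R) (x : ℕ → R) :
    liftS l0 σ n M a (c • x) = c • liftS l0 σ n M a x := by
  induction a with
  | zero => rfl
  | succ a ih => rw [liftS, liftS, ih, lift_smul]

/-- the set `ok` of addresses is closed under changes of the `a` fields -/
def Closed (l0 σ n a : ℕ) (ok : ℕ → Prop) : Prop :=
  ∀ i < a, ∀ b k, k < n → ok b → ok (setDig (2 ^ (l0 + σ * i)) n b k)

theorem liftS_local {l0 σ n a : ℕ} {ok : ℕ → Prop} (hc : Closed l0 σ n a ok)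
    (M : ℕ → ℕ → ℕ → R) {x y : ℕ → R} (h : ∀ b, ok b → x b = y b) :
    ∀ b, ok b → liftS l0 σ n M a x b = liftS l0 σ n M a y b := by
  induction a with
  | zero => exact h
  | succ a ih =>
    intro b hb
    exact lift_local _ fun k hk =>
      ih (fun i hi => hc i (by omega)) _ (hc a (by omega) b k hk hb)

end lift

theorem norm_lift_le {lo n : ℕ} (hn : 0 < n) {M : ℕ → ℕ → ℂ} {ν B : ℝ}
    (hM : ∀ j < n, ∑ k ∈ range n, ‖M j k‖ ≤ ν) {x : ℕ → ℂ} {a : ℕ} (hB : 0 ≤ B)
    (hx : ∀ k < n, ‖x (setDig lo n a k)‖ ≤ B) : ‖lift lo n M x a‖ ≤ ν * B := by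
  refine (norm_sum_le _ _).trans ?_
  calc ∑ k ∈ range n, ‖M (dig lo n a) k * x (setDig lo n a k)‖
      ≤ ∑ k ∈ range n, ‖M (dig lo n a) k‖ * B := sum_le_sum fun k hk => by
        rw [norm_mul]; exact mul_le_mul_of_nonneg_left (hx k (mem_range.1 hk)) (norm_nonneg _)
    _ ≤ ν * B := by
        rw [← sum_mul]; exact mul_le_mul_of_nonneg_right (hM _ (dig_lt hn _ _)) hB

theorem norm_liftS_le {l0 σ n a : ℕ} (hn : 0 < n) {ok : ℕ → Prop} (hc : Closed l0 σ n a ok)
    {M : ℕ → ℕ → ℕ → ℂ} {ν B : ℝ} (hν : 0 ≤ ν)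
    (hM : ∀ i < a, ∀ j < n, ∑ k ∈ range n, ‖M i j k‖ ≤ ν) {x : ℕ → ℂ} (hB : 0 ≤ B)
    (hx : ∀ b, ok b → ‖x b‖ ≤ B) : ∀ b, ok b → ‖liftS l0 σ n M a x b‖ ≤ ν ^ a * B := by
  induction a with
  | zero => simpa [liftS] using hx
  | succ a ih =>
    intro b hb
    rw [liftS, pow_succ', mul_assoc]
    exact norm_lift_le hn (hM a (by omega)) (by positivity) fun k hk =>
      ih (fun i hi => hc i (by omega)) (fun i hi => hM i (by omega)) _ (hc a (by omega) b k hk hb)

end Crest.Agent.R326
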