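import Crest.Agent.R326.Approx

/-!
# The factorisation of the Fourier matrix of order `2 ^ K` into layers of butterflies
-/

set_option autoImplicit false

namespace Crest.Agent.R326.Fft

open Finset

theorem mmul_diag_l {n j : ℕ} (hj : j < n) (d : ℕ → ℂ) (M : ℕ → ℕ → ℂ) (k : ℕ) :
    mmul n (mdiag d) M j k = d j * M j k := by
  simp only [mmul, mdiag, ite_mul, zero_mul]
  rw [sum_ite_eq, if_pos (mem_range.2 hj)]

theorem mmul_diag_r {n k : ℕ} (hk : k < n) (d : ℕ → ℂ) (M : ℕ → ℕ → ℂ) (j : ℕ) :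
    mmul n M (mdiag d) j k = M j k * d k := by
  simp only [mmul, mdiag, mul_ite, mul_zero]
  rw [sum_ite_eq', if_pos (mem_range.2 hk)]

theorem ee_one_four : ee 1 4 = Complex.I := by
  refine Eq.trans ?_ Complex.exp_pi_div_two_mul_I
  rw [ee]
  congr 1
  push_cast
  ring

theorem ee_one_two : ee 1 2 = -1 := by
  rw [ee, ← Complex.exp_pi_mul_I]
  congr 1
  push_cast
  ring

theorem ee_half (l : ℕ) : ee (2 ^ l) (2 ^ (l + 1)) = -1 := by
  have := ee_mul_mul 1 (c := 2 ^ l) (by positivity) 2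
  rw [ee_one_two] at this
  rw [← this, pow_succ]
  congr 1
  push_cast
  ring

theorem cast_CG (j k : ℕ) : ((CG j k : GaussianInt) : ℂ) = if j = k then 1 else -Complex.I := by
  unfold CG
  split_ifs
  · simp
  · simp [GaussianInt.toComplex_def']

theorem CG_row (j : ℕ) : ∑ k ∈ range 2, ‖((CG j k : GaussianInt) : ℂ)‖ ≤ 2 ^ 1 := by
  have : ∀ k, ‖((CG j k : GaussianInt) : ℂ)‖ = 1 := fun k => by
    rw [cast_CG]; split_ifs <;> simp
  simp [this]

/-- position, in the table of the roots of unity, of the entry `x` of a diagonal matrix -/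
def idx (K l m x : ℕ) : ℕ :=
  (2 ^ (K - 2) + m * (x % 2 ^ l) * 2 ^ (K - 1 - l)) * (x / 2 ^ l % 2 ^ 1) % 2 ^ K

/-- the entries of the diagonal matrices -/
noncomputable def ph (K l m x : ℕ) : ℂ := ee (idx K l m x) (2 ^ K)

theorem ph_eq {K l m : ℕ} {s : ℤ} (hK : 2 ≤ K) (hl : l < K) (hs : (m : ℤ) ≡ s [ZMOD 2 ^ K])
    (x : ℕ) : ph K l m x =
      if dig (2 ^ l) 2 x = 0 then 1 else Complex.I * ee (s * (x % 2 ^ l : ℕ)) (2 ^ (l + 1)) := by
  unfold ph idx
  rw [pow_one]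
  change ee (((_ * dig (2 ^ l) 2 x) % 2 ^ K : ℕ) : ℤ) _ = _
  split_ifs with h
  · rw [h]; simp [ee_zero]
  · have h1 : dig (2 ^ l) 2 x = 1 := by have := dig_lt (n := 2) two_pos (2 ^ l) x; omega
    rw [h1, mul_one]
    have e1 : ee (2 ^ (K - 2)) (2 ^ K) = Complex.I := by
      have := ee_mul_mul 1 (c := 2 ^ (K - 2)) (by positivity) 4
      rw [ee_one_four] at this
      rw [← this]
      congr 1
      · push_cast; ring
      · rw [show K = K - 2 + 2 by omega, pow_add]; rfl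
    have e2 : ee (s * (x % 2 ^ l : ℕ) * 2 ^ (K - 1 - l)) (2 ^ K) =
        ee (s * (x % 2 ^ l : ℕ)) (2 ^ (l + 1)) := by
      rw [← ee_mul_mul _ (c := 2 ^ (K - 1 - l)) (by positivity) (2 ^ (l + 1)), ← pow_add]
      congr 1
      · push_cast; ring
      · congr 1; omega
    rw [← e1, ← e2, ← ee_add]
    refine ee_congr (by positivity) ?_
    push_cast
    exact (Int.mod_modEq _ _).trans
      (Int.ModEq.add_left _ ((hs.mul_right _).mul_right _))

/-- the matrix of a layer, as it is computed -/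
noncomputable def Lm (K l u v : ℕ) : ℕ → ℕ → ℂ :=
  mmul (2 ^ (K + 1)) (mdiag (ph K l v)) (mmul (2 ^ (K + 1))
    (msub (2 ^ l) 2 fun j k => ((CG j k : GaussianInt) : ℂ)) (mdiag (ph K l u)))

/-- a layer of the transform -/
noncomputable def Fl (s : ℤ) (l j k : ℕ) : ℂ :=
  if k / (2 ^ l * 2) = j / (2 ^ l * 2) ∧ k % 2 ^ l = j % 2 ^ l then
    ee (s * (dig (2 ^ l) 2 j * (k % (2 ^ l * 2)) : ℕ)) (2 ^ (l + 1)) else 0

/-- the product of the layers `l, …, K - 1` -/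
noncomputable def Pl (s : ℤ) (K l j k : ℕ) : ℂ :=
  if j / 2 ^ K = k / 2 ^ K ∧ j % 2 ^ l = k % 2 ^ l then
    ee (s * (brev (K - l) (j % 2 ^ K / 2 ^ l) * (k % 2 ^ K) : ℕ)) (2 ^ K) else 0

theorem mod_two_mul (l k : ℕ) : k % (2 ^ l * 2) = k % 2 ^ l + 2 ^ l * dig (2 ^ l) 2 k :=
  Nat.mod_mul

theorem dig_two (lo x : ℕ) : dig lo 2 x = 0 ∨ dig lo 2 x = 1 := by
  have := dig_lt (n := 2) two_pos lo x; omega

theorem Lm_fwd {K l : ℕ} (hK : 2 ≤ K) (hl : l < K) : MEq (2 ^ (K + 1)) (Lm K l 0 1) (Fl 1 l) := by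
  intro j hj k hk
  rw [Lm, mmul_diag_l hj, mmul_diag_r hk, ph_eq (s := 1) hK hl rfl, ph_eq (s := 0) hK hl rfl,
    msub, Fl, mod_two_mul, cast_CG]
  by_cases hc : k / (2 ^ l * 2) = j / (2 ^ l * 2) ∧ k % 2 ^ l = j % 2 ^ l
  · rw [if_pos hc, if_pos hc, hc.2]
    rcases dig_two (2 ^ l) j with h1 | h1 <;> rcases dig_two (2 ^ l) k with h2 | h2 <;>
      rw [h1, h2] <;> simp [ee_zero, ee_add, ee_half]
    · ring_nf; simp
    · ring_nf; simp
  · rw [if_neg hc, if_neg hc]; simp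

theorem Lm_bwd {K l : ℕ} (hK : 2 ≤ K) (hl : l < K) :
    MEq (2 ^ (K + 1)) (Lm K l (2 ^ K - 1) 0) (fun j k => Fl (-1) l k j) := by
  intro j hj k hk
  have hs : ((2 ^ K - 1 : ℕ) : ℤ) ≡ -1 [ZMOD 2 ^ K] := by
    rw [Nat.cast_sub Nat.one_le_two_pow]
    push_cast
    exact (Int.modEq_iff_dvd.2 ⟨-1, by ring⟩)
  beta_reduce
  rw [Lm, mmul_diag_l hj, mmul_diag_r hk, ph_eq (s := 0) hK hl rfl, ph_eq hK hl hs,
    msub, Fl, mod_two_mul, cast_CG]
  by_cases hc : k / (2 ^ l * 2) = j / (2 ^ l * 2) ∧ k % 2 ^ l = j % 2 ^ l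
  · rw [if_pos hc, if_pos (And.intro hc.1.symm hc.2.symm), hc.2]
    rcases dig_two (2 ^ l) j with h1 | h1 <;> rcases dig_two (2 ^ l) k with h2 | h2 <;>
      rw [h1, h2] <;> simp [ee_zero, ee_add, ee_half, ee_neg]
    · ring_nf; simp
    · ring_nf; simp
  · rw [if_neg hc, if_neg fun h : _ ∧ _ => hc ⟨h.1.symm, h.2.symm⟩]; simp

theorem Pl_top (s : ℤ) (K j k : ℕ) : Pl s K K j k = mone j k := by
  unfold Pl mone
  simp only [Nat.sub_self, brev, zero_mul, Nat.cast_zero, mul_zero, ee_zero]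
  refine if_congr ⟨fun h => ?_, fun h => by simp [h]⟩ rfl rfl
  rw [← Nat.div_add_mod j (2 ^ K), h.1, h.2, Nat.div_add_mod]

theorem Pl_zero_fwd (K j k : ℕ) : Pl 1 K 0 j k = FM K j k := by
  simp [Pl, FM, Nat.mod_one]

theorem Pl_zero_bwd (K j k : ℕ) : Pl (-1) K 0 k j = BM K j k := by
  simp [Pl, BM, Nat.mod_one, eq_comm]

theorem Pl_step (s : ℤ) {K l : ℕ} (hl : l < K) :
    MEq (2 ^ (K + 1)) (mmul (2 ^ (K + 1)) (Fl s l) (Pl s K (l + 1))) (Pl s K l) := by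
  intro j hj k _
  obtain ⟨d, rfl⟩ : ∃ d, K = l + 1 + d := ⟨K - (l + 1), by omega⟩
  have hL : 0 < 2 ^ l * 2 := by positivity
  have e1 : 2 ^ (l + 1) = 2 ^ l * 2 := pow_succ _ _
  have e2 : 2 ^ (l + 1 + d) = 2 ^ l * 2 * 2 ^ d := by rw [pow_add, e1]
  set m := j / (2 ^ l * 2) * (2 ^ l * 2) + k % (2 ^ l * 2) with hm
  have m1 : m / (2 ^ l * 2) = j / (2 ^ l * 2) := by
    rw [hm, Nat.add_comm, Nat.add_mul_div_right _ _ hL, Nat.div_eq_of_lt (Nat.mod_lt _ hL),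
      zero_add]
  have m2 : m % (2 ^ l * 2) = k % (2 ^ l * 2) := mod_mk _ (Nat.mod_lt _ hL)
  have m3 : m % 2 ^ l = k % 2 ^ l := by
    rw [← Nat.mod_mul_right_mod m (2 ^ l) 2, m2, Nat.mod_mul_right_mod]
  have m4 : m / 2 ^ (l + 1 + d) = j / 2 ^ (l + 1 + d) := by
    rw [e2, ← Nat.div_div_eq_div_mul, m1, Nat.div_div_eq_div_mul]
  have m5 : m < 2 ^ (l + 1 + d + 1) := by
    have h1 : j / 2 ^ (l + 1 + d) < 2 := by
      rw [Nat.div_lt_iff_lt_mul (by positivity), mul_comm, ← pow_succ]; exact hj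
    rw [← m4, Nat.div_lt_iff_lt_mul (by positivity), mul_comm, ← pow_succ] at h1
    exact h1
  have m6 : m % 2 ^ (l + 1 + d) / 2 ^ (l + 1) = j % 2 ^ (l + 1 + d) / 2 ^ (l + 1) := by
    rw [e2, e1, Nat.mod_mul_right_div_self, Nat.mod_mul_right_div_self, m1]
  rw [mmul, sum_eq_single_of_mem m (mem_range.2 m5)]
  · unfold Fl Pl
    rw [m1, m2, m3, m4, m6, e1, m2]
    by_cases c1 : k % 2 ^ l = j % 2 ^ l
    · by_cases c2 : j / 2 ^ (l + 1 + d) = k / 2 ^ (l + 1 + d)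
      · rw [if_pos ⟨rfl, c1⟩, if_pos ⟨c2, rfl⟩, if_pos ⟨c2, c1.symm⟩]
        rw [show l + 1 + d - l = d + 1 by omega, show l + 1 + d - (l + 1) = d by omega, brev,
          Nat.div_div_eq_div_mul]
        have h1 : j % 2 ^ (l + 1 + d) / 2 ^ l % 2 = dig (2 ^ l) 2 j := by
          rw [e2, mul_assoc, Nat.mod_mul_right_div_self, Nat.mod_mul_right_mod, dig]
        rw [h1, add_mul, Nat.cast_add, mul_add, ee_add]
        congr 1
        rw [← ee_mul_mul _ (c := 2 ^ d) (by positivity) (2 ^ l * 2), mul_comm (2 ^ d) (2 ^ l * 2),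
          ← e2]
        refine ee_congr (by positivity) ?_
        have h2 : k % (2 ^ l * 2) ≡ k % 2 ^ (l + 1 + d) [MOD 2 ^ l * 2] := by
          unfold Nat.ModEq
          rw [e2, Nat.mod_mul_right_mod, Nat.mod_mod]
        obtain ⟨c, hc⟩ := (Int.natCast_modEq_iff.2 h2).dvd
        refine Int.modEq_iff_dvd.2 ⟨s * dig (2 ^ l) 2 j * c, ?_⟩
        rw [e2]
        rw [e2] at hc
        push_cast at hc ⊢
        linear_combination (s * dig (2 ^ l) 2 j * 2 ^ d) * hc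
      · rw [if_neg (fun h : _ ∧ _ => c2 h.1), if_neg (fun h : _ ∧ _ => c2 h.1), mul_zero]
    · rw [if_neg (fun h : _ ∧ _ => c1 h.2), zero_mul, if_neg (fun h : _ ∧ _ => c1 h.2.symm)]
  · intro b _ hb
    unfold Fl Pl
    by_cases c1 : b / (2 ^ l * 2) = j / (2 ^ l * 2)
    · rw [if_neg (c := _ ∧ b % 2 ^ (l + 1) = _), mul_zero]
      rintro ⟨-, c2⟩
      rw [e1] at c2
      exact hb (by rw [hm, ← c1, ← c2, Nat.div_add_mod'])
    · rw [if_neg (fun h : _ ∧ _ => c1 h.1), zero_mul]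

theorem Pl_step' (s : ℤ) {K l : ℕ} (hl : l < K) :
    MEq (2 ^ (K + 1)) (mmul (2 ^ (K + 1)) (fun j k => Pl s K (l + 1) k j) (fun j k => Fl s l k j))
      (fun j k => Pl s K l k j) := by
  intro j hj k hk
  beta_reduce
  rw [← Pl_step s hl k hk j hj]
  exact sum_congr rfl fun _ _ => mul_comm _ _

/-- the states of the loop -/
noncomputable def seqL (l0 K a : ℕ) (L U V : ℕ → ℕ) (x : ℕ → ℂ) : ℕ → ℕ → ℂ
  | 0 => x
  | i + 1 => liftS l0 (2 * K - 2) (2 ^ (K + 1)) (fun _ => Lm K (L i) (U i) (V i)) a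
      (seqL l0 K a L U V x i)

theorem seqL_fwd {K : ℕ} (hK : 3 ≤ K) (l0 a : ℕ) (x : ℕ → ℂ) :
    seqL l0 K a (fun i => K - 1 - i) (fun _ => 0) (fun _ => 1) x K =
      liftS l0 (2 * K - 2) (2 ^ (K + 1)) (fun _ => FM K) a x := by
  have hd : 2 ^ (K + 1) ∣ 2 ^ (2 * K - 2) := two_pow_dvd (by omega)
  have key : ∀ i ≤ K, seqL l0 K a (fun i => K - 1 - i) (fun _ => 0) (fun _ => 1) x i =
      liftS l0 (2 * K - 2) (2 ^ (K + 1)) (fun _ => Pl 1 K (K - i)) a x := by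
    intro i
    induction i with
    | zero =>
      intro _
      rw [Nat.sub_zero, liftS_congr (N := fun _ => mone) (fun _ _ j _ k _ => Pl_top 1 K j k),
        liftS_mone (by positivity)]
      rfl
    | succ i ih =>
      intro hi
      rw [seqL, ih (by omega),
        liftS_congr (N := fun _ => Fl 1 (K - 1 - i)) fun _ _ => Lm_fwd (by omega) (by omega),
        liftS_liftS hd, show K - i = K - 1 - i + 1 by omega, show K - (i + 1) = K - 1 - i by omega]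
      exact liftS_congr (fun _ _ => Pl_step 1 (by omega)) x
  rw [key K le_rfl, Nat.sub_self]
  exact liftS_congr (fun _ _ j _ k _ => Pl_zero_fwd K j k) x

theorem seqL_bwd {K : ℕ} (hK : 3 ≤ K) (l0 a : ℕ) (x : ℕ → ℂ) :
    seqL l0 K a (fun i => i) (fun _ => 2 ^ K - 1) (fun _ => 0) x K =
      liftS l0 (2 * K - 2) (2 ^ (K + 1)) (fun _ => BM K) a x := by
  have hd : 2 ^ (K + 1) ∣ 2 ^ (2 * K - 2) := two_pow_dvd (by omega)
  have key : ∀ i ≤ K, liftS l0 (2 * K - 2) (2 ^ (K + 1)) (fun _ j k => Pl (-1) K i k j) a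
      (seqL l0 K a (fun i => i) (fun _ => 2 ^ K - 1) (fun _ => 0) x i) =
      liftS l0 (2 * K - 2) (2 ^ (K + 1)) (fun _ => BM K) a x := by
    intro i
    induction i with
    | zero => exact fun _ => liftS_congr (fun _ _ j _ k _ => Pl_zero_bwd K j k) x
    | succ i ih =>
      intro hi
      rw [seqL, liftS_congr (M := fun _ => Lm K i (2 ^ K - 1) 0)
          (N := fun _ j k => Fl (-1) i k j) fun _ _ => Lm_bwd (by omega) (by omega),
        liftS_liftS hd, ← ih (by omega)]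
      exact liftS_congr (fun _ _ => Pl_step' (-1) (by omega)) _
  rw [← key K le_rfl, liftS_congr (N := fun _ => mone), liftS_mone (by positivity)]
  intro _ _ j _ k _
  beta_reduce
  rw [Pl_top]
  simp [mone, eq_comm]

theorem window {w M lo n G : ℕ} (hlo : 0 < lo) (hw : w < M * (lo * n))
    (h : dig lo n w + 1 + G ≤ n) : w + G ≤ M * (lo * n) := by
  have hn : 0 < n := by omega
  have h1 := addr_eq lo n w
  have h2 : w / (lo * n) + 1 ≤ M := (Nat.div_lt_iff_lt_mul (by positivity)).2 hw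
  have h3 := Nat.mod_lt w hlo
  generalize w / (lo * n) = q at *
  generalize dig lo n w = d at *
  generalize w % lo = r at *
  have h4 : G ≤ G * lo := Nat.le_mul_of_pos_right _ hlo
  calc w + G ≤ (q * n + (d + 1 + G)) * lo := by rw [h1]; nlinarith
    _ ≤ (q * n + n) * lo := by gcongr
    _ = (q + 1) * (lo * n) := by ring
    _ ≤ M * (lo * n) := by gcongr

theorem okH_of_okPh {l0 K a g l b : ℕ} (hK : 3 ≤ K) (hl : l < K) (h : okPh l0 K a g b) :
    okH (l0 + l) (2 * K - 2) a g b := by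
  intro j hj
  have h1 := h j hj
  have e : 2 ^ (2 * K - 2 - 1) = 2 ^ l * (2 ^ (K - l) * 2 ^ (K - 3)) := by
    rw [← pow_add, ← pow_add]; congr 1; omega
  have h2 := dig_lt (n := 2 ^ (2 * K - 2 - 1)) (by positivity)
    (2 ^ (l0 + l + (2 * K - 2) * j + 1)) b
  have h3 := dig_dig (m := 2 ^ (K - l)) (r := 2 ^ (K - 3)) (n := 2 ^ (2 * K - 2 - 1))
    (two_pow_mul_dvd (by omega)) (2 ^ (l0 + l + (2 * K - 2) * j + 1)) b
  rw [← pow_add, show l0 + l + (2 * K - 2) * j + 1 + (K - l) = l0 + (2 * K - 2) * j + K + 1 by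
    omega] at h3
  rw [← h3] at h1
  exact (window (by positivity) (h2.trans_eq e) h1).trans_eq e.symm

end Crest.Agent.R326.Fft
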