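import Crest.Agent.R326.SpecB

/-!
# The recursion for layers of square roots of translations, part A: bits, masks, group algebra
-/

set_option autoImplicit false

namespace Crest.Agent.R326

namespace Hr

open Finset

/-! ### natural numbers with the exclusive or -/

/-- the natural numbers with the exclusive or as addition -/
def Xn : Type := ℕ

/-- the underlying number -/
def Xn.val (a : Xn) : ℕ := a
/-- a number as an element of `Xn` -/
def Xn.of (a : ℕ) : Xn := a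

instance : Zero Xn := ⟨Xn.of 0⟩
instance : Add Xn := ⟨fun a b => Xn.of (a.val ^^^ b.val)⟩
instance : Neg Xn := ⟨fun a => a⟩

instance : AddCommGroup Xn where
  add_assoc a b c := Nat.xor_assoc a.val b.val c.val
  zero_add a := Nat.zero_xor a.val
  add_zero a := Nat.xor_zero a.val
  add_comm a b := Nat.xor_comm a.val b.val
  neg_add_cancel a := Nat.xor_self a.val
  nsmul := nsmulRec
  zsmul := zsmulRec

@[simp] theorem Xn.val_add (a b : Xn) : (a + b).val = a.val ^^^ b.val := rfl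
@[simp] theorem Xn.val_zero : (0 : Xn).val = 0 := rfl
@[simp] theorem Xn.val_of (a : ℕ) : (Xn.of a).val = a := rfl
theorem Xn.add_self (a : Xn) : a + a = 0 := Nat.xor_self a.val
theorem Xn.ext {a b : Xn} (h : a.val = b.val) : a = b := h

/-- a single bit -/
def bx (p : ℕ) : Xn := Xn.of (2 ^ p)

@[simp] theorem val_bx (p : ℕ) : (bx p).val = 2 ^ p := rfl

theorem add_eq_xor {a p : ℕ} (h : a < 2 ^ p) : a + 2 ^ p = a ^^^ 2 ^ p := by
  apply Nat.eq_of_testBit_eq
  intro t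
  have := Nat.testBit_two_pow_mul_add 1 h t
  rw [mul_one, add_comm] at this
  rw [this, Nat.testBit_xor, Nat.testBit_two_pow]
  split_ifs with ht
  · simp [ht.ne']
  · rw [Nat.testBit_lt_two_pow (h.trans_le (Nat.pow_le_pow_right (by norm_num) (not_lt.1 ht))),
      Bool.false_xor, ← pow_zero 2, Nat.testBit_two_pow]
    congr 1
    exact propext (by omega)

theorem xmask_eq {py pz σ md a : ℕ} (hσ : 1 ≤ σ) (l : ℕ) :
    xmask py pz σ l md a < 2 ^ (py + σ * l) ∧ xmask py pz σ l md a =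
      (∑ j ∈ range l, if md = 1 ∨ a.testBit (pz + σ * j) then bx (py + σ * j) else 0).val := by
  induction l with
  | zero => simp [xmask]
  | succ l ih =>
    have h1 : 2 ^ (py + σ * l) * 2 ≤ 2 ^ (py + σ * (l + 1)) := by
      rw [← pow_succ]
      exact Nat.pow_le_pow_right (by norm_num) (by rw [Nat.mul_succ]; omega)
    have h2 : xmask py pz σ (l + 1) md a = xmask py pz σ l md a +
        if md = 1 ∨ a.testBit (pz + σ * l) then 2 ^ (py + σ * l) else 0 := by
      rw [xmask, sum_range_succ, ← xmask]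
      congr 1
      by_cases h : md = 1
      · simp [h]
      · rw [if_neg h, dig, ← Nat.toNat_testBit]
        cases a.testBit (pz + σ * l) <;> simp [h]
    rw [h2, sum_range_succ, Xn.val_add, ← ih.2]
    split_ifs
    · exact ⟨by omega, add_eq_xor ih.1⟩
    · exact ⟨by omega, by simp⟩

theorem xmask_xor {py pz σ l : ℕ} (hσ : 1 ≤ σ) (a b : ℕ) :
    xmask py pz σ l 0 (a ^^^ b) = xmask py pz σ l 0 a ^^^ xmask py pz σ l 0 b := by
  rw [(xmask_eq hσ l).2, (xmask_eq hσ l).2, (xmask_eq hσ l).2, ← Xn.val_add, ← sum_add_distrib]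
  congr 1
  refine sum_congr rfl fun j _ => ?_
  rw [Nat.testBit_xor]
  cases a.testBit (pz + σ * j) <;> cases b.testBit (pz + σ * j) <;> simp [Xn.add_self]

theorem xmask_single {py pz σ l j μ : ℕ} (hσ : 1 ≤ σ) (hj : j < l)
    (h : ∀ j' < l, μ.testBit (pz + σ * j') = decide (j = j')) :
    xmask py pz σ l 0 μ = 2 ^ (py + σ * j) := by
  rw [(xmask_eq hσ l).2, sum_eq_single j]
  · simp [h j hj]
  · intro j' hj' hne
    simp [h j' (mem_range.1 hj'), hne.symm]
  · intro h; exact absurd (mem_range.2 hj) h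

theorem xmask_small {py pz σ l μ : ℕ} (hσ : 1 ≤ σ) (h : μ < 2 ^ pz) :
    xmask py pz σ l 0 μ = 0 := by
  rw [(xmask_eq hσ l).2, sum_eq_zero, Xn.val_zero]
  intro j _
  simp [Nat.testBit_lt_two_pow (h.trans_le (Nat.pow_le_pow_right (by norm_num)
    (Nat.le_add_right pz (σ * j))))]

theorem xmask_one {py pz σ l : ℕ} (hσ : 1 ≤ σ) (a : ℕ) :
    xmask py pz σ l 1 a = (∑ j ∈ range l, bx (py + σ * j)).val := by
  rw [(xmask_eq hσ l).2]; simp

/-! ### masks made of selected bits -/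

/-- only the bits `p0 + σ * j`, `j < l`, occur in `μ` -/
def Sel (p0 σ l μ : ℕ) : Prop := ∀ t, μ.testBit t = true → ∃ j < l, t = p0 + σ * j

theorem Sel.zero (p0 σ l : ℕ) : Sel p0 σ l 0 := fun t ht => by simp at ht

theorem Sel.xor {p0 σ l μ ν : ℕ} (h : Sel p0 σ l μ) (h' : Sel p0 σ l ν) : Sel p0 σ l (μ ^^^ ν) := by
  intro t ht
  rw [Nat.testBit_xor] at ht
  by_cases h1 : μ.testBit t = true
  · exact h t h1
  · exact h' t (by simpa [h1] using ht)

theorem Sel.bit {p0 σ l j : ℕ} (hj : j < l) : Sel p0 σ l (2 ^ (p0 + σ * j)) := by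
  intro t ht
  rw [Nat.testBit_two_pow, decide_eq_true_eq] at ht
  exact ⟨j, hj, ht.symm⟩

theorem blk_lt {l' m l i j : ℕ} (hl : l' * m ≤ l) (hi : i < m) (hj : j < l') : l' * i + j < l :=
  calc l' * i + j < l' * i + l' := by omega
    _ = l' * (i + 1) := by ring
    _ ≤ l' * m := Nat.mul_le_mul_left _ hi
    _ ≤ l := hl

theorem Sel.blk {p0 σ l l' m i j : ℕ} (hl : l' * m ≤ l) (hi : i < m) (hj : j < l') :
    Sel p0 σ l (2 ^ (p0 + σ * l' * i + σ * j)) := by
  rw [show p0 + σ * l' * i + σ * j = p0 + σ * (l' * i + j) by ring]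
  exact Sel.bit (blk_lt hl hi hj)

theorem Sel.xmask {p0 σ l l' m i pz md a : ℕ} (hσ : 1 ≤ σ) (hl : l' * m ≤ l) (hi : i < m) :
    Sel p0 σ l (xmask (p0 + σ * l' * i) pz σ l' md a) := by
  rw [(xmask_eq hσ l').2]
  refine sum_induction _ (fun x : Xn => Sel p0 σ l x.val) (fun a b ha hb => ha.xor hb)
    (Sel.zero _ _ _) fun j hj => ?_
  split_ifs
  · exact Sel.blk hl hi (mem_range.1 hj)
  · exact Sel.zero _ _ _

theorem Sel.lt {p0 σ l lt μ : ℕ} (h : Sel p0 σ l μ) (hσ : 1 ≤ σ) (hlt : p0 + σ * l ≤ lt) :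
    μ < 2 ^ lt := by
  refine Nat.lt_pow_two_of_testBit _ fun t ht => ?_
  by_contra h1
  obtain ⟨j, hj, rfl⟩ := h t (by simpa using h1)
  have := Nat.mul_le_mul_left σ (Nat.succ_le_of_lt hj)
  rw [Nat.mul_succ] at this
  omega

theorem dig_xor {s k μ : ℕ} (a : ℕ) (h : ∀ t < k, μ.testBit (t + s) = false) :
    dig (2 ^ s) (2 ^ k) (a ^^^ μ) = dig (2 ^ s) (2 ^ k) a := by
  apply Nat.eq_of_testBit_eq
  intro t
  simp only [dig, Nat.testBit_mod_two_pow, Nat.testBit_div_two_pow, Nat.testBit_xor]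
  by_cases ht : t < k
  · simp [h t ht]
  · simp [ht]

theorem okP_xor {p0 σ l g lt a μ : ℕ} (hσ : 1 ≤ σ) (hlt : p0 + σ * l ≤ lt) (h : Sel p0 σ l μ)
    (ha : okP p0 σ l g lt a) : okP p0 σ l g lt (a ^^^ μ) := by
  intro j hj
  rw [dig_xor, dig_xor]
  · exact ha j hj
  · intro t ht
    by_contra h1
    obtain ⟨j', hj', e⟩ := h _ (by simpa using h1)
    rcases le_or_gt j' j with h2 | h2
    · have := Nat.mul_le_mul_left σ h2
      omega
    · have := Nat.mul_le_mul_left σ (Nat.succ_le_of_lt h2)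
      rw [Nat.mul_succ] at this
      omega
  · intro t _
    exact Nat.testBit_lt_two_pow ((h.lt hσ hlt).trans_le
      (Nat.pow_le_pow_right (by norm_num) (by omega)))

theorem okP_blk {p0 σ l l' m g lt a i : ℕ} (hl : l' * m ≤ l) (hi : i < m)
    (ha : okP p0 σ l g lt a) : okP (p0 + σ * l' * i) σ l' g lt a := by
  intro j hj
  have h1 := blk_lt hl hi hj
  refine ⟨(ha j (by omega)).1, ?_⟩
  rw [show p0 + σ * l' * i + σ * j = p0 + σ * (l' * i + j) by ring]
  exact (ha _ h1).2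

theorem okP_add {p0 σ l g lt a c : ℕ} (hσ : 1 ≤ σ) (hlt : p0 + σ * l ≤ lt)
    (hc : 2 ^ (lt + g * l) ∣ c) (ha : okP p0 σ l g lt (c + a)) : okP p0 σ l g lt a := by
  intro j hj
  have h1 := ha j hj
  have h2 := Nat.mul_le_mul_left σ (Nat.succ_le_of_lt hj)
  have h3 := Nat.mul_le_mul_left g (Nat.succ_le_of_lt hj)
  rw [Nat.mul_succ] at h2 h3
  rwa [dig_add_of_dvd ((two_pow_mul_dvd (by omega)).trans hc),
    dig_add_of_dvd ((two_pow_mul_dvd (by omega)).trans hc)] at h1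

theorem add_xor {L c μ : ℕ} (hc : 2 ^ L ∣ c) (hμ : μ < 2 ^ L) (a : ℕ) :
    (c + a) ^^^ μ = c + (a ^^^ μ) := by
  obtain ⟨d, rfl⟩ := hc
  have hp : 0 < 2 ^ L := by positivity
  rw [← Nat.div_add_mod ((2 ^ L * d + a) ^^^ μ) (2 ^ L), ← Nat.div_add_mod (a ^^^ μ) (2 ^ L),
    Nat.xor_div_two_pow, Nat.xor_div_two_pow, Nat.xor_mod_two_pow, Nat.xor_mod_two_pow,
    Nat.div_eq_of_lt hμ, Nat.xor_zero, Nat.xor_zero, Nat.mul_add_div hp, Nat.mul_add_mod]
  ring

theorem xor_lt {L V a μ : ℕ} (hV : 2 ^ L ∣ V) (hμ : μ < 2 ^ L) (ha : a < V) : a ^^^ μ < V := by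
  obtain ⟨d, rfl⟩ := hV
  have hp : 0 < 2 ^ L := by positivity
  rw [mul_comm, ← Nat.div_lt_iff_lt_mul hp] at ha ⊢
  rwa [Nat.xor_div_two_pow, Nat.div_eq_of_lt hμ, Nat.xor_zero]

/-! ### products of square roots of translations -/

/-- the product of the operators `gamOp` for the masks `M j`, `j < l` -/
def gamM (h : ℕ) (M : ℕ → ℕ) : ℕ → (ℕ → ZMod (Qm h)) → ℕ → ZMod (Qm h)
  | 0, x => x
  | l + 1, x => gamOp h (M l) (gamM h M l x)

theorem gamS_eq (h p0 σ l : ℕ) (x : ℕ → ZMod (Qm h)) :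
    gamS h p0 σ l x = gamM h (fun j => 2 ^ (p0 + σ * j)) l x := by
  induction l with
  | zero => rfl
  | succ l ih => rw [gamS, gamM, ih]

theorem gamM_transfer {h l : ℕ} (S : ℕ → Prop) (φ : ℕ → ℕ) {M M' : ℕ → ℕ}
    (hS : ∀ j < l, ∀ a, S a → S (a ^^^ M j))
    (hφ : ∀ j < l, ∀ a, S a → φ (a ^^^ M j) = φ a ^^^ M' j) {f F : ℕ → ZMod (Qm h)}
    (hf : ∀ a, S a → f a = F (φ a)) : ∀ a, S a → gamM h M l f a = gamM h M' l F (φ a) := by
  induction l with
  | zero => exact hf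
  | succ l ih =>
    intro a ha
    have ih' := ih (fun j hj => hS j (by omega)) (fun j hj => hφ j (by omega))
    simp only [gamM, gamOp]
    rw [ih' a ha, ih' _ (hS l (by omega) a ha), hφ l (by omega) a ha]

/-- the group algebra -/
abbrev GA (h : ℕ) : Type := AddMonoidAlgebra (ZMod (Qm h)) Xn

/-- translation of arrays -/
def shiftHom (h : ℕ) : Multiplicative Xn →* Module.End (ZMod (Qm h)) (ℕ → ZMod (Qm h)) where
  toFun w :=
    { toFun := fun x a => x (a ^^^ w.toAdd.val)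
      map_add' := fun _ _ => rfl
      map_smul' := fun _ _ => rfl }
  map_one' := by ext x a; simp
  map_mul' w w' := by ext x a; simp [Nat.xor_assoc]

/-- the action of the group algebra on arrays -/
noncomputable def act (h : ℕ) :
    GA h →ₐ[ZMod (Qm h)] Module.End (ZMod (Qm h)) (ℕ → ZMod (Qm h)) :=
  AddMonoidAlgebra.lift (ZMod (Qm h)) _ Xn (shiftHom h)

theorem act_single (h : ℕ) (w : Xn) (c : ZMod (Qm h)) (x : ℕ → ZMod (Qm h)) (a : ℕ) :
    act h (AddMonoidAlgebra.single w c) x a = c * x (a ^^^ w.val) := by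
  simp [act, shiftHom]

/-- translation element -/
noncomputable def tauX (h : ℕ) (w : Xn) : GA h := AddMonoidAlgebra.single w 1

/-- its square root -/
noncomputable def gamX (h : ℕ) (w : Xn) : GA h :=
  AddMonoidAlgebra.single 0 (alQ h) + AddMonoidAlgebra.single w (beQ h)

theorem tauX_add (h : ℕ) (w w' : Xn) : tauX h (w + w') = tauX h w * tauX h w' := by
  simp [tauX, AddMonoidAlgebra.single_mul_single]

theorem tauX_zero (h : ℕ) : tauX h 0 = 1 := rfl

theorem tauX_sq (h : ℕ) (w : Xn) : tauX h w ^ 2 = 1 := by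
  rw [pow_two, ← tauX_add, Xn.add_self, tauX_zero]

theorem tauX_sum (h : ℕ) {ι : Type} (s : Finset ι) (w : ι → Xn) :
    ∏ i ∈ s, tauX h (w i) = tauX h (∑ i ∈ s, w i) := by
  classical
  induction s using Finset.induction_on with
  | empty => rfl
  | insert i s hi ih => rw [prod_insert hi, sum_insert hi, ih, tauX_add]

theorem act_tauX (h : ℕ) (w : Xn) (x : ℕ → ZMod (Qm h)) :
    act h (tauX h w) x = fun a => x (a ^^^ w.val) := by
  funext a; simp [tauX, act_single]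

theorem act_gamX (h : ℕ) (w : Xn) (x : ℕ → ZMod (Qm h)) :
    act h (gamX h w) x = gamOp h w.val x := by
  funext a; simp [gamX, act_single, gamOp]

theorem act_prod_gamX (h : ℕ) (M : ℕ → Xn) (l : ℕ) (x : ℕ → ZMod (Qm h)) :
    act h (∏ j ∈ range l, gamX h (M j)) x = gamM h (fun j => (M j).val) l x := by
  induction l with
  | zero => simp [gamM]
  | succ l ih => rw [prod_range_succ_comm, map_mul, Module.End.mul_apply, ih, act_gamX, gamM]

theorem gamX_zero {h : ℕ} (hh : 1 ≤ h) : gamX h 0 = 1 := by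
  have : alQ h + beQ h = 1 := by rw [← two_mul_hfQ hh, alQ, beQ]; ring
  rw [gamX, ← AddMonoidAlgebra.single_add, this]; rfl

theorem gamX_eq (h : ℕ) (w : Xn) : gamX h w = algebraMap _ (GA h) (hfQ h) *
    ((1 + algebraMap _ (GA h) (IQ h)) + (1 - algebraMap _ (GA h) (IQ h)) * tauX h w) := by
  have h1 : (AddMonoidAlgebra.single 0 (alQ h) : GA h) = algebraMap _ (GA h) (alQ h) := rfl
  have h2 : (AddMonoidAlgebra.single w (beQ h) : GA h) =
      algebraMap _ (GA h) (beQ h) * tauX h w := by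
    have : algebraMap _ (GA h) (beQ h) = AddMonoidAlgebra.single 0 (beQ h) := rfl
    rw [this, tauX, AddMonoidAlgebra.single_mul_single]; simp
  rw [gamX, h1, h2, alQ, beQ]
  simp only [map_mul, map_add, map_sub, map_one]
  ring

theorem IQ_sq (h : ℕ) : algebraMap _ (GA h) (IQ h) ^ 2 = -1 := by
  rw [← map_pow, pow_two, IQ_mul_self, map_neg, map_one]

theorem gamX_mul_self {h : ℕ} (hh : 1 ≤ h) (w : Xn) : gamX h w * gamX h w = tauX h w := by
  rw [gamX_eq]
  have hi := IQ_sq h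
  have ht := tauX_sq h w
  have hH : 2 * algebraMap _ (GA h) (hfQ h) = 1 := by
    rw [← map_ofNat (algebraMap (ZMod (Qm h)) (GA h)) 2, ← map_mul, two_mul_hfQ hh, map_one]
  generalize algebraMap _ (GA h) (IQ h) = i at *
  generalize algebraMap _ (GA h) (hfQ h) = H at *
  generalize tauX h w = T at *
  linear_combination H ^ 2 * (2 - 2 * T) * hi + H ^ 2 * (1 - i) ^ 2 * ht + T * (2 * H + 1) * hH

theorem ring_rel4 {K : Type} [CommRing K] (i A B D E : K) (hi : i ^ 2 = -1) (hA : A ^ 2 = 1)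
    (hB : B ^ 2 = 1) (hD : D ^ 2 = 1) (hE : E ^ 2 = 1) :
    (1 + i + (1 - i) * (A * B * D)) * (1 + i + (1 - i) * (A * B * E)) *
      (1 + i + (1 - i) * (A * D * E)) * (1 + i + (1 - i) * (B * D * E)) =
    A * B * D * E * ((1 + i + (1 - i) * A) * (1 + i + (1 - i) * B) *
      (1 + i + (1 - i) * D) * (1 + i + (1 - i) * E)) := by
  grind

theorem gamX_rel4 (h : ℕ) (a b d e : Xn) :
    gamX h (a + b + d) * gamX h (a + b + e) * gamX h (a + d + e) * gamX h (b + d + e) =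
      tauX h (a + b + d + e) * (gamX h a * gamX h b * gamX h d * gamX h e) := by
  simp only [gamX_eq, tauX_add]
  linear_combination (algebraMap _ (GA h) (hfQ h)) ^ 4 *
    ring_rel4 _ _ _ _ _ (IQ_sq h) (tauX_sq h a) (tauX_sq h b) (tauX_sq h d) (tauX_sq h e)

/-! ### the generators of the network -/

/-- the `j`-th bits of the blocks selected by `z` -/
def mask {m : ℕ} (p0 σ l : ℕ) (z : Fin m → ZMod 2) (j : ℕ) : Xn :=
  ∑ i : Fin m, if z i = 1 then bx (p0 + σ * l * i + σ * j) else 0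

theorem mask_add {m : ℕ} (p0 σ l : ℕ) (z z' : Fin m → ZMod 2) (j : ℕ) :
    mask p0 σ l (z + z') j = mask p0 σ l z j + mask p0 σ l z' j := by
  simp only [mask, ← sum_add_distrib, Pi.add_apply]
  refine sum_congr rfl fun i _ => ?_
  have : ∀ (u v : ZMod 2) (x : Xn), (if u + v = 1 then x else 0) =
      (if u = 1 then x else 0) + (if v = 1 then x else 0) := by
    intro u v x
    have h1 : ∀ u : ZMod 2, u = 0 ∨ u = 1 := by decide
    have h2 : (1 : ZMod 2) + 1 ≠ 1 := by decide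
    rcases h1 u with rfl | rfl <;> rcases h1 v with rfl | rfl <;> simp [Xn.add_self, h2]
  exact this _ _ _

theorem mask_zero {m : ℕ} (p0 σ l j : ℕ) : mask p0 σ l (0 : Fin m → ZMod 2) j = 0 := by
  simp [mask]

theorem mask_single {m : ℕ} (p0 σ l : ℕ) (i : Fin m) (j : ℕ) :
    mask p0 σ l (Pi.single i 1) j = bx (p0 + σ * (l * i + j)) := by
  rw [mask, sum_eq_single i]
  · simp only [Pi.single_eq_same, if_true]; congr 1; ring
  · intro b _ hb; simp [hb]
  · simp

/-- the square-root generators -/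
noncomputable def gamZ {m : ℕ} (h p0 σ l : ℕ) (z : Fin m → ZMod 2) : GA h :=
  ∏ j ∈ range l, gamX h (mask p0 σ l z j)

/-- the translation generators -/
noncomputable def tauZ {m : ℕ} (h p0 σ l : ℕ) (z : Fin m → ZMod 2) : GA h :=
  ∏ j ∈ range l, tauX h (mask p0 σ l z j)

theorem prod_blocks {M : Type} [CommMonoid M] (f : ℕ → M) (l m : ℕ) :
    ∏ i ∈ range m, ∏ j ∈ range l, f (l * i + j) = ∏ k ∈ range (l * m), f k := by
  induction m with
  | zero => simp
  | succ m ih => rw [prod_range_succ, ih, Nat.mul_succ, prod_range_add]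

/-- the operators of the generators -/
noncomputable def rhoG {m : ℕ} (h p0 σ l : ℕ) (g : (Fin m → ZMod 2) ⊕ (Fin m → ZMod 2))
    (x : ℕ → ZMod (Qm h)) : ℕ → ZMod (Qm h) :=
  act h (Sum.elim (gamZ h p0 σ l) (tauZ h p0 σ l) g) x

theorem rhoG_inl {m : ℕ} (h p0 σ l : ℕ) (z : Fin m → ZMod 2) (x : ℕ → ZMod (Qm h)) :
    rhoG h p0 σ l (Sum.inl z) x = gamM h (fun j => (mask p0 σ l z j).val) l x :=
  act_prod_gamX h _ l x

theorem rhoG_inl_zero {m h : ℕ} (hh : 1 ≤ h) (p0 σ l : ℕ) (x : ℕ → ZMod (Qm h)) :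
    rhoG h p0 σ l (Sum.inl (0 : Fin m → ZMod 2)) x = x := by
  simp [rhoG, gamZ, mask_zero, gamX_zero hh]

theorem rhoG_inr {m : ℕ} (h p0 σ l : ℕ) (z : Fin m → ZMod 2) (x : ℕ → ZMod (Qm h)) :
    rhoG h p0 σ l (Sum.inr z) x = fun a => x (a ^^^ (∑ i ∈ univ.filter (fun i => z i = 1),
      ∑ j ∈ range l, bx (p0 + σ * l * i + σ * j)).val) := by
  rw [rhoG, Sum.elim_inr, tauZ, tauX_sum, act_tauX]
  simp only [mask, ← sum_filter]
  rw [sum_comm]

/-- the network in the present setting -/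
def HNet' : Prop := ∃ (m W0 : ℕ) (N : NetProg ((Fin m → ZMod 2) ⊕ (Fin m → ZMod 2)) W0),
  2 ≤ m ∧ m ≤ 2 ^ 15 ∧ 0 < W0 ∧ W0 ≤ 2 ^ 60 ∧
  N.cost (Sum.elim (fun _ => 1) (fun _ => 0)) + 1 ≤ W0 * m ∧
  ∀ (h p0 σ l : ℕ), 1 ≤ h → ∀ xs : List (ℕ → ZMod (Qm h)), xs.length = W0 →
    N.out (fun x => hfQ h • x) (rhoG h p0 σ l) xs = xs.map (gamS h p0 σ (l * m))

theorem hnet' (H : HNetSpec) : HNet' := by
  obtain ⟨m, W0, N, h1, h2, h3, h4, h5, h6⟩ := H
  refine ⟨m, W0, N, h1, h2, h3, h4, h5, fun h p0 σ l hh xs hxs => ?_⟩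
  have := h6 (ZMod (Qm h)) (hfQ h) (ℕ → ZMod (Qm h)) (GA h) (act h).toRingHom.toMonoidHom
    (gamZ h p0 σ l) (tauZ h p0 σ l) (two_mul_hfQ hh)
    (by simp [tauZ, mask_zero, tauX_zero])
    (fun w w' => by simp only [tauZ, mask_add, tauX_add, prod_mul_distrib])
    (fun z => by simp only [gamZ, tauZ, ← prod_mul_distrib, gamX_mul_self hh])
    (fun a b d e => by simp only [gamZ, tauZ, ← prod_mul_distrib, mask_add, gamX_rel4]) xs hxs
  refine this.trans (List.map_congr_left fun x _ => ?_)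
  have e : ∏ i : Fin m, gamZ h p0 σ l (Pi.single i (1 : ZMod 2)) =
      ∏ k ∈ range (l * m), gamX h (bx (p0 + σ * k)) := by
    simp only [gamZ, mask_single]
    rw [Fin.prod_univ_eq_prod_range (fun i => ∏ j ∈ range l, gamX h (bx (p0 + σ * (l * i + j)))) m]
    exact prod_blocks (fun k => gamX h (bx (p0 + σ * k))) l m
  rw [e, gamS_eq]
  exact act_prod_gamX h _ _ x

/-! ### the saving -/

theorem tauE_pos : 0 < tauE := by unfold tauE; norm_num
theorem tauE_le_one : tauE ≤ 1 := by unfold tauE; norm_num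

theorem saving {m W0 : ℕ} (h1 : 2 ≤ m) (h2 : m ≤ 2 ^ 15) (h3 : 0 < W0) (h4 : W0 ≤ 2 ^ 60) :
    (W0 : ℝ) * m - 1 < W0 * (m : ℝ) ^ tauE := by
  have hm : (0 : ℝ) < m := by positivity
  have hm' : (m : ℝ) ≤ 2 ^ 15 := by exact_mod_cast h2
  have hW : (W0 : ℝ) ≤ 2 ^ 60 := by exact_mod_cast h4
  have hW0 : (0 : ℝ) < W0 := by positivity
  have e : (m : ℝ) ^ tauE = m * Real.exp (-(Real.log m / 2 ^ 100)) := by
    rw [tauE, Real.rpow_def_of_pos hm, mul_sub, mul_one, sub_eq_add_neg, Real.exp_add,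
      Real.exp_log hm]
    congr 2; ring
  have h5 := Real.add_one_le_exp (-(Real.log m / 2 ^ 100))
  have h6 : Real.log m ≤ 2 ^ 15 := (Real.log_le_sub_one_of_pos hm).trans (by linarith)
  have h7 : (W0 : ℝ) * m ≤ 2 ^ 75 := by
    calc (W0 : ℝ) * m ≤ 2 ^ 60 * 2 ^ 15 := by gcongr
      _ = 2 ^ 75 := by norm_num
  have h8 : (W0 : ℝ) * m * (Real.log m / 2 ^ 100) ≤ 2 ^ 75 * (2 ^ 15 / 2 ^ 100) := by
    have : 0 ≤ Real.log m := Real.log_natCast_nonneg m
    gcongr
  have h9 := mul_le_mul_of_nonneg_left h5 (mul_pos hW0 hm).le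
  rw [e]
  norm_num at h8 h9 ⊢
  linarith

end Hr

end Crest.Agent.R326
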