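import Crest.Agent.R326.HrecA

/-!
# The recursion for layers of square roots of translations, part B: the generators
-/

set_option autoImplicit false

namespace Crest.Agent.R326

namespace Hr

open Finset

/-- the list `x` represents `f` at the good addresses -/
def Rp (h n : ℕ) (ok : ℕ → Prop) (x : List ℕ) (f : ℕ → ZMod (Qm h)) : Prop :=
  x.length = n ∧ (∀ r ∈ x, r < Qm h) ∧ ∀ a < n, ok a → castL h x a = f a

theorem Rp.congr {h n ok x} {f f' : ℕ → ZMod (Qm h)} (H : Rp h n ok x f)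
    (e : ∀ a < n, ok a → f a = f' a) : Rp h n ok x f' :=
  ⟨H.1, H.2.1, fun a ha hok => (H.2.2 a ha hok).trans (e a ha hok)⟩

/-- the body of `PxorSpec` -/
def PxorOK (t : Tm) (C c0 : ℕ) : Prop :=
  ∀ (W : ℕ) (X : List ℕ) (py pz σ l g lt md : ℕ), 8 ≤ W → 1 ≤ l → 1 ≤ g → g + 2 ≤ σ →
  g * l ≤ py → py + σ * l ≤ lt → (md = 1 ∨ (py + σ * l ≤ pz ∧ pz + σ * l ≤ lt)) → pz ≤ W →
  2 ^ (lt + g * l) ∣ X.length → 2 ^ (lt + g * l) * (W + 1) ^ c0 ≤ X.length →
  C * X.length < 2 ^ W →
  Does W t [X, [py], [pz], [σ], [l], [g], [lt], [md]]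
    (C * (X.length * ((g : ℝ) * l + 1) ^ tauE)) fun Y =>
      Y.length = X.length ∧ Sub X Y ∧ ∀ a < X.length, okP py σ l g lt a →
        Y.getD a 0 = X.getD (a ^^^ xmask py pz σ l md a) 0

/-- the numerical hypotheses at one level of the recursion -/
structure Ctx (CP cP W p0 σ l l' m g lt h n : ℕ) : Prop where
  hW : 8 ≤ W
  hl' : 1 ≤ l'
  hg : 1 ≤ g
  hσ : g + 2 ≤ σ
  hp0 : g * l ≤ p0
  hlt : p0 + σ * l ≤ lt
  hl : l' * m ≤ l
  hdvd : 2 ^ (lt + g * l) ∣ n
  hbig : 2 ^ (lt + g * l') * (W + 1) ^ cP ≤ n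
  hWn : W + 1 ≤ n
  hC : CP * n < 2 ^ W
  hn : n < 2 ^ W
  hm : m < 2 ^ W
  hh : 1 ≤ h
  hhW : 4 * h + 16 ≤ W

/-- the environment of the generators -/
abbrev genv (p0 σ l' g lt h : ℕ) (e : Env) : Env :=
  [p0] :: [σ] :: [l'] :: [g] :: [lt] :: [h] :: [σ * l'] :: [Qm h] :: e

/-- the unit of cost -/
noncomputable def EE (n g l : ℕ) : ℝ := n * (((g : ℝ) + 1) * (l : ℝ) ^ tauE)

theorem one_le_fac (g : ℕ) {l : ℕ} (hl : 1 ≤ l) : (1 : ℝ) ≤ ((g : ℝ) + 1) * (l : ℝ) ^ tauE := by
  have h1 : (1 : ℝ) ≤ (l : ℝ) ^ tauE := Real.one_le_rpow (by exact_mod_cast hl) tauE_pos.le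
  have h2 : (0 : ℝ) ≤ g := by positivity
  nlinarith

theorem le_EE (n g : ℕ) {l : ℕ} (hl : 1 ≤ l) : (n : ℝ) ≤ EE n g l :=
  le_mul_of_one_le_right (by positivity) (one_le_fac g hl)

theorem px_fac (g : ℕ) {l : ℕ} (hl : 1 ≤ l) :
    ((g : ℝ) * l + 1) ^ tauE ≤ ((g : ℝ) + 1) * (l : ℝ) ^ tauE := by
  have h1 : (1 : ℝ) ≤ l := by exact_mod_cast hl
  have h2 : (0 : ℝ) ≤ g := by positivity
  calc ((g : ℝ) * l + 1) ^ tauE ≤ (((g : ℝ) + 1) * l) ^ tauE :=
        Real.rpow_le_rpow (by positivity) (by linarith) tauE_pos.le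
    _ = ((g : ℝ) + 1) ^ tauE * (l : ℝ) ^ tauE := Real.mul_rpow (by positivity) (by positivity)
    _ ≤ ((g : ℝ) + 1) * (l : ℝ) ^ tauE := by
        gcongr
        exact Real.rpow_le_self_of_one_le (by linarith) tauE_le_one

variable {CP cP W p0 σ l l' m g lt h n : ℕ} {fn : Option Tm} {e : Env}

namespace Ctx

variable (c : Ctx CP cP W p0 σ l l' m g lt h n)
include c

theorem σ1 : 1 ≤ σ := by have := c.hσ; omega

theorem ltW : lt < W := by
  have h1 : 0 < n := by have := c.hWn; omega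
  have h2 : 2 ^ lt ≤ n := (Nat.pow_le_pow_right (by norm_num) (Nat.le_add_right _ _)).trans
    (Nat.le_of_dvd h1 c.hdvd)
  exact (Nat.pow_lt_pow_iff_right (by norm_num)).1 (h2.trans_lt c.hn)

theorem blk {i : ℕ} (hi : i < m) : p0 + σ * l' * i + σ * l' ≤ lt := by
  have h1 : l' * (i + 1) ≤ l := (Nat.mul_le_mul_left _ hi).trans c.hl
  have h2 := Nat.mul_le_mul_left σ h1
  have h3 := c.hlt
  have : σ * (l' * (i + 1)) = σ * l' * i + σ * l' := by ring
  omega

theorem l'le {i : ℕ} (hi : i < m) : l' ≤ l :=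
  (Nat.le_mul_of_pos_right _ (by omega)).trans c.hl

theorem glp {i : ℕ} (hi : i < m) : g * l' ≤ p0 + σ * l' * i :=
  ((Nat.mul_le_mul_left g (c.l'le hi)).trans c.hp0).trans (Nat.le_add_right _ _)

theorem closed {μ a : ℕ} (hμ : Sel p0 σ l μ) (ha : a < n) (hok : okP p0 σ l g lt a) :
    a ^^^ μ < n ∧ okP p0 σ l g lt (a ^^^ μ) :=
  ⟨xor_lt ((two_pow_dvd (Nat.le_add_right _ _)).trans c.hdvd) (hμ.lt c.σ1 c.hlt) ha,
    okP_xor c.σ1 c.hlt hμ hok⟩

end Ctx

/-- the position of the block `i` -/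
def tPos (i : ℕ) : Tm := .add (.var 1) (.mul (.var 7) (.const i))

theorem pv_pos (c : Ctx CP cP W p0 σ l l' m g lt h n) {i : ℕ} (hi : i < m) (x : List ℕ) :
    Pv W fn (x :: genv p0 σ l' g lt h e) (tPos i) [p0 + σ * l' * i] (340 * (W + 1)) := by
  have hW := c.hW
  have h1 := c.blk hi
  have h2 := c.ltW
  have h3 : W < 2 ^ W := Nat.lt_two_pow_self
  have h4 := c.hm
  apply Pv.cast
  · unfold tPos
    pv <;> omega
  · rfl
  · have : (8 : ℝ) ≤ W := by exact_mod_cast hW
    linarith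

/-- first `a`, then `b` with the result in place of the variable `0` -/
def andThen (a b : Tm) : Tm := .lett a (.skip 1 1 b)

theorem pv_andThen {a b : Tm} {x y z : List ℕ} {c1 c2 : ℝ} (ha : Pv W fn (x :: e) a y c1)
    (hb : Pv W fn (y :: e) b z c2) :
    Pv W fn (x :: e) (andThen a b) z (c1 + c2 + y.length + z.length + 1) :=
  Pv.lett ha (Ev.skip11 hb)

/-- the packed exclusive or on the block `i`, controlled by the block `k` -/
def px (tP : Tm) (i k md : ℕ) : Tm :=
  .call tP [.var 0, tPos i, tPos k, .var 2, .var 3, .var 4, .var 5, .const md]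

theorem px_spec {tP : Tm} (hP : PxorOK tP CP cP) (c : Ctx CP cP W p0 σ l l' m g lt h n)
    {i k md : ℕ} (hi : i < m) (hk : k < m) (hmd : md = 1 ∨ (md = 0 ∧ i < k)) {x : List ℕ}
    {f : ℕ → ZMod (Qm h)} (hx : Rp h n (okP p0 σ l g lt) x f) :
    ∃ y, Rp h n (okP p0 σ l g lt) y
        (fun a => f (a ^^^ xmask (p0 + σ * l' * i) (p0 + σ * l' * k) σ l' md a)) ∧
      Pv W fn (x :: genv p0 σ l' g lt h e) (px tP i k md) y ((CP + 720) * EE n g l') := by
  have hW := c.hW
  have h1 := c.blk hi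
  have h2 := c.blk hk
  have h3 := c.ltW
  obtain ⟨y, ⟨hy1, hy2, hy3⟩, hp⟩ := hP W x (p0 + σ * l' * i) (p0 + σ * l' * k) σ l' g lt md c.hW
    c.hl' c.hg c.hσ (c.glp hi) h1
    (hmd.imp_right fun hh => ⟨by
      have := Nat.mul_le_mul_left (σ * l') (Nat.succ_le_of_lt hh.2)
      rw [Nat.mul_succ] at this
      omega, h2⟩) (by omega)
    (by
      rw [hx.1]
      exact (two_pow_dvd (Nat.add_le_add_left (Nat.mul_le_mul_left g (c.l'le hi)) _)).trans c.hdvd)
    (by rw [hx.1]; exact c.hbig) (by rw [hx.1]; exact c.hC) fn (x :: genv p0 σ l' g lt h e)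
  rw [hx.1] at hy1 hy3 hp
  refine ⟨y, ⟨hy1, hy2.lt (Qm_pos h) hx.2.1, fun a ha hok => ?_⟩, ?_⟩
  · obtain ⟨h4, h5⟩ := c.closed (Sel.xmask (pz := p0 + σ * l' * k) (md := md) (a := a) c.σ1 c.hl hi)
      ha hok
    beta_reduce
    rw [← hx.2.2 _ h4 h5, castL, castL, hy3 a ha (okP_blk c.hl hi hok)]
  · have hmd' : md < 2 ^ W := small_lt hW (by omega)
    apply Pv.cast
    · unfold px
      apply Pv.call (hf := hp)
      apply Pvs.cons (Pv.var rfl)
      apply Pvs.cons (pv_pos c hi x)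
      apply Pvs.cons (pv_pos c hk x)
      pv
      exact hmd'
    · rfl
    · have r1 := le_EE n g c.hl'
      have r2 : (W : ℝ) + 1 ≤ n := by exact_mod_cast c.hWn
      have r3 : (8 : ℝ) ≤ W := by exact_mod_cast hW
      have r4 : (CP : ℝ) * (n * ((g : ℝ) * l' + 1) ^ tauE) ≤ CP * EE n g l' := by
        unfold EE
        gcongr
        exact px_fac g c.hl'
      simp only [hy1, hx.1, List.length_cons, List.length_nil]
      push_cast
      linarith

/-- translations on the listed blocks -/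
def tXor (tP : Tm) : List ℕ → Tm
  | [] => .var 0
  | i :: is => andThen (px tP i i 1) (tXor tP is)

theorem xor_spec {tP : Tm} (hP : PxorOK tP CP cP) (c : Ctx CP cP W p0 σ l l' m g lt h n)
    (is : List ℕ) (his : ∀ i ∈ is, i < m) : ∀ {x : List ℕ} {f : ℕ → ZMod (Qm h)},
    Rp h n (okP p0 σ l g lt) x f →
    ∃ y, Rp h n (okP p0 σ l g lt) y (fun a => f (a ^^^
        (is.map fun i => ∑ j ∈ range l', bx (p0 + σ * l' * i + σ * j)).sum.val)) ∧
      Pv W fn (x :: genv p0 σ l' g lt h e) (tXor tP is) y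
        ((is.length * (CP + 730) + 2) * EE n g l') := by
  have r1 := le_EE n g c.hl'
  have r2 : (W : ℝ) + 1 ≤ n := by exact_mod_cast c.hWn
  have r3 : (8 : ℝ) ≤ W := by exact_mod_cast c.hW
  induction is with
  | nil =>
    intro x f hx
    refine ⟨x, hx.congr fun a _ _ => by simp, (Pv.var rfl).mono ?_⟩
    simp only [hx.1, List.length_nil]
    push_cast
    linarith
  | cons i is ih =>
    intro x f hx
    obtain ⟨y1, hy1, hp1⟩ := px_spec (fn := fn) (e := e) hP c (his i (by simp)) (his i (by simp))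
      (Or.inl rfl) hx
    obtain ⟨y, hy, hp⟩ := ih (fun j hj => his j (by simp [hj])) hy1
    refine ⟨y, hy.congr fun a _ _ => ?_, (pv_andThen hp1 hp).mono ?_⟩
    · simp only [xmask_one c.σ1, List.map_cons, List.sum_cons, Xn.val_add]
      rw [Nat.xor_assoc, Nat.xor_comm (Xn.val _)]
    · simp only [hy.1, hy1.1, List.length_cons]
      push_cast
      linarith

/-- the hypothesis on the recursive calls -/
def RecOK (W : ℕ) (body : Tm) (T : ℝ) (σ l g lt h n : ℕ) : Prop :=
  ∀ (p : ℕ) (X : List ℕ), X.length = n → (∀ r ∈ X, r < Qm h) → g * l ≤ p → p + σ * l ≤ lt →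
    ∃ Y, ExQ h n (okP p σ l g lt) (gamS h p σ l) X Y ∧
      Ev W (some body) [p :: σ :: l :: g :: lt :: h :: X] body [X] Y T

/-- the recursive call on the block `k`, conjugated by controlled translations -/
def tConj (tP : Tm) (k : ℕ) : List ℕ → Tm
  | [] => .self (.cons (tPos k) (.cons (.var 2) (.cons (.var 3) (.cons (.var 4) (.cons (.var 5)
      (.cons (.var 6) (.var 0)))))))
  | i :: is => andThen (px tP i k 0) (andThen (tConj tP k is) (px tP i k 0))

theorem sum_bx_lt {p σ l k j : ℕ} (hσ : 1 ≤ σ) (hj : j < l) (is : List ℕ) (his : ∀ i ∈ is, i < k) :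
    (is.map fun i => bx (p + σ * l * i + σ * j)).sum.val < 2 ^ (p + σ * l * k) := by
  induction is with
  | nil => simp
  | cons i is ih =>
    rw [List.map_cons, List.sum_cons, Xn.val_add, val_bx]
    refine Nat.xor_lt_two_pow (Nat.pow_lt_pow_right (by norm_num) ?_)
      (ih fun j hj => his j (by simp [hj]))
    have h1 := Nat.mul_le_mul_left (σ * l) (Nat.succ_le_of_lt (his i (by simp)))
    have h2 := Nat.mul_lt_mul_of_pos_left hj (show 0 < σ by omega)
    rw [Nat.mul_succ] at h1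
    omega

theorem conj_spec {tP body : Tm} {T : ℝ} (hP : PxorOK tP CP cP)
    (c : Ctx CP cP W p0 σ l l' m g lt h n) (hR : RecOK W body T σ l' g lt h n) {k : ℕ} (hk : k < m)
    (is : List ℕ) (his : ∀ i ∈ is, i < k) : ∀ {x : List ℕ} {f : ℕ → ZMod (Qm h)},
    Rp h n (okP p0 σ l g lt) x f →
    ∃ y, Rp h n (okP p0 σ l g lt) y (gamM h (fun j => (bx (p0 + σ * l' * k + σ * j) +
        (is.map fun i => bx (p0 + σ * l' * i + σ * j)).sum).val) l' f) ∧
      Pv W (some body) (x :: genv p0 σ l' g lt h e) (tConj tP k is) y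
        (T + (is.length * (2 * CP + 1450) + 400) * EE n g l') := by
  have r1 := le_EE n g c.hl'
  have r2 : (W : ℝ) + 1 ≤ n := by exact_mod_cast c.hWn
  have r3 : (8 : ℝ) ≤ W := by exact_mod_cast c.hW
  have hσ := c.σ1
  induction is with
  | nil =>
    intro x f hx
    obtain ⟨y, hy, hp⟩ := hR (p0 + σ * l' * k) x hx.1 hx.2.1 (c.glp hk) (c.blk hk)
    refine ⟨y, ⟨hy.1, hy.2.1, fun a ha hok => ?_⟩, ?_⟩
    · rw [hy.2.2 a ha (okP_blk c.hl hk hok), gamS_eq]
      simp only [List.map_nil, List.sum_nil, add_zero, val_bx]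
      exact gamM_transfer (fun a => a < n ∧ okP p0 σ l g lt a) id
        (fun j hj a ha => c.closed (Sel.blk c.hl hk hj) ha.1 ha.2) (fun _ _ _ _ => rfl)
        (fun a ha => hx.2.2 a ha.1 ha.2) a ⟨ha, hok⟩
    · apply Pv.cast
      · unfold tConj
        apply Pv.self (hb := hp)
        apply Pv.cons (pv_pos c hk x)
        pv
      · rfl
      · simp only [hy.1, hx.1, List.length_cons, List.length_nil]
        push_cast
        linarith
  | cons i is ih =>
    intro x f hx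
    have hik := his i (by simp)
    have his' : ∀ j ∈ is, j < k := fun j hj => his j (by simp [hj])
    obtain ⟨y1, hy1, hp1⟩ := px_spec (fn := some body) (e := e) hP c (hik.trans hk) hk
      (Or.inr ⟨rfl, hik⟩) hx
    obtain ⟨y2, hy2, hp2⟩ := ih his' hy1
    obtain ⟨y, hy, hp⟩ := px_spec (fn := some body) (e := e) hP c (hik.trans hk) hk
      (Or.inr ⟨rfl, hik⟩) hy2
    refine ⟨y, hy.congr fun a _ _ => ?_, (pv_andThen hp1 (pv_andThen hp2 hp)).mono ?_⟩
    · refine (gamM_transfer (fun _ => True)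
        (fun a => a ^^^ xmask (p0 + σ * l' * i) (p0 + σ * l' * k) σ l' 0 a)
        (M' := fun j => (bx (p0 + σ * l' * k + σ * j) +
          ((i :: is).map fun i => bx (p0 + σ * l' * i + σ * j)).sum).val)
        (fun _ _ _ _ => trivial) (fun j hj a _ => ?_) (fun _ _ => rfl) _ trivial).trans ?_
      · rw [xmask_xor hσ, xmask_single hσ hj (μ := Xn.val _)]
        · simp only [List.map_cons, List.sum_cons, Xn.val_add, val_bx]
          simp only [Nat.xor_assoc, Nat.xor_comm, Nat.xor_left_comm]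
        · intro j' _
          rw [Xn.val_add, val_bx, Nat.testBit_xor, Nat.testBit_lt_two_pow
            ((sum_bx_lt hσ hj is his').trans_le (Nat.pow_le_pow_right (by norm_num)
              (Nat.le_add_right _ _))), Bool.xor_false, Nat.testBit_two_pow]
          congr 1
          exact propext ⟨fun h => Nat.eq_of_mul_eq_mul_left hσ (Nat.add_left_cancel h),
            fun h => by rw [h]⟩
      · congr 1
        have h1 : p0 + σ * l' * i + σ * l' ≤ p0 + σ * l' * k := by
          have := Nat.mul_le_mul_left (σ * l') (Nat.succ_le_of_lt hik)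
          rw [Nat.mul_succ] at this
          omega
        rw [xmask_xor hσ, xmask_small hσ (μ := xmask _ _ _ _ _ _) ((xmask_eq hσ l').1.trans_le
          (Nat.pow_le_pow_right (by norm_num) h1)), Nat.xor_zero, Nat.xor_assoc, Nat.xor_self,
          Nat.xor_zero]
    · simp only [hy.1, hy1.1, hy2.1, List.length_cons]
      push_cast
      linarith

theorem gen_spec {tP : Tm} {CP cP : ℕ} (hP : PxorOK tP CP cP) (m : ℕ)
    (γ : (Fin m → ZMod 2) ⊕ (Fin m → ZMod 2)) : ∃ t : Tm,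
    ∀ (W p0 σ l l' g lt h n : ℕ) (e : Env) (body : Tm) (T : ℝ), 0 ≤ T →
      Ctx CP cP W p0 σ l l' m g lt h n → RecOK W body T σ l' g lt h n →
      ∀ (x : List ℕ) (f : ℕ → ZMod (Qm h)), Rp h n (okP p0 σ l g lt) x f →
      ∃ y, Rp h n (okP p0 σ l g lt) y (rhoG h p0 σ l' γ f) ∧
        Pv W (some body) (x :: genv p0 σ l' g lt h e) t y
          (T * Sum.elim (fun _ => 1) (fun _ => 0) γ +
            (m * (2 * CP + 1450) + 400) * EE n g l') := by
  classical
  have hlen : ∀ s : Finset (Fin m), (s.toList.map Fin.val).length ≤ m := fun s => by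
    rw [List.length_map, length_toList]
    exact (card_le_univ s).trans (Fintype.card_fin m).le
  rcases γ with z | w
  · by_cases hz : z = 0
    · subst hz
      refine ⟨.var 0, fun W p0 σ l l' g lt h n e body T hT c _ x f hx => ⟨x, ?_, (Pv.var rfl).mono ?_⟩⟩
      · rwa [rhoG_inl_zero c.hh]
      · have r1 := le_EE n g c.hl'
        have r2 : (W : ℝ) + 1 ≤ n := by exact_mod_cast c.hWn
        have r3 : (8 : ℝ) ≤ W := by exact_mod_cast c.hW
        have r4 : 0 ≤ (m : ℝ) * (2 * CP + 1450) * EE n g l' := by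
          have : 0 ≤ EE n g l' := by linarith
          positivity
        simp only [hx.1, Sum.elim_inl]
        linarith
    · have hne : (univ.filter fun i => z i = 1).Nonempty := by
        obtain ⟨i, hi⟩ := Function.ne_iff.1 hz
        have h1 : ∀ u : ZMod 2, u ≠ 0 → u = 1 := by decide
        exact ⟨i, mem_filter.2 ⟨mem_univ _, h1 _ hi⟩⟩
      obtain ⟨k, hk, hmax⟩ := exists_max_image _ id hne
      refine ⟨tConj tP k ((((univ.filter fun i => z i = 1).erase k).toList).map Fin.val),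
        fun W p0 σ l l' g lt h n e body T hT c hR x f hx => ?_⟩
      obtain ⟨y, hy, hp⟩ := conj_spec (e := e) hP c hR k.2
        ((((univ.filter fun i => z i = 1).erase k).toList).map Fin.val) (by
          intro i hi
          obtain ⟨i, hi', rfl⟩ := List.mem_map.1 hi
          rw [mem_toList, mem_erase] at hi'
          exact Fin.lt_def.1 (lt_of_le_of_ne (hmax i hi'.2) hi'.1)) hx
      refine ⟨y, ?_, hp.mono ?_⟩
      · rw [rhoG_inl]
        convert hy using 3 with j
        rw [mask, ← sum_filter, ← add_sum_erase _ _ hk, List.map_map, sum_map_toList]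
        rfl
      · have r0 : 0 ≤ EE n g l' := (Nat.cast_nonneg n).trans (le_EE n g c.hl')
        simp only [Sum.elim_inl, mul_one]
        gcongr
        exact hlen _
  · refine ⟨tXor tP (((univ.filter fun i => w i = 1).toList).map Fin.val),
      fun W p0 σ l l' g lt h n e body T hT c hR x f hx => ?_⟩
    obtain ⟨y, hy, hp⟩ := xor_spec (fn := some body) (e := e) hP c
      (((univ.filter fun i => w i = 1).toList).map Fin.val) (by
        intro i hi
        obtain ⟨i, -, rfl⟩ := List.mem_map.1 hi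
        exact i.2) hx
    refine ⟨y, ?_, hp.mono ?_⟩
    · rw [rhoG_inr]
      convert hy using 5
      rw [List.map_map, sum_map_toList]
      rfl
    · have r0 : 0 ≤ EE n g l' := (Nat.cast_nonneg n).trans (le_EE n g c.hl')
      simp only [Sum.elim_inr, mul_zero, zero_add]
      refine mul_le_mul_of_nonneg_right (add_le_add (mul_le_mul (by exact_mod_cast hlen _) ?_
        (by positivity) (by positivity)) (by norm_num)) r0
      have : (0 : ℝ) ≤ CP := by positivity
      linarith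

/-! ### sums, differences, halves -/

/-- entrywise sum -/
def tAdd : Tm := .map2 (.len (.var 0)) (.var 0) (.var 1) (.addQ (.var 0) (.var 1) (.var 12))
/-- entrywise difference -/
def tSub : Tm := .map2 (.len (.var 0)) (.var 0) (.var 1) (.subQ (.var 0) (.var 1) (.var 12))
/-- entrywise half -/
def tHalf : Tm := .map1 (.len (.var 0)) (.var 0) (.halfQ (.var 0) (.var 10))

theorem two_Q_le (hh : 4 * h + 16 ≤ W) : 2 * Qm h ≤ 2 ^ W := by
  have := Qm_mul_lt (W := W) (h := h) (k := 1) (by omega)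
  omega

theorem rp_map {ok : ℕ → Prop} {F : ℕ → ℕ} {f : ℕ → ZMod (Qm h)} (h1 : ∀ a < n, F a < Qm h)
    (h2 : ∀ a < n, ok a → (F a : ZMod (Qm h)) = f a) : Rp h n ok ((List.range n).map F) f := by
  refine ⟨by simp, fun r hr => ?_, fun a ha hok => ?_⟩
  · obtain ⟨a, ha, rfl⟩ := List.mem_map.1 hr
    exact h1 a (List.mem_range.1 ha)
  · rw [castL, getD_map_range _ ha, h2 a ha hok]

theorem add_spec (c : Ctx CP cP W p0 σ l l' m g lt h n) {ok : ℕ → Prop} {x y : List ℕ}
    {f f' : ℕ → ZMod (Qm h)} (hx : Rp h n ok x f) (hy : Rp h n ok y f') :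
    ∃ z, Rp h n ok z (f + f') ∧ Pv W fn (x :: y :: genv p0 σ l' g lt h e) tAdd z (300 * n) := by
  have hW := c.hW
  have hQ := two_Q_le c.hhW
  have b1 := getD_lt (Qm_pos h) hx.2.1
  have b2 := getD_lt (Qm_pos h) hy.2.1
  refine ⟨(List.range n).map fun i => (x.getD i 0 + y.getD i 0) % Qm h,
    rp_map (fun _ _ => Nat.mod_lt _ (Qm_pos h)) fun a ha hok => ?_, ?_⟩
  · rw [cast_addQ, Pi.add_apply, ← hx.2.2 a ha hok, ← hy.2.2 a ha hok]; rfl
  · refine (Pv.map2 hW (Pv.len (Pv.var rfl) (by rw [hx.1]; exact c.hn)) (Pv.var rfl) (Pv.var rfl)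
      le_rfl (by rw [hx.1, hy.1]) fun i _ => Pv.addQ hW (Pv.varS rfl) (Pv.varS rfl) (Pv.varS rfl)
        (by have := b1 i; have := b2 i; omega) hQ).cast (by rw [hx.1]) ?_
    have r2 : (W : ℝ) + 1 ≤ n := by exact_mod_cast c.hWn
    have r3 : (8 : ℝ) ≤ W := by exact_mod_cast c.hW
    simp only [hx.1, hy.1]
    linarith

theorem sub_spec (c : Ctx CP cP W p0 σ l l' m g lt h n) {ok : ℕ → Prop} {x y : List ℕ}
    {f f' : ℕ → ZMod (Qm h)} (hx : Rp h n ok x f) (hy : Rp h n ok y f') :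
    ∃ z, Rp h n ok z (f - f') ∧ Pv W fn (x :: y :: genv p0 σ l' g lt h e) tSub z (300 * n) := by
  have hW := c.hW
  have hQ := two_Q_le c.hhW
  have b1 := getD_lt (Qm_pos h) hx.2.1
  have b2 := getD_lt (Qm_pos h) hy.2.1
  refine ⟨(List.range n).map fun i => (x.getD i 0 + (Qm h - y.getD i 0)) % Qm h,
    rp_map (fun _ _ => Nat.mod_lt _ (Qm_pos h)) fun a ha hok => ?_, ?_⟩
  · rw [cast_subQ (b2 a).le, Pi.sub_apply, ← hx.2.2 a ha hok, ← hy.2.2 a ha hok]; rfl
  · refine (Pv.map2 hW (Pv.len (Pv.var rfl) (by rw [hx.1]; exact c.hn)) (Pv.var rfl) (Pv.var rfl)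
      le_rfl (by rw [hx.1, hy.1]) fun i _ => Pv.subQ hW (Pv.varS rfl) (Pv.varS rfl) (Pv.varS rfl)
        (b1 i) hQ).cast (by rw [hx.1]) ?_
    have r2 : (W : ℝ) + 1 ≤ n := by exact_mod_cast c.hWn
    have r3 : (8 : ℝ) ≤ W := by exact_mod_cast c.hW
    simp only [hx.1, hy.1]
    linarith

theorem half_spec (c : Ctx CP cP W p0 σ l l' m g lt h n) {ok : ℕ → Prop} {x : List ℕ}
    {f : ℕ → ZMod (Qm h)} (hx : Rp h n ok x f) :
    ∃ z, Rp h n ok z (hfQ h • f) ∧ Pv W fn (x :: genv p0 σ l' g lt h e) tHalf z (300 * n) := by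
  have hW := c.hW
  have hQ := two_Q_le c.hhW
  have b1 := getD_lt (Qm_pos h) hx.2.1
  refine ⟨(List.range n).map fun i => halfN (x.getD i 0) (Qm h),
    rp_map (fun a _ => halfN_lt (b1 a)) fun a ha hok => ?_, ?_⟩
  · rw [cast_halfN c.hh, Pi.smul_apply, ← hx.2.2 a ha hok]; rfl
  · refine (Pv.map1 hW (Pv.len (Pv.var rfl) (by rw [hx.1]; exact c.hn)) (Pv.var rfl)
      le_rfl fun i _ => Pv.halfQ hW (Pv.varS rfl) (Pv.varS rfl) (b1 i) hQ
        (by norm_num)).cast (by rw [hx.1]) ?_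
    have r2 : (W : ℝ) + 1 ≤ n := by exact_mod_cast c.hWn
    have r3 : (8 : ℝ) ≤ W := by exact_mod_cast c.hW
    simp only [hx.1]
    linarith

end Hr

end Crest.Agent.R326
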