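import Crest.Agent.R326.SpecB

/-!
# A layer of butterflies, part A: the pure lemmas
-/

set_option autoImplicit false

namespace Crest.Agent.R326

open Finset

namespace Hs

theorem xor_two_pow (a p : ℕ) :
    a ^^^ 2 ^ p = setDig (2 ^ p) 2 a (1 - dig (2 ^ p) 2 a) := by
  have hp : 0 < 2 ^ p := by positivity
  have hd : 1 - dig (2 ^ p) 2 a < 2 := by omega
  apply addr_ext (lo := 2 ^ p) (n := 2)
  · rw [setDig_div hp hd, ← pow_succ, Nat.xor_div_two_pow,
      Nat.div_eq_of_lt (Nat.pow_lt_pow_right (by norm_num) (Nat.lt_succ_self p)), Nat.xor_zero]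
  · rw [dig_setDig hp hd]
    unfold dig
    rw [Nat.xor_div_two_pow, Nat.div_self hp]
    have := Nat.xor_mod_two_pow (a := a / 2 ^ p) (b := 1) (n := 1)
    rw [pow_one] at this
    rw [this]
    rcases Nat.mod_two_eq_zero_or_one (a / 2 ^ p) with h | h <;> rw [h] <;> rfl
  · rw [setDig_mod hp, Nat.xor_mod_two_pow, Nat.mod_self, Nat.xor_zero]

/-- the matrix of the square root of a translation by one bit -/
def GamM (h : ℕ) : ℕ → ℕ → ZMod (Qm h) := fun j k => if j = k then alQ h else beQ h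

theorem gamOp_eq (h p : ℕ) (x : ℕ → ZMod (Qm h)) :
    gamOp h (2 ^ p) x = lift (2 ^ p) 2 (GamM h) x := by
  funext a
  have h2 := dig_lt (show 0 < 2 by norm_num) (2 ^ p) a
  have h3 := setDig_dig (2 ^ p) 2 a
  rw [gamOp, xor_two_pow, lift, sum_range_succ, sum_range_one]
  obtain h0 | h0 : dig (2 ^ p) 2 a = 0 ∨ dig (2 ^ p) 2 a = 1 := by omega
  · rw [h0] at h3 ⊢
    simp [GamM, h3]
  · rw [h0] at h3 ⊢
    simp [GamM, h3, add_comm]

theorem gamS_eq (h p0 σ l : ℕ) (x : ℕ → ZMod (Qm h)) :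
    gamS h p0 σ l x = liftS p0 σ 2 (fun _ => GamM h) l x := by
  induction l with
  | zero => rfl
  | succ l ih => rw [gamS, liftS, ih, gamOp_eq]

theorem gamS_add (h p0 σ r l : ℕ) (x : ℕ → ZMod (Qm h)) :
    gamS h p0 σ (r + l) x = gamS h (p0 + σ * r) σ l (gamS h p0 σ r x) := by
  induction l with
  | zero => rfl
  | succ l ih => rw [← add_assoc, gamS, gamS, ih, mul_add, add_assoc]

theorem lift_CG {h : ℕ} (hh : 1 ≤ h) (lo : ℕ) (x : ℕ → ZMod (Qm h)) :
    lift lo 2 (fun j k => encG h (CG j k)) x = (1 - IQ h) • lift lo 2 (GamM h) x := by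
  have h1 := two_mul_hfQ hh
  have h2 := IQ_mul_self h
  have e : ∀ j k, encG h (CG j k) = (1 - IQ h) * GamM h j k := by
    intro j k
    unfold CG GamM
    split_ifs
    · rw [map_one, alQ]; linear_combination (-1 : ZMod (Qm h)) * h1 + hfQ h * h2
    · rw [encG_apply, beQ]
      push_cast
      linear_combination (IQ h) * h1 - hfQ h * h2
  funext a
  simp only [lift, e, Pi.smul_apply, smul_eq_mul, mul_sum, mul_assoc]

theorem liftS_CG {h : ℕ} (hh : 1 ≤ h) (p0 σ a : ℕ) (x : ℕ → ZMod (Qm h)) :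
    liftS p0 σ 2 (fun _ j k => encG h (CG j k)) a x = (1 - IQ h) ^ a • gamS h p0 σ a x := by
  induction a with
  | zero => simp [liftS, gamS]
  | succ a ih =>
    rw [liftS, ih, lift_smul, lift_CG hh, gamS, gamOp_eq, smul_smul, pow_succ]

/-- the operators on bits below `lt` commute with a relabelling of the upper part -/
theorem gamS_relabel {h p σ l lt : ℕ} (hσ : 1 ≤ σ) (hl : p + σ * l ≤ lt) {u v : ℕ}
    {x y : ℕ → ZMod (Qm h)} (hxy : ∀ r < 2 ^ lt, x (u * 2 ^ lt + r) = y (v * 2 ^ lt + r)) :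
    ∀ r < 2 ^ lt, gamS h p σ l x (u * 2 ^ lt + r) = gamS h p σ l y (v * 2 ^ lt + r) := by
  induction l with
  | zero => exact hxy
  | succ l ih =>
    intro r hr
    have hd : 2 ^ (p + σ * l) * 2 ∣ 2 ^ lt := by
      rw [← pow_succ]; exact two_pow_dvd (by rw [mul_add] at hl; omega)
    have hp : 0 < 2 ^ (p + σ * l) := by positivity
    rw [gamS, gamS, gamOp_eq, gamOp_eq, lift, lift]
    refine sum_congr rfl fun k hk => ?_
    rw [dig_add_of_dvd (hd.mul_left _), dig_add_of_dvd (hd.mul_left _),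
      setDig_add_of_dvd hp (by norm_num) (hd.mul_left _),
      setDig_add_of_dvd hp (by norm_num) (hd.mul_left _),
      ih (by rw [mul_add] at hl; omega) _ (setDig_lt hp (mem_range.1 hk) hd hr)]

/-- room for a carry above each of the `l` selected bits -/
def okM (p σ l g b : ℕ) : Prop := ∀ j < l,
  dig (2 ^ (p + σ * j + 1)) (2 ^ (σ - 1)) b + 2 ^ g ≤ 2 ^ (σ - 1)

/-- locality for the operators on bits above the fields of `okM` -/
theorem gamS_local {h p σ l g q n LV : ℕ} (hσ : 1 ≤ σ) (hq : p + σ * l ≤ q)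
    (hn : ∀ j < n, q + σ * j < LV) {x y : ℕ → ZMod (Qm h)}
    (hxy : ∀ b < 2 ^ LV, okM p σ l g b → x b = y b) :
    ∀ b < 2 ^ LV, okM p σ l g b → gamS h q σ n x b = gamS h q σ n y b := by
  intro b hb hok
  rw [gamS_eq, gamS_eq]
  refine liftS_local (ok := fun b => b < 2 ^ LV ∧ okM p σ l g b) ?_ _
    (fun b hb => hxy b hb.1 hb.2) b ⟨hb, hok⟩
  intro i hi b k hk hb
  have hp : 0 < 2 ^ (q + σ * i) := by positivity
  refine ⟨setDig_lt hp hk (by rw [← pow_succ]; exact two_pow_dvd (hn i hi)) hb.1, fun j hj => ?_⟩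
  rw [dig_setDig_low hp (two_pow_mul_dvd ?_)]
  · exact hb.2 j hj
  · have : σ * (j + 1) ≤ σ * l := Nat.mul_le_mul_left _ hj
    rw [mul_add] at this
    omega

theorem gamS_local' {h σ q n LV : ℕ} (hn : ∀ j < n, q + σ * j < LV) {x y : ℕ → ZMod (Qm h)}
    (hxy : ∀ b < 2 ^ LV, x b = y b) : ∀ b < 2 ^ LV, gamS h q σ n x b = gamS h q σ n y b := by
  intro b hb
  rw [gamS_eq, gamS_eq]
  refine liftS_local (ok := fun b => b < 2 ^ LV) ?_ _ hxy b hb
  intro i hi b k hk hb
  exact setDig_lt (by positivity) hk (by rw [← pow_succ]; exact two_pow_dvd (hn i hi)) hb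

/-! ### the classes of the auxiliary addresses -/

/-- the number of maximal digits among the first `l` digits in base `2 ^ g` -/
def hcls (g l i : ℕ) : ℕ := ∑ j ∈ range l, if i / 2 ^ (g * j) % 2 ^ g = 2 ^ g - 1 then 1 else 0

theorem hcls_le (g l i : ℕ) : hcls g l i ≤ l := by
  unfold hcls
  calc _ ≤ ∑ _j ∈ range l, 1 := sum_le_sum fun j _ => by split_ifs <;> omega
    _ = l := by simp

theorem hcls_zero {g l i : ℕ} (h : hcls g l i = 0) {j : ℕ} (hj : j < l) :
    dig (2 ^ (g * j)) (2 ^ g) i + 1 < 2 ^ g := by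
  have h1 := (sum_eq_zero_iff.1 h) j (mem_range.2 hj)
  have h2 := dig_lt (show 0 < 2 ^ g by positivity) (2 ^ (g * j)) i
  unfold dig at *
  split_ifs at h1 with h3
  omega

theorem card_dig_le {lo n N : ℕ} (hlo : 0 < lo) (hn : 0 < n) (h : lo * n ∣ N) (k : ℕ) :
    ((range N).filter fun i => dig lo n i = k).card * n ≤ N := by
  obtain ⟨G, rfl⟩ := h
  have : ((range (lo * n * G)).filter fun i => dig lo n i = k).card ≤ (range G ×ˢ range lo).card := by
    refine card_le_card_of_injOn (fun i => (i / (lo * n), i % lo)) ?_ ?_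
    · intro i hi
      have hi' := mem_range.1 (mem_filter.1 hi).1
      refine mem_coe.2 (mem_product.2 ⟨mem_range.2 ?_, mem_range.2 (Nat.mod_lt _ hlo)⟩)
      exact (Nat.div_lt_iff_lt_mul (by positivity)).2 (by rw [mul_comm G]; exact hi')
    · intro i hi i' hi' he
      have h1 := (mem_filter.1 hi).2
      have h2 := (mem_filter.1 hi').2
      simp only [Prod.mk.injEq] at he
      exact addr_ext he.1 (h1.trans h2.symm) he.2
  rw [card_product, card_range, card_range] at this
  calc _ ≤ G * lo * n := Nat.mul_le_mul_right _ this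
    _ = lo * n * G := by ring

theorem sum_hcls_le {g l N : ℕ} (h : 2 ^ (g * l) ∣ N) :
    (∑ i ∈ range N, hcls g l i) * 2 ^ g ≤ l * N := by
  unfold hcls
  rw [sum_comm, sum_mul]
  calc _ ≤ ∑ _j ∈ range l, N := sum_le_sum fun j hj => ?_
    _ = l * N := by simp
  rw [← card_filter]
  refine card_dig_le (by positivity) (by positivity) ((two_pow_mul_dvd ?_).trans h) _
  have : g * (j + 1) ≤ g * l := Nat.mul_le_mul_left _ (mem_range.1 hj)
  rw [mul_add] at this
  omega

/-- the list of the classes -/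
def hclsL (g l N : ℕ) : List ℕ := (List.range N).map (hcls g l)

theorem sel_one (cls : List ℕ) (N : ℕ) :
    sel cls N 1 = (List.range N).filter fun p => cls.getD p 0 = 0 := by
  simp [sel]

theorem mem_sel_hcls {g l N p : ℕ} : p ∈ sel (hclsL g l N) N 1 ↔ p < N ∧ hcls g l p = 0 := by
  rw [sel_one, List.mem_filter, List.mem_range, decide_eq_true_eq]
  refine and_congr_right fun hp => ?_
  rw [hclsL, getD_map_range _ hp]

theorem sel_length_le (cls : List ℕ) (N : ℕ) : (sel cls N 1).length ≤ N := by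
  rw [sel_one]
  exact (List.length_filter_le _ _).trans (by simp)

theorem sel_hcls_length {g l F : ℕ} (h : 2 ^ (g * l) ∣ 2 * F) (hg : 2 * l ≤ 2 ^ g) :
    F ≤ (sel (hclsL g l (2 * F)) (2 * F) 1).length := by
  have h1 := sum_hcls_le h
  have h2 : ∑ i ∈ range (2 * F), hcls g l i ≤ F := by
    rcases Nat.eq_zero_or_pos l with rfl | hl
    · simp [hcls]
    · have h3 : (∑ i ∈ range (2 * F), hcls g l i) * (2 * l) ≤ F * (2 * l) :=
        (Nat.mul_le_mul_left _ hg).trans (h1.trans (le_of_eq (by ring)))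
      exact Nat.le_of_mul_le_mul_right h3 (by omega)
  have h4 : ((range (2 * F)).filter fun i => ¬hcls g l i = 0).card ≤
      ∑ i ∈ range (2 * F), hcls g l i := by
    rw [card_filter]
    exact sum_le_sum fun i _ => by split_ifs <;> omega
  have h5 := card_filter_add_card_filter_not (s := range (2 * F)) fun i => hcls g l i = 0
  rw [card_range] at h5
  have h6 : ((range (2 * F)).filter fun i => hcls g l i = 0) ⊆
      (sel (hclsL g l (2 * F)) (2 * F) 1).toFinset := by
    intro i hi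
    rw [List.mem_toFinset, mem_sel_hcls]
    exact ⟨mem_range.1 (mem_filter.1 hi).1, (mem_filter.1 hi).2⟩
  have h7 := (card_le_card h6).trans (List.toFinset_card_le _)
  omega

theorem okP_of_okM {p σ l g lt u v r : ℕ} (hσ : 1 ≤ σ) (hl : p + σ * l ≤ lt) (hr : r < 2 ^ lt)
    (hu : hcls g l u = 0) (hok : okM p σ l g (v * 2 ^ lt + r)) :
    okP p σ l g lt (u * 2 ^ lt + r) := by
  intro j hj
  constructor
  · have := hcls_zero hu hj
    unfold dig at *
    rwa [pow_add, ← Nat.div_div_eq_div_mul, Nat.add_comm (u * _),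
      Nat.add_mul_div_right _ _ (by positivity), Nat.div_eq_of_lt hr, Nat.zero_add]
  · have hd : 2 ^ (p + σ * j + 1) * 2 ^ (σ - 1) ∣ 2 ^ lt := by
      refine two_pow_mul_dvd ?_
      have : σ * (j + 1) ≤ σ * l := Nat.mul_le_mul_left _ hj
      rw [mul_add] at this
      omega
    have := hok j hj
    rw [dig_add_of_dvd (hd.mul_left _)] at this ⊢
    exact this

/-! ### numerical facts -/

theorem sq_le_two_pow {W : ℕ} (hW : 16 ≤ W) : 16 * (W * W) < 2 ^ W := by
  induction W, hW using Nat.le_induction with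
  | base => norm_num
  | succ n hn ih => rw [pow_succ]; nlinarith

theorem size_le_two_mul {x W : ℕ} (hW : 8 ≤ W) (hx : x ≤ 4 * W) : x.size ≤ 2 * W.size := by
  have h1 : W < 2 ^ W.size := Nat.lt_size_self W
  have h2 : 2 ≤ W.size := by
    by_contra hc
    have : 2 ^ W.size ≤ 2 ^ 1 := Nat.pow_le_pow_right (by norm_num) (by omega)
    omega
  refine Nat.size_le.2 ?_
  have h3 : 2 ^ (W.size + 2) ≤ 2 ^ (2 * W.size) := Nat.pow_le_pow_right (by norm_num) (by omega)
  rw [pow_add] at h3
  omega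

theorem one_le_mu (W : ℕ) : 1 ≤ mu W :=
  Real.one_le_rpow (by have : (0 : ℝ) ≤ W := by positivity
                       linarith) (by norm_num)

theorem tauE_nonneg : 0 ≤ tauE := by unfold tauE; norm_num

end Hs

end Crest.Agent.R326
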