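import Crest.Agent.R326.HselA

/-!
# A layer of butterflies, part B: the slow layer, the scalar factor, running at a smaller word size
-/

set_option autoImplicit false

namespace Crest.Agent.R326

open Finset

namespace Hs

/-- `n` square roots of translations, one after the other -/
def SlowSpec : Prop := ∃ (t : Tm) (C : ℕ), ∀ (W : ℕ) (X : List ℕ) (LV p σ n h : ℕ), 8 ≤ W →
  X.length = 2 ^ LV → LV < W → (∀ j < n, p + σ * j < LV) → n ≤ W → (∀ r ∈ X, r < Qm h) → 1 ≤ h →
  4 * h + 16 ≤ W →
  Does W t [X, [p], [σ], [n], [h]] (C * ((n + 1) * X.length + ((W : ℝ) + 1) ^ 2))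
    (ExQ h X.length (fun _ => True) (gamS h p σ n) X)

theorem slow_spec (hG : GamSpec) : SlowSpec := by
  obtain ⟨t, C, ht⟩ := hG
  refine ⟨.iter (.var 3) (.var 0)
    (.call t [.var 1, .add (.var 3) (.mul (.var 4) (.var 0)), .var 6]), C + 1000, ?_⟩
  intro W X LV p σ n h hW hX hLV hn hnW hr h1 hh fn env
  have hV : X.length < 2 ^ W := by rw [hX]; exact Nat.pow_lt_pow_right (by norm_num) hLV
  have hW2 : W < 2 ^ W := Nat.lt_two_pow_self
  have r0 : (0 : ℝ) ≤ W := by positivity
  have r1 : (0 : ℝ) ≤ X.length := by positivity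
  obtain ⟨S, hS, hp⟩ := Pv.iterInv (W := W) (fn := fn) (e := [X, [p], [σ], [n], [h]] ++ env)
    (n := .var 3) (init := .var 0)
    (body := .call t [.var 1, .add (.var 3) (.mul (.var 4) (.var 0)), .var 6]) (N := n) (S0 := X)
    (fun i S => ExQ h X.length (fun _ => True) (gamS h p σ i) X S)
    (c := C * (X.length + W + 1) + 5 * X.length + 400 * (W + 1)) (L := X.length)
    (Pv.varS rfl) (Pv.var rfl) ⟨rfl, hr, fun _ _ _ => rfl⟩
    (by
      intro i hi S hS
      have hi' := hn i hi
      obtain ⟨Y, hY, hp⟩ := ht W S (p + σ * i) h hW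
        (by rw [hS.1, hX]; exact two_pow_dvd hi') (by rw [hS.1, hX]; positivity)
        (by rw [hS.1]; exact hV) hS.2.1 h1 hh fn ([i] :: S :: ([X, [p], [σ], [n], [h]] ++ env))
      refine ⟨Y, ⟨hY.1.trans hS.1, hY.2.1, fun b hb _ => ?_⟩, ?_⟩
      · rw [hY.2.2 b (hS.1 ▸ hb) trivial, gamS]
        have := gamS_local' (h := h) (σ := 0) (q := p + σ * i) (n := 1) (LV := LV)
          (by intro j _; simpa using hi') (x := castL h S) (y := gamS h p σ i (castL h X))
          (fun b hb => hS.2.2 b (hX ▸ hb) trivial) b (hX ▸ hb)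
        simpa [gamS] using this
      · apply Pv.cast
        · apply Pv.call (hf := hp)
          simp only [List.cons_append, List.nil_append]
          pv <;> omega
        · rfl
        · simp only [hY.1, hS.1, List.length_cons, List.length_nil]
          push_cast
          linarith)
    (fun i _ S hS => by rw [hS.1])
  refine ⟨S, hS, hp.mono ?_⟩
  have r2 : (n : ℝ) ≤ W := by exact_mod_cast hnW
  have r3 : (0 : ℝ) ≤ n := by positivity
  have r4 : (n : ℝ) * (W + 1) ≤ (W + 1) ^ 2 := by nlinarith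
  have r5 : (C : ℝ) * (n * (W + 1)) ≤ C * (W + 1) ^ 2 :=
    mul_le_mul_of_nonneg_left r4 (by positivity)
  have r6 : (0 : ℝ) ≤ C * X.length := by positivity
  have r7 : (0 : ℝ) ≤ n * X.length := by positivity
  have r8 : (1 : ℝ) ≤ (W + 1) ^ 2 := by nlinarith
  have r9 : (n : ℝ) ≤ n * (W + 1) := by nlinarith
  push_cast
  nlinarith

/-- the code of `(1 - i) ^ k` -/
def cpow (h : ℕ) : ℕ → ℕ
  | 0 => 1
  | k + 1 => (cpow h k + (Qm h - cpow h k * 2 ^ h % Qm h)) % Qm h

theorem cpow_lt (h k : ℕ) : cpow h k < Qm h := by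
  cases k with
  | zero => exact one_lt_Qm h
  | succ k => exact Nat.mod_lt _ (Qm_pos h)

theorem cast_cpow (h k : ℕ) : ((cpow h k : ℕ) : ZMod (Qm h)) = (1 - IQ h) ^ k := by
  induction k with
  | zero => simp [cpow]
  | succ k ih =>
    rw [cpow, cast_subQ (Nat.mod_lt _ (Qm_pos h)).le, ZMod.natCast_mod, Nat.cast_mul, ih, pow_succ,
      IQ]
    push_cast
    ring

/-- multiplication of all words by `(1 - i) ^ a` -/
def ScalSpec : Prop := ∃ (t : Tm) (C : ℕ), ∀ (W : ℕ) (X : List ℕ) (a h : ℕ), 8 ≤ W →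
  X.length < 2 ^ W → (∀ r ∈ X, r < Qm h) → 2 ≤ h → 4 * h + 16 ≤ W →
  Does W t [X, [a], [h]] (C * (X.length * mu W + a + 1))
    (ExQ h X.length (fun _ => True) (fun x => (1 - IQ h) ^ a • x) X)

theorem scal_spec (hM : MulSpec) : ScalSpec := by
  obtain ⟨tQ, tR, tE, C, ht⟩ := hM
  refine ⟨.lett (.iter (.var 1) (.const 1)
      (.subQ (.var 1) (.shlQ (.var 1) (.var 4) (.var 4)) (.qm (.var 4))))
    (.map1 (.len (.var 1)) (.var 1) (.call tQ [.var 0, .var 2, .var 5])), C + 1000, ?_⟩
  intro W X a h hW hV hr h2 hh fn env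
  have hQ := Qm_mul_lt (W := W) (h := h) (k := 1) (by omega)
  refine ⟨(List.range X.length).map fun i => X.getD i 0 * cpow h a % Qm h, ⟨by simp, ?_, ?_⟩, ?_⟩
  · intro r hr'
    obtain ⟨i, -, rfl⟩ := List.mem_map.1 hr'
    exact Nat.mod_lt _ (Qm_pos h)
  · intro b hb _
    simp only [castL, Pi.smul_apply, smul_eq_mul]
    rw [getD_map_range _ hb, ZMod.natCast_mod, Nat.cast_mul, cast_cpow, mul_comm]
  · have h3 : Pv W fn ([X, [a], [h]] ++ env) (.iter (.var 1) (.const 1)
        (.subQ (.var 1) (.shlQ (.var 1) (.var 4) (.var 4)) (.qm (.var 4)))) [cpow h a]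
        (2 + 2 + a * (300 + 2 * 1 + 22) + 4 * 1 + 13) := by
      refine Pv.iter (fun i => [cpow h i]) (Pv.varS rfl) (Pv.constS hW (by norm_num))
        (fun i _ => ?_) (by simp)
      have := cpow_lt h i
      apply Pv.cast
      · simp only [List.cons_append, List.nil_append]
        pv <;> omega
      · rfl
      · norm_num
    have h4 : ∀ i < X.length, Pv W fn ([X.getD i 0] :: [i] :: [cpow h a] :: ([X, [a], [h]] ++ env))
        (.call tQ [.var 0, .var 2, .var 5]) [X.getD i 0 * cpow h a % Qm h] (C * mu W + 20) := by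
      intro i _
      obtain ⟨Y, rfl, hp⟩ := (ht W (X.getD i 0) (cpow h a) h 1 hW (getD_lt (Qm_pos h) hr i)
        (cpow_lt h a) le_rfl h2 hh).1 fn
        ([X.getD i 0] :: [i] :: [cpow h a] :: ([X, [a], [h]] ++ env))
      apply Pv.cast
      · apply Pv.call (hf := hp)
        simp only [List.cons_append, List.nil_append]
        pv
      · rfl
      · simp only [List.length_cons, List.length_nil]
        push_cast
        linarith
    refine (Pv.lett h3 (Pv.map1 hW (Pv.len (Pv.var rfl) hV) (Pv.var rfl) le_rfl h4)).mono ?_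
    have r1 : (0 : ℝ) ≤ X.length := by positivity
    have r2 : (0 : ℝ) ≤ a := by positivity
    have r3 : (X.length : ℝ) ≤ X.length * mu W := le_mul_of_one_le_right r1 (one_le_mu W)
    have r4 : (0 : ℝ) ≤ C * a := by positivity
    have r5 : (0 : ℝ) ≤ C := by positivity
    simp only [List.length_cons, List.length_nil, List.length_map, List.length_range]
    push_cast
    nlinarith

/-- the body of `wrap6` -/
def wrapB (t : Tm) : Tm :=
  .unp 6 (.call t [.var 6, .var 0, .var 1, .var 2, .var 3, .var 4, .var 5])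

/-- `t` is run in an environment that only contains its seven arguments -/
def wrap6 (t : Tm) : Tm :=
  .fix (wrapB t) (.cons (.var 1) (.cons (.var 2) (.cons (.var 3) (.cons (.var 4) (.cons (.var 5)
    (.cons (.var 6) (.var 0)))))))

theorem does_wrap6 {W W' : ℕ} {t : Tm} {X : List ℕ} {a1 a2 a3 a4 a5 a6 : ℕ} {c : ℝ}
    {post : List ℕ → Prop} (h : Does W' t [X, [a1], [a2], [a3], [a4], [a5], [a6]] c post)
    (hW : W' ≤ W) (h8 : 8 ≤ W) (hb : BdE W' [X, [a1], [a2], [a3], [a4], [a5], [a6]]) (hc : 0 ≤ c)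
    (hL : ∀ Y, post Y → Y.length = X.length) :
    Does W (wrap6 t) [X, [a1], [a2], [a3], [a4], [a5], [a6]] (c + 100 * (X.length + 10)) post := by
  intro fn env
  obtain ⟨Y, hY, hp⟩ := h (some (wrapB t)) [[a1], [a2], [a3], [a4], [a5], [a6], X]
  have hp' := (Ev.narrow hp hW (by
    simp only [List.cons_append, List.nil_append, bdE_cons, bdE_nil, and_true] at hb ⊢
    tauto)).mono (c' := c) (by
      rw [div_le_iff₀ (by positivity)]
      have : (W' : ℝ) ≤ W := by exact_mod_cast hW
      gcongr)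
  refine ⟨Y, hY, ?_⟩
  have h1 : Pv W (some (wrapB t)) ([a1, a2, a3, a4, a5, a6].map (fun p => [p]) ++ X :: [])
      (.call t [.var 6, .var 0, .var 1, .var 2, .var 3, .var 4, .var 5]) Y
      (c + 20 * (X.length + 10)) := by
    apply Pv.cast
    · apply Pv.call (hf := hp')
      pv
    · rfl
    · have r1 : (0 : ℝ) ≤ X.length := by positivity
      simp only [hL Y hY, List.length_cons, List.length_nil]
      push_cast
      linarith
  have h2 := Ev.unp [a1, a2, a3, a4, a5, a6] h8 rfl (by norm_num) h1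
  have r1 : (0 : ℝ) ≤ X.length := by positivity
  have h3 : Pv W fn ([X, [a1], [a2], [a3], [a4], [a5], [a6]] ++ env)
      (.cons (.var 1) (.cons (.var 2) (.cons (.var 3) (.cons (.var 4) (.cons (.var 5)
        (.cons (.var 6) (.var 0))))))) ([a1, a2, a3, a4, a5, a6] ++ X) (25 * X.length + 130) := by
    apply Pv.cast
    · simp only [List.cons_append, List.nil_append]
      pv
    · rfl
    · simp only [List.length_cons]
      push_cast
      linarith
  refine (Pv.fix h3 h2).mono ?_
  simp only [hL Y hY, List.length_cons, List.length_nil, List.length_append]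
  push_cast
  linarith

end Hs

end Crest.Agent.R326
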