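import Crest.Agent.R326.HselB

/-!
# A layer of butterflies, part C: the middle bits, through the fast recursive algorithm
-/

set_option autoImplicit false

namespace Crest.Agent.R326

open Finset

namespace Hs

/-- the table of classes; the arguments are `N, l, g` -/
def tCls : Tm := .tab (.var 0) (.sum (.var 2)
  (.cndEq (.bits (.var 2) (.mul (.var 5) (.var 0)) (.var 5)) (.sub (.pow2 (.var 5)) (.const 1))
    (.const 1) (.const 0)))

theorem pv_cls {W : ℕ} {fn : Option Tm} {env : Env} {N l g : ℕ} (hW : 8 ≤ W) (hgl : g * l ≤ W)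
    (hg : g < W) (hl : l ≤ W) :
    Pv W fn ([N] :: [l] :: [g] :: env) tCls (hclsL g l N) (500 * (N * (l + 1) ^ 2) + 30) := by
  have hW2 : W < 2 ^ W := Nat.lt_two_pow_self
  have r1 : (0 : ℝ) ≤ l := by positivity
  have h1 : ∀ i < N, Pv W fn ([i] :: [N] :: [l] :: [g] :: env) (.sum (.var 2)
      (.cndEq (.bits (.var 2) (.mul (.var 5) (.var 0)) (.var 5))
        (.sub (.pow2 (.var 5)) (.const 1)) (.const 1) (.const 0))) [hcls g l i]
      (460 * (l + 1) ^ 2) := by
    intro i _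
    have h2 : ∀ j < l, ∀ s, Pv W fn ([j] :: [s] :: [i] :: [N] :: [l] :: [g] :: env)
        (.cndEq (.bits (.var 2) (.mul (.var 5) (.var 0)) (.var 5))
          (.sub (.pow2 (.var 5)) (.const 1)) (.const 1) (.const 0))
        [if i / 2 ^ (g * j) % 2 ^ g = 2 ^ g - 1 then 1 else 0] (400 * (l + 1)) := by
      intro j hj s
      have h3 : g * j ≤ g * l := Nat.mul_le_mul_left _ hj.le
      have h4 : Pv W fn ([j] :: [s] :: [i] :: [N] :: [l] :: [g] :: env) (.mul (.var 5) (.var 0))
          [g * j] (2 + 2 + 330 * (l + 1)) :=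
        Pv.mul_short l hW (Pv.varS rfl) (Pv.varS rfl) (hj.trans Nat.lt_two_pow_self) (by omega)
      apply Pv.cast
      · apply Pv.cndEq (Pv.bits (Pv.varS rfl) h4 (Pv.varS rfl) (by omega) (by omega))
        all_goals pv
        omega
      · rfl
      · simp only [max_self]
        linarith
    refine (Pv.sum (Pv.varS rfl) h2 ((hcls_le g l i).trans_lt (by omega))).mono ?_
    nlinarith
  refine (Pv.tab (Pv.varS rfl) h1).mono ?_
  have r2 : (0 : ℝ) ≤ N := by positivity
  have r3 : (N : ℝ) ≤ N * (l + 1) ^ 2 := le_mul_of_one_le_right r2 (by nlinarith)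
  nlinarith

theorem mk_lt {K n k x : ℕ} (hk : k < K) (hx : x < n) : k * n + x < K * n := by
  calc k * n + x < k * n + n := by omega
    _ = (k + 1) * n := by ring
    _ ≤ K * n := Nat.mul_le_mul_right _ hk

/-- `l` square roots of translations at once, with room above and below -/
def MidSpec : Prop := ∃ (t : Tm) (C c0 : ℕ), ∀ (W : ℕ) (X : List ℕ) (LV p σ l g h : ℕ), 8 ≤ W →
  X.length = 2 ^ LV → 1 ≤ l → 1 ≤ g → g + 2 ≤ σ → g * l ≤ p → 2 * l ≤ 2 ^ g →
  p + σ * l + g * l + c0 * (4 * h + 16 + LV + c0).size ≤ LV → LV + c0 < W →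
  (∀ r ∈ X, r < Qm h) → 1 ≤ h → 4 * h + 16 ≤ W →
  Does W t [X, [LV], [p], [σ], [l], [g], [h]]
    (C * (X.length * (((g : ℝ) + 1) * ((l : ℝ) + 1) ^ tauE) + W + 1))
    (ExQ h X.length (okM p σ l g) (gamS h p σ l) X)

theorem mid_spec (hG : GatherSpec) (hS : ScatterSpec) (hH : HrecSpec) : MidSpec := by
  obtain ⟨tG, CG, hG⟩ := hG
  obtain ⟨tS, CS, hS⟩ := hS
  obtain ⟨tH, CH, c0, hH⟩ := hH
  refine ⟨.lett (.add (.var 2) (.mul (.var 3) (.var 4))) (.lett (.pow2 (.var 0))
    (.lett (.pow2 (.sub (.add (.var 3) (.const 1)) (.var 1)))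
    (.lett (.call tCls [.var 0, .var 7, .var 8])
    (.lett (.call tS [.app (.var 4) (.zeros (.pow2 (.var 5))), .var 0, .const 1, .var 2, .var 1,
      .const 1, .var 1])
    (.lett (.call (wrap6 tH) [.var 0, .var 7, .var 8, .var 9, .var 10, .var 4, .var 11])
    (.take (.pow2 (.var 7)) (.call tG [.var 0, .var 2, .const 1, .var 4, .var 3, .const 1]))))))),
    4 * CG + 4 * CS + 2 * CH + 5000, c0 + CH.size + 1, ?_⟩
  intro W X LV p σ l g h hW hX hl hg hσ hp hB hroom hLV hr h1 hh fn env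
  have hW2 : W < 2 ^ W := Nat.lt_two_pow_self
  obtain ⟨lt, hlt⟩ : ∃ lt, lt = p + σ * l := ⟨_, rfl⟩
  obtain ⟨π, hπ⟩ : ∃ π, π = (4 * h + 16 + LV + (c0 + CH.size + 1)).size := ⟨_, rfl⟩
  rw [← hlt, ← hπ] at hroom
  have hσl : σ ≤ σ * l := Nat.le_mul_of_pos_right _ hl
  have hσl' : 2 * l ≤ σ * l := Nat.mul_le_mul_right _ (by omega)
  obtain ⟨F, hF⟩ : ∃ F, F = 2 ^ (LV - lt) := ⟨_, rfl⟩
  obtain ⟨lo, hlo⟩ : ∃ lo, lo = 2 ^ lt := ⟨_, rfl⟩
  have hF0 : 0 < F := by rw [hF]; positivity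
  have hlo0 : 0 < lo := by rw [hlo]; positivity
  have hVF : X.length = lo * F := by rw [hX, hF, hlo, ← pow_add]; congr 1; omega
  have h2F : 2 ^ (LV + 1 - lt) = 2 * F := by
    rw [hF, ← pow_succ']; congr 1; omega
  have h2V : lo * (2 * F) = 2 ^ (LV + 1) := by rw [pow_succ, ← hX, hVF]; ring
  have h2W : 2 ^ (LV + 1) < 2 ^ W := Nat.pow_lt_pow_right (by norm_num) (by omega)
  obtain ⟨cls, hcls⟩ : ∃ cls, cls = hclsL g l (2 * F) := ⟨_, rfl⟩
  have hclsl : cls.length = 2 * F := by rw [hcls, hclsL]; simp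
  have hsel : F ≤ (sel cls (2 * F) 1).length := by
    rw [hcls]
    exact sel_hcls_length (by rw [← h2F]; exact two_pow_dvd (by omega)) hB
  have hsel' := sel_length_le cls (2 * F)
  have hselm : ∀ i < (sel cls (2 * F) 1).length, (sel cls (2 * F) 1).getD i 0 < 2 * F ∧
      Hs.hcls g l ((sel cls (2 * F) 1).getD i 0) = 0 := by
    intro i hi
    rw [List.getD_eq_getElem _ _ hi]
    have := List.getElem_mem hi
    subst hcls
    exact mem_sel_hcls.1 this
  -- scatter
  obtain ⟨X', hX'⟩ : ∃ X', X' = X ++ List.replicate (2 ^ LV) 0 := ⟨_, rfl⟩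
  have hX'l : X'.length = 1 * (lo * (2 * F)) := by
    rw [hX', List.length_append, List.length_replicate, h2V, hX]; ring
  have hX'r : ∀ r ∈ X', r < Qm h := by
    intro r hr'
    rw [hX'] at hr'
    rcases List.mem_append.1 hr' with h0 | h0
    · exact hr r h0
    · rw [List.eq_of_mem_replicate h0]; exact Qm_pos h
  obtain ⟨Z, ⟨hZl, hZ1, hZ2⟩, pZ⟩ := hS W X' cls 1 lo (2 * F) 1 (2 * F) hW hX'l
    (by rw [one_mul, h2V]; exact h2W) one_pos hlo0 (by omega) hclsl hsel' le_rfl fn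
    (cls :: [2 * F] :: [lo] :: [lt] :: X :: [LV] :: [p] :: [σ] :: [l] :: [g] :: [h] :: env)
  rw [one_mul, h2V] at hZl
  have hZr : ∀ r ∈ Z, r < Qm h := by
    refine forall_mem_of_getD fun b hb => ?_
    have hb1 : b / lo < 2 * F := by
      rw [Nat.div_lt_iff_lt_mul hlo0, mul_comm, h2V, ← hZl]; exact hb
    have hb2 : b = (0 * (2 * F) + b / lo) * lo + b % lo := by
      rw [zero_mul, zero_add, Nat.div_add_mod']
    by_cases hc : cls.getD (b / lo) 0 = 0
    · have hm : b / lo ∈ sel cls (2 * F) 1 := by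
        rw [sel_one, List.mem_filter, List.mem_range, decide_eq_true_eq]; exact ⟨hb1, hc⟩
      obtain ⟨i, hi, he⟩ := List.getElem_of_mem hm
      have := hZ1 0 one_pos i hi (b % lo) (Nat.mod_lt _ hlo0)
      rw [List.getD_eq_getElem (sel cls (2 * F) 1) _ hi, he, ← hb2] at this
      rw [this]
      exact getD_lt (Qm_pos h) hX'r _
    · have := hZ2 0 one_pos (b / lo) hb1 (by omega) (b % lo) (Nat.mod_lt _ hlo0)
      rw [← hb2] at this
      rw [this]
      exact Qm_pos h
  -- the fast algorithm at a smaller word size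
  obtain ⟨W', hW'⟩ : ∃ W', W' = max (4 * h + 16) (LV + CH.size + 1) := ⟨_, rfl⟩
  have hW'1 : 4 * h + 16 ≤ W' := by rw [hW']; exact le_max_left _ _
  have hW'2 : LV + CH.size + 1 ≤ W' := by rw [hW']; exact le_max_right _ _
  have hW'3 : W' ≤ W := by rw [hW']; exact max_le hh (by omega)
  have hW'4 : W' + 1 ≤ 2 ^ π := by
    have := Nat.lt_size_self (4 * h + 16 + LV + (c0 + CH.size + 1))
    rw [← hπ] at this
    have h3 : W' ≤ 4 * h + 16 + LV + (c0 + CH.size + 1) := by
      rw [hW']; exact max_le (by omega) (by omega)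
    omega
  have hW'5 : W' < 2 ^ W' := Nat.lt_two_pow_self
  have hc0 : c0 * π ≤ (c0 + CH.size + 1) * π := Nat.mul_le_mul_right _ (by omega)
  have hD := hH W' Z p σ l g lt h (by omega) hl hg hσ hp hlt.ge
    (by rw [hZl]; exact two_pow_dvd (by omega))
    (by
      rw [hZl]
      calc 2 ^ (lt + g * l) * (W' + 1) ^ c0 ≤ 2 ^ (lt + g * l) * (2 ^ π) ^ c0 := by gcongr
        _ = 2 ^ (lt + g * l + c0 * π) := by rw [← pow_mul, ← pow_add, mul_comm π]
        _ ≤ 2 ^ (LV + 1) := Nat.pow_le_pow_right (by norm_num) (by omega))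
    (by
      rw [hZl]
      calc CH * 2 ^ (LV + 1) < 2 ^ CH.size * 2 ^ (LV + 1) :=
            Nat.mul_lt_mul_of_pos_right (Nat.lt_size_self CH) (by positivity)
        _ = 2 ^ (CH.size + (LV + 1)) := by rw [← pow_add]
        _ ≤ 2 ^ W' := Nat.pow_le_pow_right (by norm_num) (by omega))
    hZr h1 hW'1
  have hQ : Qm h ≤ 2 ^ W' := (Qm_le h).trans (Nat.pow_le_pow_right (by norm_num) (by omega))
  have rA : (0 : ℝ) ≤ (l : ℝ) ^ tauE := by positivity
  obtain ⟨U, ⟨hUl, hUr, hU⟩, pU⟩ := does_wrap6 hD hW'3 hW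
    (by
      simp only [bdE_cons, bdE_nil, bd_cons, bd_nil, and_true]
      exact ⟨fun r hr' => (hZr r hr').trans_le hQ, by omega, by omega, by omega, by omega,
        by omega, by omega⟩)
    (by positivity) (fun Y hY => hY.1) fn
    (Z :: cls :: [2 * F] :: [lo] :: [lt] :: X :: [LV] :: [p] :: [σ] :: [l] :: [g] :: [h] :: env)
  rw [hZl] at hUl hU
  -- gather
  obtain ⟨T, ⟨hTl, hT⟩, pT⟩ := hG W U cls 1 lo (2 * F) 1 hW (by rw [one_mul, h2V, hUl])
    (by rw [hUl]; exact h2W) one_pos hlo0 (by omega) hclsl fn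
    (U :: Z :: cls :: [2 * F] :: [lo] :: [lt] :: X :: [LV] :: [p] :: [σ] :: [l] :: [g] :: [h] :: env)
  rw [one_mul] at hTl
  have hT1 : X.length ≤ T.length := by rw [hTl, hVF]; exact Nat.mul_le_mul_left _ hsel
  have hT2 : T.length ≤ 2 ^ (LV + 1) := by rw [hTl, ← h2V]; exact Nat.mul_le_mul_left _ hsel'
  have key : ∀ i < F, ∀ r < lo, (T.take (2 ^ LV)).getD (i * lo + r) 0 =
      U.getD ((sel cls (2 * F) 1).getD i 0 * lo + r) 0 := by
    intro i hi r hr'
    have h3 := hT 0 one_pos i (by omega) r hr'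
    simp only [zero_mul, zero_add] at h3
    have h4 : i * lo + r < 2 ^ LV := by rw [← hX, hVF, mul_comm lo]; exact mk_lt hi hr'
    rw [← h3, List.getD_eq_getElem?_getD, List.getD_eq_getElem?_getD, List.getElem?_take_of_lt h4]
  have hYl : (T.take (2 ^ LV)).length = X.length := by rw [List.length_take, ← hX]; omega
  refine ⟨T.take (2 ^ LV), ⟨hYl, ?_, ?_⟩, ?_⟩
  · refine forall_mem_of_getD fun b hb => ?_
    rw [hYl, hVF] at hb
    have := key (b / lo) (by rw [Nat.div_lt_iff_lt_mul hlo0, mul_comm]; exact hb) (b % lo)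
      (Nat.mod_lt _ hlo0)
    rw [Nat.div_add_mod'] at this
    rw [this]
    exact getD_lt (Qm_pos h) hUr _
  · intro b hb hok
    rw [hVF] at hb
    obtain ⟨i, hi, r, hr', rfl⟩ : ∃ i < F, ∃ r < lo, b = i * lo + r :=
      ⟨b / lo, by rw [Nat.div_lt_iff_lt_mul hlo0, mul_comm]; exact hb, b % lo, Nat.mod_lt _ hlo0,
        (Nat.div_add_mod' _ _).symm⟩
    obtain ⟨hu1, hu2⟩ := hselm i (by omega)
    have h3 : castL h (T.take (2 ^ LV)) (i * lo + r) =
        castL h U ((sel cls (2 * F) 1).getD i 0 * lo + r) := by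
      simp only [castL]; rw [key i hi r hr']
    rw [h3, hU _ (by rw [← h2V, mul_comm lo]; exact mk_lt hu1 hr')
      (by subst hlo; exact okP_of_okM (by omega) hlt.ge hr' hu2 hok)]
    subst hlo
    refine gamS_relabel (by omega) hlt.ge (fun r hr' => ?_) r hr'
    have h4 := hZ1 0 one_pos i (by omega) r hr'
    simp only [zero_mul, zero_add] at h4
    simp only [castL]
    rw [h4, hX', List.getD_append _ _ _ _ (by rw [hVF, mul_comm _ F]; exact mk_lt hi hr')]
  · have pC := pv_cls (W := W) (fn := fn) (N := 2 * F) (l := l) (g := g)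
      (env := [2 * F] :: [lo] :: [lt] :: X :: [LV] :: [p] :: [σ] :: [l] :: [g] :: [h] :: env)
      hW (by omega) (by omega) (by omega)
    rw [← hcls] at pC
    apply Pv.cast
    · simp only [List.cons_append, List.nil_append]
      apply Pv.lett ((Pv.add (Pv.varS rfl) (Pv.mul hW (Pv.varS rfl) (Pv.varS rfl) (by omega))
        (by omega)).cast (by rw [← hlt]) le_rfl)
      apply Pv.lett ((Pv.pow2 (Pv.varS rfl) (by omega)).cast (by rw [← hlo]) le_rfl)
      apply Pv.lett ((Pv.pow2 (Pv.sub (Pv.add (Pv.varS rfl) (Pv.constS hW (by norm_num))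
        (by omega)) (Pv.varS rfl)) (by omega)).cast (by rw [h2F]) le_rfl)
      apply Pv.lett (Pv.call (vs := [[2 * F], [l], [g]]) (by pv) pC)
      apply Pv.lett
      · apply Pv.call (hf := pZ)
        apply Pvs.cons ((Pv.app (Pv.var rfl) (Pv.zeros (Pv.pow2 (Pv.varS rfl) (by omega)))).cast
          hX'.symm le_rfl)
        pv
      apply Pv.lett
      · apply Pv.call (hf := pU)
        pv
      apply Pv.take (Pv.pow2 (Pv.varS rfl) (by omega))
      apply Pv.call (hf := pT)
      pv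
    · rfl
    · have e1 : ((2 : ℝ) ^ LV) = X.length := by rw [hX]; push_cast; ring
      have e0 : ((2 : ℝ) ^ (LV + 1)) = 2 * X.length := by rw [pow_succ, e1]; ring
      have e2 : (lo : ℝ) * (2 * F) = 2 * X.length := by rw [hVF]; push_cast; ring
      have e3 : (F : ℝ) ≤ X.length := by
        exact_mod_cast hVF ▸ Nat.le_mul_of_pos_left _ hlo0
      have e4 : (F : ℝ) * (l + 1) ^ 2 ≤ X.length := by
        have h3 : (l + 1) ^ 2 ≤ lo := by
          calc (l + 1) ^ 2 ≤ (2 ^ l) ^ 2 := Nat.pow_le_pow_left Nat.lt_two_pow_self 2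
            _ = 2 ^ (2 * l) := by rw [← pow_mul, mul_comm]
            _ ≤ lo := by rw [hlo]; exact Nat.pow_le_pow_right (by norm_num) (by omega)
        have h4 : F * (l + 1) ^ 2 ≤ X.length := by rw [hVF, mul_comm lo]; gcongr
        exact_mod_cast h4
      have e5 : (T.length : ℝ) ≤ 2 * X.length := by
        rw [pow_succ, ← hX] at hT2
        have : (T.length : ℝ) ≤ X.length * 2 := by exact_mod_cast hT2
        linarith
      obtain ⟨A, hA⟩ : ∃ A, A = ((g : ℝ) + 1) * ((l : ℝ) + 1) ^ tauE := ⟨_, rfl⟩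
      have e6 : ((g : ℝ) + 1) * (l : ℝ) ^ tauE ≤ A := by
        rw [hA]
        gcongr
        · exact tauE_nonneg
        · linarith
      have e7 : 1 ≤ A := by
        rw [hA]
        have r1 : (0 : ℝ) ≤ g := by positivity
        have r2 : (0 : ℝ) ≤ l := by positivity
        exact one_le_mul_of_one_le_of_one_le (by linarith)
          (Real.one_le_rpow (by linarith) tauE_nonneg)
      have r1 : (0 : ℝ) ≤ X.length := by positivity
      have r2 : (0 : ℝ) ≤ W := by positivity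
      have e8 : (X.length : ℝ) ≤ X.length * A := le_mul_of_one_le_right r1 e7
      have e9 : (CH : ℝ) * (X.length * (((g : ℝ) + 1) * (l : ℝ) ^ tauE)) ≤ CH * (X.length * A) := by
        gcongr
      have e10 : (CG : ℝ) * X.length ≤ CG * (X.length * A) := by gcongr
      have e11 : (CS : ℝ) * X.length ≤ CS * (X.length * A) := by gcongr
      have r3 : (0 : ℝ) ≤ CG * (W + 1) := by positivity
      have r4 : (0 : ℝ) ≤ CS * (W + 1) := by positivity
      have r5 : (0 : ℝ) ≤ CH * (W + 1) := by positivity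
      rw [← hA]
      simp only [hYl, hZl, hUl, hX'l, hclsl, List.length_cons, List.length_nil,
        List.length_replicate]
      push_cast
      rw [e0, e1, e2]
      linarith only [e3, e4, e5, e8, e9, e10, e11, r1, r2, r3, r4, r5]

end Hs

end Crest.Agent.R326
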