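import Mathlib

/-!
# A small first-order language on lists of natural numbers, with a cost semantics

Values are lists of natural numbers (a *scalar* is a one-element list).  An environment is a list
of values, addressed by de Bruijn indices.  `EvB fn env t env' v c`: the term `t`, started in `env`,
ends in `env'` with value `v` at a cost of at most `c` symbol operations (`fn` is the body of the
enclosing recursive function).  `Ev W` is the same with all numbers below `2 ^ W` and the cost counted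
in units of `W + 1` symbols.
-/

set_option autoImplicit false

namespace Crest.Agent.R326

/-- binary operations on scalars -/
inductive Op : Type
  | add | sub | lt | xor | shl | shr
  deriving DecidableEq

/-- meaning of the operations -/
def Op.ev : Op → ℕ → ℕ → ℕ
  | .add, x, y => x + y
  | .sub, x, y => x - y
  | .lt, x, y => if x < y then 1 else 0
  | .xor, x, y => x ^^^ y
  | .shl, x, y => x * 2 ^ y
  | .shr, x, y => x / 2 ^ y

/-- extra cost of the shifts -/
def Op.extra : Op → ℕ → ℕ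
  | .shl, y => y
  | .shr, y => y
  | _, _ => 0

/-- terms -/
inductive Tm : Type
  | var (i : ℕ)
  | nil
  | const (c : ℕ)
  | bin (op : Op) (a b : Tm)
  | unary (a : Tm)
  | lett (a b : Tm)
  | skip (j k : ℕ) (a : Tm)
  | ite (c a b : Tm)
  | pop (i : ℕ)
  | push (i : ℕ) (a : Tm)
  | set (i : ℕ) (a : Tm)
  | wh (i : ℕ) (a : Tm)
  | fix (body a : Tm)
  | self (a : Tm)

/-- number of symbols of a list of words: binary digits and one separator per word -/
def sz (x : List ℕ) : ℕ := (x.map fun a => a.size + 1).sum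

/-- environments -/
abbrev Env : Type := List (List ℕ)

/-- the size-sensitive cost semantics -/
inductive EvB : Option Tm → Env → Tm → Env → List ℕ → ℕ → Prop
  | mono {fn e t e' v c c'} : EvB fn e t e' v c → c ≤ c' → EvB fn e t e' v c'
  | var {fn e i x} : e[i]? = some x → EvB fn e (.var i) e x (sz x + 1)
  | nil {fn e} : EvB fn e .nil e [] 1
  | const {fn e c} : EvB fn e (.const c) e [c] (c.size + 2)
  | bin {fn e op a b e1 e2 va vb c1 c2} : EvB fn e a e1 va c1 → EvB fn e1 b e2 vb c2 →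
      EvB fn e (.bin op a b) e2 [op.ev (va.headD 0) (vb.headD 0)]
        (c1 + c2 + sz va + sz vb + (op.ev (va.headD 0) (vb.headD 0)).size +
          op.extra (vb.headD 0) + 2)
  | unary {fn e a e1 v c} : EvB fn e a e1 v c →
      EvB fn e (.unary a) e1 (List.replicate (v.headD 0) 0) (c + sz v + v.headD 0 + 1)
  | lett {fn e a b e1 v v' e2 r c1 c2} : EvB fn e a e1 v c1 → EvB fn (v :: e1) b (v' :: e2) r c2 →
      EvB fn e (.lett a b) e2 r (c1 + c2 + sz v' + sz r + 1)
  | skip {fn j k a A B C A' C' v c} : List.length A = j → List.length B = k → List.length A' = j →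
      EvB fn (A ++ C) a (A' ++ C') v c →
      EvB fn (A ++ (B ++ C)) (.skip j k a) (A' ++ (B ++ C')) v c
  | iteT {fn e t a b e1 e2 vc v c1 c2} : EvB fn e t e1 vc c1 → vc.headD 0 ≠ 0 →
      EvB fn e1 a e2 v c2 → EvB fn e (.ite t a b) e2 v (c1 + c2 + sz vc + 1)
  | iteF {fn e t a b e1 e2 vc v c1 c2} : EvB fn e t e1 vc c1 → vc.headD 0 = 0 →
      EvB fn e1 b e2 v c2 → EvB fn e (.ite t a b) e2 v (c1 + c2 + sz vc + 1)
  | pop {fn e i x} : e[i]? = some x →
      EvB fn e (.pop i) (e.set i x.tail) (x.take 1) (sz (x.take 1) + 1)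
  | push {fn e i a e1 v x c} : EvB fn e a e1 v c → e1[i]? = some x →
      EvB fn e (.push i a) (e1.set i (v.reverse ++ x)) [] (c + sz v + 1)
  | set {fn e i a e1 v x c} : EvB fn e a e1 v c → e1[i]? = some x →
      EvB fn e (.set i a) (e1.set i v) [] (c + sz v + sz x + 1)
  | whN {fn e i a} : e[i]? = some [] → EvB fn e (.wh i a) e [] 1
  | whC {fn e i a y x e1 e2 v c1 c2} : e[i]? = some (y :: x) → EvB fn e a e1 v c1 →
      EvB fn e1 (.wh i a) e2 [] c2 → EvB fn e (.wh i a) e2 [] (c1 + c2 + sz v + 1)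
  | fix {fn e body a e1 v v' r c1 c2} : EvB fn e a e1 v c1 →
      EvB (some body) [v] body [v'] r c2 →
      EvB fn e (.fix body a) e1 r (c1 + c2 + sz v + sz v' + sz r + 1)
  | self {e body a e1 v v' r c1 c2} : EvB (some body) e a e1 v c1 →
      EvB (some body) [v] body [v'] r c2 →
      EvB (some body) e (.self a) e1 r (c1 + c2 + sz v + sz v' + sz r + 1)

theorem EvB.length_eq {fn e t e' v c} (h : EvB fn e t e' v c) : e'.length = e.length := by
  induction h with
  | mono _ _ ih => exact ih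
  | var _ => rfl
  | nil => rfl
  | const => rfl
  | bin _ _ ih1 ih2 => rw [ih2, ih1]
  | unary _ ih => exact ih
  | lett _ _ ih1 ih2 => simp only [List.length_cons] at ih2; omega
  | skip h1 h2 h3 _ ih => simp only [List.length_append] at ih ⊢; omega
  | iteT _ _ _ ih1 ih2 => rw [ih2, ih1]
  | iteF _ _ _ ih1 ih2 => rw [ih2, ih1]
  | pop _ => simp
  | push _ _ ih => simp [ih]
  | set _ _ ih => simp [ih]
  | whN _ => rfl
  | whC _ _ _ ih1 ih2 => rw [ih2, ih1]
  | fix _ _ ih _ => exact ih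
  | self _ _ ih _ => exact ih

@[simp] theorem sz_nil : sz [] = 0 := rfl
@[simp] theorem sz_cons (a : ℕ) (x : List ℕ) : sz (a :: x) = a.size + 1 + sz x := by simp [sz]
@[simp] theorem sz_append (x y : List ℕ) : sz (x ++ y) = sz x + sz y := by simp [sz]
@[simp] theorem sz_reverse (x : List ℕ) : sz x.reverse = sz x := by simp [sz]

/-- the words of a list of bits -/
def bitsW (l : List Bool) : List ℕ := l.map Bool.toNat

/-- all words are below `2 ^ W` -/
def Bd (W : ℕ) (x : List ℕ) : Prop := ∀ a ∈ x, a < 2 ^ W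

/-- all words of the environment are below `2 ^ W` -/
def BdE (W : ℕ) (e : Env) : Prop := ∀ x ∈ e, Bd W x

theorem Bd.sz_le {W : ℕ} {x : List ℕ} (h : Bd W x) : sz x ≤ x.length * (W + 1) := by
  induction x with
  | nil => simp
  | cons a x ih =>
    have h1 : a.size ≤ W := Nat.size_le.2 (h a (by simp))
    have h2 := ih fun b hb => h b (by simp [hb])
    simp only [sz_cons, List.length_cons]
    nlinarith

theorem Bd.sz_le' {W : ℕ} {x : List ℕ} (h : Bd W x) :
    (sz x : ℝ) ≤ (x.length : ℝ) * ((W : ℝ) + 1) := by exact_mod_cast h.sz_le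

theorem Bd.mono {W W' : ℕ} {x : List ℕ} (h : Bd W x) (hW : W ≤ W') : Bd W' x :=
  fun a ha => (h a ha).trans_le (Nat.pow_le_pow_right (by norm_num) hW)

theorem BdE.mono {W W' : ℕ} {e : Env} (h : BdE W e) (hW : W ≤ W') : BdE W' e :=
  fun x hx => (h x hx).mono hW

@[simp] theorem bd_nil (W : ℕ) : Bd W [] := by simp [Bd]
@[simp] theorem bd_cons {W a : ℕ} {x : List ℕ} : Bd W (a :: x) ↔ a < 2 ^ W ∧ Bd W x := by simp [Bd]
@[simp] theorem bd_append {W : ℕ} {x y : List ℕ} : Bd W (x ++ y) ↔ Bd W x ∧ Bd W y := by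
  simp only [Bd, List.mem_append]
  exact ⟨fun h => ⟨fun a ha => h a (Or.inl ha), fun a ha => h a (Or.inr ha)⟩,
    fun h a ha => ha.elim (h.1 a) (h.2 a)⟩
@[simp] theorem bd_reverse {W : ℕ} {x : List ℕ} : Bd W x.reverse ↔ Bd W x := by simp [Bd]
@[simp] theorem bdE_nil (W : ℕ) : BdE W [] := by simp [BdE]
@[simp] theorem bdE_cons {W : ℕ} {x : List ℕ} {e : Env} : BdE W (x :: e) ↔ Bd W x ∧ BdE W e := by
  simp [BdE]
@[simp] theorem bdE_append {W : ℕ} {e e' : Env} : BdE W (e ++ e') ↔ BdE W e ∧ BdE W e' := by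
  simp only [BdE, List.mem_append]
  exact ⟨fun h => ⟨fun a ha => h a (Or.inl ha), fun a ha => h a (Or.inr ha)⟩,
    fun h a ha => ha.elim (h.1 a) (h.2 a)⟩

theorem BdE.get {W : ℕ} {e : Env} (h : BdE W e) {i : ℕ} {x : List ℕ} (hx : e[i]? = some x) :
    Bd W x := h x (List.mem_of_getElem? hx)

theorem BdE.set {W : ℕ} {e : Env} (h : BdE W e) (i : ℕ) {x : List ℕ} (hx : Bd W x) :
    BdE W (e.set i x) := fun y hy => by
  rcases List.mem_or_eq_of_mem_set hy with hy | rfl
  · exact h y hy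
  · exact hx

theorem Bd.headD {W : ℕ} {x : List ℕ} (h : Bd W x) : x.headD 0 < 2 ^ W := by
  cases x with
  | nil => simp
  | cons a x => exact h a (by simp)

theorem Bd.sublist {W : ℕ} {x y : List ℕ} (h : Bd W x) (hy : y.Sublist x) : Bd W y :=
  fun a ha => h a (hy.subset ha)

/-- the uniform cost semantics: all numbers below `2 ^ W`, cost in units of `W + 1` symbols -/
def Ev (W : ℕ) (fn : Option Tm) (e : Env) (t : Tm) (e' : Env) (v : List ℕ) (c : ℝ) : Prop :=
  BdE W e → BdE W e' ∧ Bd W v ∧ ∃ n : ℕ, (n : ℝ) ≤ c * ((W : ℝ) + 1) ∧ EvB fn e t e' v n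

section rules

variable {W : ℕ} {fn : Option Tm}

theorem Ev.mono {e t e' v} {c c' : ℝ} (h : Ev W fn e t e' v c) (hc : c ≤ c') :
    Ev W fn e t e' v c' := fun hb => by
  obtain ⟨h1, h2, n, hn, h3⟩ := h hb
  exact ⟨h1, h2, n, hn.trans (by gcongr), h3⟩

/-- the bound on the environment may be used in the proof -/
theorem Ev.intro {e t e' v} {c : ℝ} (h : BdE W e → Ev W fn e t e' v c) : Ev W fn e t e' v c :=
  fun hb => h hb hb

theorem Ev.cast {e t e' e'' v v'} {c : ℝ} (h : Ev W fn e t e' v c) (he : e' = e'') (hv : v = v') :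
    Ev W fn e t e'' v' c := by subst he hv; exact h

/-- run at a smaller word size -/
theorem Ev.narrow {W' : ℕ} {e t e' v} {c : ℝ} (h : Ev W' fn e t e' v c) (hW : W' ≤ W)
    (hb : BdE W' e) : Ev W fn e t e' v (c * ((W' : ℝ) + 1) / ((W : ℝ) + 1)) := fun _ => by
  obtain ⟨h1, h2, n, hn, h3⟩ := h hb
  refine ⟨h1.mono hW, h2.mono hW, n, ?_, h3⟩
  rw [div_mul_cancel₀ _ (by positivity)]
  exact hn

/-- run at a larger word size -/
theorem Ev.widen {W' : ℕ} {e t e' v} {c : ℝ} (h : Ev W' fn e t e' v c) (hW : W ≤ W')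
    (he : BdE W e → BdE W e') (hv : Bd W v) :
    Ev W fn e t e' v (c * ((W' : ℝ) + 1) / ((W : ℝ) + 1)) := fun hb => by
  obtain ⟨-, -, n, hn, h3⟩ := h (hb.mono hW)
  refine ⟨he hb, hv, n, ?_, h3⟩
  rw [div_mul_cancel₀ _ (by positivity)]
  exact hn

theorem Ev.var {e : Env} {i x} (h : e[i]? = some x) :
    Ev W fn e (.var i) e x ((x.length : ℝ) + 1) := fun hb => by
  refine ⟨hb, hb.get h, _, ?_, EvB.var h⟩
  have := (hb.get h).sz_le'
  have hW : (0 : ℝ) ≤ W := by positivity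
  push_cast
  nlinarith

theorem Ev.nil {e : Env} : Ev W fn e .nil e [] 1 := fun hb => by
  refine ⟨hb, by simp, _, ?_, EvB.nil⟩
  have hW : (0 : ℝ) ≤ W := by positivity
  push_cast
  linarith

theorem Ev.const {e : Env} {c : ℕ} (h : c < 2 ^ W) : Ev W fn e (.const c) e [c] 2 := fun hb => by
  refine ⟨hb, by simp [h], _, ?_, EvB.const⟩
  have : (c.size : ℝ) ≤ W := by exact_mod_cast Nat.size_le.2 h
  push_cast
  linarith

theorem Ev.bin {e op a b e1 e2 va vb} {c1 c2 : ℝ} (ha : Ev W fn e a e1 va c1)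
    (hb : Ev W fn e1 b e2 vb c2)
    (hr : va.headD 0 < 2 ^ W → vb.headD 0 < 2 ^ W → op.ev (va.headD 0) (vb.headD 0) < 2 ^ W)
    (hx : op.extra (vb.headD 0) ≤ W) :
    Ev W fn e (.bin op a b) e2 [op.ev (va.headD 0) (vb.headD 0)]
      (c1 + c2 + va.length + vb.length + 3) := fun h0 => by
  obtain ⟨h1, h2, n, hn, h3⟩ := ha h0
  obtain ⟨h4, h5, n', hn', h6⟩ := hb h1
  have hr' := hr h2.headD h5.headD
  refine ⟨h4, bd_cons.2 ⟨hr', bd_nil W⟩, _, ?_, EvB.bin h3 h6⟩
  have s1 := h2.sz_le'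
  have s2 := h5.sz_le'
  have s3 : ((op.ev (va.headD 0) (vb.headD 0)).size : ℝ) ≤ W := by
    exact_mod_cast Nat.size_le.2 hr'
  have s4 : (op.extra (vb.headD 0) : ℝ) ≤ W := by exact_mod_cast hx
  have hW : (0 : ℝ) ≤ W := by positivity
  push_cast
  nlinarith

theorem Ev.unary {e a e1 v} {c : ℝ} (ha : Ev W fn e a e1 v c) :
    Ev W fn e (.unary a) e1 (List.replicate (v.headD 0) 0)
      (c + v.length + (v.headD 0 : ℕ) + 1) := fun h0 => by
  obtain ⟨h1, h2, n, hn, h3⟩ := ha h0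
  refine ⟨h1, fun a ha => by rw [List.eq_of_mem_replicate ha]; positivity, _, ?_, EvB.unary h3⟩
  have s1 := h2.sz_le'
  have hW : (0 : ℝ) ≤ W := by positivity
  have h7 : (0 : ℝ) ≤ (v.headD 0 : ℕ) := by positivity
  push_cast
  nlinarith

theorem Ev.lett {e a b e1 v v' e2 r} {c1 c2 : ℝ} (ha : Ev W fn e a e1 v c1)
    (hb : Ev W fn (v :: e1) b (v' :: e2) r c2) :
    Ev W fn e (.lett a b) e2 r (c1 + c2 + v'.length + r.length + 1) := fun h0 => by
  obtain ⟨h1, h2, n, hn, h3⟩ := ha h0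
  obtain ⟨h4, h5, n', hn', h6⟩ := hb (bdE_cons.2 ⟨h2, h1⟩)
  rw [bdE_cons] at h4
  refine ⟨h4.2, h5, _, ?_, EvB.lett h3 h6⟩
  have s1 := h4.1.sz_le'
  have s2 := h5.sz_le'
  have hW : (0 : ℝ) ≤ W := by positivity
  push_cast
  nlinarith

theorem Ev.skip {j k a} {A B C A' C' : Env} {v} {c : ℝ} (h1 : A.length = j) (h2 : B.length = k)
    (h3 : A'.length = j) (h : Ev W fn (A ++ C) a (A' ++ C') v c) :
    Ev W fn (A ++ (B ++ C)) (.skip j k a) (A' ++ (B ++ C')) v c := fun h0 => by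
  simp only [bdE_append] at h0
  obtain ⟨h4, h5, n, hn, h6⟩ := h (bdE_append.2 ⟨h0.1, h0.2.2⟩)
  rw [bdE_append] at h4
  exact ⟨by simp [h4.1, h4.2, h0.2.1], h5, n, hn, EvB.skip h1 h2 h3 h6⟩

theorem Ev.iteT {e t a b e1 e2 vc v} {c1 c2 : ℝ} (ht : Ev W fn e t e1 vc c1) (hc : vc.headD 0 ≠ 0)
    (ha : Ev W fn e1 a e2 v c2) : Ev W fn e (.ite t a b) e2 v (c1 + c2 + vc.length + 1) :=
  fun h0 => by
  obtain ⟨h1, h2, n, hn, h3⟩ := ht h0
  obtain ⟨h4, h5, n', hn', h6⟩ := ha h1
  refine ⟨h4, h5, _, ?_, EvB.iteT h3 hc h6⟩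
  have s1 := h2.sz_le'
  have hW : (0 : ℝ) ≤ W := by positivity
  push_cast
  nlinarith

theorem Ev.iteF {e t a b e1 e2 vc v} {c1 c2 : ℝ} (ht : Ev W fn e t e1 vc c1) (hc : vc.headD 0 = 0)
    (ha : Ev W fn e1 b e2 v c2) : Ev W fn e (.ite t a b) e2 v (c1 + c2 + vc.length + 1) :=
  fun h0 => by
  obtain ⟨h1, h2, n, hn, h3⟩ := ht h0
  obtain ⟨h4, h5, n', hn', h6⟩ := ha h1
  refine ⟨h4, h5, _, ?_, EvB.iteF h3 hc h6⟩
  have s1 := h2.sz_le'
  have hW : (0 : ℝ) ≤ W := by positivity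
  push_cast
  nlinarith

theorem Ev.pop {e : Env} {i x} (h : e[i]? = some x) :
    Ev W fn e (.pop i) (e.set i x.tail) (x.take 1) 2 := fun hb => by
  have hx := hb.get h
  have h1 : Bd W (x.take 1) := hx.sublist (List.take_sublist _ _)
  refine ⟨hb.set i (hx.sublist (List.tail_sublist _)), h1, _, ?_, EvB.pop h⟩
  have s1 := h1.sz_le'
  have s2 : ((x.take 1).length : ℝ) ≤ 1 := by exact_mod_cast List.length_take_le 1 x
  have hW : (0 : ℝ) ≤ W := by positivity
  push_cast
  nlinarith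

theorem Ev.push {e i a e1 v x} {c : ℝ} (ha : Ev W fn e a e1 v c) (h : e1[i]? = some x) :
    Ev W fn e (.push i a) (e1.set i (v.reverse ++ x)) [] (c + v.length + 1) := fun h0 => by
  obtain ⟨h1, h2, n, hn, h3⟩ := ha h0
  refine ⟨h1.set i (by simp [h2, h1.get h]), by simp, _, ?_, EvB.push h3 h⟩
  have s1 := h2.sz_le'
  have hW : (0 : ℝ) ≤ W := by positivity
  push_cast
  nlinarith

theorem Ev.set {e i a e1 v x} {c : ℝ} (ha : Ev W fn e a e1 v c) (h : e1[i]? = some x) :
    Ev W fn e (.set i a) (e1.set i v) [] (c + v.length + x.length + 1) := fun h0 => by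
  obtain ⟨h1, h2, n, hn, h3⟩ := ha h0
  refine ⟨h1.set i h2, by simp, _, ?_, EvB.set h3 h⟩
  have s1 := h2.sz_le'
  have s2 := (h1.get h).sz_le'
  have hW : (0 : ℝ) ≤ W := by positivity
  push_cast
  nlinarith

theorem Ev.whN {e : Env} {i a} (h : e[i]? = some []) : Ev W fn e (.wh i a) e [] 1 := fun hb => by
  refine ⟨hb, by simp, _, ?_, EvB.whN h⟩
  have hW : (0 : ℝ) ≤ W := by positivity
  push_cast
  linarith

theorem Ev.whC {e : Env} {i a y x e1 e2 v} {c1 c2 : ℝ} (h : e[i]? = some (y :: x))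
    (ha : Ev W fn e a e1 v c1) (hw : Ev W fn e1 (.wh i a) e2 [] c2) :
    Ev W fn e (.wh i a) e2 [] (c1 + c2 + v.length + 1) := fun h0 => by
  obtain ⟨h1, h2, n, hn, h3⟩ := ha h0
  obtain ⟨h4, h5, n', hn', h6⟩ := hw h1
  refine ⟨h4, h5, _, ?_, EvB.whC h h3 h6⟩
  have s1 := h2.sz_le'
  have hW : (0 : ℝ) ≤ W := by positivity
  push_cast
  nlinarith

/-- a `while` loop along a given sequence of environments -/
theorem Ev.wh {i a} (E : ℕ → Env) (v : ℕ → List ℕ) (c : ℕ → ℝ) (n : ℕ)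
    (hne : ∀ k < n, ∃ y x, (E k)[i]? = some (y :: x))
    (hb : ∀ k < n, Ev W fn (E k) a (E (k + 1)) (v k) (c k)) (he : (E n)[i]? = some []) :
    Ev W fn (E 0) (.wh i a) (E n) []
      (∑ k ∈ Finset.range n, (c k + (v k).length + 1) + 1) := by
  induction n generalizing E v c with
  | zero => simpa using Ev.whN he
  | succ n ih =>
    obtain ⟨y, x, hyx⟩ := hne 0 (by omega)
    have h1 := ih (fun k => E (k + 1)) (fun k => v (k + 1)) (fun k => c (k + 1))
      (fun k hk => hne (k + 1) (by omega)) (fun k hk => hb (k + 1) (by omega)) he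
    refine (Ev.whC hyx (hb 0 (by omega)) h1).mono (le_of_eq ?_)
    rw [Finset.sum_range_succ']
    ring

theorem Ev.fix {e body a e1 v v' r} {c1 c2 : ℝ} (ha : Ev W fn e a e1 v c1)
    (hb : Ev W (some body) [v] body [v'] r c2) :
    Ev W fn e (.fix body a) e1 r (c1 + c2 + v.length + v'.length + r.length + 1) := fun h0 => by
  obtain ⟨h1, h2, n, hn, h3⟩ := ha h0
  obtain ⟨h4, h5, n', hn', h6⟩ := hb (by simp [h2])
  refine ⟨h1, h5, _, ?_, EvB.fix h3 h6⟩
  have s1 := h2.sz_le'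
  have s2 := (h4 v' (by simp)).sz_le'
  have s3 := h5.sz_le'
  have hW : (0 : ℝ) ≤ W := by positivity
  push_cast
  nlinarith

theorem Ev.self {e body a e1 v v' r} {c1 c2 : ℝ} (ha : Ev W (some body) e a e1 v c1)
    (hb : Ev W (some body) [v] body [v'] r c2) :
    Ev W (some body) e (.self a) e1 r (c1 + c2 + v.length + v'.length + r.length + 1) :=
  fun h0 => by
  obtain ⟨h1, h2, n, hn, h3⟩ := ha h0
  obtain ⟨h4, h5, n', hn', h6⟩ := hb (by simp [h2])
  refine ⟨h1, h5, _, ?_, EvB.self h3 h6⟩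
  have s1 := h2.sz_le'
  have s2 := (h4 v' (by simp)).sz_le'
  have s3 := h5.sz_le'
  have hW : (0 : ℝ) ≤ W := by positivity
  push_cast
  nlinarith

end rules

end Crest.Agent.R326
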