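import Crest.Agent.R326.Macro

/-!
# Streams, iteration, calls, schoolbook arithmetic, and the tactic `pv`
-/

set_option autoImplicit false

namespace Crest.Agent.R326

variable {W : ℕ} {fn : Option Tm}

/-- the chunk number `i` of size `s` -/
def chunk (s : ℕ) (x : List ℕ) (i : ℕ) : List ℕ := (x.drop (i * s)).take s

theorem chunk_length_le (s : ℕ) (x : List ℕ) (i : ℕ) : (chunk s x i).length ≤ s :=
  List.length_take_le _ _

theorem chunk_length {s : ℕ} {x : List ℕ} {i : ℕ} (h : (i + 1) * s ≤ x.length) :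
    (chunk s x i).length = s := by
  simp only [chunk, List.length_take, List.length_drop]
  rw [Nat.add_mul] at h
  omega

theorem chunk_getD (s : ℕ) (x : List ℕ) (i : ℕ) {r : ℕ} (hr : r < s) :
    (chunk s x i).getD r 0 = x.getD (i * s + r) 0 := by
  simp [chunk, List.getD_eq_getElem?_getD, hr]

theorem chunk_one {x : List ℕ} {i : ℕ} (h : i < x.length) : chunk 1 x i = [x.getD i 0] := by
  simp only [chunk, mul_one]
  rw [List.drop_eq_getElem_cons h, List.getD_eq_getElem _ _ h]
  rfl

theorem length_flatMap_le {f : ℕ → List ℕ} {N : ℕ} {L : ℝ} (h : ∀ i < N, ((f i).length : ℝ) ≤ L) :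
    (((List.range N).flatMap f).length : ℝ) ≤ N * L := by
  induction N with
  | zero => simp
  | succ n ih =>
    have := ih fun i hi => h i (by omega)
    have := h n (by omega)
    rw [List.range_succ, List.flatMap_append, List.length_append]
    simp only [List.flatMap_cons, List.flatMap_nil, List.append_nil]
    push_cast
    linarith

theorem length_flatMap_eq {f : ℕ → List ℕ} {N L : ℕ} (h : ∀ i < N, (f i).length = L) :
    ((List.range N).flatMap f).length = N * L := by
  induction N with
  | zero => simp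
  | succ n ih =>
    rw [List.range_succ, List.flatMap_append, List.length_append, ih fun i hi => h i (by omega)]
    simp only [List.flatMap_cons, List.flatMap_nil, List.append_nil, h n (by omega)]
    ring

theorem getD_flatMap {f : ℕ → List ℕ} {N L : ℕ} (h : ∀ i < N, (f i).length = L) {i r : ℕ}
    (hi : i < N) (hr : r < L) : ((List.range N).flatMap f).getD (i * L + r) 0 = (f i).getD r 0 := by
  induction N with
  | zero => omega
  | succ n ih =>
    have hl := length_flatMap_eq (f := f) (N := n) (L := L) fun i hi => h i (by omega)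
    rw [List.range_succ, List.flatMap_append]
    simp only [List.flatMap_cons, List.flatMap_nil, List.append_nil]
    rcases Nat.lt_succ_iff_lt_or_eq.1 hi with hi' | rfl
    · rw [List.getD_append _ _ _ _ (by rw [hl]; nlinarith)]
      exact ih (fun i hi => h i (by omega)) hi'
    · rw [List.getD_append_right _ _ _ _ (by rw [hl]; omega), hl]
      simp

/-- the same, for an arbitrary position -/
theorem getD_flatMap' {f : ℕ → List ℕ} {N L : ℕ} (h : ∀ i < N, (f i).length = L) {a : ℕ}
    (ha : a < N * L) : ((List.range N).flatMap f).getD a 0 = (f (a / L)).getD (a % L) 0 := by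
  have hL : 0 < L := Nat.pos_of_ne_zero (by rintro rfl; simp at ha)
  have := getD_flatMap h (i := a / L) (r := a % L) ((Nat.div_lt_iff_lt_mul hL).2 ha)
    (Nat.mod_lt _ hL)
  rwa [Nat.div_add_mod'] at this

theorem flatMap_single (f : ℕ → ℕ) (l : List ℕ) : (l.flatMap fun i => [f i]) = l.map f := by
  induction l with
  | nil => rfl
  | cons a l ih => simp [ih]

theorem getD_map_range (f : ℕ → ℕ) {N i : ℕ} (hi : i < N) :
    ((List.range N).map f).getD i 0 = f i := by
  simp [List.getD_eq_getElem?_getD, hi]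

/-- `(range n).flatMap body`; the body sees `[i] :: e` -/
def Tm.strm0 (n body : Tm) : Tm :=
  .lett .nil (.seq (.rep (.skip 0 1 n) (.push 1 (.skip 1 1 body))) (.rev (.var 0)))

theorem Pv.strm0 {e n body N} {f : ℕ → List ℕ} {c0 c L : ℝ} (hn : Pv W fn e n [N] c0)
    (hb : ∀ i < N, Pv W fn ([i] :: e) body (f i) c) (hL : ∀ i < N, ((f i).length : ℝ) ≤ L) :
    Pv W fn e (.strm0 n body) ((List.range N).flatMap f) (c0 + N * (c + 11 * L + 22) + 20) := by
  have h1 := Ev.rep (W := W) (fn := fn) (e := [] :: e) (n := .skip 0 1 n)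
    (body := .push 1 (.skip 1 1 body)) (N := N)
    (fun j => ((List.range j).flatMap f).reverse :: e) (fun _ => []) (fun _ => c + L + 1)
    (Ev.skip01 hn)
    (fun j hj => by
      refine (Ev.push (Ev.skip11 (hb j hj)) rfl).cast ?_ rfl |>.mono (by linarith [hL j hj])
      simp [List.range_succ])
  refine (Ev.lett Ev.nil (Ev.seq h1 (Ev.rev (Ev.var rfl)))).cast rfl (by simp) |>.mono ?_
  have h2 := length_flatMap_le hL
  have h3 : (0 : ℝ) ≤ ((List.range N).flatMap f).length := by positivity
  simp only [List.length_reverse, List.length_nil, List.reverse_reverse]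
  simp only [Finset.sum_const, Finset.card_range, nsmul_eq_mul]
  push_cast at h2 h3 ⊢
  linarith

/-- the table `(range n).map body` of a scalar body, which sees `[i] :: e` -/
def Tm.tab (n body : Tm) : Tm := .strm0 n body

theorem Pv.tab {e n body N} {f : ℕ → ℕ} {c0 c : ℝ} (hn : Pv W fn e n [N] c0)
    (hb : ∀ i < N, Pv W fn ([i] :: e) body [f i] c) :
    Pv W fn e (.tab n body) ((List.range N).map f) (c0 + N * (c + 33) + 20) :=
  (Pv.strm0 (L := 1) hn hb (by simp)).cast (flatMap_single _ _) (by linarith)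

/-- `n` copies of the list `a` -/
def Tm.repl (n a : Tm) : Tm := .strm0 n (.skip 0 1 a)

theorem Pv.repl {e n a N v} {c0 c : ℝ} (hn : Pv W fn e n [N] c0) (ha : Pv W fn e a v c) :
    Pv W fn e (.repl n a) ((List.range N).flatMap fun _ => v)
      (c0 + N * (c + 11 * v.length + 22) + 20) :=
  Pv.strm0 hn (fun _ _ => Ev.skip01 ha) (fun _ _ => le_rfl)

/-- `n` chunks of size `s` of `x` are transformed by the body, which sees `chunk :: [i] :: e` -/
def Tm.strm1 (n x s body : Tm) : Tm :=
  .lett x (.lett (.skip 0 1 s) (.lett .nil (.seq (.rep (.skip 0 3 n)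
    (.lett (.popN 3 (.var 2)) (.push 2 (.skip 2 3 body)))) (.rev (.var 0)))))

theorem Pv.strm1 {e n x s body N X S} {f : ℕ → List ℕ} {c0 c1 c2 c L : ℝ}
    (hn : Pv W fn e n [N] c0) (hx : Pv W fn e x X c1) (hs : Pv W fn e s [S] c2)
    (hb : ∀ i < N, Pv W fn (chunk S X i :: [i] :: e) body (f i) c)
    (hL : ∀ i < N, ((f i).length : ℝ) ≤ L) :
    Pv W fn e (.strm1 n x s body) ((List.range N).flatMap f)
      (c0 + c1 + c2 + X.length + N * (c + 13 * L + 41 * S + 46) + 30) := by
  have h1 := Ev.rep (W := W) (fn := fn) (e := [] :: [S] :: X :: e) (n := .skip 0 3 n)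
    (body := .lett (.popN 3 (.var 2)) (.push 2 (.skip 2 3 body))) (N := N)
    (fun j => ((List.range j).flatMap f).reverse :: [S] :: X.drop (j * S) :: e) (fun _ => [])
    (fun _ => c + L + 41 * S + 24)
    (by simpa using Ev.skip (A := []) (B := [[], [S], X]) (A' := []) rfl rfl rfl hn)
    (fun j hj => by
      refine (Ev.lett (Ev.popN (x := X.drop (j * S)) (Pv.varS rfl) rfl) (Ev.push
        (Ev.skip (A := [_, _]) (B := [_, _, _]) (A' := [_, _]) rfl rfl rfl (hb j hj))
          rfl)).cast ?_ rfl |>.mono ?_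
      · simp [List.range_succ, Nat.add_mul]
      · have : ((chunk S X j).length : ℝ) ≤ S := by exact_mod_cast chunk_length_le S X j
        simp only [List.length_nil]
        push_cast
        linarith [hL j hj])
  refine (Ev.lett hx (Ev.lett (Ev.skip01 hs) (Ev.lett Ev.nil
    (Ev.seq h1 (Ev.rev (Ev.var rfl)))))).cast rfl (by simp) |>.mono ?_
  have h2 := length_flatMap_le hL
  have h3 : (0 : ℝ) ≤ ((List.range N).flatMap f).length := by positivity
  have h4 : ((X.drop (N * S)).length : ℝ) ≤ X.length := by exact_mod_cast (by simp)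
  have h5 : (0 : ℝ) ≤ N := by positivity
  simp only [List.length_reverse, List.length_nil, List.reverse_reverse, List.length_cons]
  simp only [Finset.sum_const, Finset.card_range, nsmul_eq_mul]
  push_cast at h2 h3 ⊢
  linarith

/-- two streams; the body sees `chunk of x :: chunk of y :: [i] :: e` -/
def Tm.strm2 (n x s y t body : Tm) : Tm :=
  .lett x (.lett (.skip 0 1 s) (.lett (.skip 0 2 y) (.lett (.skip 0 3 t)
    (.lett .nil (.seq (.rep (.skip 0 5 n)
      (.lett (.popN 3 (.var 2)) (.lett (.popN 6 (.var 5)) (.push 3 (.skip 3 5 body)))))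
        (.rev (.var 0)))))))

theorem Pv.strm2 {e n x s y t body N X S Y T} {f : ℕ → List ℕ} {c0 c1 c2 c3 c4 c L : ℝ}
    (hn : Pv W fn e n [N] c0) (hx : Pv W fn e x X c1) (hs : Pv W fn e s [S] c2)
    (hy : Pv W fn e y Y c3) (ht : Pv W fn e t [T] c4)
    (hb : ∀ i < N, Pv W fn (chunk S X i :: chunk T Y i :: [i] :: e) body (f i) c)
    (hL : ∀ i < N, ((f i).length : ℝ) ≤ L) :
    Pv W fn e (.strm2 n x s y t body) ((List.range N).flatMap f)
      (c0 + c1 + c2 + c3 + c4 + X.length + Y.length +
        N * (c + 15 * L + 41 * S + 41 * T + 70) + 40) := by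
  have h1 := Ev.rep (W := W) (fn := fn) (e := [] :: [T] :: Y :: [S] :: X :: e) (n := .skip 0 5 n)
    (body := .lett (.popN 3 (.var 2)) (.lett (.popN 6 (.var 5)) (.push 3 (.skip 3 5 body))))
    (N := N)
    (fun j => ((List.range j).flatMap f).reverse :: [T] :: Y.drop (j * T) :: [S] ::
      X.drop (j * S) :: e) (fun _ => [])
    (fun _ => c + L + 41 * S + 41 * T + 48)
    (by simpa using Ev.skip (A := []) (B := [[], [T], Y, [S], X]) (A' := []) rfl rfl rfl hn)
    (fun j hj => by
      refine (Ev.lett (Ev.popN (x := Y.drop (j * T)) (Pv.varS rfl) rfl)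
        (Ev.lett (Ev.popN (x := X.drop (j * S)) (Pv.varS rfl) rfl) (Ev.push
        (Ev.skip (A := [_, _, _]) (B := [_, _, _, _, _]) (A' := [_, _, _]) rfl rfl rfl (hb j hj))
          rfl))).cast ?_ rfl |>.mono ?_
      · simp [List.range_succ, Nat.add_mul]
      · have : ((chunk S X j).length : ℝ) ≤ S := by exact_mod_cast chunk_length_le S X j
        have : ((chunk T Y j).length : ℝ) ≤ T := by exact_mod_cast chunk_length_le T Y j
        simp only [List.length_nil]
        push_cast
        linarith [hL j hj])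
  refine (Ev.lett hx (Ev.lett (Ev.skip01 hs) (Ev.lett
    (Ev.skip (A := []) (B := [_, _]) (A' := []) rfl rfl rfl hy) (Ev.lett
    (Ev.skip (A := []) (B := [_, _, _]) (A' := []) rfl rfl rfl ht) (Ev.lett Ev.nil
    (Ev.seq h1 (Ev.rev (Ev.var rfl)))))))).cast rfl (by simp) |>.mono ?_
  have h2 := length_flatMap_le hL
  have h3 : (0 : ℝ) ≤ ((List.range N).flatMap f).length := by positivity
  have h4 : ((X.drop (N * S)).length : ℝ) ≤ X.length := by exact_mod_cast (by simp)
  have h4' : ((Y.drop (N * T)).length : ℝ) ≤ Y.length := by exact_mod_cast (by simp)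
  have h5 : (0 : ℝ) ≤ N := by positivity
  simp only [List.length_reverse, List.length_nil, List.reverse_reverse, List.length_cons]
  simp only [Finset.sum_const, Finset.card_range, nsmul_eq_mul]
  push_cast at h2 h3 ⊢
  linarith

/-- word by word map of the first `n` words of `x`; the scalar body sees `[x i] :: [i] :: e` -/
def Tm.map1 (n x body : Tm) : Tm := .strm1 n x (.const 1) body

theorem Pv.map1 {e n x body N X} {f : ℕ → ℕ} {c0 c1 c : ℝ} (hW : 8 ≤ W)
    (hn : Pv W fn e n [N] c0) (hx : Pv W fn e x X c1) (hN : N ≤ X.length)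
    (hb : ∀ i < N, Pv W fn ([X.getD i 0] :: [i] :: e) body [f i] c) :
    Pv W fn e (.map1 n x body) ((List.range N).map f)
      (c0 + c1 + X.length + N * (c + 100) + 70) :=
  (Pv.strm1 (L := 1) hn hx (Pv.constS hW (by norm_num))
    (fun i hi => by rw [chunk_one (by omega)]; exact hb i hi) (by simp)).cast
    (flatMap_single _ _) (by push_cast; linarith)

/-- word by word map of two lists; the scalar body sees `[x i] :: [y i] :: [i] :: e` -/
def Tm.map2 (n x y body : Tm) : Tm := .strm2 n x (.const 1) y (.const 1) body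

theorem Pv.map2 {e n x y body N X Y} {f : ℕ → ℕ} {c0 c1 c2 c : ℝ} (hW : 8 ≤ W)
    (hn : Pv W fn e n [N] c0) (hx : Pv W fn e x X c1) (hy : Pv W fn e y Y c2)
    (hN : N ≤ X.length) (hN' : N ≤ Y.length)
    (hb : ∀ i < N, Pv W fn ([X.getD i 0] :: [Y.getD i 0] :: [i] :: e) body [f i] c) :
    Pv W fn e (.map2 n x y body) ((List.range N).map f)
      (c0 + c1 + c2 + X.length + Y.length + N * (c + 170) + 50) :=
  (Pv.strm2 (L := 1) hn hx (Pv.constS hW (by norm_num)) hy (Pv.constS hW (by norm_num))
    (fun i hi => by rw [chunk_one (by omega), chunk_one (by omega)]; exact hb i hi) (by simp)).cast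
    (flatMap_single _ _) (by
      have h5 : (0 : ℝ) ≤ N := by positivity
      push_cast; linarith)

/-- `n`-fold iteration; the body sees `[i] :: state :: e` and returns the next state -/
def Tm.iter (n init body : Tm) : Tm :=
  .lett init (.seq (.rep (.skip 0 1 n) (.set 1 body)) (.var 0))

theorem Pv.iter' {e n init body N} (S : ℕ → List ℕ) (c : ℕ → ℝ) {c0 c1 L : ℝ}
    (hn : Pv W fn e n [N] c0) (hi : Pv W fn e init (S 0) c1)
    (hb : ∀ i < N, Pv W fn ([i] :: S i :: e) body (S (i + 1)) (c i))
    (hL : ∀ i ≤ N, ((S i).length : ℝ) ≤ L) :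
    Pv W fn e (.iter n init body) (S N)
      (c0 + c1 + ∑ i ∈ Finset.range N, c i + N * (2 * L + 22) + 4 * L + 13) := by
  have h1 := Ev.rep (W := W) (fn := fn) (e := S 0 :: e) (n := .skip 0 1 n)
    (body := .set 1 body) (N := N) (fun j => S j :: e) (fun _ => []) (fun j => c j + 2 * L + 1)
    (Ev.skip01 hn)
    (fun j hj => by
      refine (Ev.set (hb j hj) rfl).cast rfl rfl |>.mono ?_
      linarith [hL j hj.le, hL (j + 1) hj])
  refine (Ev.lett hi (Ev.seq h1 (Ev.var rfl))).mono ?_
  simp only [List.length_nil, Finset.sum_add_distrib, Finset.sum_const, Finset.card_range,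
    nsmul_eq_mul]
  push_cast
  linarith [hL N le_rfl]

theorem Pv.iter {e n init body N} (S : ℕ → List ℕ) {c0 c1 c L : ℝ}
    (hn : Pv W fn e n [N] c0) (hi : Pv W fn e init (S 0) c1)
    (hb : ∀ i < N, Pv W fn ([i] :: S i :: e) body (S (i + 1)) c)
    (hL : ∀ i ≤ N, ((S i).length : ℝ) ≤ L) :
    Pv W fn e (.iter n init body) (S N) (c0 + c1 + N * (c + 2 * L + 22) + 4 * L + 13) :=
  (Pv.iter' S (fun _ => c) hn hi hb hL).mono (by simp; linarith)

/-- iteration with an invariant instead of an explicit sequence of states -/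
theorem Pv.iterInv {e n init body N S0} (I : ℕ → List ℕ → Prop) {c0 c1 c L : ℝ}
    (hn : Pv W fn e n [N] c0) (hi : Pv W fn e init S0 c1) (h0 : I 0 S0)
    (hb : ∀ i < N, ∀ S, I i S → ∃ S', I (i + 1) S' ∧ Pv W fn ([i] :: S :: e) body S' c)
    (hL : ∀ i ≤ N, ∀ S, I i S → (S.length : ℝ) ≤ L) :
    ∃ S, I N S ∧
      Pv W fn e (.iter n init body) S (c0 + c1 + N * (c + 2 * L + 22) + 4 * L + 13) := by
  classical
  choose! nx hnx using hb
  let S : ℕ → List ℕ := fun i => Nat.rec S0 (fun i s => nx i s) i
  have hS : ∀ i ≤ N, I i (S i) := by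
    intro i
    induction i with
    | zero => exact fun _ => h0
    | succ i ih => exact fun hi => (hnx i (by omega) _ (ih (by omega))).1
  exact ⟨S N, hS N le_rfl, Pv.iter S hn hi (fun i hi => (hnx i hi _ (hS i hi.le)).2)
    fun i hi => hL i hi _ (hS i hi)⟩

/-- streams whose pieces are only known to exist -/
theorem exists_pieces {N : ℕ} {P : ℕ → List ℕ → Prop} (h : ∀ i < N, ∃ y, P i y) :
    ∃ f : ℕ → List ℕ, ∀ i < N, P i (f i) := by
  classical
  choose! f hf using h
  exact ⟨f, hf⟩

/-- `∑ j < n, body`; the scalar body sees `[j] :: [partial sum] :: e` -/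
def Tm.sum (n body : Tm) : Tm := .iter n (.const 0) (.add (.var 1) body)

theorem Pv.sum {e n body N} {f : ℕ → ℕ} {c0 c : ℝ} (hn : Pv W fn e n [N] c0)
    (hb : ∀ i < N, ∀ s, Pv W fn ([i] :: [s] :: e) body [f i] c)
    (hs : ∑ i ∈ Finset.range N, f i < 2 ^ W) :
    Pv W fn e (.sum n body) [∑ i ∈ Finset.range N, f i] (c0 + N * (c + 31) + 19) := by
  refine (Pv.iter (fun k => [∑ i ∈ Finset.range k, f i]) (c := c + 7) (L := 1) hn
    (Pv.const (by positivity)) (fun i hi => ?_) (by simp)).mono (by linarith)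
  refine (Pv.add (Pv.varS rfl) (hb i hi _) ?_).cast (by rw [Finset.sum_range_succ]) (by linarith)
  rw [← Finset.sum_range_succ]
  exact lt_of_le_of_lt (Finset.sum_le_sum_of_subset (Finset.range_mono hi)) hs

/-! ### calls -/

/-- evaluation of a list of arguments -/
def Pvs (W : ℕ) (fn : Option Tm) (e : Env) : List Tm → Env → ℝ → Prop
  | [], vs, c => vs = [] ∧ 0 ≤ c
  | a :: as, vs, c => ∃ v vs' c1 c2, vs = v :: vs' ∧ Pv W fn e a v c1 ∧ Pvs W fn e as vs' c2 ∧
      c1 + c2 + v.length + 1 ≤ c

theorem Pvs.nil {e : Env} : Pvs W fn e [] [] 0 := ⟨rfl, le_rfl⟩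

theorem Pvs.cons {e a as v vs} {c1 c2 : ℝ} (ha : Pv W fn e a v c1) (hs : Pvs W fn e as vs c2) :
    Pvs W fn e (a :: as) (v :: vs) (c1 + c2 + v.length + 1) := ⟨v, vs, c1, c2, rfl, ha, hs, le_rfl⟩

theorem Pvs.length {e as vs} {c : ℝ} (h : Pvs W fn e as vs c) : vs.length = as.length := by
  induction as generalizing vs c with
  | nil => rw [h.1]; rfl
  | cons a as ih =>
    obtain ⟨v, vs', c1, c2, rfl, -, h2, -⟩ := h
    simp [ih h2]

/-- `call f [a₀, a₁, …]` evaluates `f` in the environment `v₀ :: v₁ :: … :: e` -/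
def Tm.call (f : Tm) : List Tm → Tm
  | [] => f
  | a :: as => Tm.call (.lett (.skip 0 as.length a) f) as

theorem Pv.call {e f as vs r} {c1 c2 : ℝ} (hs : Pvs W fn e as vs c1)
    (hf : Pv W fn (vs ++ e) f r c2) :
    Pv W fn e (.call f as) r (c1 + c2 + as.length * r.length) := by
  induction as generalizing f vs c1 c2 with
  | nil =>
    obtain ⟨rfl, h0⟩ := hs
    exact Pv.mono hf (by simpa using h0)
  | cons a as ih =>
    obtain ⟨v, vs', c3, c4, rfl, h1, h2, h3⟩ := hs
    have h4 : Pv W fn (vs' ++ e) (.skip 0 as.length a) v c3 :=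
      Ev.skip (A := []) (B := vs') (A' := []) rfl h2.length rfl h1
    refine (ih h2 (Pv.lett h4 hf)).mono ?_
    simp only [List.length_cons]
    push_cast
    linarith

/-- `unp k f` splits the first `k` words `p₀, p₁, …` off variable `0`, and evaluates `f` in the
environment `[p₀] :: [p₁] :: … :: rest :: e` -/
def Tm.unp (k : ℕ) (f : Tm) : Tm :=
  .lett (.rev (.popN 0 (.const k))) ((List.range k).foldr (fun i t => .lett (.pop i) t)
    (.skip k 1 f))

theorem Ev.unp_aux {f X e r} {c : ℝ} (qs : List ℕ) : ∀ (A : Env),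
    Pv W fn (qs.reverse.map (fun p => [p]) ++ (A ++ X :: e)) f r c →
    Ev W fn (A ++ qs :: X :: e)
      ((List.range' A.length qs.length).foldr (fun i t => .lett (.pop i) t)
        (.skip (A.length + qs.length) 1 f)) (A ++ [] :: X :: e) r
      (c + qs.length * (r.length + 4)) := by
  induction qs with
  | nil =>
    intro A h
    simpa using Ev.skip (A := A) (B := [[]]) (A' := A) rfl rfl rfl h
  | cons q qs ih =>
    intro A h
    have h1 := ih ([q] :: A) (by simpa using h)
    have h2 : Ev W fn (A ++ (q :: qs) :: X :: e) (.pop A.length) (A ++ qs :: X :: e) [q] 2 :=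
      (Ev.pop (x := q :: qs) (by simp)).cast (by simp) rfl
    have h3 := Ev.lett h2 h1
    simp only [List.length_cons] at h3 ⊢
    rw [show A.length + (qs.length + 1) = A.length + 1 + qs.length by omega]
    refine h3.mono ?_
    simp only [List.length_nil]
    push_cast
    linarith

theorem Ev.unp {f X e r k} {c : ℝ} (ps : List ℕ) (hW : 8 ≤ W) (hk : ps.length = k) (hk' : k < 256)
    (h : Pv W fn (ps.map (fun p => [p]) ++ X :: e) f r c) :
    Ev W fn ((ps ++ X) :: e) (.unp k f) (X :: e) r (c + (k + 1) * (r.length + 50)) := by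
  subst hk
  have h1 := Ev.unp_aux (W := W) (fn := fn) (f := f) (X := X) (e := e) (r := r) (c := c)
    ps.reverse [] (by simpa using h)
  have h2 : Ev W fn ((ps ++ X) :: e) (.rev (.popN 0 (.const ps.length))) (X :: e) ps.reverse _ :=
    (Ev.rev (Ev.popN (x := ps ++ X) (Pv.constS hW hk') rfl)).cast (by simp) (by simp)
  simp only [List.length_nil, List.length_reverse, zero_add, List.nil_append,
    ← List.range_eq_range'] at h1
  refine (Ev.lett h2 h1).mono ?_
  simp only [List.take_left', List.length_nil]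
  have : (0 : ℝ) ≤ ps.length := by positivity
  push_cast
  linarith

end Crest.Agent.R326
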