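import Crest.Agent.R326.Base

/-!
# From the symbol-level language to `Turing.FinTM2`
-/

set_option autoImplicit false

namespace Crest.Agent.R326

open Turing Crest.LogicCS.IntMul Crest.DTime

namespace Mach

/-- all stack indices of the program are below `n` -/
def Ok (n : ℕ) : P → Prop
  | .nop => True
  | .push k _ => k < n
  | .seq p q => Ok n p ∧ Ok n q
  | .case k pe ps pf pt => k < n ∧ Ok n pe ∧ Ok n ps ∧ Ok n pf ∧ Ok n pt
  | .wh k p => k < n ∧ Ok n p
  | .word k pf pt => k < n ∧ Ok n pf ∧ Ok n pt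
  | .scope p => Ok n p
  | .fix p => Ok n p
  | .self => True

theorem Ok.mono {n m : ℕ} (h : n ≤ m) : ∀ p : P, Ok n p → Ok m p
  | .nop, _ => trivial
  | .push _ _, hp => lt_of_lt_of_le hp h
  | .seq p q, hp => ⟨Ok.mono h p hp.1, Ok.mono h q hp.2⟩
  | .case _ pe ps pf pt, hp => ⟨lt_of_lt_of_le hp.1 h, Ok.mono h pe hp.2.1, Ok.mono h ps hp.2.2.1,
      Ok.mono h pf hp.2.2.2.1, Ok.mono h pt hp.2.2.2.2⟩
  | .wh _ p, hp => ⟨lt_of_lt_of_le hp.1 h, Ok.mono h p hp.2⟩
  | .word _ pf pt, hp => ⟨lt_of_lt_of_le hp.1 h, Ok.mono h pf hp.2.1, Ok.mono h pt hp.2.2⟩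
  | .scope p, hp => Ok.mono h p hp
  | .fix p, hp => Ok.mono h p hp
  | .self, _ => trivial

theorem exists_ok : ∀ p : P, ∃ n, Ok n p
  | .nop => ⟨0, trivial⟩
  | .push k _ => ⟨k + 1, Nat.lt_succ_self k⟩
  | .seq p q => by
    obtain ⟨a, ha⟩ := exists_ok p
    obtain ⟨b, hb⟩ := exists_ok q
    exact ⟨a + b, Ok.mono (by omega) p ha, Ok.mono (by omega) q hb⟩
  | .case k pe ps pf pt => by
    obtain ⟨a, ha⟩ := exists_ok pe
    obtain ⟨b, hb⟩ := exists_ok ps
    obtain ⟨c, hc⟩ := exists_ok pf
    obtain ⟨d, hd⟩ := exists_ok pt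
    exact ⟨k + 1 + a + b + c + d, by omega, Ok.mono (by omega) pe ha, Ok.mono (by omega) ps hb,
      Ok.mono (by omega) pf hc, Ok.mono (by omega) pt hd⟩
  | .wh k p => by
    obtain ⟨a, ha⟩ := exists_ok p
    exact ⟨k + 1 + a, by omega, Ok.mono (by omega) p ha⟩
  | .word k pf pt => by
    obtain ⟨c, hc⟩ := exists_ok pf
    obtain ⟨d, hd⟩ := exists_ok pt
    exact ⟨k + 1 + c + d, by omega, Ok.mono (by omega) pf hc, Ok.mono (by omega) pt hd⟩
  | .scope p => exists_ok p
  | .fix p => exists_ok p
  | .self => ⟨0, trivial⟩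

/-- program points -/
def Lbl : P → Type
  | .nop => Unit
  | .push _ _ => Unit
  | .seq p q => Lbl p ⊕ Lbl q
  | .case _ pe ps pf pt => Unit ⊕ (Lbl pe ⊕ (Lbl ps ⊕ (Lbl pf ⊕ Lbl pt)))
  | .wh _ p => Unit ⊕ Lbl p
  | .word _ pf pt => Unit ⊕ (Lbl pf ⊕ Lbl pt)
  | .scope p => Bool ⊕ Lbl p
  | .fix p => Bool ⊕ Lbl p
  | .self => Unit

/-- finitely many program points -/
@[reducible] def lblFintype : (p : P) → Fintype (Lbl p)
  | .nop => inferInstanceAs (Fintype Unit)
  | .push _ _ => inferInstanceAs (Fintype Unit)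
  | .seq p q => @instFintypeSum _ _ (lblFintype p) (lblFintype q)
  | .case _ pe ps pf pt => @instFintypeSum Unit _ _ (@instFintypeSum _ _ (lblFintype pe)
      (@instFintypeSum _ _ (lblFintype ps) (@instFintypeSum _ _ (lblFintype pf) (lblFintype pt))))
  | .wh _ p => @instFintypeSum Unit _ _ (lblFintype p)
  | .word _ pf pt => @instFintypeSum Unit _ _ (@instFintypeSum _ _ (lblFintype pf) (lblFintype pt))
  | .scope p => @instFintypeSum Bool _ _ (lblFintype p)
  | .fix p => @instFintypeSum Bool _ _ (lblFintype p)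
  | .self => inferInstanceAs (Fintype Unit)

/-- entry point -/
def entry : (p : P) → Lbl p
  | .nop => ()
  | .push _ _ => ()
  | .seq p _ => Sum.inl (entry p)
  | .case _ _ _ _ _ => Sum.inl ()
  | .wh _ _ => Sum.inl ()
  | .word _ _ _ => Sum.inl ()
  | .scope _ => Sum.inl false
  | .fix _ => Sum.inl false
  | .self => ()

/-- the stacks of the machine: input, output, control, work stacks -/
inductive K (n : ℕ) : Type
  | inp | out | ctl | wk (k : Fin (n + 1))
  deriving DecidableEq

instance (n : ℕ) : Fintype (K n) :=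
  ⟨{K.inp, K.out, K.ctl} ∪ Finset.univ.image K.wk, by intro x; cases x <;> simp⟩

/-- stack alphabets; on the work stacks `none` is the frame marker -/
@[reducible] def Gam (n : ℕ) (Λ : Type) : K n → Type
  | .inp => Bool ⊕ Bool
  | .out => Bool
  | .ctl => Λ
  | .wk _ => Option Sym

/-- internal state -/
abbrev Sig (Λ : Type) : Type := Bool × Option Λ

/-- statements -/
abbrev TStmt (n : ℕ) (Λ : Type) := TM2.Stmt (Gam n Λ) Λ (Sig Λ)

/-- configurations -/
abbrev TCfg (n : ℕ) (Λ : Type) := TM2.Cfg (Gam n Λ) Λ (Sig Λ)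

/-- contents of the work stacks -/
abbrev W (n : ℕ) : Type := Fin (n + 1) → List (Option Sym)

section compile

variable {n : ℕ} {Λ : Type}

/-- the stacks of the machine -/
def toStk (i : List (Bool ⊕ Bool)) (o : List Bool) (c : List Λ) (w : W n) :
    ∀ k, List (Gam n Λ k)
  | .inp => i
  | .out => o
  | .ctl => c
  | .wk k => w k

theorem update_inp (i i' : List (Bool ⊕ Bool)) (o : List Bool) (c : List Λ) (w : W n) :
    Function.update (toStk i o c w) .inp i' = toStk i' o c w := by
  funext k
  cases k with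
  | inp => rw [Function.update_self]; rfl
  | out => rw [Function.update_of_ne (by simp)]; rfl
  | ctl => rw [Function.update_of_ne (by simp)]; rfl
  | wk k => rw [Function.update_of_ne (by simp)]; rfl

theorem update_out (i : List (Bool ⊕ Bool)) (o o' : List Bool) (c : List Λ) (w : W n) :
    Function.update (toStk i o c w) .out o' = toStk i o' c w := by
  funext k
  cases k with
  | inp => rw [Function.update_of_ne (by simp)]; rfl
  | out => rw [Function.update_self]; rfl
  | ctl => rw [Function.update_of_ne (by simp)]; rfl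
  | wk k => rw [Function.update_of_ne (by simp)]; rfl

theorem update_ctl (i : List (Bool ⊕ Bool)) (o : List Bool) (c c' : List Λ) (w : W n) :
    Function.update (toStk i o c w) .ctl c' = toStk i o c' w := by
  funext k
  cases k with
  | inp => rw [Function.update_of_ne (by simp)]; rfl
  | out => rw [Function.update_of_ne (by simp)]; rfl
  | ctl => rw [Function.update_self]; rfl
  | wk k => rw [Function.update_of_ne (by simp)]; rfl

theorem update_wk (i : List (Bool ⊕ Bool)) (o : List Bool) (c : List Λ) (w : W n)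
    (j : Fin (n + 1)) (l : List (Option Sym)) :
    Function.update (toStk i o c w) (.wk j) l = toStk i o c (Function.update w j l) := by
  funext k
  cases k with
  | inp => rw [Function.update_of_ne (by simp)]; rfl
  | out => rw [Function.update_of_ne (by simp)]; rfl
  | ctl => rw [Function.update_of_ne (by simp)]; rfl
  | wk k =>
    by_cases h : k = j
    · subst h; rw [Function.update_self]; simp [toStk]
    · rw [Function.update_of_ne (by simpa using h)]; simp [toStk, Function.update_of_ne h]

/-- jump -/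
def jmp (l : Λ) : TStmt n Λ := .goto fun _ => l

theorem stepAux_jmp (l : Λ) (v : Sig Λ) (S : ∀ k, List (Gam n Λ k)) :
    TM2.stepAux (jmp l : TStmt n Λ) v S = ⟨some l, v, S⟩ := rfl

/-- jump to the label held in the state -/
def jst (d : Λ) : TStmt n Λ := .goto fun v => v.2.getD d

theorem stepAux_jst (d l : Λ) (b : Bool) (S : ∀ k, List (Gam n Λ k)) :
    TM2.stepAux (jst d : TStmt n Λ) (b, some l) S = ⟨some l, (b, some l), S⟩ := rfl

/-- push on a work stack -/
def pushW (j : Fin (n + 1)) (a : Option Sym) (q : TStmt n Λ) : TStmt n Λ :=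
  .push (.wk j) (fun _ => a) q

theorem stepAux_pushW (j : Fin (n + 1)) (a : Option Sym) (q : TStmt n Λ) (v : Sig Λ)
    (i : List (Bool ⊕ Bool)) (o : List Bool) (c : List Λ) (w : W n) :
    TM2.stepAux (pushW j a q) v (toStk i o c w) =
      TM2.stepAux q v (toStk i o c (Function.update w j (a :: w j))) := by
  simp only [pushW, TM2.stepAux]
  erw [update_wk]
  rfl

/-- pop a work stack -/
def popW (j : Fin (n + 1)) (q : TStmt n Λ) : TStmt n Λ :=
  .pop (.wk j) (fun v _ => v) q

theorem stepAux_popW (j : Fin (n + 1)) (q : TStmt n Λ) (v : Sig Λ)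
    (i : List (Bool ⊕ Bool)) (o : List Bool) (c : List Λ) (w : W n) :
    TM2.stepAux (popW j q) v (toStk i o c w) =
      TM2.stepAux q v (toStk i o c (Function.update w j (w j).tail)) := by
  simp only [popW, TM2.stepAux]
  erw [update_wk]
  rfl

/-- read the top of a work stack into the state -/
def peekW (j : Fin (n + 1)) (f : Option (Option Sym) → Sig Λ) (q : TStmt n Λ) : TStmt n Λ :=
  .peek (.wk j) (fun _ o => f o) q

theorem stepAux_peekW (j : Fin (n + 1)) (f : Option (Option Sym) → Sig Λ) (q : TStmt n Λ)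
    (v : Sig Λ) (i : List (Bool ⊕ Bool)) (o : List Bool) (c : List Λ) (w : W n) :
    TM2.stepAux (peekW j f q) v (toStk i o c w) =
      TM2.stepAux q (f (w j).head?) (toStk i o c w) := rfl

/-- push on the control stack -/
def pushC (l : Λ) (q : TStmt n Λ) : TStmt n Λ := .push .ctl (fun _ => l) q

theorem stepAux_pushC (l : Λ) (q : TStmt n Λ) (v : Sig Λ)
    (i : List (Bool ⊕ Bool)) (o : List Bool) (c : List Λ) (w : W n) :
    TM2.stepAux (pushC l q) v (toStk i o c w) = TM2.stepAux q v (toStk i o (l :: c) w) := by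
  simp only [pushC, TM2.stepAux]
  erw [update_ctl]
  rfl

/-- return to the label on top of the control stack -/
def retS (d : Λ) : TStmt n Λ := .pop .ctl (fun _ o => (false, (o : Option Λ))) (jst d)

theorem stepAux_retS (d l : Λ) (v : Sig Λ)
    (i : List (Bool ⊕ Bool)) (o : List Bool) (c : List Λ) (w : W n) :
    TM2.stepAux (retS d : TStmt n Λ) v (toStk i o (l :: c) w) =
      ⟨some l, (false, some l), toStk i o c w⟩ := by
  simp only [retS, TM2.stepAux]
  erw [update_ctl]
  rfl

/-- the decision taken on the top symbol -/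
def sel (le ls lf lt : Λ) : Option (Option Sym) → Sig Λ
  | none => (false, some le)
  | some none => (false, some le)
  | some (some none) => (true, some ls)
  | some (some (some false)) => (true, some lf)
  | some (some (some true)) => (true, some lt)

/-- pop a work stack (unless empty or marked) and jump according to the result -/
def pop4 (j : Fin (n + 1)) (le ls lf lt : Λ) : TStmt n Λ :=
  peekW j (sel le ls lf lt) (.branch (fun v => v.1) (popW j (jst le)) (jst le))

/-- test a work stack -/
def test (j : Fin (n + 1)) (le lc : Λ) : TStmt n Λ :=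
  peekW j (sel le lc lc lc) (jst le)

/-- the hidden parts: empty, or starting with a marker -/
def Hid (h : W n) : Prop := ∀ k, (h k).head? = none ∨ (h k).head? = some none

/-- physical contents of the work stacks -/
def phys (s : St) (h : W n) : W n := fun k => (s k.1).map some ++ h k

/-- index of a work stack -/
def ix (n k : ℕ) : Fin (n + 1) := Fin.ofNat (n + 1) k

theorem ix_val {k : ℕ} (h : k < n + 1) : (ix n k).1 = k := by
  simp [ix, Nat.mod_eq_of_lt h]

theorem phys_ix (s : St) (h : W n) {k : ℕ} (hk : k < n + 1) :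
    phys s h (ix n k) = (s k).map some ++ h (ix n k) := by
  simp only [phys, ix_val hk]

theorem update_phys (s : St) (h : W n) {k : ℕ} (hk : k < n + 1) (l : List Sym) :
    Function.update (phys s h) (ix n k) (l.map some ++ h (ix n k)) =
      phys (Function.update s k l) h := by
  funext j
  by_cases e : j = ix n k
  · subst e; rw [Function.update_self, phys_ix _ _ hk, Function.update_self]
  · rw [Function.update_of_ne e]
    have : j.1 ≠ k := fun e' => e (Fin.ext (by rw [ix_val hk, e']))
    simp only [phys, Function.update_of_ne this]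

theorem sel_empty (le ls lf lt : Λ) (s : St) {h : W n} (hh : Hid h) {k : ℕ} (hk : k < n + 1)
    (e : s k = []) : sel le ls lf lt (phys s h (ix n k)).head? = (false, some le) := by
  rw [phys_ix _ _ hk, e, List.map_nil, List.nil_append]
  rcases hh (ix n k) with h1 | h1 <;> rw [h1] <;> rfl

theorem pop4_nil (le ls lf lt : Λ) (v : Sig Λ) (i : List (Bool ⊕ Bool)) (o : List Bool)
    (c : List Λ) (s : St) {h : W n} (hh : Hid h) {k : ℕ} (hk : k < n + 1) (e : s k = []) :
    TM2.stepAux (pop4 (ix n k) le ls lf lt) v (toStk i o c (phys s h)) =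
      ⟨some le, (false, some le), toStk i o c (phys s h)⟩ := by
  rw [pop4, stepAux_peekW, sel_empty le ls lf lt s hh hk e]
  rfl

/-- the label chosen on a symbol -/
def pick (ls lf lt : Λ) : Sym → Λ
  | none => ls
  | some false => lf
  | some true => lt

theorem sel_some (le ls lf lt : Λ) (a : Sym) :
    sel le ls lf lt (some (some a)) = (true, some (pick ls lf lt a)) := by
  rcases a with _ | _ | _ <;> rfl

theorem pop4_cons (le ls lf lt : Λ) (v : Sig Λ) (i : List (Bool ⊕ Bool)) (o : List Bool)
    (c : List Λ) (s : St) (h : W n) {k : ℕ} (hk : k < n + 1) {a : Sym} {l : List Sym}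
    (e : s k = a :: l) :
    TM2.stepAux (pop4 (ix n k) le ls lf lt) v (toStk i o c (phys s h)) =
      ⟨some (pick ls lf lt a), (true, some (pick ls lf lt a)),
        toStk i o c (phys (Function.update s k l) h)⟩ := by
  rw [pop4, stepAux_peekW, phys_ix _ _ hk, e, List.map_cons, List.cons_append, List.head?_cons,
    sel_some]
  show TM2.stepAux (popW _ _) _ _ = _
  rw [stepAux_popW, phys_ix _ _ hk, e, List.map_cons, List.cons_append, List.tail_cons,
    update_phys _ _ hk]
  rfl

theorem test_nil (le lc : Λ) (v : Sig Λ) (i : List (Bool ⊕ Bool)) (o : List Bool)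
    (c : List Λ) (s : St) {h : W n} (hh : Hid h) {k : ℕ} (hk : k < n + 1) (e : s k = []) :
    TM2.stepAux (test (ix n k) le lc) v (toStk i o c (phys s h)) =
      ⟨some le, (false, some le), toStk i o c (phys s h)⟩ := by
  rw [test, stepAux_peekW, sel_empty le lc lc lc s hh hk e]
  rfl

theorem test_cons (le lc : Λ) (v : Sig Λ) (i : List (Bool ⊕ Bool)) (o : List Bool)
    (c : List Λ) (s : St) (h : W n) {k : ℕ} (hk : k < n + 1) (e : s k ≠ []) :
    TM2.stepAux (test (ix n k) le lc) v (toStk i o c (phys s h)) =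
      ⟨some lc, (true, some lc), toStk i o c (phys s h)⟩ := by
  obtain ⟨a, l, e⟩ := List.exists_cons_of_ne_nil e
  rw [test, stepAux_peekW, phys_ix _ _ hk, e, List.map_cons, List.cons_append, List.head?_cons,
    sel_some]
  rcases a with _ | _ | _ <;> rfl

theorem push_phys (q : TStmt n Λ) (v : Sig Λ) (i : List (Bool ⊕ Bool)) (o : List Bool)
    (c : List Λ) (s : St) (h : W n) {k : ℕ} (hk : k < n + 1) (a : Sym) :
    TM2.stepAux (pushW (ix n k) (some a) q) v (toStk i o c (phys s h)) =
      TM2.stepAux q v (toStk i o c (phys (Function.update s k (a :: s k)) h)) := by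
  rw [stepAux_pushW, ← update_phys _ _ hk, phys_ix _ _ hk]
  rfl

/-- push a marker on each listed stack -/
def mark : List (Fin (n + 1)) → TStmt n Λ → TStmt n Λ
  | [], q => q
  | j :: L, q => pushW j none (mark L q)

theorem stepAux_mark (q : TStmt n Λ) (v : Sig Λ) (i : List (Bool ⊕ Bool)) (o : List Bool)
    (c : List Λ) : ∀ (L : List (Fin (n + 1))) (w : W n), L.Nodup →
    TM2.stepAux (mark L q) v (toStk i o c w) =
      TM2.stepAux q v (toStk i o c fun k => if k ∈ L then none :: w k else w k)
  | [], w, _ => by simp [mark]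
  | j :: L, w, hL => by
    rw [List.nodup_cons] at hL
    rw [mark, stepAux_pushW, stepAux_mark q v i o c L _ hL.2]
    congr 2
    funext k
    by_cases e : k = j
    · subst e; simp [hL.1]
    · simp [e]

/-- pop each listed stack -/
def unmark : List (Fin (n + 1)) → TStmt n Λ → TStmt n Λ
  | [], q => q
  | j :: L, q => popW j (unmark L q)

theorem stepAux_unmark (q : TStmt n Λ) (v : Sig Λ) (i : List (Bool ⊕ Bool)) (o : List Bool)
    (c : List Λ) : ∀ (L : List (Fin (n + 1))) (w : W n), L.Nodup →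
    TM2.stepAux (unmark L q) v (toStk i o c w) =
      TM2.stepAux q v (toStk i o c fun k => if k ∈ L then (w k).tail else w k)
  | [], w, _ => by simp [unmark]
  | j :: L, w, hL => by
    rw [List.nodup_cons] at hL
    rw [unmark, stepAux_popW, stepAux_unmark q v i o c L _ hL.2]
    congr 2
    funext k
    by_cases e : k = j
    · subst e; simp [hL.1]
    · simp [e]

/-- the work stacks other than stack `0` -/
def others (n : ℕ) : List (Fin (n + 1)) := (List.finRange (n + 1)).filter fun k => k.1 ≠ 0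

theorem mem_others (k : Fin (n + 1)) : k ∈ others n ↔ k.1 ≠ 0 := by
  simp [others]

theorem nodup_others : (others n).Nodup := (List.nodup_finRange _).filter _

/-- the hidden parts inside a scope -/
def hide (s : St) (h : W n) : W n := fun k => if k.1 = 0 then h k else none :: phys s h k

theorem Hid.hide {h : W n} (hh : Hid h) (s : St) : Hid (hide s h) := by
  intro k
  unfold Mach.hide
  split_ifs
  · exact hh k
  · exact Or.inr rfl

theorem mark_phys (s : St) (h : W n) :
    (fun k => if k ∈ others n then none :: phys s h k else phys s h k) =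
      phys (St.only0 (s 0)) (hide s h) := by
  funext k
  by_cases e : k.1 = 0
  · simp [mem_others, e, phys, hide, St.only0]
  · simp only [mem_others, ne_eq, e, not_false_eq_true, if_true]
    simp [phys, hide, St.only0, e]

theorem unmark_phys (s : St) (h : W n) (l : List Sym) :
    (fun k => if k ∈ others n then (phys (St.only0 l) (hide s h) k).tail
      else phys (St.only0 l) (hide s h) k) = phys (Function.update s 0 l) h := by
  funext k
  by_cases e : k.1 = 0
  · simp [mem_others, e, phys, hide, St.only0]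
  · simp only [mem_others, ne_eq, e, not_false_eq_true, if_true]
    simp [phys, hide, St.only0, e]

/-- the compiled code at each program point (`fe` is the entry of the enclosing function) -/
def code : (p : P) → (Lbl p → Λ) → Λ → Λ → Lbl p → TStmt n Λ
  | .nop, _, nxt, _, _ => jmp nxt
  | .push k a, _, nxt, _, _ => pushW (ix n k) (some a) (jmp nxt)
  | .seq p q, emb, _, fe, Sum.inl l =>
      code p (fun l => emb (Sum.inl l)) (emb (Sum.inr (entry q))) fe l
  | .seq _ q, emb, nxt, fe, Sum.inr l => code q (fun l => emb (Sum.inr l)) nxt fe l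
  | .case k pe ps pf pt, emb, _, _, Sum.inl _ =>
      pop4 (ix n k) (emb (Sum.inr (Sum.inl (entry pe))))
        (emb (Sum.inr (Sum.inr (Sum.inl (entry ps)))))
        (emb (Sum.inr (Sum.inr (Sum.inr (Sum.inl (entry pf))))))
        (emb (Sum.inr (Sum.inr (Sum.inr (Sum.inr (entry pt))))))
  | .case _ pe _ _ _, emb, nxt, fe, Sum.inr (Sum.inl l) =>
      code pe (fun l => emb (Sum.inr (Sum.inl l))) nxt fe l
  | .case _ _ ps _ _, emb, nxt, fe, Sum.inr (Sum.inr (Sum.inl l)) =>
      code ps (fun l => emb (Sum.inr (Sum.inr (Sum.inl l)))) nxt fe l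
  | .case _ _ _ pf _, emb, nxt, fe, Sum.inr (Sum.inr (Sum.inr (Sum.inl l))) =>
      code pf (fun l => emb (Sum.inr (Sum.inr (Sum.inr (Sum.inl l))))) nxt fe l
  | .case _ _ _ _ pt, emb, nxt, fe, Sum.inr (Sum.inr (Sum.inr (Sum.inr l))) =>
      code pt (fun l => emb (Sum.inr (Sum.inr (Sum.inr (Sum.inr l))))) nxt fe l
  | .wh k p, emb, nxt, _, Sum.inl _ => test (ix n k) nxt (emb (Sum.inr (entry p)))
  | .wh _ p, emb, _, fe, Sum.inr l => code p (fun l => emb (Sum.inr l)) (emb (Sum.inl ())) fe l
  | .word k pf pt, emb, nxt, _, Sum.inl _ =>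
      pop4 (ix n k) nxt nxt (emb (Sum.inr (Sum.inl (entry pf))))
        (emb (Sum.inr (Sum.inr (entry pt))))
  | .word _ pf _, emb, _, fe, Sum.inr (Sum.inl l) =>
      code pf (fun l => emb (Sum.inr (Sum.inl l))) (emb (Sum.inl ())) fe l
  | .word _ _ pt, emb, _, fe, Sum.inr (Sum.inr l) =>
      code pt (fun l => emb (Sum.inr (Sum.inr l))) (emb (Sum.inl ())) fe l
  | .scope p, emb, _, _, Sum.inl false => mark (others n) (jmp (emb (Sum.inr (entry p))))
  | .scope _, _, nxt, _, Sum.inl true => unmark (others n) (jmp nxt)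
  | .scope p, emb, _, fe, Sum.inr l => code p (fun l => emb (Sum.inr l)) (emb (Sum.inl true)) fe l
  | .fix p, emb, nxt, _, Sum.inl false => pushC nxt (jmp (emb (Sum.inr (entry p))))
  | .fix _, _, nxt, _, Sum.inl true => retS nxt
  | .fix p, emb, _, _, Sum.inr l =>
      code p (fun l => emb (Sum.inr l)) (emb (Sum.inl true)) (emb (Sum.inr (entry p))) l
  | .self, _, nxt, fe, _ => pushC nxt (jmp fe)

/-- from label `l` with stacks `S` (any state) label `l'` with stacks `S'` is reached within `t`
steps -/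
def Reach (M : Λ → TStmt n Λ) (t : ℕ) (l : Λ) (S : ∀ k, List (Gam n Λ k)) (l' : Λ)
    (S' : ∀ k, List (Gam n Λ k)) : Prop :=
  ∀ v : Sig Λ, ∃ v' : Sig Λ, ∃ k ≤ t,
    (flip bind (TM2.step M))^[k] (some ⟨some l, v, S⟩) = some ⟨some l', v', S'⟩

theorem Reach.mono {M : Λ → TStmt n Λ} {t t' : ℕ} {l l' : Λ} {S S' : ∀ k, List (Gam n Λ k)}
    (h : Reach M t l S l' S') (ht : t ≤ t') : Reach M t' l S l' S' := by
  intro v
  obtain ⟨v', k, hk, e⟩ := h v
  exact ⟨v', k, hk.trans ht, e⟩

theorem Reach.trans {M : Λ → TStmt n Λ} {t t' : ℕ} {l l' l'' : Λ}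
    {S S' S'' : ∀ k, List (Gam n Λ k)} (h : Reach M t l S l' S') (h' : Reach M t' l' S' l'' S'') :
    Reach M (t + t') l S l'' S'' := by
  intro v
  obtain ⟨v', k, hk, e⟩ := h v
  obtain ⟨v'', k', hk', e'⟩ := h' v'
  exact ⟨v'', k' + k, by omega, by rw [Function.iterate_add_apply, e, e']⟩

theorem Reach.one {M : Λ → TStmt n Λ} {l l' : Λ} {S S' : ∀ k, List (Gam n Λ k)}
    {st : TStmt n Λ} (hM : M l = st)
    (h : ∀ v, ∃ v', TM2.stepAux st v S = ⟨some l', v', S'⟩) : Reach M 1 l S l' S' := by
  intro v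
  obtain ⟨v', e⟩ := h v
  exact ⟨v', 1, le_rfl, by rw [← e, ← hM]; rfl⟩

theorem Reach.pre {M : Λ → TStmt n Λ} {t : ℕ} {l l' l'' : Λ}
    {S S' S'' : ∀ k, List (Gam n Λ k)} (h : Reach M 1 l S l' S') (h' : Reach M t l' S' l'' S'') :
    Reach M (t + 1) l S l'' S'' :=
  (h.trans h').mono (by omega)

theorem Reach.around {M : Λ → TStmt n Λ} {t : ℕ} {l l' l'' l3 : Λ}
    {S S' S'' S3 : ∀ k, List (Gam n Λ k)} (h : Reach M 1 l S l' S')
    (h' : Reach M t l' S' l'' S'') (h'' : Reach M 1 l'' S'' l3 S3) :
    Reach M (t + 2) l S l3 S3 :=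
  ((h.trans h').trans h'').mono (by omega)

theorem mark_step (l : Λ) (v : Sig Λ) (i : List (Bool ⊕ Bool)) (o : List Bool) (c : List Λ)
    (s : St) (h : W n) :
    TM2.stepAux (mark (others n) (jmp l)) v (toStk i o c (phys s h)) =
      ⟨some l, v, toStk i o c (phys (St.only0 (s 0)) (hide s h))⟩ := by
  rw [stepAux_mark _ _ _ _ _ _ _ nodup_others, mark_phys, stepAux_jmp]

theorem unmark_step (l : Λ) (v : Sig Λ) (i : List (Bool ⊕ Bool)) (o : List Bool) (c : List Λ)
    (s : St) (h : W n) (r : List Sym) :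
    TM2.stepAux (unmark (others n) (jmp l)) v (toStk i o c (phys (St.only0 r) (hide s h))) =
      ⟨some l, v, toStk i o c (phys (Function.update s 0 r) h)⟩ := by
  rw [stepAux_unmark _ _ _ _ _ _ _ nodup_others, unmark_phys, stepAux_jmp]

theorem push_step (l : Λ) (v : Sig Λ) (i : List (Bool ⊕ Bool)) (o : List Bool)
    (c : List Λ) (s : St) (h : W n) {k : ℕ} (hk : k < n + 1) (a : Sym) :
    TM2.stepAux (pushW (ix n k) (some a) (jmp l)) v (toStk i o c (phys s h)) =
      ⟨some l, v, toStk i o c (phys (Function.update s k (a :: s k)) h)⟩ := by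
  rw [push_phys _ _ _ _ _ _ _ hk, stepAux_jmp]

theorem call_step (r l : Λ) (v : Sig Λ) (i : List (Bool ⊕ Bool)) (o : List Bool) (c : List Λ)
    (w : W n) :
    TM2.stepAux (pushC r (jmp l)) v (toStk i o c w) = ⟨some l, v, toStk i o (r :: c) w⟩ := by
  rw [stepAux_pushC, stepAux_jmp]

/-- the code of the enclosing function is present in the machine -/
def FnInv (M : Λ → TStmt n Λ) (fn : Option P) (fe : Λ) : Prop :=
  ∀ b, fn = some b → Ok (n + 1) b ∧ ∃ (emb : Lbl b → Λ) (ret d : Λ), fe = emb (entry b) ∧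
    (∀ l, M (emb l) = code b emb ret fe l) ∧ M ret = retS d

theorem reach_of_exec (M : Λ → TStmt n Λ) (i : List (Bool ⊕ Bool)) (o : List Bool)
    {fn p s s' t} (h : Exec fn p s s' t) :
    ∀ (emb : Lbl p → Λ) (nxt fe : Λ) (c : List Λ) (hid : W n), Ok (n + 1) p → FnInv M fn fe →
      Hid hid → (∀ l, M (emb l) = code p emb nxt fe l) →
      Reach M t (emb (entry p)) (toStk i o c (phys s hid)) nxt (toStk i o c (phys s' hid)) := by
  induction h with
  | mono _ hn ih =>
    exact fun emb nxt fe c hid ok fi hh hM => (ih emb nxt fe c hid ok fi hh hM).mono hn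
  | nop =>
    intro emb nxt fe c hid ok fi hh hM
    exact Reach.one (hM _) fun v => ⟨v, stepAux_jmp _ _ _⟩
  | push =>
    intro emb nxt fe c hid ok fi hh hM
    exact Reach.one (hM _) fun v => ⟨v, push_step _ _ _ _ _ _ _ ok _⟩
  | seq _ _ ih1 ih2 =>
    intro emb nxt fe c hid ok fi hh hM
    exact (ih1 _ _ fe c hid ok.1 fi hh fun l => hM (Sum.inl l)).trans
      (ih2 _ _ fe c hid ok.2 fi hh fun l => hM (Sum.inr l))
  | caseE h _ ih =>
    intro emb nxt fe c hid ok fi hh hM
    exact Reach.pre (Reach.one (hM _) fun v => ⟨_, pop4_nil _ _ _ _ _ _ _ _ _ hh ok.1 h⟩)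
      (ih _ _ fe c hid ok.2.1 fi hh fun l => hM (Sum.inr (Sum.inl l)))
  | caseS h _ ih =>
    intro emb nxt fe c hid ok fi hh hM
    exact Reach.pre (Reach.one (hM _) fun v => ⟨_, pop4_cons _ _ _ _ _ _ _ _ _ _ ok.1 h⟩)
      (ih _ _ fe c hid ok.2.2.1 fi hh fun l => hM (Sum.inr (Sum.inr (Sum.inl l))))
  | caseF h _ ih =>
    intro emb nxt fe c hid ok fi hh hM
    exact Reach.pre (Reach.one (hM _) fun v => ⟨_, pop4_cons _ _ _ _ _ _ _ _ _ _ ok.1 h⟩)
      (ih _ _ fe c hid ok.2.2.2.1 fi hh fun l => hM (Sum.inr (Sum.inr (Sum.inr (Sum.inl l)))))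
  | caseT h _ ih =>
    intro emb nxt fe c hid ok fi hh hM
    exact Reach.pre (Reach.one (hM _) fun v => ⟨_, pop4_cons _ _ _ _ _ _ _ _ _ _ ok.1 h⟩)
      (ih _ _ fe c hid ok.2.2.2.2 fi hh fun l => hM (Sum.inr (Sum.inr (Sum.inr (Sum.inr l)))))
  | whE h =>
    intro emb nxt fe c hid ok fi hh hM
    exact Reach.one (hM _) fun v => ⟨_, test_nil _ _ _ _ _ _ _ hh ok.1 h⟩
  | whC h _ _ ih1 ih2 =>
    intro emb nxt fe c hid ok fi hh hM
    exact Reach.pre (Reach.one (hM _) fun v => ⟨_, test_cons _ _ _ _ _ _ _ _ ok.1 h⟩)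
      ((ih1 _ _ fe c hid ok.2 fi hh fun l => hM (Sum.inr l)).trans
        (ih2 emb nxt fe c hid ok fi hh hM))
  | wordE h =>
    intro emb nxt fe c hid ok fi hh hM
    exact Reach.one (hM _) fun v => ⟨_, pop4_nil _ _ _ _ _ _ _ _ _ hh ok.1 h⟩
  | wordS h =>
    intro emb nxt fe c hid ok fi hh hM
    exact Reach.one (hM _) fun v => ⟨_, pop4_cons _ _ _ _ _ _ _ _ _ _ ok.1 h⟩
  | wordF h _ _ ih1 ih2 =>
    intro emb nxt fe c hid ok fi hh hM
    exact Reach.pre (Reach.one (hM _) fun v => ⟨_, pop4_cons _ _ _ _ _ _ _ _ _ _ ok.1 h⟩)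
      ((ih1 _ _ fe c hid ok.2.1 fi hh fun l => hM (Sum.inr (Sum.inl l))).trans
        (ih2 emb nxt fe c hid ok fi hh hM))
  | wordT h _ _ ih1 ih2 =>
    intro emb nxt fe c hid ok fi hh hM
    exact Reach.pre (Reach.one (hM _) fun v => ⟨_, pop4_cons _ _ _ _ _ _ _ _ _ _ ok.1 h⟩)
      ((ih1 _ _ fe c hid ok.2.2 fi hh fun l => hM (Sum.inr (Sum.inr l))).trans
        (ih2 emb nxt fe c hid ok fi hh hM))
  | @scope fn p s l t _ ih =>
    intro emb nxt fe c hid ok fi hh hM
    exact Reach.around (Reach.one (hM _) fun v => ⟨v, mark_step _ _ _ _ _ _ _⟩)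
      (ih _ (emb (Sum.inl true)) fe c (hide s hid) ok fi (hh.hide s) fun l => hM (Sum.inr l))
      (Reach.one (hM _) fun v => ⟨v, unmark_step _ _ _ _ _ _ _ _⟩)
  | @fix fn p s s' t _ ih =>
    intro emb nxt fe c hid ok fi hh hM
    have fi' : FnInv M (some p) (emb (Sum.inr (entry p))) := by
      intro b hb
      cases hb
      exact ⟨ok, fun l => emb (Sum.inr l), emb (Sum.inl true), nxt, rfl,
        fun l => hM (Sum.inr l), hM (Sum.inl true)⟩
    exact Reach.around (Reach.one (hM _) fun v => ⟨v, call_step _ _ _ _ _ _ _⟩)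
      (ih _ (emb (Sum.inl true)) _ (nxt :: c) hid ok fi' hh fun l => hM (Sum.inr l))
      (Reach.one (hM _) fun v => ⟨_, stepAux_retS _ _ _ _ _ _ _⟩)
  | @self p s s' t _ ih =>
    intro emb nxt fe c hid ok fi hh hM
    obtain ⟨okp, emb', ret, d, hfe, hc, hr⟩ := fi p rfl
    have key := ih emb' ret fe (nxt :: c) hid okp fi hh hc
    rw [← hfe] at key
    exact Reach.around (Reach.one (hM _) fun v => ⟨v, call_step _ _ _ _ _ _ _⟩) key
      (Reach.one hr fun v => ⟨_, stepAux_retS _ _ _ _ _ _ _⟩)

end compile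

/-- the labels of the input and output phases -/
inductive X : Type
  | rd | sym (g : Bool ⊕ Bool) | wr | oF | oT | fin
  deriving DecidableEq

instance : Fintype X :=
  ⟨{X.rd, X.wr, X.oF, X.oT, X.fin} ∪ Finset.univ.image X.sym, by intro x; cases x <;> simp⟩

/-- push the code of a bit -/
def pushBit {n : ℕ} {Λ : Type} (k : ℕ) (b : Bool) (l : Λ) : TStmt n Λ :=
  match b with
  | false => pushW (ix n k) (some none) (jmp l)
  | true => pushW (ix n k) (some none) (pushW (ix n k) (some (some true)) (jmp l))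

theorem encW_false : encW false.toNat = [none] := by simp [encW]

theorem encW_true : encW true.toNat = [some true, none] := by simp [encW]

theorem pushBit_step {n : ℕ} {Λ : Type} (l : Λ) (v : Sig Λ) (i : List (Bool ⊕ Bool))
    (o : List Bool) (c : List Λ) (s : St) (h : W n) {k : ℕ} (hk : k < n + 1) (b : Bool) :
    TM2.stepAux (pushBit k b l : TStmt n Λ) v (toStk i o c (phys s h)) =
      ⟨some l, v, toStk i o c (phys (Function.update s k (encW b.toNat ++ s k)) h)⟩ := by
  cases b
  · rw [encW_false]; exact push_step _ _ _ _ _ _ _ hk _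
  · rw [encW_true]
    simp only [pushBit]
    rw [push_phys _ _ _ _ _ _ _ hk, push_step _ _ _ _ _ _ _ hk]
    simp

/-- the whole machine -/
def mach (n : ℕ) (p : P) : X ⊕ Lbl p → TStmt n (X ⊕ Lbl p)
  | Sum.inl .rd => .pop .inp
      (fun _ o => (false, some (match (o : Option (Bool ⊕ Bool)) with
        | none => Sum.inr (entry p)
        | some g => Sum.inl (.sym g)))) (jst (Sum.inl .rd))
  | Sum.inl (.sym (Sum.inl b)) => pushBit 1 b (Sum.inl .rd)
  | Sum.inl (.sym (Sum.inr b)) => pushBit 2 b (Sum.inl .rd)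
  | Sum.inl .wr => pop4 (ix n 0) (Sum.inl .fin) (Sum.inl .oF) (Sum.inl .fin) (Sum.inl .oT)
  | Sum.inl .oF => .push .out (fun _ => false) (jmp (Sum.inl .wr))
  | Sum.inl .oT => .push .out (fun _ => true)
      (pop4 (ix n 0) (Sum.inl .wr) (Sum.inl .wr) (Sum.inl .wr) (Sum.inl .wr))
  | Sum.inl .fin => .load (fun _ => (false, none)) .halt
  | Sum.inr l => code p Sum.inr (Sum.inl .wr) (Sum.inl .fin) l

section run

variable {n : ℕ} {p : P}

theorem rd_nil (o : List Bool) (c : List (X ⊕ Lbl p)) (w : W n) :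
    Reach (mach n p) 1 (Sum.inl .rd) (toStk [] o c w) (Sum.inr (entry p)) (toStk [] o c w) := by
  refine Reach.one rfl fun v => ⟨(false, some (Sum.inr (entry p))), ?_⟩
  simp only [mach, TM2.stepAux]
  erw [update_inp]
  rfl

theorem rd_cons (g : Bool ⊕ Bool) (i : List (Bool ⊕ Bool)) (o : List Bool)
    (c : List (X ⊕ Lbl p)) (w : W n) :
    Reach (mach n p) 1 (Sum.inl .rd) (toStk (g :: i) o c w) (Sum.inl (.sym g))
      (toStk i o c w) := by
  refine Reach.one rfl fun v => ⟨(false, some (Sum.inl (.sym g))), ?_⟩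
  simp only [mach, TM2.stepAux]
  erw [update_inp]
  rfl

theorem read_inl (hn : 2 ≤ n) (i : List (Bool ⊕ Bool)) (h : W n) (x : List Bool) : ∀ s : St,
    Reach (mach n p) (2 * x.length) (Sum.inl .rd)
      (toStk (x.map Sum.inl ++ i) [] [] (phys s h)) (Sum.inl .rd)
      (toStk i [] [] (phys (Function.update s 1 (enc (bitsW x.reverse) ++ s 1)) h)) := by
  induction x with
  | nil =>
    intro s v
    exact ⟨v, 0, le_rfl, by simp [bitsW]⟩
  | cons b x ih =>
    intro s
    have h1 := rd_cons (n := n) (p := p) (Sum.inl b) (x.map Sum.inl ++ i) [] [] (phys s h)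
    have h2 : Reach (mach n p) 1 (Sum.inl (.sym (Sum.inl b)))
        (toStk (x.map Sum.inl ++ i) [] [] (phys s h)) (Sum.inl .rd) _ :=
      Reach.one rfl fun v => ⟨v, pushBit_step _ _ _ _ _ _ _ (by omega) b⟩
    have h3 := (h1.trans h2).trans (ih _)
    simp only [Function.update_self, Function.update_idem] at h3
    have e : enc (bitsW (b :: x).reverse) ++ s 1 =
        enc (bitsW x.reverse) ++ (encW b.toNat ++ s 1) := by simp [bitsW]
    rw [e]
    exact h3.mono (by simp; omega)

theorem read_inr (hn : 2 ≤ n) (i : List (Bool ⊕ Bool)) (h : W n) (x : List Bool) : ∀ s : St,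
    Reach (mach n p) (2 * x.length) (Sum.inl .rd)
      (toStk (x.map Sum.inr ++ i) [] [] (phys s h)) (Sum.inl .rd)
      (toStk i [] [] (phys (Function.update s 2 (enc (bitsW x.reverse) ++ s 2)) h)) := by
  induction x with
  | nil =>
    intro s v
    exact ⟨v, 0, le_rfl, by simp [bitsW]⟩
  | cons b x ih =>
    intro s
    have h1 := rd_cons (n := n) (p := p) (Sum.inr b) (x.map Sum.inr ++ i) [] [] (phys s h)
    have h2 : Reach (mach n p) 1 (Sum.inl (.sym (Sum.inr b)))
        (toStk (x.map Sum.inr ++ i) [] [] (phys s h)) (Sum.inl .rd) _ :=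
      Reach.one rfl fun v => ⟨v, pushBit_step _ _ _ _ _ _ _ (by omega) b⟩
    have h3 := (h1.trans h2).trans (ih _)
    simp only [Function.update_self, Function.update_idem] at h3
    have e : enc (bitsW (b :: x).reverse) ++ s 2 =
        enc (bitsW x.reverse) ++ (encW b.toNat ++ s 2) := by simp [bitsW]
    rw [e]
    exact h3.mono (by simp; omega)

theorem update_only0 (l l' : List Sym) : Function.update (St.only0 l) 0 l' = St.only0 l' := by
  funext k
  by_cases e : k = 0
  · subst e; simp [St.only0]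
  · simp [St.only0, e]

theorem write_out {h : W n} (hh : Hid h) (x : List Bool) : ∀ o : List Bool,
    Reach (mach n p) (2 * x.length + 1) (Sum.inl .wr)
      (toStk [] o [] (phys (St.only0 (enc (bitsW x))) h)) (Sum.inl .fin)
      (toStk [] (x.reverse ++ o) [] (phys (St.only0 []) h)) := by
  induction x with
  | nil =>
    intro o
    exact Reach.one rfl fun v => ⟨_, pop4_nil _ _ _ _ _ _ _ _ _ hh (Nat.succ_pos n) rfl⟩
  | cons b x ih =>
    intro o
    rw [List.reverse_cons, List.append_assoc]
    cases b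
    · have e : St.only0 (enc (bitsW (false :: x))) 0 = none :: enc (bitsW x) := by
        simp [St.only0, bitsW, encW]
      have h1 : Reach (mach n p) 1 (Sum.inl .wr)
          (toStk [] o [] (phys (St.only0 (enc (bitsW (false :: x)))) h)) (Sum.inl .oF) _ :=
        Reach.one rfl fun v => ⟨_, pop4_cons _ _ _ _ _ _ _ _ _ _ (Nat.succ_pos n) e⟩
      rw [update_only0] at h1
      have h2 : Reach (mach n p) 1 (Sum.inl .oF)
          (toStk [] o [] (phys (St.only0 (enc (bitsW x))) h)) (Sum.inl .wr)
          (toStk [] (false :: o) [] (phys (St.only0 (enc (bitsW x))) h)) := by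
        refine Reach.one rfl fun v => ⟨v, ?_⟩
        simp only [mach, TM2.stepAux]
        erw [update_out]
        rfl
      exact ((h1.trans h2).trans (ih _)).mono (by simp; omega)
    · have e : St.only0 (enc (bitsW (true :: x))) 0 = some true :: none :: enc (bitsW x) := by
        simp [St.only0, bitsW, encW]
      have h1 : Reach (mach n p) 1 (Sum.inl .wr)
          (toStk [] o [] (phys (St.only0 (enc (bitsW (true :: x)))) h)) (Sum.inl .oT) _ :=
        Reach.one rfl fun v => ⟨_, pop4_cons _ _ _ _ _ _ _ _ _ _ (Nat.succ_pos n) e⟩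
      rw [update_only0] at h1
      have e' : St.only0 (none :: enc (bitsW x)) 0 = none :: enc (bitsW x) := rfl
      have h2 : Reach (mach n p) 1 (Sum.inl .oT)
          (toStk [] o [] (phys (St.only0 (none :: enc (bitsW x))) h)) (Sum.inl .wr)
          (toStk [] (true :: o) [] (phys (St.only0 (enc (bitsW x))) h)) := by
        refine Reach.one rfl fun v => ⟨(true, some (Sum.inl .wr)), ?_⟩
        simp only [mach, TM2.stepAux]
        erw [update_out, pop4_cons _ _ _ _ _ _ _ _ _ _ (Nat.succ_pos n) e', update_only0]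
        rfl
      exact ((h1.trans h2).trans (ih _)).mono (by simp; omega)

end run

/-- the bundled machine -/
def finTM (n : ℕ) (p : P) : FinTM2 :=
  @FinTM2.mk (K n) inferInstance inferInstance .inp .out (Gam n (X ⊕ Lbl p)) (X ⊕ Lbl p)
    (Sum.inl .rd) (@instFintypeSum _ _ _ (lblFintype p)) (Sig (X ⊕ Lbl p)) (false, none)
    (@instFintypeProd _ _ _ (@instFintypeOption _ (@instFintypeSum _ _ _ (lblFintype p))))
    (inferInstanceAs (Fintype (Bool ⊕ Bool))) (mach n p)

theorem initList_finTM (n : ℕ) (p : P) (i : List (Bool ⊕ Bool)) :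
    initList (finTM n p) i =
      (⟨some (Sum.inl .rd), (false, none), toStk i [] [] (phys (fun _ => []) fun _ => [])⟩ :
        TCfg n (X ⊕ Lbl p)) := by
  unfold initList
  congr 1
  funext k
  cases k <;> rfl

theorem haltList_finTM (n : ℕ) (p : P) (o : List Bool) :
    haltList (finTM n p) o =
      (⟨none, (false, none), toStk [] o [] (phys (fun _ => []) fun _ => [])⟩ :
        TCfg n (X ⊕ Lbl p)) := by
  unfold haltList
  congr 1
  funext k
  cases k <;> rfl

theorem enc_eq (q : EqLenPair) : q.enc = q.1.1.map Sum.inl ++ q.1.2.map Sum.inr := rfl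

theorem length_enc_pair (q : EqLenPair) : q.enc.length = 2 * q.1.1.length := by
  have := q.2
  rw [enc_eq, List.length_append, List.length_map, List.length_map]
  omega

theorem run_all {n : ℕ} (hn : 2 ≤ n) {p : P} (ok : Ok (n + 1) p) (q : EqLenPair) (y : List Bool)
    {t : ℕ} (h : Exec none p (initSt q) (St.only0 (enc (bitsW y.reverse))) t) :
    ∃ k ≤ 2 * q.enc.length + t + 2 * y.length + 3,
      (flip bind (TM2.step (mach n p)))^[k]
        (some ⟨some (Sum.inl .rd), (false, none),
          toStk q.enc [] [] (phys (fun _ => []) fun _ => [])⟩) =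
        some ⟨none, (false, none), toStk [] y [] (phys (fun _ => []) fun _ => [])⟩ := by
  have hh : Hid (fun _ => [] : W n) := fun _ => Or.inl rfl
  have r1 := read_inl (p := p) hn (q.1.2.map Sum.inr) (fun _ => []) q.1.1 (fun _ => [])
  have r2 := read_inr (p := p) hn [] (fun _ => []) q.1.2
    (Function.update (fun _ => []) 1 (enc (bitsW q.1.1.reverse) ++ []))
  rw [List.append_nil (q.1.2.map Sum.inr)] at r2
  have e : Function.update (Function.update (fun _ => []) 1 (enc (bitsW q.1.1.reverse) ++ []) : St)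
      2 (enc (bitsW q.1.2.reverse) ++
        (Function.update (fun _ => []) 1 (enc (bitsW q.1.1.reverse) ++ []) : St) 2) =
      initSt q := by
    funext k
    unfold initSt
    by_cases e1 : k = 1
    · subst e1; simp
    · by_cases e2 : k = 2
      · subst e2; simp
      · simp [e1, e2]
  rw [e] at r2
  have r3 := rd_nil (n := n) (p := p) [] [] (phys (initSt q) fun _ => [])
  have r4 := reach_of_exec (mach n p) [] [] h Sum.inr (Sum.inl .wr) (Sum.inl .fin) []
    (fun _ => []) ok (fun b hb => by cases hb) hh fun _ => rfl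
  have r5 := write_out (p := p) hh y.reverse []
  have e0 : St.only0 [] = fun _ => [] := by funext k; simp [St.only0]
  rw [List.reverse_reverse, List.append_nil, e0] at r5
  obtain ⟨v, k, hk, ek⟩ := ((((r1.trans r2).trans r3).trans r4).trans r5) (false, none)
  refine ⟨k + 1, ?_, ?_⟩
  · have := q.2
    rw [length_enc_pair]
    rw [List.length_reverse] at hk
    omega
  · rw [Function.iterate_succ_apply', enc_eq, ek]
    rfl

end Mach

open Mach in
theorem machine_spec : MachineSpec := by
  intro f p T hT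
  obtain ⟨m, hm⟩ := exists_ok p
  have ok : Ok (m + 2 + 1) p := Ok.mono (by omega) p hm
  have key : ∀ q : EqLenPair, Nonempty (TM2OutputsInTime (finTM (m + 2) p)
      (List.map (Equiv.refl (Bool ⊕ Bool)).invFun q.enc)
      (some (List.map (Equiv.refl Bool).invFun ((Computability.encodingList Bool).encode (f q))))
      (3 * (T (q.enc.length / 2) + q.enc.length + 1))) := by
    intro q
    obtain ⟨hl, hx⟩ := hT q
    obtain ⟨k, hk, e⟩ := run_all (n := m + 2) (by omega) ok q (f q) hx
    have e1 : List.map (Equiv.refl (Bool ⊕ Bool)).invFun q.enc = q.enc := List.map_id _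
    have e2 : List.map (Equiv.refl Bool).invFun
        ((Computability.encodingList Bool).encode (f q)) = f q := List.map_id _
    have e3 : q.enc.length / 2 = q.1.1.length := by rw [length_enc_pair]; omega
    refine ⟨⟨⟨k, ?_⟩, by show k ≤ _; rw [e3]; omega⟩⟩
    erw [e1, e2, initList_finTM, Option.map_some, haltList_finTM]
    exact e
  exact ⟨3, ⟨⟨finTM (m + 2) p, Equiv.refl _, Equiv.refl _⟩,
    fun N => 3 * (T (N / 2) + N + 1), fun q => Classical.choice (key q)⟩, fun _ => le_rfl⟩

end Crest.Agent.R326
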