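import Crest.Agent.R326.Lang

/-!
# Derived constructs of the language and their evaluation rules
-/

set_option autoImplicit false

namespace Crest.Agent.R326

/-- pure evaluation: the environment is unchanged -/
abbrev Pv (W : ℕ) (fn : Option Tm) (e : Env) (t : Tm) (v : List ℕ) (c : ℝ) : Prop :=
  Ev W fn e t e v c

variable {W : ℕ} {fn : Option Tm}

theorem small_lt {W c : ℕ} (hW : 8 ≤ W) (hc : c < 256) : c < 2 ^ W :=
  hc.trans_le (by simpa using Nat.pow_le_pow_right (by norm_num : 0 < 2) hW)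

theorem Pv.mono {e t v} {c c' : ℝ} (h : Pv W fn e t v c) (hc : c ≤ c') : Pv W fn e t v c' :=
  Ev.mono h hc

theorem Pv.cast {e t v v'} {c c' : ℝ} (h : Pv W fn e t v c) (hv : v = v') (hc : c ≤ c') :
    Pv W fn e t v' c' := hv ▸ Ev.mono h hc

theorem Pv.var {e : Env} {i x} (h : e[i]? = some x) :
    Pv W fn e (.var i) x ((x.length : ℝ) + 1) := Ev.var h

theorem Pv.varS {e : Env} {i x} (h : e[i]? = some [x]) : Pv W fn e (.var i) [x] 2 :=
  (Ev.var h).mono (by norm_num)

theorem Pv.nil {e : Env} : Pv W fn e .nil [] 1 := Ev.nil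

theorem Pv.const {e : Env} {c : ℕ} (h : c < 2 ^ W) : Pv W fn e (.const c) [c] 2 := Ev.const h

theorem Pv.constS {e : Env} {c : ℕ} (hW : 8 ≤ W) (h : c < 256) : Pv W fn e (.const c) [c] 2 :=
  Ev.const (small_lt hW h)

theorem Pv.lett {e a b v r} {c1 c2 : ℝ} (ha : Pv W fn e a v c1) (hb : Pv W fn (v :: e) b r c2) :
    Pv W fn e (.lett a b) r (c1 + c2 + v.length + r.length + 1) := Ev.lett ha hb

theorem Pv.skip {e e' : Env} {j k a v} {c : ℝ} (he : e.take j ++ e.drop (j + k) = e')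
    (hl : j + k ≤ e.length) (h : Pv W fn e' a v c) : Pv W fn e (.skip j k a) v c := by
  subst he
  have h1 : e = e.take j ++ ((e.drop j).take k ++ e.drop (j + k)) := by
    rw [← List.drop_drop, List.take_append_drop, List.take_append_drop]
  have := Ev.skip (W := W) (fn := fn) (j := j) (k := k) (A := e.take j) (B := (e.drop j).take k)
    (C := e.drop (j + k)) (A' := e.take j) (C' := e.drop (j + k))
    (by simp; omega) (by simp; omega) (by simp; omega) h
  rwa [← h1] at this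

theorem Ev.skip01 {e e' : Env} {x a v} {c : ℝ} (h : Ev W fn e a e' v c) :
    Ev W fn (x :: e) (.skip 0 1 a) (x :: e') v c :=
  Ev.skip (A := []) (B := [x]) (A' := []) rfl rfl rfl h

theorem Ev.skip11 {e e' : Env} {x y y' a v} {c : ℝ} (h : Ev W fn (y :: e) a (y' :: e') v c) :
    Ev W fn (y :: x :: e) (.skip 1 1 a) (y' :: x :: e') v c :=
  Ev.skip (A := [y]) (B := [x]) (A' := [y']) rfl rfl rfl h

theorem Pv.fix {e body a v v' r} {c1 c2 : ℝ} (ha : Pv W fn e a v c1)
    (hb : Ev W (some body) [v] body [v'] r c2) :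
    Pv W fn e (.fix body a) r (c1 + c2 + v.length + v'.length + r.length + 1) := Ev.fix ha hb

theorem Pv.self {e body a v v' r} {c1 c2 : ℝ} (ha : Pv W (some body) e a v c1)
    (hb : Ev W (some body) [v] body [v'] r c2) :
    Pv W (some body) e (.self a) r (c1 + c2 + v.length + v'.length + r.length + 1) := Ev.self ha hb

/-! ### scalars -/

/-- `a + b` -/
def Tm.add (a b : Tm) : Tm := .bin .add a b
/-- `a - b` (truncated) -/
def Tm.sub (a b : Tm) : Tm := .bin .sub a b
/-- `a ^^^ b` -/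
def Tm.xor (a b : Tm) : Tm := .bin .xor a b
/-- `a * 2 ^ b` -/
def Tm.shl (a b : Tm) : Tm := .bin .shl a b
/-- `a / 2 ^ b` -/
def Tm.shr (a b : Tm) : Tm := .bin .shr a b
/-- `2 ^ a` -/
def Tm.pow2 (a : Tm) : Tm := .shl (.const 1) a

theorem Ev.add {e e1 e2 a b x y} {c1 c2 : ℝ} (ha : Ev W fn e a e1 [x] c1)
    (hb : Ev W fn e1 b e2 [y] c2) (h : x + y < 2 ^ W) :
    Ev W fn e (.add a b) e2 [x + y] (c1 + c2 + 5) :=
  (Ev.bin (op := .add) ha hb (fun _ _ => h) (Nat.zero_le _)).mono (by simp; linarith)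

theorem Pv.add {e a b x y} {c1 c2 : ℝ} (ha : Pv W fn e a [x] c1) (hb : Pv W fn e b [y] c2)
    (h : x + y < 2 ^ W) : Pv W fn e (.add a b) [x + y] (c1 + c2 + 5) := Ev.add ha hb h

theorem Pv.sub {e a b x y} {c1 c2 : ℝ} (ha : Pv W fn e a [x] c1) (hb : Pv W fn e b [y] c2) :
    Pv W fn e (.sub a b) [x - y] (c1 + c2 + 5) :=
  (Ev.bin (op := .sub) ha hb (fun h _ => (Nat.sub_le _ _).trans_lt h) (Nat.zero_le _)).mono
    (by simp; linarith)

theorem Pv.xor {e a b x y} {c1 c2 : ℝ} (ha : Pv W fn e a [x] c1) (hb : Pv W fn e b [y] c2) :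
    Pv W fn e (.xor a b) [x ^^^ y] (c1 + c2 + 5) :=
  (Ev.bin (op := .xor) ha hb (fun h h' => Nat.xor_lt_two_pow h h') (Nat.zero_le _)).mono
    (by simp; linarith)

theorem Pv.shl {e a b x y} {c1 c2 : ℝ} (ha : Pv W fn e a [x] c1) (hb : Pv W fn e b [y] c2)
    (h : x * 2 ^ y < 2 ^ W) (hy : y ≤ W) : Pv W fn e (.shl a b) [x * 2 ^ y] (c1 + c2 + 5) :=
  (Ev.bin (op := .shl) ha hb (fun _ _ => h) hy).mono (by simp; linarith)

theorem Pv.shr {e a b x y} {c1 c2 : ℝ} (ha : Pv W fn e a [x] c1) (hb : Pv W fn e b [y] c2)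
    (hy : y ≤ W) : Pv W fn e (.shr a b) [x / 2 ^ y] (c1 + c2 + 5) :=
  (Ev.bin (op := .shr) ha hb (fun h _ => (Nat.div_le_self _ _).trans_lt h) hy).mono
    (by simp; linarith)

theorem Pv.pow2 {e a y} {c : ℝ} (ha : Pv W fn e a [y] c) (hy : y < W) :
    Pv W fn e (.pow2 a) [2 ^ y] (c + 7) := by
  have h1 : 1 < 2 ^ W := Nat.one_lt_two_pow (by omega)
  have := Pv.shl (Pv.const (fn := fn) (e := e) h1) ha
    (by simpa using Nat.pow_lt_pow_right (by norm_num) hy) hy.le
  exact this.cast (by simp) (by linarith)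

/-- `a % 2 ^ k` -/
def Tm.low (a k : Tm) : Tm :=
  .lett a (.lett (.skip 0 1 k) (.sub (.var 1) (.shl (.shr (.var 1) (.var 0)) (.var 0))))

theorem Pv.low {e a k x y} {c1 c2 : ℝ} (ha : Pv W fn e a [x] c1) (hk : Pv W fn e k [y] c2)
    (hy : y ≤ W) : Pv W fn e (.low a k) [x % 2 ^ y] (c1 + c2 + 30) := by
  refine Ev.intro fun hb => ?_
  have hx : x < 2 ^ W := (ha hb).2.1 x (by simp)
  have h1 : x / 2 ^ y * 2 ^ y < 2 ^ W := (Nat.div_mul_le_self _ _).trans_lt hx
  refine (Pv.lett ha (Pv.lett (Ev.skip01 hk) (Pv.sub (Pv.varS rfl)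
    (Pv.shl (Pv.shr (Pv.varS rfl) (Pv.varS rfl) hy) (Pv.varS rfl) h1 hy)))).cast ?_ ?_
  · rw [Nat.mod_def, mul_comm]
  · simp; linarith

/-- `a / 2 ^ l % 2 ^ k` -/
def Tm.bits (a l k : Tm) : Tm := .low (.shr a l) k

theorem Pv.bits {e a l k x y z} {c1 c2 c3 : ℝ} (ha : Pv W fn e a [x] c1) (hl : Pv W fn e l [y] c2)
    (hk : Pv W fn e k [z] c3) (hy : y ≤ W) (hz : z ≤ W) :
    Pv W fn e (.bits a l k) [x / 2 ^ y % 2 ^ z] (c1 + c2 + c3 + 35) :=
  (Pv.low (Pv.shr ha hl hy) hk hz).mono (by linarith)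

/-! ### conditionals -/

/-- `if a < b then t else f` -/
def Tm.ifLt (a b t f : Tm) : Tm := .ite (.bin .lt a b) t f
/-- `if a = b then t else f` -/
def Tm.ifEq (a b t f : Tm) : Tm := .ite (.bin .xor a b) f t
/-- `if a < b then t else f`, scalar branches -/
def Tm.cndLt (a b t f : Tm) : Tm := .ifLt a b t f
/-- `if a = b then t else f`, scalar branches -/
def Tm.cndEq (a b t f : Tm) : Tm := .ifEq a b t f

theorem Pv.lt {e a b x y} {c1 c2 : ℝ} (hW : 8 ≤ W) (ha : Pv W fn e a [x] c1)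
    (hb : Pv W fn e b [y] c2) :
    Pv W fn e (.bin .lt a b) [if x < y then 1 else 0] (c1 + c2 + 5) :=
  (Ev.bin (op := .lt) ha hb (fun _ _ => by
    simp only [Op.ev]; split_ifs <;> exact small_lt hW (by norm_num)) (Nat.zero_le _)).mono
    (by simp; linarith)

theorem Ev.ifLtT {e e' a b t f x y v} {c1 c2 c3 : ℝ} (hW : 8 ≤ W) (ha : Pv W fn e a [x] c1)
    (hb : Pv W fn e b [y] c2) (h : x < y) (ht : Ev W fn e t e' v c3) :
    Ev W fn e (.ifLt a b t f) e' v (c1 + c2 + c3 + 7) :=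
  (Ev.iteT (Pv.lt hW ha hb) (by simp [h]) ht).mono (by simp; linarith)

theorem Ev.ifLtF {e e' a b t f x y v} {c1 c2 c3 : ℝ} (hW : 8 ≤ W) (ha : Pv W fn e a [x] c1)
    (hb : Pv W fn e b [y] c2) (h : ¬x < y) (ht : Ev W fn e f e' v c3) :
    Ev W fn e (.ifLt a b t f) e' v (c1 + c2 + c3 + 7) :=
  (Ev.iteF (Pv.lt hW ha hb) (by simp [h]) ht).mono (by simp; linarith)

theorem Ev.ifEqT {e e' a b t f x y v} {c1 c2 c3 : ℝ} (ha : Pv W fn e a [x] c1)
    (hb : Pv W fn e b [y] c2) (h : x = y) (ht : Ev W fn e t e' v c3) :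
    Ev W fn e (.ifEq a b t f) e' v (c1 + c2 + c3 + 7) :=
  (Ev.iteF (Pv.xor ha hb) (by simp [h]) ht).mono (by simp; linarith)

theorem Ev.ifEqF {e e' a b t f x y v} {c1 c2 c3 : ℝ} (ha : Pv W fn e a [x] c1)
    (hb : Pv W fn e b [y] c2) (h : ¬x = y) (ht : Ev W fn e f e' v c3) :
    Ev W fn e (.ifEq a b t f) e' v (c1 + c2 + c3 + 7) :=
  (Ev.iteT (Pv.xor ha hb) (by simpa using h) ht).mono (by simp; linarith)

theorem Pv.ifLt {e a b t f x y v v'} {c1 c2 c3 c4 : ℝ} (hW : 8 ≤ W) (ha : Pv W fn e a [x] c1)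
    (hb : Pv W fn e b [y] c2) (ht : x < y → Pv W fn e t v c3) (hf : ¬x < y → Pv W fn e f v' c4) :
    Pv W fn e (.ifLt a b t f) (if x < y then v else v') (c1 + c2 + max c3 c4 + 7) := by
  split_ifs with h
  · exact (Ev.ifLtT hW ha hb h (ht h)).mono (by linarith [le_max_left c3 c4])
  · exact (Ev.ifLtF hW ha hb h (hf h)).mono (by linarith [le_max_right c3 c4])

theorem Pv.ifEq {e a b t f x y v v'} {c1 c2 c3 c4 : ℝ} (ha : Pv W fn e a [x] c1)
    (hb : Pv W fn e b [y] c2) (ht : x = y → Pv W fn e t v c3) (hf : ¬x = y → Pv W fn e f v' c4) :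
    Pv W fn e (.ifEq a b t f) (if x = y then v else v') (c1 + c2 + max c3 c4 + 7) := by
  split_ifs with h
  · exact (Ev.ifEqT ha hb h (ht h)).mono (by linarith [le_max_left c3 c4])
  · exact (Ev.ifEqF ha hb h (hf h)).mono (by linarith [le_max_right c3 c4])

theorem Pv.cndLt {e a b t f x y v v'} {c1 c2 c3 c4 : ℝ} (hW : 8 ≤ W) (ha : Pv W fn e a [x] c1)
    (hb : Pv W fn e b [y] c2) (ht : x < y → Pv W fn e t [v] c3)
    (hf : ¬x < y → Pv W fn e f [v'] c4) :
    Pv W fn e (.cndLt a b t f) [if x < y then v else v'] (c1 + c2 + max c3 c4 + 7) :=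
  (Pv.ifLt hW ha hb ht hf).cast (by split_ifs <;> rfl) le_rfl

theorem Pv.cndEq {e a b t f x y v v'} {c1 c2 c3 c4 : ℝ} (ha : Pv W fn e a [x] c1)
    (hb : Pv W fn e b [y] c2) (ht : x = y → Pv W fn e t [v] c3)
    (hf : ¬x = y → Pv W fn e f [v'] c4) :
    Pv W fn e (.cndEq a b t f) [if x = y then v else v'] (c1 + c2 + max c3 c4 + 7) :=
  (Pv.ifEq ha hb ht hf).cast (by split_ifs <;> rfl) le_rfl

/-! ### lists -/

/-- sequencing -/
def Tm.seq (a b : Tm) : Tm := .lett a (.skip 0 1 b)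

theorem Ev.seq {e a b e1 e2 v r} {c1 c2 : ℝ} (ha : Ev W fn e a e1 v c1)
    (hb : Ev W fn e1 b e2 r c2) :
    Ev W fn e (.seq a b) e2 r (c1 + c2 + v.length + r.length + 1) := Ev.lett ha (Ev.skip01 hb)

/-- reversal -/
def Tm.rev (a : Tm) : Tm := .lett .nil (.seq (.push 0 (.skip 0 1 a)) (.var 0))

theorem Ev.rev {e e' a v} {c : ℝ} (ha : Ev W fn e a e' v c) :
    Ev W fn e (.rev a) e' v.reverse (c + 5 * v.length + 5) := by
  refine (Ev.lett Ev.nil (Ev.seq (Ev.push (Ev.skip01 ha) rfl) (Ev.var (x := v.reverse)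
    (by simp)))).cast rfl rfl |>.mono ?_
  simp; linarith

theorem Pv.rev {e a v} {c : ℝ} (ha : Pv W fn e a v c) :
    Pv W fn e (.rev a) v.reverse (c + 5 * v.length + 5) := Ev.rev ha

/-- concatenation -/
def Tm.app (a b : Tm) : Tm := .lett b (.seq (.push 0 (.rev (.skip 0 1 a))) (.var 0))

theorem Pv.app {e a b u v} {c1 c2 : ℝ} (ha : Pv W fn e a u c1) (hb : Pv W fn e b v c2) :
    Pv W fn e (.app a b) (u ++ v) (c1 + c2 + 10 * u.length + 4 * v.length + 9) := by
  refine (Ev.lett hb (Ev.seq (Ev.push (Ev.rev (Ev.skip01 ha)) rfl) (Ev.var (x := u ++ v)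
    (by simp)))).cast rfl rfl |>.mono ?_
  simp; linarith

/-- a scalar in front of a list -/
def Tm.cons (a b : Tm) : Tm := .lett b (.seq (.push 0 (.skip 0 1 a)) (.var 0))

theorem Pv.cons {e a b x v} {c1 c2 : ℝ} (ha : Pv W fn e a [x] c1) (hb : Pv W fn e b v c2) :
    Pv W fn e (.cons a b) (x :: v) (c1 + c2 + 4 * v.length + 9) := by
  refine (Ev.lett hb (Ev.seq (Ev.push (Ev.skip01 ha) rfl) (Ev.var (x := x :: v)
    (by simp)))).cast rfl rfl |>.mono ?_
  simp; linarith

/-- a list of zeros -/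
def Tm.zeros (n : Tm) : Tm := .unary n

theorem Pv.zeros {e n N} {c : ℝ} (h : Pv W fn e n [N] c) :
    Pv W fn e (.zeros n) (List.replicate N 0) (c + N + 2) :=
  (Ev.unary h).mono (by simp; linarith)

/-- `n` repetitions of `body`, which sees the loop index as variable `0` -/
def Tm.rep (n body : Tm) : Tm :=
  .lett (.unary n) (.lett (.const 0)
    (.wh 1 (.seq (.pop 1) (.seq (.skip 1 1 body) (.set 0 (.add (.var 0) (.const 1)))))))

theorem Ev.rep {e n body N} {c0 : ℝ} (E : ℕ → Env) (v : ℕ → List ℕ) (c : ℕ → ℝ)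
    (hn : Ev W fn e n (E 0) [N] c0)
    (hb : ∀ k < N, Ev W fn ([k] :: E k) body ([k] :: E (k + 1)) (v k) (c k)) :
    Ev W fn e (.rep n body) (E N) []
      (c0 + ∑ k ∈ Finset.range N, (c k + (v k).length) + 21 * N + 10) := by
  refine Ev.intro fun hb0 => ?_
  have hN : N < 2 ^ W := (hn hb0).2.1 N (by simp)
  have h1 := Ev.wh (W := W) (fn := fn) (i := 1)
    (a := .seq (.pop 1) (.seq (.skip 1 1 body) (.set 0 (.add (.var 0) (.const 1)))))
    (fun k => [k] :: List.replicate (N - k) 0 :: E k) (fun _ => [])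
    (fun k => c k + (v k).length + 19) N
    (fun k hk => ⟨0, List.replicate (N - (k + 1)) 0, by
      rw [show N - k = N - (k + 1) + 1 by omega]; rfl⟩)
    (fun k hk => by
      have h1 : 1 < 2 ^ W := by omega
      refine (Ev.seq (Ev.pop (x := List.replicate (N - k) 0) rfl)
        (Ev.seq (Ev.skip11 (hb k hk)) (Ev.set (Ev.add (Pv.varS rfl) (Pv.const h1) (by omega))
          rfl))).cast ?_ rfl |>.mono ?_
      · simp [Nat.sub_sub]
      · have : (((List.replicate (N - k) 0).take 1).length : ℝ) ≤ 1 := by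
          exact_mod_cast List.length_take_le 1 _
        simp only [List.length_cons, List.length_nil]
        push_cast
        linarith)
    (by simp)
  refine (Ev.lett (Ev.unary hn) (Ev.lett (Pv.const (by positivity)) h1)).mono ?_
  simp only [Finset.sum_add_distrib]
  simp
  linarith

/-- remove the first `k` words of variable `i` and return them -/
def Tm.popN (i : ℕ) (k : Tm) : Tm :=
  .lett .nil (.seq (.rep (.skip 0 1 k) (.push 1 (.pop (i + 2)))) (.rev (.var 0)))

theorem Ev.popN {e : Env} {i k x N} {c : ℝ} (hk : Pv W fn e k [N] c) (hx : e[i]? = some x) :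
    Ev W fn e (.popN i k) (e.set i (x.drop N)) (x.take N) (c + 40 * N + 20) := by
  have hi : i < e.length := (List.getElem?_eq_some_iff.1 hx).1
  have h0 : e.set i (x.drop 0) = e := by
    obtain ⟨h, rfl⟩ := List.getElem?_eq_some_iff.1 hx
    simp
  have h1 := Ev.rep (W := W) (fn := fn) (e := [] :: e) (n := .skip 0 1 k)
    (body := .push 1 (.pop (i + 2))) (N := N)
    (fun j => (x.take j).reverse :: e.set i (x.drop j)) (fun _ => []) (fun _ => 4)
    (by simpa only [h0, List.take_zero, List.reverse_nil] using Ev.skip01 (x := []) hk)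
    (fun j _ => by
      refine (Ev.push (Ev.pop (x := x.drop j) (by simp [hi])) rfl).cast ?_ rfl |>.mono ?_
      · simp only [List.set_cons_succ, List.set_cons_zero, List.set_set, List.tail_drop]
        rw [← List.reverse_append, ← List.take_add]
      · have : (((x.drop j).take 1).length : ℝ) ≤ 1 := by
          exact_mod_cast List.length_take_le 1 _
        linarith)
  refine (Ev.lett Ev.nil (Ev.seq h1 (Ev.rev (Ev.var rfl)))).cast rfl (by simp) |>.mono ?_
  have : ((x.take N).length : ℝ) ≤ N := by exact_mod_cast List.length_take_le N x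
  simp only [List.length_reverse, List.length_nil, List.reverse_reverse]
  simp only [Finset.sum_const, Finset.card_range, nsmul_eq_mul]
  push_cast
  have : (0 : ℝ) ≤ N := by positivity
  linarith

/-- the first `k` words -/
def Tm.take (k a : Tm) : Tm := .lett a (.popN 0 (.skip 0 1 k))
/-- all but the first `k` words -/
def Tm.drop (k a : Tm) : Tm := .lett a (.seq (.popN 0 (.skip 0 1 k)) (.var 0))

theorem Pv.take {e k a x N} {c1 c2 : ℝ} (hk : Pv W fn e k [N] c1) (ha : Pv W fn e a x c2) :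
    Pv W fn e (.take k a) (x.take N) (c1 + c2 + x.length + 41 * N + 21) := by
  refine (Ev.lett ha (Ev.popN (Ev.skip01 hk) rfl)).mono ?_
  have h1 : ((x.take N).length : ℝ) ≤ N := by exact_mod_cast List.length_take_le N x
  have h2 : ((x.drop N).length : ℝ) ≤ x.length := by exact_mod_cast (by simp)
  linarith

theorem Pv.drop {e k a x N} {c1 c2 : ℝ} (hk : Pv W fn e k [N] c1) (ha : Pv W fn e a x c2) :
    Pv W fn e (.drop k a) (x.drop N) (c1 + c2 + 4 * x.length + 41 * N + 23) := by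
  refine (Ev.lett ha (Ev.seq (Ev.popN (Ev.skip01 hk) rfl) (Ev.var rfl))).mono ?_
  have h1 : ((x.take N).length : ℝ) ≤ N := by exact_mod_cast List.length_take_le N x
  have h2 : ((x.drop N).length : ℝ) ≤ x.length := by exact_mod_cast (by simp)
  linarith

/-- the word number `i` (zero if there is none) -/
def Tm.nth (a i : Tm) : Tm := .sub (.drop i a) (.const 0)

theorem Pv.nth {e a i x N} {c1 c2 : ℝ} (ha : Pv W fn e a x c1) (hi : Pv W fn e i [N] c2) :
    Pv W fn e (.nth a i) [x.getD N 0] (c1 + c2 + 5 * x.length + 41 * N + 29) := by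
  refine (Ev.bin (op := .sub) (Pv.drop hi ha) (Pv.const (c := 0) (by positivity))
    (fun h _ => (Nat.sub_le _ _).trans_lt h) (Nat.zero_le _)).cast rfl ?_ |>.mono ?_
  · simp [Op.ev]
  · have h2 : ((x.drop N).length : ℝ) ≤ x.length := by exact_mod_cast (by simp)
    simp only [List.length_cons, List.length_nil]
    push_cast
    linarith

/-- the length -/
def Tm.len (a : Tm) : Tm :=
  .lett a (.lett (.const 0)
    (.seq (.wh 1 (.seq (.pop 1) (.set 0 (.add (.var 0) (.const 1))))) (.var 0)))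

theorem Pv.len {e a x} {c : ℝ} (ha : Pv W fn e a x c) (hx : x.length < 2 ^ W) :
    Pv W fn e (.len a) [x.length] (c + 20 * x.length + 12) := by
  have h1 := Ev.wh (W := W) (fn := fn) (i := 1)
    (a := .seq (.pop 1) (.set 0 (.add (.var 0) (.const 1))))
    (fun k => [k] :: x.drop k :: e) (fun _ => []) (fun _ => 17) x.length
    (fun k hk => ⟨x[k], x.drop (k + 1), by simp⟩)
    (fun k hk => by
      have h1 : 1 < 2 ^ W := by omega
      refine (Ev.seq (Ev.pop (x := x.drop k) rfl)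
        (Ev.set (Ev.add (Pv.varS rfl) (Pv.const h1) (by omega)) rfl)).cast ?_ rfl |>.mono ?_
      · simp
      · have : (((x.drop k).take 1).length : ℝ) ≤ 1 := by
          exact_mod_cast List.length_take_le 1 _
        simp only [List.length_cons, List.length_nil]
        push_cast
        linarith)
    (by simp)
  refine (Ev.lett ha (Ev.lett (Pv.const (by positivity)) (Ev.seq h1 (Pv.varS rfl)))).mono ?_
  simp
  have : (0 : ℝ) ≤ x.length := by positivity
  linarith

end Crest.Agent.R326
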