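import Crest.Agent.R326.SpecA

/-!
# Arithmetic modulo `Q = 2 ^ (2 h) + 1`; Gaussian integers are coded by `i ↦ 2 ^ h`
-/

set_option autoImplicit false

namespace Crest.Agent.R326

variable {W : ℕ} {fn : Option Tm}

/-- the modulus -/
def Qm (h : ℕ) : ℕ := 2 ^ (2 * h) + 1

theorem Qm_pos (h : ℕ) : 0 < Qm h := Nat.succ_pos _

theorem one_lt_Qm (h : ℕ) : 1 < Qm h := Nat.succ_lt_succ (by positivity)

instance (h : ℕ) : NeZero (Qm h) := ⟨(Qm_pos h).ne'⟩

theorem Qm_le (h : ℕ) : Qm h ≤ 2 ^ (2 * h + 1) := by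
  have : 0 < 2 ^ (2 * h) := by positivity
  unfold Qm; rw [pow_succ]; omega

theorem Qm_mul_lt {h k : ℕ} (hh : 2 * h + 1 + k < W) : Qm h * 2 ^ k < 2 ^ W :=
  calc Qm h * 2 ^ k ≤ 2 ^ (2 * h + 1) * 2 ^ k := Nat.mul_le_mul_right _ (Qm_le h)
    _ < 2 ^ W := by rw [← pow_add]; exact Nat.pow_lt_pow_right (by norm_num) hh

/-- the square root of `-1` -/
def IQ (h : ℕ) : ZMod (Qm h) := 2 ^ h

theorem two_pow_two_mul (h : ℕ) : (2 : ZMod (Qm h)) ^ (2 * h) = -1 := by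
  have : ((Qm h : ℕ) : ZMod (Qm h)) = 0 := ZMod.natCast_self _
  unfold Qm at this
  push_cast at this
  exact eq_neg_of_add_eq_zero_left this

theorem IQ_mul_self (h : ℕ) : IQ h * IQ h = -1 := by
  rw [IQ, ← pow_add, ← two_mul, two_pow_two_mul]

/-- one half -/
def hfQ (h : ℕ) : ZMod (Qm h) := -2 ^ (2 * h - 1)

theorem two_mul_hfQ {h : ℕ} (hh : 1 ≤ h) : 2 * hfQ h = 1 := by
  rw [hfQ, mul_neg, ← pow_succ', show 2 * h - 1 + 1 = 2 * h by omega, two_pow_two_mul, neg_neg]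

/-- the code of a Gaussian integer -/
def encG (h : ℕ) : GaussianInt →+* ZMod (Qm h) :=
  Zsqrtd.lift ⟨IQ h, by rw [IQ_mul_self]; simp⟩

theorem encG_apply (h : ℕ) (g : GaussianInt) : encG h g = g.re + g.im * IQ h := rfl

/-- a list of words as a function to the residues -/
def castL (h : ℕ) (X : List ℕ) : ℕ → ZMod (Qm h) := fun a => (X.getD a 0 : ℕ)

/-- `2 ^ (2 h) + 1` -/
def Tm.qm (h : Tm) : Tm := .lett h (.add (.pow2 (.add (.var 0) (.var 0))) (.const 1))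

theorem Pv.qm {e a h} {c : ℝ} (hW : 8 ≤ W) (ha : Pv W fn e a [h] c) (hh : 2 * h + 1 < W) :
    Pv W fn e (.qm a) [Qm h] (c + 30) := by
  have h1 := Qm_mul_lt (W := W) (h := h) (k := 0) hh
  have h2 : W < 2 ^ W := Nat.lt_two_pow_self
  apply Pv.cast
  · unfold Tm.qm
    pv
    · omega
    · omega
    · rw [← two_mul]; simpa [Qm] using h1
  · rw [← two_mul]; rfl
  · simp; linarith

/-- `(a + b) % q` for `a, b < q` -/
def Tm.addQ (a b q : Tm) : Tm :=
  .lett (.add a b) (.lett (.skip 0 1 q) (.cndLt (.var 1) (.var 0) (.var 1) (.sub (.var 1) (.var 0))))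

theorem mod_of_lt_two {s Q : ℕ} (h : s < 2 * Q) : (if s < Q then s else s - Q) = s % Q := by
  split_ifs with h1
  · rw [Nat.mod_eq_of_lt h1]
  · rw [Nat.mod_eq_sub_mod (by omega), Nat.mod_eq_of_lt (by omega)]

theorem Pv.addQ {e a b q x y Q} {c1 c2 c3 : ℝ} (hW : 8 ≤ W) (ha : Pv W fn e a [x] c1)
    (hb : Pv W fn e b [y] c2) (hq : Pv W fn e q [Q] c3) (hs : x + y < 2 * Q)
    (hQ : 2 * Q ≤ 2 ^ W) : Pv W fn e (.addQ a b q) [(x + y) % Q] (c1 + c2 + c3 + 40) := by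
  apply Pv.cast
  · unfold Tm.addQ
    pv
    omega
  · rw [mod_of_lt_two hs]
  · norm_num; linarith

/-- `(a + (q - b)) % q` for `a < q`, `b ≤ q` -/
def Tm.subQ (a b q : Tm) : Tm :=
  .lett q (.addQ (.skip 0 1 a) (.sub (.var 0) (.skip 0 1 b)) (.var 0))

theorem Pv.subQ {e a b q x y Q} {c1 c2 c3 : ℝ} (hW : 8 ≤ W) (ha : Pv W fn e a [x] c1)
    (hb : Pv W fn e b [y] c2) (hq : Pv W fn e q [Q] c3) (hx : x < Q)
    (hQ : 2 * Q ≤ 2 ^ W) : Pv W fn e (.subQ a b q) [(x + (Q - y)) % Q] (c1 + c2 + c3 + 60) := by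
  refine (Pv.lett hq (Pv.addQ hW (Ev.skip01 ha) (Pv.sub (Pv.varS rfl) (Ev.skip01 hb))
    (Pv.varS rfl) (by omega) hQ)).mono ?_
  norm_num; linarith

theorem cast_subQ {x y Q : ℕ} (hy : y ≤ Q) :
    (((x + (Q - y)) % Q : ℕ) : ZMod Q) = (x : ZMod Q) - y := by
  rw [ZMod.natCast_mod, Nat.cast_add, Nat.cast_sub hy, ZMod.natCast_self]; ring

theorem cast_addQ (x y Q : ℕ) : (((x + y) % Q : ℕ) : ZMod Q) = (x : ZMod Q) + y := by
  rw [ZMod.natCast_mod, Nat.cast_add]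

/-- half of a residue modulo an odd number -/
def halfN (x Q : ℕ) : ℕ := if x % 2 = 0 then x / 2 else (x + Q) / 2

/-- `a / 2` modulo the odd number `q` -/
def Tm.halfQ (a q : Tm) : Tm :=
  .lett a (.cndEq (.low (.var 0) (.const 1)) (.const 0) (.shr (.var 0) (.const 1))
    (.shr (.add (.var 0) (.skip 0 1 q)) (.const 1)))

theorem Pv.halfQ {e a q x Q} {c1 c2 : ℝ} (hW : 8 ≤ W) (ha : Pv W fn e a [x] c1)
    (hq : Pv W fn e q [Q] c2) (hx : x < Q) (hQ : 2 * Q ≤ 2 ^ W) (hc : 0 ≤ c2) :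
    Pv W fn e (.halfQ a q) [halfN x Q] (c1 + c2 + 70) := by
  apply Pv.cast
  · refine Pv.lett ha (Pv.cndEq (by pv; omega) (by pv) (fun _ => by pv; omega) fun _ =>
      Pv.shr (Pv.add (Pv.varS rfl) (Ev.skip01 hq) (by omega)) (by pv) (by omega))
  · simp [halfN]
  · simp only [max_def]; split_ifs <;> norm_num <;> linarith

theorem halfN_lt {x Q : ℕ} (hx : x < Q) : halfN x Q < Q := by
  unfold halfN; split_ifs <;> omega

theorem cast_halfN {h : ℕ} (hh : 1 ≤ h) (x : ℕ) :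
    ((halfN x (Qm h) : ℕ) : ZMod (Qm h)) = hfQ h * x := by
  have h2 := two_mul_hfQ hh
  have hodd : Qm h % 2 = 1 := by
    unfold Qm
    rw [show 2 * h = (2 * h - 1) + 1 by omega, pow_succ]; omega
  have key : (2 : ZMod (Qm h)) * (halfN x (Qm h) : ℕ) = x := by
    unfold halfN
    split_ifs with h0
    · have : 2 * (x / 2) = x := by omega
      exact_mod_cast congrArg (Nat.cast : ℕ → ZMod (Qm h)) this
    · have : 2 * ((x + Qm h) / 2) = x + Qm h := by omega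
      have := congrArg (Nat.cast : ℕ → ZMod (Qm h)) this
      push_cast at this
      rw [this, ZMod.natCast_self, add_zero]
  rw [← key, ← mul_assoc, mul_comm (hfQ h), h2, one_mul]

/-- reduction modulo `Qm h` of a number that is at most `2 ^ (4 h)` -/
def Tm.redQ (a h : Tm) : Tm :=
  .lett a (.lett (.skip 0 1 h) (.lett (.add (.var 0) (.var 0))
    (.subQ (.low (.var 2) (.var 0)) (.shr (.var 2) (.var 0)) (.qm (.var 1)))))

theorem Pv.redQ {e a b t h} {c1 c2 : ℝ} (hW : 8 ≤ W) (ha : Pv W fn e a [t] c1)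
    (hb : Pv W fn e b [h] c2) (ht : t ≤ 2 ^ (4 * h)) (hh : 2 * h + 2 < W) :
    Pv W fn e (.redQ a b) [t % Qm h] (c1 + c2 + 160) := by
  have h1 := Qm_mul_lt (W := W) (h := h) (k := 1) (by omega)
  have h2 : W < 2 ^ W := Nat.lt_two_pow_self
  have h3 : t % 2 ^ (h + h) < Qm h := by
    rw [← two_mul]; exact (Nat.mod_lt _ (by positivity)).trans (Nat.lt_succ_self _)
  have h4 : t / 2 ^ (h + h) ≤ Qm h := by
    refine Nat.div_le_of_le_mul (ht.trans ?_)
    unfold Qm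
    rw [show 4 * h = (h + h) + 2 * h by ring, pow_add]
    exact Nat.mul_le_mul_left _ (Nat.le_succ _)
  apply Pv.cast
  · refine Pv.lett ha (Pv.lett (Ev.skip01 hb) (Pv.lett (by pv; omega)
      (Pv.subQ hW (by pv; omega) (by pv; omega) (Pv.qm hW (Pv.varS rfl) (by omega)) h3
        (by omega))))
  · congr 1
    apply (ZMod.natCast_eq_natCast_iff' _ _ _).1
    rw [Nat.cast_add, Nat.cast_sub h4, ZMod.natCast_self]
    conv_rhs => rw [← Nat.mod_add_div t (2 ^ (h + h))]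
    push_cast
    rw [← two_mul, two_pow_two_mul]
    ring
  · norm_num; linarith

/-- `a * 2 ^ k` modulo `Qm h` -/
def Tm.shlQ (a k h : Tm) : Tm := .redQ (.shl a k) h

theorem Pv.shlQ {e a b d x k h} {c1 c2 c3 : ℝ} (hW : 8 ≤ W) (ha : Pv W fn e a [x] c1)
    (hb : Pv W fn e b [k] c2) (hd : Pv W fn e d [h] c3) (hx : x < Qm h) (hk : k ≤ 2 * h)
    (hh : 4 * h + 2 < W) :
    Pv W fn e (.shlQ a b d) [x * 2 ^ k % Qm h] (c1 + c2 + c3 + 165) := by
  have h1 : x * 2 ^ k ≤ 2 ^ (4 * h) := by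
    rw [show 4 * h = 2 * h + 2 * h by ring, pow_add]
    exact Nat.mul_le_mul (Nat.lt_succ_iff.1 hx) (Nat.pow_le_pow_right (by norm_num) hk)
  refine (Pv.redQ hW (Pv.shl ha hb (h1.trans_lt (Nat.pow_lt_pow_right (by norm_num) (by omega)))
    (by omega)) hd h1 (by omega)).mono ?_
  linarith

macro_rules
  | `(tactic| pv_step) => `(tactic| first
    | ((with_reducible apply Pv.qm); assumption)
    | ((with_reducible apply Pv.addQ); assumption)
    | ((with_reducible apply Pv.subQ); assumption)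
    | ((with_reducible apply Pv.halfQ); assumption)
    | ((with_reducible apply Pv.redQ); assumption)
    | ((with_reducible apply Pv.shlQ); assumption))

end Crest.Agent.R326
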