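import Mathlib

/-!
# The abstract network: three layers of shears on triples of indices

Values are held in *frames* (elements of an abelian group `Q`); a change of frame by a *line* costs
one unit, linear combinations inside a frame are free.
-/

set_option autoImplicit false
set_option linter.unusedSectionVars false

namespace Crest.Agent.R326

open Finset

/-- states of a computation, and the values that are available in each frame -/
structure Sys (K V Q St : Type*) [CommRing K] [AddCommGroup V] [Module K V] [AddCommGroup Q] where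
  le : St → ℕ → St → Prop
  has : St → Q → Submodule K V
  line : Q → Prop
  refl : ∀ s, le s 0 s
  trans : ∀ {s c s' c' s''}, le s c s' → le s' c' s'' → le s (c + c') s''
  mono : ∀ {s c c' s'}, le s c s' → c ≤ c' → le s c' s'
  keep : ∀ {s c s' q a}, le s c s' → a ∈ has s q → a ∈ has s' q
  call : ∀ {s q a z}, line z → a ∈ has s q → ∃ s', le s 1 s' ∧ a ∈ has s' (q + z)
  shift : ∀ z a, ∃ x, ∀ s q, x ∈ has s (q + z) ↔ a ∈ has s q

/-- The identity matrix on `Tr` is a matrix through `Cn` plus a correction on the pairs `Pr`. -/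
structure Design (K Tr Pr Cn : Type*) [CommRing K] [Fintype Tr] [Fintype Pr] [Fintype Cn]
    [DecidableEq Tr] where
  tgt : Pr → Tr
  src : Pr → Tr
  co : Pr → K
  gat : Cn → Tr → K
  sca : Tr → Cn → K
  ident : ∀ S T : Tr, ∑ i, sca S i * gat i T +
    ∑ p ∈ Finset.univ.filter (fun p => tgt p = S), (if src p = T then co p else 0) =
      if S = T then 1 else 0

variable {K V Q St : Type*} [CommRing K] [AddCommGroup V] [Module K V] [AddCommGroup Q]
variable {Tr Pr Cn : Type} [Fintype Tr] [Fintype Pr] [Fintype Cn] [DecidableEq Tr]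

theorem Design.ident' (δ : Design K Tr Pr Cn) (x : Tr → V) (S : Tr) :
    ∑ i, δ.sca S i • (∑ T, δ.gat i T • x T) +
      ∑ p ∈ Finset.univ.filter (fun p => δ.tgt p = S), δ.co p • x (δ.src p) = x S := by
  have h1 : ∑ i, δ.sca S i • (∑ T, δ.gat i T • x T) =
      ∑ T, (∑ i, δ.sca S i * δ.gat i T) • x T := by
    simp only [Finset.smul_sum, Finset.sum_smul, mul_smul]
    exact Finset.sum_comm
  have h2 : ∑ p ∈ Finset.univ.filter (fun p => δ.tgt p = S), δ.co p • x (δ.src p) =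
      ∑ T, (∑ p ∈ Finset.univ.filter (fun p => δ.tgt p = S),
        (if δ.src p = T then δ.co p else 0)) • x T := by
    simp only [Finset.sum_smul]
    rw [Finset.sum_comm]
    refine Finset.sum_congr rfl fun p _ => ?_
    simp [ite_smul]
  rw [h1, h2, ← Finset.sum_add_distrib]
  simp only [← add_smul, δ.ident]
  simp [ite_smul]

namespace Sys

variable (σ : Sys K V Q St)

/-- a sum of at most `r` lines -/
def Small (r : ℕ) (q : Q) : Prop :=
  ∃ t : Multiset Q, t.card ≤ r ∧ (∀ z ∈ t, σ.line z) ∧ t.sum = q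

variable {σ}

theorem Small.add {r r' : ℕ} {q q' : Q} (h : σ.Small r q) (h' : σ.Small r' q') :
    σ.Small (r + r') (q + q') := by
  obtain ⟨t, h1, h2, rfl⟩ := h
  obtain ⟨t', h1', h2', rfl⟩ := h'
  refine ⟨t + t', by simp; omega, fun z hz => ?_, by simp⟩
  rcases Multiset.mem_add.1 hz with h | h
  exacts [h2 z h, h2' z h]

theorem Small.mono {r r' : ℕ} {q : Q} (h : σ.Small r q) (hr : r ≤ r') : σ.Small r' q := by
  obtain ⟨t, h1, h2, h3⟩ := h
  exact ⟨t, h1.trans hr, h2, h3⟩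

theorem Small.zero : σ.Small 0 0 := ⟨0, by simp, by simp, by simp⟩

theorem Small.one {z : Q} (h : σ.line z) : σ.Small 1 z := ⟨{z}, by simp, by simpa, by simp⟩

theorem Small.hom {E : Type*} (f : Multiset E →+ Q) {r : ℕ} (h : ∀ x, σ.Small r (f {x}))
    (t : Multiset E) : σ.Small (t.card * r) (f t) := by
  induction t using Multiset.induction_on with
  | empty => simpa using Small.zero
  | cons x t ih =>
    rw [← Multiset.singleton_add, map_add]
    exact ((h x).add ih).mono (le_of_eq (by simp; ring))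

theorem move {r : ℕ} {z q : Q} {s : St} {a : V} (hz : σ.Small r z) (ha : a ∈ σ.has s q) :
    ∃ s', σ.le s r s' ∧ a ∈ σ.has s' (q + z) := by
  obtain ⟨t, h1, h2, rfl⟩ := hz
  suffices H : ∃ s', σ.le s t.card s' ∧ a ∈ σ.has s' (q + t.sum) by
    obtain ⟨s', h3, h4⟩ := H
    exact ⟨s', σ.mono h3 h1, h4⟩
  clear h1
  induction t using Multiset.induction_on with
  | empty => exact ⟨s, σ.refl s, by simpa using ha⟩
  | cons z t ih =>
    obtain ⟨s1, h3, h4⟩ := ih fun z hz => h2 z (Multiset.mem_cons_of_mem hz)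
    obtain ⟨s2, h5, h6⟩ := σ.call (h2 z (Multiset.mem_cons_self _ _)) h4
    refine ⟨s2, by simpa using σ.trans h3 h5, ?_⟩
    rwa [Multiset.sum_cons, add_comm z, ← add_assoc]

theorem moves {J : Type} [Fintype J] {r : ℕ} {q : J → Q} (q' : J → Q) {a : J → V} {s : St}
    (ha : ∀ j, a j ∈ σ.has s (q j)) (hz : ∀ j, σ.Small r (q' j - q j)) :
    ∃ s', σ.le s (Fintype.card J * r) s' ∧ ∀ j, a j ∈ σ.has s' (q' j) := by
  classical
  suffices H : ∀ t : Finset J, ∃ s', σ.le s (t.card * r) s' ∧ ∀ j ∈ t, a j ∈ σ.has s' (q' j) by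
    obtain ⟨s', h1, h2⟩ := H Finset.univ
    exact ⟨s', h1, fun j => h2 j (Finset.mem_univ j)⟩
  intro t
  induction t using Finset.induction_on with
  | empty => exact ⟨s, by simpa using σ.refl s, by simp⟩
  | insert j t hj ih =>
    obtain ⟨s1, h1, h2⟩ := ih
    obtain ⟨s2, h3, h4⟩ := move (hz j) (σ.keep h1 (ha j))
    refine ⟨s2, ?_, fun i hi => ?_⟩
    · rw [Finset.card_insert_of_notMem hj, add_mul, one_mul]
      exact σ.trans h1 h3
    · rcases Finset.mem_insert.1 hi with rfl | hi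
      · simpa using h4
      · exact σ.keep h3 (h2 i hi)

theorem moves2 {J I : Type} [Fintype J] [Fintype I] {r : ℕ} {q : J → I → Q} (q' : J → I → Q)
    {a : J → I → V} {s : St} (ha : ∀ j i, a j i ∈ σ.has s (q j i))
    (hz : ∀ j i, σ.Small r (q' j i - q j i)) :
    ∃ s', σ.le s (Fintype.card J * Fintype.card I * r) s' ∧ ∀ j i, a j i ∈ σ.has s' (q' j i) := by
  obtain ⟨s', h1, h2⟩ := moves (J := J × I) (fun j => q' j.1 j.2) (fun j => ha j.1 j.2)
    fun j => hz j.1 j.2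
  exact ⟨s', by simpa using h1, fun j i => h2 (j, i)⟩

theorem comb {J : Type} {s : St} {q : Q} (t : Finset J) (co : J → K) {a : J → V}
    (ha : ∀ j ∈ t, a j ∈ σ.has s q) : ∑ j ∈ t, co j • a j ∈ σ.has s q :=
  Submodule.sum_mem _ fun j hj => Submodule.smul_mem _ _ (ha j hj)

/-- number of calls in one motif -/
def mcalls (Tr Pr Cn : Type) [Fintype Tr] [Fintype Pr] [Fintype Cn] (k : ℕ) : ℕ :=
  2 * Fintype.card Tr * (k + 1) + Fintype.card Cn * (k + 2) + Fintype.card Pr * (k + 2)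

variable {J : Type} [Fintype J] (δ : Design K Tr Pr Cn) {k : ℕ} (D Φ : J → Q) (L : J → Tr → Q)

/-- the sources `x` are added to the targets `y` -/
theorem motifA (hL : ∀ j T, σ.Small 1 (L j T)) (hΦ : ∀ j, σ.Small (k + 2) (-Φ j))
    (h1 : ∀ j T, σ.Small (k + 1) (Φ j - L j T))
    (h2 : ∀ j p, σ.Small k (Φ j - L j (δ.tgt p) - L j (δ.src p)))
    {x y : J → Tr → V} {a : J → Pr → V} {s : St} (hx : ∀ j T, x j T ∈ σ.has s (D j + L j T))
    (hy : ∀ j S, y j S ∈ σ.has s (D j)) (ha : ∀ j p, a j p ∈ σ.has s (D j)) :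
    ∃ s', σ.le s (Fintype.card J * mcalls Tr Pr Cn k) s' ∧
      (∀ j T, x j T ∈ σ.has s' (D j + Φ j)) ∧
      (∀ j S, y j S + x j S ∈ σ.has s' (D j + Φ j - L j S)) ∧
      ∀ j p, a j p ∈ σ.has s' (D j + Φ j) := by
  obtain ⟨s1, l1, x1⟩ := moves2 (fun j _ => D j + Φ j) hx fun j T => by
    convert h1 j T using 1; abel
  obtain ⟨s2, l2, g2⟩ := moves2 (fun j _ => D j)
    (fun j i => comb univ (δ.gat i) fun T _ => x1 j T) fun j _ => by
      convert hΦ j using 1; abel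
  have l02 := σ.trans l1 l2
  obtain ⟨s3, l3, y3⟩ := moves2 (fun j S => D j + Φ j - L j S)
    (fun j S => add_mem (sub_mem (σ.keep l02 (hy j S))
      (comb (univ.filter fun p => δ.tgt p = S) δ.co fun p _ => σ.keep l02 (ha j p)))
      (comb univ (δ.sca S) fun i _ => g2 j i)) fun j S => by
        convert h1 j S using 1; abel
  have l03 := σ.trans l02 l3
  obtain ⟨s4, l4, a4⟩ := moves2 (fun j p => D j + L j (δ.src p))
    (fun j p => σ.keep l03 (ha j p)) fun j p => by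
      convert hL j (δ.src p) using 1; abel
  have l04 := σ.trans l03 l4
  obtain ⟨s5, l5, a5⟩ := moves2 (fun j p => D j + Φ j - L j (δ.tgt p))
    (fun j p => add_mem (a4 j p) (σ.keep l04 (hx j (δ.src p)))) fun j p => by
      convert h2 j p using 1; abel
  obtain ⟨s6, l6, a6⟩ := moves2 (fun j _ => D j + Φ j) a5 fun j p => by
    convert hL j (δ.tgt p) using 1; abel
  have l36 := σ.trans (σ.trans l4 l5) l6
  have x6 := fun j T => σ.keep (σ.trans (σ.trans l2 l3) l36) (x1 j T)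
  refine ⟨s6, σ.mono (σ.trans l03 l36) (le_of_eq (by unfold mcalls; ring)), x6, fun j S => ?_,
    fun j p => by simpa using sub_mem (a6 j p) (x6 j (δ.src p))⟩
  have := add_mem (σ.keep l36 (y3 j S)) (comb (univ.filter fun p => δ.tgt p = S) δ.co
    fun p hp => (mem_filter.1 hp).2 ▸ σ.keep l6 (a5 j p))
  convert this using 1
  rw [← δ.ident' (x j) S]
  simp only [smul_add, Finset.sum_add_distrib]
  abel

/-- the sources `y` are subtracted from the targets `x` -/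
theorem motifB (hL : ∀ j T, σ.Small 1 (L j T)) (hΦ : ∀ j, σ.Small (k + 2) (Φ j))
    (h1 : ∀ j T, σ.Small (k + 1) (Φ j - L j T))
    (h2 : ∀ j p, σ.Small k (Φ j - L j (δ.tgt p) - L j (δ.src p)))
    {x y : J → Tr → V} {a : J → Pr → V} {s : St} (hx : ∀ j T, x j T ∈ σ.has s (D j + L j T))
    (hy : ∀ j S, y j S ∈ σ.has s (D j)) (ha : ∀ j p, a j p ∈ σ.has s (D j)) :
    ∃ s', σ.le s (Fintype.card J * mcalls Tr Pr Cn k) s' ∧
      (∀ j S, x j S - y j S ∈ σ.has s' (D j + Φ j)) ∧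
      (∀ j T, y j T ∈ σ.has s' (D j + Φ j - L j T)) ∧
      ∀ j p, a j p ∈ σ.has s' (D j + Φ j) := by
  obtain ⟨s1, l1, a1⟩ := moves2 (fun j p => D j + L j (δ.tgt p))
    (fun j p => add_mem (ha j p) (hy j (δ.src p))) fun j p => by
      convert hL j (δ.tgt p) using 1; abel
  obtain ⟨s2, l2, x2⟩ := moves2 (fun j _ => D j + Φ j)
    (fun j S => sub_mem (σ.keep l1 (hx j S)) (comb (univ.filter fun p => δ.tgt p = S) δ.co
      fun p hp => (mem_filter.1 hp).2 ▸ a1 j p)) fun j S => by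
        convert h1 j S using 1; abel
  have l02 := σ.trans l1 l2
  obtain ⟨s3, l3, g3⟩ := moves2 (fun j _ => D j + Φ j)
    (fun j i => comb univ (δ.gat i) fun T _ => σ.keep l02 (hy j T)) fun j _ => by
      convert hΦ j using 1; abel
  obtain ⟨s4, l4, a4⟩ := moves2 (fun j p => D j + Φ j - L j (δ.src p))
    (fun j p => σ.keep (σ.trans l2 l3) (a1 j p)) fun j p => by
      convert h2 j p using 1; abel
  have l04 := σ.trans (σ.trans l02 l3) l4
  obtain ⟨s5, l5, y5⟩ := moves2 (fun j T => D j + Φ j - L j T)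
    (fun j T => σ.keep l04 (hy j T)) fun j T => by
      convert h1 j T using 1; abel
  obtain ⟨s6, l6, a6⟩ := moves2 (fun j _ => D j + Φ j)
    (fun j p => sub_mem (σ.keep l5 (a4 j p)) (y5 j (δ.src p))) fun j p => by
      convert hL j (δ.src p) using 1; abel
  simp only [add_sub_cancel_right] at a6
  have l36 := σ.trans (σ.trans l4 l5) l6
  refine ⟨s6, σ.mono (σ.trans (σ.trans l04 l5) l6) (le_of_eq (by unfold mcalls; ring)),
    fun j S => ?_, fun j T => σ.keep l6 (y5 j T), a6⟩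
  have := add_mem (sub_mem (σ.keep (σ.trans l3 l36) (x2 j S))
    (comb univ (δ.sca S) fun i _ => σ.keep l36 (g3 j i)))
    (comb (univ.filter fun p => δ.tgt p = S) δ.co fun p _ => a6 j p)
  convert this using 1
  rw [← δ.ident' (y j) S]
  simp only [smul_add, Finset.sum_add_distrib]
  abel

end Sys

/-- The lines of the network: `F` is additive in each of three multisets of one-dimensional lines;
`I` can be replaced by `P S + C S` and by `P S + P T + CC (S, T)`. -/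
structure Lines (σ : Sys K V Q St) (δ : Design K Tr Pr Cn) (E : Type) (k : ℕ) where
  F : Multiset E →+ Multiset E →+ Multiset E →+ Q
  I : Multiset E
  l : Tr → E
  C : Tr → Multiset E
  CC : Pr → Multiset E
  cI : I.card ≤ k + 2
  cC : ∀ S, (C S).card ≤ k + 1
  cCC : ∀ p, (CC p).card ≤ k
  pos : ∀ x y z, σ.line (F {x} {y} {z})
  neg : ∀ x y z, σ.line (-F {x} {y} {z})
  two : ∀ x y z, σ.line (F {x} {y} {z} + F {x} {y} {z})
  r1 : ∀ S t u, F I t u = F ({l S} + C S) t u ∧ F t I u = F t ({l S} + C S) u ∧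
    F t u I = F t u ({l S} + C S)
  r2 : ∀ p t u, F I t u = F ({l (δ.tgt p)} + {l (δ.src p)} + CC p) t u ∧
    F t I u = F t ({l (δ.tgt p)} + {l (δ.src p)} + CC p) u ∧
    F t u I = F t u ({l (δ.tgt p)} + {l (δ.src p)} + CC p)

namespace Lines

variable {σ : Sys K V Q St} {δ : Design K Tr Pr Cn} {E : Type} {k : ℕ} (Λ : Lines σ δ E k)

theorem small {t u w : Multiset E} {a b c : ℕ} (ht : t.card ≤ a) (hu : u.card ≤ b)
    (hw : w.card ≤ c) : σ.Small (a * b * c) (Λ.F t u w) := by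
  have := Sys.Small.hom (σ := σ) ((Λ.F.flip u).flip w) (fun x =>
    Sys.Small.hom ((Λ.F {x}).flip w) (fun y =>
      Sys.Small.hom (Λ.F {x} {y}) (fun z => Sys.Small.one (Λ.pos x y z)) w) u) t
  refine this.mono ?_
  rw [mul_one, mul_assoc]
  gcongr

theorem small_neg {t u w : Multiset E} {a b c : ℕ} (ht : t.card ≤ a) (hu : u.card ≤ b)
    (hw : w.card ≤ c) : σ.Small (a * b * c) (-Λ.F t u w) := by
  have := Sys.Small.hom (σ := σ) (-(Λ.F.flip u).flip w) (fun x =>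
    Sys.Small.hom (-(Λ.F {x}).flip w) (fun y =>
      Sys.Small.hom (-Λ.F {x} {y}) (fun z => Sys.Small.one (Λ.neg x y z)) w) u) t
  refine this.mono ?_
  rw [mul_one, mul_assoc]
  gcongr

theorem net {x y : Tr → Tr → Tr → V} {a1 a2 a3 : Tr × Tr → Pr → V} {s : St}
    (hx : ∀ t1 t2 t3, x t1 t2 t3 ∈ σ.has s 0) (hy : ∀ t1 t2 t3, y t1 t2 t3 ∈ σ.has s 0)
    (h1 : ∀ j p, a1 j p ∈ σ.has s 0) (h2 : ∀ j p, a2 j p ∈ σ.has s 0)
    (h3 : ∀ j p, a3 j p ∈ σ.has s 0) :
    ∃ c s', σ.le s c s' ∧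
      c + Fintype.card Tr ^ 3 =
        (2 * Fintype.card Tr ^ 3 + 3 * (Fintype.card Tr ^ 2 * Fintype.card Pr)) * (k + 2) ^ 3 +
          3 * Fintype.card Tr ^ 2 * (Fintype.card Cn * (k + 2)) ∧
      (∀ t1 t2 t3, x t1 t2 t3 ∈ σ.has s' (Λ.F Λ.I Λ.I Λ.I)) ∧
      (∀ t1 t2 t3, y t1 t2 t3 ∈ σ.has s' (Λ.F Λ.I Λ.I Λ.I)) ∧
      (∀ j p, a1 j p ∈ σ.has s' (Λ.F Λ.I Λ.I Λ.I)) ∧
      (∀ j p, a2 j p ∈ σ.has s' (Λ.F Λ.I Λ.I Λ.I)) ∧
      ∀ j p, a3 j p ∈ σ.has s' (Λ.F Λ.I Λ.I Λ.I) := by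
  obtain ⟨P, hP⟩ : ∃ P : Tr → Multiset E, ∀ S, P S = {Λ.l S} := ⟨_, fun _ => rfl⟩
  have cP : ∀ S, (P S).card ≤ 1 := fun S => by simp [hP]
  have cI := Λ.cI
  have cC := Λ.cC
  have e1 : ∀ S t u, Λ.F Λ.I t u = Λ.F (P S) t u + Λ.F (Λ.C S) t u := fun S t u => by
    rw [(Λ.r1 S t u).1, hP]; simp only [map_add, AddMonoidHom.add_apply]
  have e2 : ∀ S t u, Λ.F t Λ.I u = Λ.F t (P S) u + Λ.F t (Λ.C S) u := fun S t u => by
    rw [(Λ.r1 S t u).2.1, hP]; simp only [map_add, AddMonoidHom.add_apply]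
  have e3 : ∀ S t u, Λ.F t u Λ.I = Λ.F t u (P S) + Λ.F t u (Λ.C S) := fun S t u => by
    rw [(Λ.r1 S t u).2.2, hP]; simp only [map_add]
  have f1 : ∀ p t u, Λ.F Λ.I t u - Λ.F (P (δ.tgt p)) t u - Λ.F (P (δ.src p)) t u =
      Λ.F (Λ.CC p) t u := fun p t u => by
    rw [(Λ.r2 p t u).1, hP, hP]; simp only [map_add, AddMonoidHom.add_apply]; abel
  have f2 : ∀ p t u, Λ.F t Λ.I u - Λ.F t (P (δ.tgt p)) u - Λ.F t (P (δ.src p)) u =
      Λ.F t (Λ.CC p) u := fun p t u => by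
    rw [(Λ.r2 p t u).2.1, hP, hP]; simp only [map_add, AddMonoidHom.add_apply]; abel
  have f3 : ∀ p t u, Λ.F t u Λ.I - Λ.F t u (P (δ.tgt p)) - Λ.F t u (P (δ.src p)) =
      Λ.F t u (Λ.CC p) := fun p t u => by
    rw [(Λ.r2 p t u).2.2, hP, hP]; simp only [map_add]; abel
  have hL : ∀ t1 t2 t3, σ.Small 1 (Λ.F (P t1) (P t2) (P t3)) := fun _ _ _ =>
    Λ.small (cP _) (cP _) (cP _)
  choose x' hx' using fun t1 t2 t3 => σ.shift (Λ.F (P t1) (P t2) (P t3)) (x t1 t2 t3)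
  -- first layer
  obtain ⟨s1, l1, x1, y1, b1⟩ := Sys.motifA δ (k := k) (fun _ => 0)
    (fun j : Tr × Tr => Λ.F Λ.I (P j.1) (P j.2)) (fun j T => Λ.F (P T) (P j.1) (P j.2))
    (fun _ _ => hL _ _ _) (fun _ => by simpa using Λ.small_neg cI (cP _) (cP _))
    (fun j T => by
      rw [e1 T, add_sub_cancel_left]; simpa using Λ.small (cC T) (cP _) (cP _))
    (fun j p => by rw [f1]; simpa using Λ.small (Λ.cCC p) (cP _) (cP _))
    (x := fun j T => x' T j.1 j.2) (y := fun j T => y T j.1 j.2)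
    (fun j T => (hx' _ _ _ _ _).2 (hx _ _ _)) (fun j T => hy _ _ _) h1
  obtain ⟨s2, l2, b1⟩ := Sys.moves2 (fun _ _ => Λ.F Λ.I Λ.I Λ.I) b1 fun j _ => by
    convert (Λ.small cI (cC j.1) cI).add (Λ.small cI (cP j.1) (cC j.2)) using 1
    rw [e2 j.1 Λ.I Λ.I, e3 j.2 Λ.I (P j.1)]; abel
  obtain ⟨s3, l3, x3⟩ := Sys.moves2
    (fun (j : Tr × Tr) T => Λ.F (Λ.C j.1) Λ.I (P j.2) + Λ.F (P j.1) (P T) (P j.2))
    (fun j T => σ.keep l2 (x1 (T, j.2) j.1)) fun j T => by
      convert Λ.small (cC j.1) (cC T) (cP j.2) using 1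
      rw [e2 T, e1 j.1]; abel
  obtain ⟨s4, l4, y4⟩ := Sys.moves2 (fun (j : Tr × Tr) _ => Λ.F (Λ.C j.1) Λ.I (P j.2))
    (fun j T => σ.keep (σ.trans l2 l3) (y1 (T, j.2) j.1)) fun j T => by
      convert Λ.small (cC j.1) (cC T) (cP j.2) using 1
      rw [e2 T, e1 j.1]; abel
  have l04 := σ.trans (σ.trans (σ.trans l1 l2) l3) l4
  obtain ⟨s5, l5, b2⟩ := Sys.moves2 (fun (j : Tr × Tr) _ => Λ.F (Λ.C j.1) Λ.I (P j.2))
    (fun j p => σ.keep l04 (h2 j p)) fun j _ => by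
      simpa only [sub_zero] using Λ.small (cC j.1) cI (cP j.2)
  -- second layer
  obtain ⟨s6, l6, x6, y6, b2⟩ := Sys.motifB δ (k := k) _
    (fun j : Tr × Tr => Λ.F (P j.1) Λ.I (P j.2)) (fun j T => Λ.F (P j.1) (P T) (P j.2))
    (fun _ _ => hL _ _ _) (fun _ => by simpa using Λ.small (cP _) cI (cP _))
    (fun j T => by
      rw [e2 T, add_sub_cancel_left]; simpa using Λ.small (cP _) (cC T) (cP _))
    (fun j p => by rw [f2]; simpa using Λ.small (cP _) (Λ.cCC p) (cP _))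
    (fun j T => σ.keep (σ.trans l4 l5) (x3 j T)) (fun j T => σ.keep l5 (y4 j T)) b2
  obtain ⟨s7, l7, b2⟩ := Sys.moves2 (fun _ _ => Λ.F Λ.I Λ.I Λ.I) b2 fun j _ => by
    convert Λ.small cI cI (cC j.2) using 1
    rw [e3 j.2 Λ.I Λ.I, e1 j.1 Λ.I (P j.2)]; abel
  obtain ⟨s8, l8, x8⟩ := Sys.moves2
    (fun (j : Tr × Tr) T => Λ.F (Λ.C j.1) Λ.I Λ.I + Λ.F (P j.1) (Λ.C j.2) Λ.I +
      Λ.F (P j.1) (P j.2) (P T))
    (fun j T => σ.keep l7 (x6 (j.1, T) j.2)) fun j T => by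
      convert (Λ.small (cC j.1) cI (cC T)).add (Λ.small (cP j.1) (cC j.2) (cC T)) using 1
      rw [e3 T (Λ.C j.1), e3 T (P j.1), e2 j.2 (P j.1)]; abel
  obtain ⟨s9, l9, y9⟩ := Sys.moves2
    (fun (j : Tr × Tr) _ => Λ.F (Λ.C j.1) Λ.I Λ.I + Λ.F (P j.1) (Λ.C j.2) Λ.I)
    (fun j T => σ.keep (σ.trans l7 l8) (y6 (j.1, T) j.2)) fun j T => by
      convert (Λ.small (cC j.1) cI (cC T)).add (Λ.small (cP j.1) (cC j.2) (cC T)) using 1
      rw [e3 T (Λ.C j.1), e3 T (P j.1), e2 j.2 (P j.1)]; abel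
  have l09 := σ.trans (σ.trans (σ.trans (σ.trans (σ.trans l04 l5) l6) l7) l8) l9
  obtain ⟨s10, l10, b3⟩ := Sys.moves2
    (fun (j : Tr × Tr) _ => Λ.F (Λ.C j.1) Λ.I Λ.I + Λ.F (P j.1) (Λ.C j.2) Λ.I)
    (fun j p => σ.keep l09 (h3 j p)) fun j _ => by
      simpa only [sub_zero] using (Λ.small (cC j.1) cI cI).add (Λ.small (cP j.1) (cC j.2) cI)
  -- third layer
  obtain ⟨s11, l11, x11, y11, b3⟩ := Sys.motifA δ (k := k) _
    (fun j : Tr × Tr => Λ.F (P j.1) (P j.2) Λ.I) (fun j T => Λ.F (P j.1) (P j.2) (P T))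
    (fun _ _ => hL _ _ _) (fun _ => by simpa using Λ.small_neg (cP _) (cP _) cI)
    (fun j T => by
      rw [e3 T, add_sub_cancel_left]; simpa using Λ.small (cP _) (cP _) (cC T))
    (fun j p => by rw [f3]; simpa using Λ.small (cP _) (cP _) (Λ.cCC p))
    (fun j T => σ.keep (σ.trans l9 l10) (x8 j T)) (fun j T => σ.keep l10 (y9 j T)) b3
  have full : ∀ j : Tr × Tr, Λ.F (Λ.C j.1) Λ.I Λ.I + Λ.F (P j.1) (Λ.C j.2) Λ.I +
      Λ.F (P j.1) (P j.2) Λ.I = Λ.F Λ.I Λ.I Λ.I := fun j => by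
    rw [e1 j.1 Λ.I Λ.I, e2 j.2 (P j.1) Λ.I]; abel
  simp only [full] at x11 y11 b3
  obtain ⟨s12, l12, y12⟩ := Sys.moves2
    (fun (j : Tr × Tr) T => Λ.F Λ.I Λ.I Λ.I + Λ.F (P j.1) (P j.2) (P T)) y11 (r := 1)
    fun j T => by
      convert Sys.Small.one (Λ.two (Λ.l j.1) (Λ.l j.2) (Λ.l T)) using 1
      simp only [hP]; abel
  have l912 := σ.trans (σ.trans l10 l11) l12
  have l712 := σ.trans (σ.trans l8 l9) l912
  refine ⟨_, s12, σ.trans l09 l912, ?_, fun t1 t2 t3 => ?_, fun t1 t2 t3 => ?_, fun j p => ?_,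
    fun j p => σ.keep l712 (b2 j p), fun j p => σ.keep l12 (b3 j p)⟩
  · simp only [Sys.mcalls, Fintype.card_prod]; ring
  · refine (hx' _ _ _ _ _).1 ?_
    convert y12 (t1, t2) t3 using 1
    abel
  · convert neg_mem (σ.keep l12 (x11 (t1, t2) t3)) using 1
    abel
  · exact σ.keep (σ.trans (σ.trans (σ.trans (σ.trans (σ.trans l3 l4) l5) l6) l7) l712) (b1 j p)

end Lines

end Crest.Agent.R326
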