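import Crest.Agent.R326.SpecA
import Crest.Agent.R326.NetGen

/-!
# Straight-line programs as states of the abstract network

A program is run in a whole family of models at once.
-/

set_option autoImplicit false

namespace Crest.Agent.R326

universe u

theorem run_append {G A : Type} [AddCommGroup A] (hf : A → A) (ρ : G → A → A)
    (p q : List (Instr G)) (l : List A) : run hf ρ (p ++ q) l = run hf ρ q (run hf ρ p l) := by
  induction p generalizing l with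
  | nil => rfl
  | cons i p ih => exact ih _

theorem WF_concat {G : Type} {p : List (Instr G)} {n : ℕ} (h : WF p n) {i : Instr G}
    (hi : i.ok (n + p.length)) : WF (p ++ [i]) n := by
  induction p generalizing n with
  | nil => exact ⟨hi, trivial⟩
  | cons j p ih =>
    refine ⟨h.1, ih h.2 ?_⟩
    rwa [List.length_cons, add_comm p.length, ← add_assoc] at hi

/-- a family of models -/
structure Fam (G : Type) (M : Type u) (A : M → Type) (W0 : ℕ) where
  hf : ∀ μ, A μ → A μ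
  ρ : ∀ μ, G → A μ → A μ
  xs : ∀ μ, List (A μ)
  κ : G → ℝ
  pos : 0 < W0

namespace Fam

variable {G : Type} {M : Type u} {A : M → Type} [∀ μ, AddCommGroup (A μ)] {W0 : ℕ}
  (Φ : Fam G M A W0)

/-- well-formed programs -/
def St (G : Type) (W0 : ℕ) : Type := {p : List (Instr G) // WF p W0}

/-- the cost of a program -/
def cost (s : St G W0) : ℝ := (s.1.map (Instr.cost Φ.κ)).sum

/-- the program has computed `v` -/
def Val (s : St G W0) (v : ∀ μ, A μ) : Prop :=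
  ∃ i < W0 + s.1.length, ∀ μ, (run (Φ.hf μ) (Φ.ρ μ) s.1 (Φ.xs μ)).getD i 0 = v μ

/-- extension of a program -/
def le (s : St G W0) (c : ℕ) (s' : St G W0) : Prop :=
  (∀ v, Φ.Val s v → Φ.Val s' v) ∧ Φ.cost s' ≤ Φ.cost s + c

/-- the values that can be obtained for free -/
inductive Cl (s : St G W0) : (∀ μ, A μ) → Prop
  | val {v} : Φ.Val s v → Cl s v
  | add {v w} : Cl s v → Cl s w → Cl s (v + w)
  | sub {v w} : Cl s v → Cl s w → Cl s (v - w)
  | half {v} : Cl s v → Cl s fun μ => Φ.hf μ (v μ)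
  | gen {v} (g : G) : Φ.κ g ≤ 0 → Cl s v → Cl s fun μ => Φ.ρ μ g (v μ)

variable {Φ}

theorem le_refl (s : St G W0) : Φ.le s 0 s := ⟨fun _ h => h, by simp⟩

theorem le.trans {s c s' c' s''} (h : Φ.le s c s') (h' : Φ.le s' c' s'') :
    Φ.le s (c + c') s'' :=
  ⟨fun v hv => h'.1 v (h.1 v hv), by have := h.2; have := h'.2; push_cast; linarith⟩

theorem le.mono {s c c' s'} (h : Φ.le s c s') (hc : c ≤ c') : Φ.le s c' s' :=
  ⟨h.1, by have := h.2; have : (c : ℝ) ≤ c' := by exact_mod_cast hc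
           linarith⟩

theorem step (s : St G W0) (i : Instr G) (hi : i.ok (W0 + s.1.length)) {c : ℕ}
    (hc : i.cost Φ.κ ≤ c) {v : ∀ μ, A μ}
    (hv : ∀ μ, i.ev (Φ.hf μ) (Φ.ρ μ) (run (Φ.hf μ) (Φ.ρ μ) s.1 (Φ.xs μ)) = v μ) :
    ∃ s', Φ.le s c s' ∧ Φ.Val s' v := by
  refine ⟨⟨s.1 ++ [i], WF_concat s.2 hi⟩, ⟨?_, ?_⟩, 0, by have := Φ.pos; omega, fun μ => ?_⟩
  · rintro w ⟨j, hj, hw⟩
    refine ⟨j + 1, by simp; omega, fun μ => ?_⟩
    rw [run_append, ← hw μ]; rfl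
  · simpa [cost] using hc
  · rw [run_append, ← hv μ]; rfl

theorem Cl.mono {s c s' v} (h : Φ.le s c s') (hv : Φ.Cl s v) : Φ.Cl s' v := by
  induction hv with
  | val h1 => exact .val (h.1 _ h1)
  | add _ _ ih1 ih2 => exact .add ih1 ih2
  | sub _ _ ih1 ih2 => exact .sub ih1 ih2
  | half _ ih => exact .half ih
  | gen g hg _ ih => exact .gen g hg ih

theorem Val.gen {s v} (h : Φ.Val s v) (g : G) {c : ℕ} (hg : Φ.κ g ≤ c) :
    ∃ s', Φ.le s c s' ∧ Φ.Val s' fun μ => Φ.ρ μ g (v μ) := by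
  obtain ⟨i, hi, hv⟩ := h
  exact step s (.gen g i) hi hg fun μ => by simp only [Instr.ev, hv]

theorem Cl.real {s v} (hv : Φ.Cl s v) :
    ∀ {c s'}, Φ.le s c s' → ∃ s'', Φ.le s' 0 s'' ∧ Φ.Val s'' v := by
  induction hv with
  | val h1 => exact fun h => ⟨_, le_refl _, h.1 _ h1⟩
  | @add v w _ _ ih1 ih2 =>
    intro c s' h
    obtain ⟨s1, l1, v1⟩ := ih1 h
    obtain ⟨s2, l2, j, hj, v2⟩ := ih2 (h.trans l1)
    obtain ⟨i, hi, v1⟩ := l2.1 _ v1
    obtain ⟨s3, l3, v3⟩ := step (Φ := Φ) (c := 0) (v := v + w) s2 (.add i j) ⟨hi, hj⟩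
      (by simp [Instr.cost]) fun μ => by simp only [Instr.ev, v1, v2]; rfl
    exact ⟨s3, (l1.trans l2).trans l3, v3⟩
  | @sub v w _ _ ih1 ih2 =>
    intro c s' h
    obtain ⟨s1, l1, v1⟩ := ih1 h
    obtain ⟨s2, l2, j, hj, v2⟩ := ih2 (h.trans l1)
    obtain ⟨i, hi, v1⟩ := l2.1 _ v1
    obtain ⟨s3, l3, v3⟩ := step (Φ := Φ) (c := 0) (v := v - w) s2 (.sub i j) ⟨hi, hj⟩
      (by simp [Instr.cost]) fun μ => by simp only [Instr.ev, v1, v2]; rfl
    exact ⟨s3, (l1.trans l2).trans l3, v3⟩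
  | @half v _ ih =>
    intro c s' h
    obtain ⟨s1, l1, i, hi, v1⟩ := ih h
    obtain ⟨s3, l3, v3⟩ := step (Φ := Φ) (c := 0) (v := fun μ => Φ.hf μ (v μ)) s1 (.half i) hi
      (by simp [Instr.cost]) fun μ => by simp only [Instr.ev, v1]
    exact ⟨s3, l1.trans l3, v3⟩
  | gen g hg _ ih =>
    intro c s' h
    obtain ⟨s1, l1, v1⟩ := ih h
    obtain ⟨s3, l3, v3⟩ := v1.gen g (c := 0) (by simpa using hg)
    exact ⟨s3, l1.trans l3, v3⟩

theorem Cl.zero (s : St G W0) : Φ.Cl s 0 := by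
  have h : Φ.Cl s fun μ => (run (Φ.hf μ) (Φ.ρ μ) s.1 (Φ.xs μ)).getD 0 0 :=
    .val ⟨0, by have := Φ.pos; omega, fun _ => rfl⟩
  simpa using h.sub h

theorem Cl.neg {s v} (h : Φ.Cl s v) : Φ.Cl s (-v) := by simpa using (Cl.zero s).sub h

/-- the empty program -/
def st0 (G : Type) (W0 : ℕ) : St G W0 := ⟨[], trivial⟩

theorem cl_input {w : ℕ} (hw : w < W0) : Φ.Cl (st0 G W0) fun μ => (Φ.xs μ).getD w 0 :=
  .val ⟨w, by simpa [st0] using hw, fun _ => rfl⟩

theorem extract {s c} (h : Φ.le (st0 G W0) c s) (t : ℕ → ∀ μ, A μ) (ht : ∀ w < W0, Φ.Cl s (t w)) :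
    ∃ N : NetProg G W0, N.cost Φ.κ ≤ c ∧
      ∀ μ, N.out (Φ.hf μ) (Φ.ρ μ) (Φ.xs μ) = (List.range W0).map fun w => t w μ := by
  have H : ∀ n ≤ W0, ∃ s', Φ.le s 0 s' ∧ ∀ w < n, Φ.Val s' (t w) := by
    intro n hn
    induction n with
    | zero => exact ⟨s, le_refl s, by simp⟩
    | succ n ih =>
      obtain ⟨s1, l1, v1⟩ := ih (by omega)
      obtain ⟨s2, l2, v2⟩ := (ht n hn).real l1
      refine ⟨s2, l1.trans l2, fun w hw => ?_⟩
      rcases Nat.lt_succ_iff_lt_or_eq.1 hw with hw | rfl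
      exacts [l2.1 _ (v1 w hw), v2]
  obtain ⟨s', l', hv⟩ := H W0 le_rfl
  choose! idx h1 h2 using hv
  refine ⟨⟨s'.1, (List.range W0).map idx, s'.2, by simp, ?_⟩, ?_, fun μ => ?_⟩
  · intro i hi
    obtain ⟨w, hw, rfl⟩ := List.mem_map.1 hi
    exact h1 w (List.mem_range.1 hw)
  · have := (h.trans l').2
    simpa [cost, st0, NetProg.cost] using this
  · simp only [NetProg.out, List.map_map]
    exact List.map_congr_left fun w hw => h2 w (List.mem_range.1 hw) μ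

variable (Φ)

/-- A group `Q` acts on the values, the kernel of `π` acts for free. -/
structure Act (K Q Q' : Type*) [CommRing K] [Module K (∀ μ, A μ)] [AddCommGroup Q]
    [AddCommGroup Q'] where
  act : Q → (∀ μ, A μ) →ₗ[K] (∀ μ, A μ)
  zero : ∀ v, act 0 v = v
  add : ∀ q q' v, act (q + q') v = act q (act q' v)
  π : Q →+ Q'
  surj : Function.Surjective π
  cheap : ∀ q, π q = 0 → ∀ s v, Φ.Cl s v → Φ.Cl s (act q v)
  scal : ∀ (k : K) s v, Φ.Cl s v → Φ.Cl s (k • v)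

variable {Φ} {K Q Q' : Type*} [CommRing K] [Module K (∀ μ, A μ)] [AddCommGroup Q]
  [AddCommGroup Q'] (α : Φ.Act K Q Q')

theorem Act.any {s q q' a} (h : Φ.Cl s (α.act q a)) (hq : α.π q' = α.π q) :
    Φ.Cl s (α.act q' a) := by
  have := α.cheap (q' - q) (by rw [map_sub, hq, sub_self]) s _ h
  rwa [← α.add, sub_add_cancel] at this

/-- the system of frames -/
def Act.sys : Sys K (∀ μ, A μ) Q' (St G W0) where
  le := Φ.le
  has s q :=
    { carrier := {a | ∀ z, α.π z = q → Φ.Cl s (α.act z a)}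
      add_mem' := fun ha hb z hz => by rw [map_add]; exact (ha z hz).add (hb z hz)
      zero_mem' := fun z _ => by rw [map_zero]; exact Cl.zero s
      smul_mem' := fun k a ha z hz => by rw [map_smul]; exact α.scal k s _ (ha z hz) }
  line q := ∃ z g, α.π z = q ∧ Φ.κ g ≤ 1 ∧ ∀ v, α.act z v = fun μ => Φ.ρ μ g (v μ)
  refl := le_refl
  trans := le.trans
  mono := le.mono
  keep h ha z hz := (ha z hz).mono h
  call := by
    rintro s q a _ ⟨z, g, rfl, hg, hz⟩ ha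
    obtain ⟨q, rfl⟩ := α.surj q
    obtain ⟨s1, l1, v1⟩ := (ha q rfl).real (le_refl s)
    obtain ⟨s2, l2, v2⟩ := v1.gen g (c := 1) (by simpa using hg)
    refine ⟨s2, l1.trans l2, fun y hy => α.any (q := z + q) ?_ (by rw [hy, map_add, add_comm])⟩
    rw [α.add, hz]
    exact .val v2
  shift := by
    intro z a
    obtain ⟨z, rfl⟩ := α.surj z
    refine ⟨α.act (-z) a, fun s q => ⟨fun h y hy => ?_, fun h y hy => ?_⟩⟩
    · have := h (y + z) (by rw [map_add, hy])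
      rwa [← α.add, add_neg_cancel_right] at this
    · rw [← α.add]
      exact h _ (by rw [map_add, hy, map_neg, add_neg_cancel_right])

/-- the wires of the network -/
abbrev Wire (Tr Pr : Type) : Type :=
  (Tr × Tr × Tr) ⊕ (Tr × Tr × Tr) ⊕ ((Tr × Tr) × Pr) ⊕ ((Tr × Tr) × Pr) ⊕ ((Tr × Tr) × Pr)

theorem Act.net {Tr Pr Cn E : Type} [Fintype Tr] [Fintype Pr] [Fintype Cn] [DecidableEq Tr]
    {δ : Design K Tr Pr Cn} {k : ℕ} (Λ : Lines α.sys δ E k) (hW : W0 = Fintype.card (Wire Tr Pr))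
    (hgain : 3 * (Fintype.card Cn * (k + 2)) < Fintype.card Tr) (full : Q)
    (hfull : α.π full = Λ.F Λ.I Λ.I Λ.I) :
    ∃ N : NetProg G W0, N.cost Φ.κ + 1 ≤ W0 * ((k + 2) ^ 3 : ℕ) ∧
      ∀ μ, N.out (Φ.hf μ) (Φ.ρ μ) (Φ.xs μ) =
        (List.range W0).map fun w => α.act full (fun ν => (Φ.xs ν).getD w 0) μ := by
  let e : Wire Tr Pr ≃ Fin W0 := Fintype.equivFinOfCardEq hW.symm
  let a : Wire Tr Pr → ∀ μ, A μ := fun w ν => (Φ.xs ν).getD (e w) 0
  have ha : ∀ w, a w ∈ α.sys.has (st0 G W0) 0 := fun w z hz =>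
    α.cheap z hz _ _ (cl_input (e w).2)
  obtain ⟨c, s, l, hc, o1, o2, o3, o4, o5⟩ := Λ.net
    (fun t1 t2 t3 => ha (.inl (t1, t2, t3))) (fun t1 t2 t3 => ha (.inr (.inl (t1, t2, t3))))
    (fun j p => ha (.inr (.inr (.inl (j, p))))) (fun j p => ha (.inr (.inr (.inr (.inl (j, p))))))
    (fun j p => ha (.inr (.inr (.inr (.inr (j, p))))))
  have ho : ∀ w, a w ∈ α.sys.has s (Λ.F Λ.I Λ.I Λ.I) := by
    rintro (t | t | t | t | t)
    exacts [o1 _ _ _, o2 _ _ _, o3 _ _, o4 _ _, o5 _ _]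
  obtain ⟨N, h1, h2⟩ := extract l (fun w => α.act full fun ν => (Φ.xs ν).getD w 0) fun w hw => by
    have := ho (e.symm ⟨w, hw⟩) full hfull
    simpa only [a, Equiv.apply_symm_apply] using this
  refine ⟨N, ?_, h2⟩
  have h3 : c + 1 ≤ W0 * (k + 2) ^ 3 := by
    have h4 : W0 = 2 * Fintype.card Tr ^ 3 + 3 * (Fintype.card Tr ^ 2 * Fintype.card Pr) := by
      rw [hW]; simp only [Fintype.card_sum, Fintype.card_prod]; ring
    rw [← h4] at hc
    have h5 : Fintype.card Tr ^ 2 * (3 * (Fintype.card Cn * (k + 2))) <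
        Fintype.card Tr ^ 2 * Fintype.card Tr :=
      Nat.mul_lt_mul_of_pos_left hgain (pow_pos (by omega) 2)
    nlinarith
  have h4 : (c : ℝ) + 1 ≤ W0 * ((k + 2) ^ 3 : ℕ) := by exact_mod_cast h3
  linarith

end Fam

end Crest.Agent.R326
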