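import Crest.Agent.R326.NetSt

/-!
# The network for the interchange
-/

set_option autoImplicit false
set_option linter.unusedSectionVars false

namespace Crest.Agent.R326

open Finset Matrix

/-- a map that is additive in three arguments -/
def tri {A B : Type*} [AddZeroClass A] [AddCommGroup B] (f : A → A → A → B)
    (h1 : ∀ a a' b c, f (a + a') b c = f a b c + f a' b c)
    (h2 : ∀ a b b' c, f a (b + b') c = f a b c + f a b' c)
    (h3 : ∀ a b c c', f a b (c + c') = f a b c + f a b c') : A →+ A →+ A →+ B :=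
  .mk' (fun a => .mk' (fun b => .mk' (f a b) (h3 a b)) fun b b' => AddMonoidHom.ext (h2 a b b'))
    fun a a' => AddMonoidHom.ext fun b => AddMonoidHom.ext (h1 a a' b)

variable {ι : Type} [Fintype ι] [DecidableEq ι]

/-- triples -/
abbrev Trp (ι : Type) [Fintype ι] [DecidableEq ι] : Type := {S : Finset ι // S.card = 3}

theorem Trp.eq_of_card {S T : Trp ι} (h : (S.1 ∩ T.1).card = 3) : S = T := by
  have e1 : S.1 ∩ T.1 = S.1 := Finset.eq_of_subset_of_card_le Finset.inter_subset_left
    (by rw [h, S.2])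
  have e2 : S.1 ∩ T.1 = T.1 := Finset.eq_of_subset_of_card_le Finset.inter_subset_right
    (by rw [h, T.2])
  exact Subtype.ext (e1.symm.trans e2)

theorem sum_pairs {K : Type*} [CommRing K] (good : Trp ι × Trp ι → Prop) [DecidablePred good]
    (co : Trp ι × Trp ι → K) (S T : Trp ι) :
    ∑ p ∈ Finset.univ.filter (fun p : {p // good p} => p.1.1 = S),
      (if p.1.2 = T then co p.1 else 0) = if good (S, T) then co (S, T) else 0 := by
  split_ifs with h
  · rw [Finset.sum_eq_single (⟨(S, T), h⟩ : {p // good p})]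
    · simp
    · rintro ⟨⟨S', T'⟩, hp⟩ hmem hne'
      obtain rfl : S' = S := (Finset.mem_filter.1 hmem).2
      have h2 : T' ≠ T := by
        rintro rfl
        exact hne' rfl
      simp [h2]
    · intro h
      exact (h (by simp only [Finset.mem_filter, Finset.mem_univ, true_and])).elim
  · refine Finset.sum_eq_zero ?_
    rintro ⟨⟨S', T'⟩, hp⟩ hmem
    obtain rfl : S' = S := (Finset.mem_filter.1 hmem).2
    have h2 : T' ≠ T := by
      rintro rfl
      exact h hp
    simp [h2]

theorem sum_ind {K : Type*} [CommRing K] (c : K) (S T : Finset ι) :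
    ∑ i, (if i ∈ S then c else 0) * (if i ∈ T then 1 else 0) = (S ∩ T).card * c := by
  have : ∀ i : ι, (if i ∈ S then c else 0) * (if i ∈ T then 1 else 0) =
      if i ∈ S ∩ T then c else 0 := fun i => by
    by_cases h : i ∈ S <;> by_cases h' : i ∈ T <;> simp [h, h']
  simp only [this]
  rw [Finset.sum_ite_mem]
  simp

/-- pairs of triples with one common point -/
abbrev OnePair (ι : Type) [Fintype ι] [DecidableEq ι] : Type :=
  {p : Trp ι × Trp ι // (p.1.1 ∩ p.2.1).card = 1}

/-- the design in characteristic two -/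
def xDesign (ι : Type) [Fintype ι] [DecidableEq ι] : Design (ZMod 2) (Trp ι) (OnePair ι) ι where
  tgt p := p.1.1
  src p := p.1.2
  co _ := 1
  gat i T := if i ∈ T.1 then 1 else 0
  sca S i := if i ∈ S.1 then 1 else 0
  ident S T := by
    rw [sum_ind, sum_pairs (fun p => (p.1.1 ∩ p.2.1).card = 1) (fun _ => 1)]
    have hle : (S.1 ∩ T.1).card ≤ 3 := (Finset.card_le_card Finset.inter_subset_left).trans S.2.le
    by_cases hST : S = T
    · subst hST
      simp only [Finset.inter_self, S.2]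
      decide
    · have h3 : (S.1 ∩ T.1).card ≠ 3 := fun h => hST (Trp.eq_of_card h)
      rw [if_neg hST]
      generalize (S.1 ∩ T.1).card = n at hle h3
      interval_cases n
      · decide
      · decide
      · decide
      · exact absurd rfl h3

/-- the sum of the matrices of rank one -/
def mat (s : Multiset ((ι → ℤ) × (ι → ℤ))) : Matrix ι ι ℤ := (s.map fun e => vecMulVec e.1 e.2).sum

theorem mat_add (s t : Multiset ((ι → ℤ) × (ι → ℤ))) : mat (s + t) = mat s + mat t := by
  simp [mat]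

theorem mat_one (e : (ι → ℤ) × (ι → ℤ)) : mat {e} = vecMulVec e.1 e.2 := by simp [mat]

/-- decomposition of a matrix with known vectors in the kernel -/
def dec (M : Matrix ι ι ℤ) (J : Finset ι) (w : ι → ι → ℤ) : Multiset ((ι → ℤ) × (ι → ℤ)) :=
  Jᶜ.val.map fun i => (fun a => M a i, fun b => if b ∈ J then -w b i else if i = b then 1 else 0)

theorem card_dec (M : Matrix ι ι ℤ) (J : Finset ι) (w : ι → ι → ℤ) :
    (dec M J w).card = Fintype.card ι - J.card := by simp [dec, Finset.card_compl]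

theorem mat_dec (M : Matrix ι ι ℤ) (J : Finset ι) (w : ι → ι → ℤ)
    (h0 : ∀ j ∈ J, ∀ a, ∑ i, M a i * w j i = 0)
    (h1 : ∀ j ∈ J, ∀ i ∈ J, w j i = if i = j then 1 else 0) : mat (dec M J w) = M := by
  have : mat (dec M J w) = ∑ i ∈ Jᶜ, vecMulVec (fun a => M a i)
      fun b => if b ∈ J then -w b i else if i = b then 1 else 0 := by
    rw [mat, dec, Multiset.map_map]; rfl
  rw [this]
  ext a b
  simp only [Matrix.sum_apply, vecMulVec_apply]
  by_cases hb : b ∈ J
  · have h2 := h0 b hb a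
    rw [← Finset.sum_add_sum_compl J, Finset.sum_congr rfl fun i hi => by rw [h1 b hb i hi]] at h2
    simp only [hb, if_true, mul_neg, Finset.sum_neg_distrib]
    simp only [mul_ite, mul_one, mul_zero, Finset.sum_ite_eq', hb, if_true] at h2
    linarith
  · simp [hb]

/-- the indicator vector -/
def indZ (S : Finset ι) (i : ι) : ℤ := if i ∈ S then 1 else 0

/-- six times the projector of a triple -/
def lineX (S : Trp ι) : (ι → ℤ) × (ι → ℤ) := (indZ S.1, fun i => 3 * indZ S.1 i - 1)

theorem lineX_mul (S T : Trp ι) (a : ι) :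
    ∑ i, mat {lineX S} a i * indZ T.1 i = indZ S.1 a * (3 * (S.1 ∩ T.1).card - 3) := by
  have h1 := sum_ind (1 : ℤ) S.1 T.1
  have h2 : ∑ i, indZ T.1 i = 3 := by simp [indZ, T.2]
  simp only [mat_one, vecMulVec_apply, lineX, mul_assoc, ← Finset.mul_sum, sub_mul,
    Finset.sum_sub_distrib, one_mul, h2]
  rw [show ∑ i, indZ S.1 i * indZ T.1 i = (S.1 ∩ T.1).card by simpa only [indZ, mul_one] using h1]

theorem six_mul (w : ι → ℤ) (a : ι) : ∑ i, (6 • (1 : Matrix ι ι ℤ)) a i * w i = 6 * w a := by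
  simp [Matrix.one_apply]

theorem exists_C (S : Trp ι) : ∃ C : Multiset ((ι → ℤ) × (ι → ℤ)),
    C.card = Fintype.card ι - 1 ∧ 6 • (1 : Matrix ι ι ℤ) = mat ({lineX S} + C) := by
  obtain ⟨j, hj⟩ : S.1.Nonempty := Finset.card_pos.1 (by rw [S.2]; norm_num)
  refine ⟨dec (6 • 1 - mat {lineX S}) {j} fun _ => indZ S.1, by simp [card_dec], ?_⟩
  rw [mat_add, mat_dec, add_sub_cancel]
  · intro _ _ a
    simp only [Matrix.sub_apply, sub_mul, Finset.sum_sub_distrib, six_mul, lineX_mul,
      Finset.inter_self, S.2]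
    push_cast; ring
  · simp [indZ, hj]

theorem exists_CC (p : OnePair ι) : ∃ C : Multiset ((ι → ℤ) × (ι → ℤ)),
    C.card = Fintype.card ι - 2 ∧
      6 • (1 : Matrix ι ι ℤ) = mat ({lineX p.1.1} + {lineX p.1.2} + C) := by
  obtain ⟨⟨S, T⟩, hp⟩ := p
  have hp' : (T.1 ∩ S.1).card = 1 := by rw [Finset.inter_comm]; exact hp
  have hp : (S.1 ∩ T.1).card = 1 := hp
  obtain ⟨j, hj⟩ : (S.1 \ T.1).Nonempty := Finset.card_pos.1 (by
    have := Finset.card_sdiff_add_card_inter S.1 T.1; have := S.2; omega)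
  obtain ⟨j', hj'⟩ : (T.1 \ S.1).Nonempty := Finset.card_pos.1 (by
    have := Finset.card_sdiff_add_card_inter T.1 S.1; have := T.2; omega)
  rw [Finset.mem_sdiff] at hj hj'
  have hne : j' ≠ j := fun h => hj'.2 (h ▸ hj.1)
  refine ⟨dec (6 • 1 - mat {lineX S} - mat {lineX T}) {j, j'}
    fun x => if x = j then indZ S.1 else indZ T.1, by simp [card_dec, Finset.card_pair hne.symm], ?_⟩
  rw [mat_add, mat_add, mat_dec]
  · abel
  · intro x _ a
    split_ifs <;>
    · simp only [Matrix.sub_apply, sub_mul, Finset.sum_sub_distrib, six_mul, lineX_mul,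
        Finset.inter_self, S.2, T.2, hp, hp']
      push_cast; ring
  · simp [indZ, hj, hj', hne, hne.symm]

/-- models of the network for the interchange -/
structure XMod (m W0 : ℕ) : Type 1 where
  A : Type
  [g : AddCommGroup A]
  [md : Module (ZMod 2) A]
  ρ : Multiplicative (Matrix (Fin m) (Fin m) ℤ) →* Module.End (ZMod 2) A
  xs : List A

attribute [instance] XMod.g XMod.md

/-- the family of all models -/
def xFam (m W0 : ℕ) (h : 0 < W0) : Fam ((Fin m → ℤ) × (Fin m → ℤ)) (XMod m W0) XMod.A W0 where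
  hf _ := id
  ρ μ g x := μ.ρ (Multiplicative.ofAdd (vecMulVec g.1 g.2)) x
  xs := XMod.xs
  κ _ := 1
  pos := h

/-- the action of the matrices -/
def xAct (m W0 : ℕ) (h : 0 < W0) :
    (xFam m W0 h).Act (ZMod 2) (Matrix (Fin m) (Fin m) ℤ) (Matrix (Fin m) (Fin m) ℤ) where
  act q := LinearMap.pi fun μ => (μ.ρ (Multiplicative.ofAdd q)).comp (LinearMap.proj μ)
  zero v := by ext μ; simp
  add q q' v := by ext μ; simp
  π := AddMonoidHom.id _
  surj := Function.surjective_id
  cheap q hq s v hv := by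
    obtain rfl : q = 0 := hq
    convert hv using 1
    ext μ; simp
  scal k s v hv := by
    have : k = 0 ∨ k = 1 := by revert k; decide
    rcases this with rfl | rfl
    · rw [zero_smul]; exact Fam.Cl.zero s
    · rwa [one_smul]

theorem xnet_aux {m k : ℕ} (e : Fin m ≃ ι × ι × ι) (hk : Fintype.card ι = k + 2)
    (hgain : 3 * (Fintype.card ι * (k + 2)) < Fintype.card (Trp ι)) {W0 : ℕ} (h : 0 < W0)
    (hW : W0 = Fintype.card (Fam.Wire (Trp ι) (OnePair ι))) :
    ∃ N : NetProg ((Fin m → ℤ) × (Fin m → ℤ)) W0,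
      N.cost (fun _ => 1) + 1 ≤ W0 * ((k + 2) ^ 3 : ℕ) ∧ ∀ μ : XMod m W0,
      N.out id (fun g x => μ.ρ (Multiplicative.ofAdd (vecMulVec g.1 g.2)) x) μ.xs =
        (List.range W0).map fun w => μ.ρ (Multiplicative.ofAdd (216 • 1)) (μ.xs.getD w 0) := by
  choose C hC hC' using exists_C (ι := ι)
  choose CC hCC hCC' using exists_CC (ι := ι)
  have hI : mat (dec (6 • (1 : Matrix ι ι ℤ)) ∅ 0) = 6 • 1 := mat_dec _ _ _ (by simp) (by simp)
  let f : Matrix ι ι ℤ → Matrix ι ι ℤ → Matrix ι ι ℤ → Matrix (Fin m) (Fin m) ℤ := fun a b c =>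
    Matrix.of fun i j => a (e i).1 (e j).1 * b (e i).2.1 (e j).2.1 * c (e i).2.2 (e j).2.2
  have hl : ∀ (c : ℤ) (x y z : (ι → ℤ) × (ι → ℤ)) (q), q = c • f (mat {x}) (mat {y}) (mat {z}) →
      (xAct m W0 h).sys.line q := by
    rintro c x y z _ rfl
    refine ⟨_, (fun i => c * (x.1 (e i).1 * y.1 (e i).2.1 * z.1 (e i).2.2),
      fun j => x.2 (e j).1 * y.2 (e j).2.1 * z.2 (e j).2.2), rfl, le_rfl, fun v => ?_⟩
    ext μ
    change μ.ρ (Multiplicative.ofAdd _) _ = μ.ρ (Multiplicative.ofAdd _) _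
    refine congrArg (fun q => μ.ρ (Multiplicative.ofAdd q) (v μ)) ?_
    ext i j
    change c * f _ _ _ i j = _
    simp only [f, mat_one, vecMulVec_apply, Matrix.of_apply]
    ring
  let Λ : Lines (xAct m W0 h).sys (xDesign ι) ((ι → ℤ) × (ι → ℤ)) k :=
    { F := tri (fun s t u => f (mat s) (mat t) (mat u))
        (fun _ _ _ _ => by ext i j; simp [f, mat_add, add_mul])
        (fun _ _ _ _ => by ext i j; simp [f, mat_add, add_mul, mul_add])
        (fun _ _ _ _ => by ext i j; simp [f, mat_add, mul_add])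
      I := dec (6 • (1 : Matrix ι ι ℤ)) ∅ 0
      l := lineX
      C := C
      CC := CC
      cI := by simp [card_dec, hk]
      cC := fun S => by rw [hC, hk]; omega
      cCC := fun p => by rw [hCC, hk]; omega
      pos := fun x y z => hl 1 x y z _ (one_smul _ _).symm
      neg := fun x y z => hl (-1) x y z _ (neg_one_smul _ _).symm
      two := fun x y z => hl 2 x y z _ (two_smul _ _).symm
      r1 := fun S t u => by
        change f _ _ _ = f _ _ _ ∧ f _ _ _ = f _ _ _ ∧ f _ _ _ = f _ _ _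
        rw [hI, hC' S]; exact ⟨rfl, rfl, rfl⟩
      r2 := fun p t u => by
        change f _ _ _ = f _ _ _ ∧ f _ _ _ = f _ _ _ ∧ f _ _ _ = f _ _ _
        rw [hI, hCC' p]; exact ⟨rfl, rfl, rfl⟩ }
  refine (xAct m W0 h).net Λ hW hgain (216 • 1) ?_
  change _ = f _ _ _
  rw [hI]
  ext i j
  by_cases hij : i = j
  · subst hij
    simp only [f, xAct, Matrix.one_apply, Matrix.of_apply, Matrix.smul_apply, AddMonoidHom.id_apply,
      if_true]
    norm_num
  · have : ¬((e i).1 = (e j).1 ∧ (e i).2.1 = (e j).2.1 ∧ (e i).2.2 = (e j).2.2) := fun h =>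
      hij (e.injective (Prod.ext h.1 (Prod.ext h.2.1 h.2.2)))
    simp only [f, xAct, Matrix.one_apply, Matrix.of_apply, Matrix.smul_apply, AddMonoidHom.id_apply,
      if_neg hij]
    split_ifs with h1 h2 h3
    · exact absurd ⟨h1, h2, h3⟩ this
    all_goals norm_num

theorem card_trp (h : Fintype.card ι = 24) : Fintype.card (Trp ι) = 2024 := by
  rw [Fintype.card_finset_len, h]; decide

theorem card_wire (hι : Fintype.card ι = 24) {Pr : Type} [Fintype Pr]
    (h : Fintype.card Pr ≤ Fintype.card (Trp ι × Trp ι)) :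
    0 < Fintype.card (Fam.Wire (Trp ι) Pr) ∧ Fintype.card (Fam.Wire (Trp ι) Pr) ≤ 2 ^ 60 := by
  simp only [Fintype.card_sum, Fintype.card_prod, card_trp hι] at h ⊢
  omega

theorem map_range_getD {A B : Type} [Zero A] (f : A → B) (xs : List A) {n : ℕ}
    (h : xs.length = n) : (List.range n).map (fun w => f (xs.getD w 0)) = xs.map f := by
  subst h
  refine List.ext_getElem (by simp) fun i h1 h2 => ?_
  simp at h1
  simp [List.getD_eq_getElem?_getD, List.getElem?_eq_getElem h1]

theorem xnet_gen (hι : Fintype.card ι = 24) : XNetSpec := by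
  obtain ⟨h1, h2⟩ := card_wire hι (Pr := OnePair ι) (Fintype.card_subtype_le _)
  obtain ⟨N, h3, h4⟩ := xnet_aux (ι := ι) (m := 13824) (k := 22)
    (Fintype.equivOfCardEq (by simp [hι])) hι (by rw [card_trp hι, hι]; norm_num) h1 rfl
  refine ⟨13824, _, 216, N, by norm_num, by norm_num, h1, h2, by norm_num, h3,
    fun A _ _ ρ xs hxs => ?_⟩
  exact (h4 ⟨A, ρ, xs⟩).trans (map_range_getD _ xs hxs)

theorem xnet_spec : XNetSpec := xnet_gen (Fintype.card_fin 24)

end Crest.Agent.R326
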