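import Crest.Agent.R326.SpecA

/-!
# Rearrangements built on `rot`, `gather`, `scatter`, part A: selection lists and transpositions
-/

set_option autoImplicit false

namespace Crest.Agent.R326

namespace P3

/-- characterisation of the selection list -/
theorem sel_eq {cls L : List ℕ} {n m : ℕ}
    (h1 : ∀ p, p ∈ L ↔ p < n ∧ cls.getD p 0 < m)
    (h2 : L.Pairwise fun p p' =>
      cls.getD p 0 < cls.getD p' 0 ∨ (cls.getD p 0 = cls.getD p' 0 ∧ p < p')) :
    sel cls n m = L := by
  have h3 : (sel cls n m).Pairwise fun p p' =>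
      cls.getD p 0 < cls.getD p' 0 ∨ (cls.getD p 0 = cls.getD p' 0 ∧ p < p') := by
    unfold sel
    rw [List.pairwise_flatMap]
    constructor
    · intro j _
      rw [List.pairwise_filter]
      refine List.pairwise_lt_range.imp fun {a b} hab ha hb => Or.inr ⟨?_, hab⟩
      rw [decide_eq_true_eq] at ha hb
      rw [ha, hb]
    · refine List.pairwise_lt_range.imp fun {a b} hab x hx y hy => Or.inl ?_
      rw [List.mem_filter, decide_eq_true_eq] at hx hy
      rw [hx.2, hy.2]
      exact hab
  have nd : ∀ {l : List ℕ}, (l.Pairwise fun p p' =>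
      cls.getD p 0 < cls.getD p' 0 ∨ (cls.getD p 0 = cls.getD p' 0 ∧ p < p')) → l.Nodup :=
    fun h => h.imp fun {a b} hab => by rintro rfl; omega
  refine List.Perm.eq_of_pairwise (fun a b _ _ hab hba => by omega) h3 h2 ?_
  rw [List.perm_ext_iff_of_nodup (nd h3) (nd h2)]
  intro p
  rw [h1]
  simp only [sel, List.mem_flatMap, List.mem_range, List.mem_filter, decide_eq_true_eq]
  constructor
  · rintro ⟨j, hj, hp, rfl⟩; exact ⟨hp, hj⟩
  · rintro ⟨hp, hj⟩; exact ⟨_, hj, hp, rfl⟩

/-- `K` copies of `0, 1, …, n - 1` -/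
def rcls (K n : ℕ) : List ℕ := (List.range K).flatMap fun _ => List.range n

theorem rcls_length (K n : ℕ) : (rcls K n).length = K * n :=
  length_flatMap_eq fun _ _ => List.length_range

theorem rcls_getD {K n p : ℕ} (hp : p < K * n) : (rcls K n).getD p 0 = p % n := by
  have hn : 0 < n := Nat.pos_of_ne_zero (by rintro rfl; simp at hp)
  rw [rcls, getD_flatMap' (fun _ _ => List.length_range) hp,
    List.getD_eq_getElem _ _ (by simpa using Nat.mod_lt _ hn), List.getElem_range]

theorem mk_lt {K n k x : ℕ} (hk : k < K) (hx : x < n) : k * n + x < K * n := by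
  calc k * n + x < k * n + n := by omega
    _ = (k + 1) * n := by ring
    _ ≤ K * n := Nat.mul_le_mul_right _ hk

theorem div_mk' {n x : ℕ} (k : ℕ) (hx : x < n) : (k * n + x) / n = k := by
  rw [Nat.add_comm, Nat.add_mul_div_right _ _ (by omega), Nat.div_eq_of_lt hx, Nat.zero_add]

theorem sel_rcls {K n : ℕ} (hK : 0 < K) (hn : 0 < n) :
    sel (rcls K n) (K * n) n = (List.range (n * K)).map fun i => i % K * n + i / K := by
  have hlt : ∀ i, i < n * K → i / K < n := fun i hi => (Nat.div_lt_iff_lt_mul hK).2 hi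
  have hc : ∀ i, i < n * K → (rcls K n).getD (i % K * n + i / K) 0 = i / K := fun i hi => by
    rw [rcls_getD (mk_lt (Nat.mod_lt _ hK) (hlt i hi)), mod_mk _ (hlt i hi)]
  apply sel_eq
  · intro p
    simp only [List.mem_map, List.mem_range]
    constructor
    · rintro ⟨i, hi, rfl⟩
      exact ⟨mk_lt (Nat.mod_lt _ hK) (hlt i hi), by rw [hc i hi]; exact hlt i hi⟩
    · rintro ⟨hp, -⟩
      have h1 : p / n < K := (Nat.div_lt_iff_lt_mul hn).2 hp
      refine ⟨p % n * K + p / n, mk_lt (Nat.mod_lt _ hn) h1, ?_⟩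
      rw [mod_mk _ h1, div_mk' _ h1, Nat.div_add_mod']
  · rw [List.pairwise_map]
    refine List.Pairwise.imp_of_mem ?_ List.pairwise_lt_range
    intro a b ha hb hab
    rw [List.mem_range] at ha hb
    rw [hc a ha, hc b hb]
    rcases (Nat.div_le_div_right (c := K) hab.le).lt_or_eq with h | h
    · exact Or.inl h
    · refine Or.inr ⟨h, ?_⟩
      have h1 := Nat.div_add_mod a K
      have h2 := Nat.div_add_mod b K
      rw [h] at h1 ⊢
      have h3 : a % K < b % K := by omega
      have := Nat.mul_lt_mul_of_pos_right h3 hn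
      omega

theorem sel_rcls_length {K n : ℕ} (hK : 0 < K) (hn : 0 < n) :
    (sel (rcls K n) (K * n) n).length = n * K := by
  rw [sel_rcls hK hn, List.length_map, List.length_range]

theorem sel_rcls_getD {K n k x : ℕ} (hk : k < K) (hx : x < n) :
    (sel (rcls K n) (K * n) n).getD (x * K + k) 0 = k * n + x := by
  rw [sel_rcls (by omega) (by omega), getD_map_range _ (mk_lt hx hk), mod_mk _ hk, div_mk' _ hk]

variable {W : ℕ} {fn : Option Tm}

/-- `0, 1, …, n - 1` -/
def tRange (n : Tm) : Tm := .tab n (.var 0)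

theorem pv_range {e n N} {c : ℝ} (hn : Pv W fn e n [N] c) :
    Pv W fn e (tRange n) (List.range N) (c + 35 * N + 20) :=
  (Pv.tab (f := fun i => i) hn fun _ _ => Pv.varS rfl).cast (by simp) (by linarith)

/-- the lowest of three fields is moved above the middle one -/
def TrG : Prop := ∃ (t : Tm) (C : ℕ), ∀ (W : ℕ) (X : List ℕ) (G lo K n : ℕ), 8 ≤ W →
  X.length = G * (lo * (K * n)) → X.length < 2 ^ W → 0 < X.length →
  Does W t [X, [G], [lo], [K], [n]] (C * ((n + 1) * X.length + W + 1)) fun Y =>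
    Y.length = X.length ∧ ∀ g < G, ∀ k < K, ∀ x < n, ∀ r < lo,
      Y.getD (((g * n + x) * K + k) * lo + r) 0 = X.getD (((g * K + k) * n + x) * lo + r) 0

/-- the inverse -/
def TrS : Prop := ∃ (t : Tm) (C : ℕ), ∀ (W : ℕ) (X : List ℕ) (G lo K n : ℕ), 8 ≤ W →
  X.length = G * (lo * (K * n)) → X.length < 2 ^ W → 0 < X.length →
  Does W t [X, [G], [lo], [K], [n]] (C * ((n + 1) * X.length + W + 1)) fun Y =>
    Y.length = X.length ∧ ∀ g < G, ∀ k < K, ∀ x < n, ∀ r < lo,
      Y.getD (((g * K + k) * n + x) * lo + r) 0 = X.getD (((g * n + x) * K + k) * lo + r) 0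

theorem sizes {V G lo K n : ℕ} (h : V = G * (lo * (K * n))) (hV : 0 < V) :
    0 < G ∧ 0 < lo ∧ 0 < K ∧ 0 < n ∧ K * n ≤ V ∧ K ≤ V ∧ n ≤ V := by
  have hG : 0 < G := Nat.pos_of_ne_zero (by rintro rfl; simp at h; omega)
  have hl : 0 < lo := Nat.pos_of_ne_zero (by rintro rfl; simp at h; omega)
  have hK : 0 < K := Nat.pos_of_ne_zero (by rintro rfl; simp at h; omega)
  have hn : 0 < n := Nat.pos_of_ne_zero (by rintro rfl; simp at h; omega)
  have h1 : K * n ≤ V := by
    rw [h]; exact (Nat.le_mul_of_pos_left _ hl).trans (Nat.le_mul_of_pos_left _ hG)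
  exact ⟨hG, hl, hK, hn, h1, (Nat.le_mul_of_pos_right _ hn).trans h1,
    (Nat.le_mul_of_pos_left _ hK).trans h1⟩

theorem trG (hG : GatherSpec) : TrG := by
  obtain ⟨t, C, ht⟩ := hG
  refine ⟨.lett (tRange (.var 4)) (.call t [.var 1, .repl (.var 4) (.var 0), .var 2, .var 3,
    .mul (.var 4) (.var 5), .var 5]), C + 500, ?_⟩
  intro W X G lo K n hW hX hXW hV fn env
  obtain ⟨hG0, hlo, hK, hn, h1, h2, h3⟩ := sizes hX hV
  obtain ⟨Y, ⟨hY1, hY2⟩, hp⟩ := ht W X (rcls K n) G lo (K * n) n hW hX hXW hG0 hlo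
    (by positivity) (rcls_length K n) fn (List.range n :: X :: [G] :: [lo] :: [K] :: [n] :: env)
  rw [sel_rcls_length hK hn] at hY1 hY2
  have hYl : Y.length = X.length := by rw [hY1, hX]; ring
  refine ⟨Y, ⟨hYl, fun g hg k hk x hx r hr => ?_⟩, ?_⟩
  · have := hY2 g hg (x * K + k) (mk_lt hx hk) r hr
    rw [sel_rcls_getD hk hx] at this
    convert this using 2 <;> ring
  · apply Pv.cast
    · simp only [List.cons_append, List.nil_append]
      apply Pv.lett (pv_range (Pv.varS rfl))
      apply Pv.call (hf := hp)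
      unfold rcls
      pv
      omega
    · rfl
    · have r1 : (K : ℝ) * n ≤ X.length := by exact_mod_cast h1
      have r2 : (K : ℝ) ≤ X.length := by exact_mod_cast h2
      have r3 : (n : ℝ) ≤ X.length := by exact_mod_cast h3
      have r4 : (0 : ℝ) ≤ n * X.length := by positivity
      have r5 : (0 : ℝ) ≤ W := by positivity
      have r6 : (1 : ℝ) ≤ X.length := by exact_mod_cast hV
      have r7 := rcls_length K n
      unfold rcls at r7
      simp only [r7, hYl, List.length_range, List.length_cons, List.length_nil]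
      push_cast
      linarith

theorem trS (hS : ScatterSpec) : TrS := by
  obtain ⟨t, C, ht⟩ := hS
  refine ⟨.lett (tRange (.var 4)) (.call t [.var 1, .repl (.var 4) (.var 0), .var 2, .var 3,
    .mul (.var 4) (.var 5), .var 5, .mul (.var 4) (.var 5)]), C + 900, ?_⟩
  intro W X G lo K n hW hX hXW hV fn env
  obtain ⟨hG0, hlo, hK, hn, h1, h2, h3⟩ := sizes hX hV
  obtain ⟨Y, ⟨hY1, hY2, -⟩, hp⟩ := ht W X (rcls K n) G lo (K * n) n (K * n) hW hX (hX ▸ hXW) hG0
    hlo (by positivity) (rcls_length K n) (by rw [sel_rcls_length hK hn, mul_comm]) le_rfl fn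
    (List.range n :: X :: [G] :: [lo] :: [K] :: [n] :: env)
  rw [sel_rcls_length hK hn] at hY2
  have hYl : Y.length = X.length := by rw [hY1, hX]
  refine ⟨Y, ⟨hYl, fun g hg k hk x hx r hr => ?_⟩, ?_⟩
  · have := hY2 g hg (x * K + k) (mk_lt hx hk) r hr
    rw [sel_rcls_getD hk hx] at this
    convert this using 2 <;> ring
  · apply Pv.cast
    · simp only [List.cons_append, List.nil_append]
      apply Pv.lett (pv_range (Pv.varS rfl))
      apply Pv.call (hf := hp)
      unfold rcls
      pv <;> omega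
    · rfl
    · have r1 : (K : ℝ) * n ≤ X.length := by exact_mod_cast h1
      have r2 : (K : ℝ) ≤ X.length := by exact_mod_cast h2
      have r3 : (n : ℝ) ≤ X.length := by exact_mod_cast h3
      have r4 : (0 : ℝ) ≤ n * X.length := by positivity
      have r5 : (0 : ℝ) ≤ W := by positivity
      have r6 : (1 : ℝ) ≤ X.length := by exact_mod_cast hV
      have r7 := rcls_length K n
      have r8 : (G : ℝ) * (lo * (K * n)) = X.length := by exact_mod_cast hX.symm
      unfold rcls at r7
      simp only [r7, hYl, List.length_range, List.length_cons, List.length_nil]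
      push_cast
      rw [r8]
      linarith

end P3

end Crest.Agent.R326
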