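import Crest.Agent.R326.Arith
import Crest.Agent.R326.Dig

/-!
# Specifications, part A: rearrangements of arrays, networks, the fast interchange of two fields

An array is a list of words; its addresses are natural numbers, cut into fields (`dig`, `setDig`).
Every specification says: there is a closed term `t` and a constant `C` such that, whenever the
arguments (the first variables of the environment) satisfy the hypotheses, `t` evaluates purely,
within the given cost, to a list that satisfies the postcondition.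
-/

set_option autoImplicit false

namespace Crest.Agent.R326

/-- `t` maps the arguments `args` to a list satisfying `post`, at cost `c` -/
def Does (W : ℕ) (t : Tm) (args : Env) (c : ℝ) (post : List ℕ → Prop) : Prop :=
  ∀ (fn : Option Tm) (env : Env), ∃ Y, post Y ∧ Pv W fn (args ++ env) t Y c

theorem Does.mono {W t args} {c c' : ℝ} {post post' : List ℕ → Prop} (h : Does W t args c post)
    (hc : c ≤ c') (hp : ∀ Y, post Y → post' Y) : Does W t args c' post' := fun fn env => by
  obtain ⟨Y, h1, h2⟩ := h fn env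
  exact ⟨Y, hp Y h1, h2.mono hc⟩

/-- the exponent of the two networks -/
noncomputable def tauE : ℝ := 1 - 1 / 2 ^ 100

/-! ### elementary rearrangements -/

/-- rotation of the first `s` values of the field `(lo, n)`, by an amount read from the table `T`,
which is indexed by the part of the address above the field -/
def rotA (lo n s : ℕ) (T : List ℕ) (a : ℕ) : ℕ :=
  if dig lo n a < s then setDig lo n a ((dig lo n a + T.getD (a / (lo * n)) 0) % s) else a

def RotSpec : Prop := ∃ (t : Tm) (C : ℕ), ∀ (W : ℕ) (X T : List ℕ) (G lo n s : ℕ), 8 ≤ W →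
  X.length = G * (lo * n) → X.length < 2 ^ W → 0 < G → 0 < lo → 0 < n → s ≤ n → T.length = G →
  (∀ x ∈ T, x ≤ s) →
  Does W t [X, T, [G], [lo], [n], [s]] (C * (X.length + W + 1)) (Pull X.length (rotA lo n s T) X)

/-- reversal of the values in `[b, c)` of the field `(lo, n)` -/
def revA (lo n b c a : ℕ) : ℕ :=
  if b ≤ dig lo n a ∧ dig lo n a < c then setDig lo n a (b + c - 1 - dig lo n a) else a

def RevSpec : Prop := ∃ (t : Tm) (C : ℕ), ∀ (W : ℕ) (X : List ℕ) (lo n b c : ℕ), 8 ≤ W →
  lo * n ∣ X.length → 0 < X.length → X.length < 2 ^ W → b ≤ c → c ≤ n →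
  Does W t [X, [lo], [n], [b], [c]] (C * (X.length + W + 1)) (Pull X.length (revA lo n b c) X)

def NegDigSpec : Prop := ∃ (t : Tm) (C : ℕ), ∀ (W : ℕ) (X : List ℕ) (lo n : ℕ), 8 ≤ W →
  lo * n ∣ X.length → 0 < X.length → X.length < 2 ^ W →
  Does W t [X, [lo], [n]] (C * (X.length + W + 1))
    (Pull X.length (fun a => setDig lo n a ((n - dig lo n a) % n)) X)

/-- padding a field of size `n` to size `n'` with zeros, and removing the padding -/
def PadSpec : Prop := ∃ (tP tU : Tm) (C : ℕ), ∀ (W : ℕ) (X : List ℕ) (G lo n n' : ℕ), 8 ≤ W →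
  0 < G → 0 < lo → 0 < n → n ≤ n' → G * (lo * n') < 2 ^ W →
  (X.length = G * (lo * n) →
    Does W tP [X, [G], [lo], [n], [n']] (C * (G * (lo * n') + W + 1)) fun Y =>
      Y.length = G * (lo * n') ∧ ∀ g < G, ∀ y < n', ∀ r < lo,
        Y.getD ((g * n' + y) * lo + r) 0 =
          if y < n then X.getD ((g * n + y) * lo + r) 0 else 0) ∧
  (X.length = G * (lo * n') →
    Does W tU [X, [G], [lo], [n], [n']] (C * (G * (lo * n') + W + 1)) fun Y =>
      Y.length = G * (lo * n) ∧ ∀ g < G, ∀ y < n, ∀ r < lo,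
        Y.getD ((g * n + y) * lo + r) 0 = X.getD ((g * n' + y) * lo + r) 0)

/-- the positions below `n` of class `0`, then those of class `1`, …, then those of class `m - 1` -/
def sel (cls : List ℕ) (n m : ℕ) : List ℕ :=
  (List.range m).flatMap fun j => (List.range n).filter fun p => cls.getD p 0 = j

/-- in each of the `G` groups of `n` blocks of `lo` words, collect the blocks class by class -/
def GatherSpec : Prop := ∃ (t : Tm) (C : ℕ), ∀ (W : ℕ) (X cls : List ℕ) (G lo n m : ℕ), 8 ≤ W →
  X.length = G * (lo * n) → X.length < 2 ^ W → 0 < G → 0 < lo → 0 < n → cls.length = n →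
  Does W t [X, cls, [G], [lo], [n], [m]] (C * ((m + 1) * X.length + W + 1)) fun Y =>
    Y.length = G * (lo * (sel cls n m).length) ∧
    ∀ g < G, ∀ i < (sel cls n m).length, ∀ r < lo,
      Y.getD ((g * (sel cls n m).length + i) * lo + r) 0 =
        X.getD ((g * n + (sel cls n m).getD i 0) * lo + r) 0

/-- the inverse: the groups of `X` have `k` blocks, the first of which are distributed class by
class over the `n` positions of a group of the result; the other positions are zero -/
def ScatterSpec : Prop := ∃ (t : Tm) (C : ℕ), ∀ (W : ℕ) (X cls : List ℕ) (G lo n m k : ℕ), 8 ≤ W →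
  X.length = G * (lo * k) → G * (lo * n) < 2 ^ W → 0 < G → 0 < lo → 0 < n → cls.length = n →
  (sel cls n m).length ≤ k → k ≤ n →
  Does W t [X, cls, [G], [lo], [n], [m], [k]] (C * ((m + 1) * (G * (lo * n)) + W + 1)) fun Y =>
    Y.length = G * (lo * n) ∧
    (∀ g < G, ∀ i < (sel cls n m).length, ∀ r < lo,
      Y.getD ((g * n + (sel cls n m).getD i 0) * lo + r) 0 = X.getD ((g * k + i) * lo + r) 0) ∧
    ∀ g < G, ∀ p < n, m ≤ cls.getD p 0 → ∀ r < lo, Y.getD ((g * n + p) * lo + r) 0 = 0

/-- a multiple of a higher digit is added to a lower digit -/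
def AddDigSpec : Prop := ∃ (t : Tm) (C : ℕ), ∀ (W : ℕ) (X : List ℕ) (lo1 lo2 n c : ℕ), 8 ≤ W →
  lo2 * n ∣ lo1 → lo1 * n ∣ X.length → 0 < X.length → (c + 1) * X.length < 2 ^ W →
  Does W t [X, [lo1], [lo2], [n], [c]] (C * (X.length + (n + 1) * (W + 1)))
    (Pull X.length (fun a => setDig lo2 n a ((dig lo2 n a + c * dig lo1 n a) % n)) X)

/-- a digit is multiplied, or divided, by a unit -/
def ScaleSpec : Prop := ∃ (tM tD : Tm) (C : ℕ), ∀ (W : ℕ) (X : List ℕ) (lo n c : ℕ), 8 ≤ W →
  lo * n ∣ X.length → 0 < X.length → (c + 1) * X.length < 2 ^ W → 0 < c → Nat.Coprime c n →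
  Does W tM [X, [lo], [n], [c]] (C * ((c + 1) * (X.length + (n + 1) * (W + 1))))
    (Pull X.length (fun a => setDig lo n a (c * dig lo n a % n)) X) ∧
  Does W tD [X, [lo], [n], [c]] (C * ((c + 1) * (X.length + (n + 1) * (W + 1)))) fun Y =>
    ∀ c', c * c' % n = 1 % n → Pull X.length (fun a => setDig lo n a (c' * dig lo n a % n)) X Y

/-- the slow interchange of two fields -/
def SwapNaiveSpec : Prop := ∃ (t : Tm) (C : ℕ), ∀ (W : ℕ) (X : List ℕ) (lo1 lo2 n : ℕ), 8 ≤ W →
  lo2 * n ∣ lo1 → lo1 * n ∣ X.length → 0 < X.length → X.length < 2 ^ W →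
  Does W t [X, [lo1], [lo2], [n]] (C * ((n + 1) * (X.length + W + 1)))
    (Pull X.length (swapDig lo1 lo2 n) X)

/-- the lowest `j` bits of the address are moved to the top, or back -/
def ShuffleSpec : Prop := ∃ (tT tB : Tm) (C : ℕ), ∀ (W : ℕ) (X : List ℕ) (S j : ℕ), 8 ≤ W →
  X.length = S * 2 ^ j → 0 < S → X.length < 2 ^ W →
  (Does W tT [X, [j]] (C * ((j + 1) * (X.length + W + 1))) fun Y => Y.length = X.length ∧
    ∀ x < 2 ^ j, ∀ y < S, Y.getD (x * S + y) 0 = X.getD (y * 2 ^ j + x) 0) ∧
  (Does W tB [X, [j]] (C * ((j + 1) * (X.length + W + 1))) fun Y => Y.length = X.length ∧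
    ∀ x < 2 ^ j, ∀ y < S, Y.getD (y * 2 ^ j + x) 0 = X.getD (x * S + y) 0)

/-! ### straight-line programs on arrays -/

/-- instructions; the operands are positions in the list of the values computed so far, the new
value is put in front -/
inductive Instr (G : Type) : Type
  | add (i j : ℕ)
  | sub (i j : ℕ)
  | half (i : ℕ)
  | gen (g : G) (i : ℕ)

namespace Instr

variable {G A : Type} [AddCommGroup A]

/-- the value of an instruction -/
def ev (hf : A → A) (ρ : G → A → A) (l : List A) : Instr G → A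
  | add i j => l.getD i 0 + l.getD j 0
  | sub i j => l.getD i 0 - l.getD j 0
  | half i => hf (l.getD i 0)
  | gen g i => ρ g (l.getD i 0)

/-- the operands are among the first `n` values -/
def ok (n : ℕ) : Instr G → Prop
  | add i j => i < n ∧ j < n
  | sub i j => i < n ∧ j < n
  | half i => i < n
  | gen _ i => i < n

/-- the cost of the generator called by an instruction -/
def cost (κ : G → ℝ) : Instr G → ℝ
  | gen g _ => κ g
  | _ => 0

end Instr

/-- the list of all values after running a program -/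
def run {G A : Type} [AddCommGroup A] (hf : A → A) (ρ : G → A → A) :
    List (Instr G) → List A → List A
  | [], l => l
  | ins :: p, l => run hf ρ p (ins.ev hf ρ l :: l)

/-- all operands exist, if there are `n` values at the start -/
def WF {G : Type} : List (Instr G) → ℕ → Prop
  | [], _ => True
  | ins :: p, n => ins.ok n ∧ WF p (n + 1)

/-- A program on `W0` inputs and its list of outputs. -/
structure NetProg (G : Type) (W0 : ℕ) : Type where
  prog : List (Instr G)
  outs : List ℕ
  wf : WF prog W0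
  outs_len : outs.length = W0
  outs_lt : ∀ i ∈ outs, i < W0 + prog.length

/-- the outputs on the inputs `xs` -/
def NetProg.out {G A : Type} [AddCommGroup A] {W0 : ℕ} (N : NetProg G W0) (hf : A → A)
    (ρ : G → A → A) (xs : List A) : List A :=
  N.outs.map fun i => (run hf ρ N.prog xs).getD i 0

/-- total cost of the generators called -/
def NetProg.cost {G : Type} {W0 : ℕ} (N : NetProg G W0) (κ : G → ℝ) : ℝ :=
  (N.prog.map (Instr.cost κ)).sum

/-- The network for the interchange: in characteristic two, the operator of the matrix `D • 1` is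
applied to `W0` arrays with at most `W0 * m - 1` operators of matrices of rank one. -/
def XNetSpec : Prop := ∃ (m W0 D : ℕ) (N : NetProg ((Fin m → ℤ) × (Fin m → ℤ)) W0),
  2 ≤ m ∧ m ≤ 2 ^ 15 ∧ 0 < W0 ∧ W0 ≤ 2 ^ 60 ∧ 0 < D ∧
  N.cost (fun _ => 1) + 1 ≤ W0 * m ∧
  ∀ (A : Type) [AddCommGroup A] [Module (ZMod 2) A]
    (ρ : Multiplicative (Matrix (Fin m) (Fin m) ℤ) →* Module.End (ZMod 2) A) (xs : List A),
    xs.length = W0 →
    N.out id (fun g x => ρ (Multiplicative.ofAdd (Matrix.vecMulVec g.1 g.2)) x) xs =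
      xs.map fun x => ρ (Multiplicative.ofAdd (D • (1 : Matrix (Fin m) (Fin m) ℤ))) x

/-- The network for tensor powers of the square root `gam` of the translation `tau`: the product of
the `m` operators `gam (e i)` is applied to `W0` arrays with at most `W0 * m - 1` operators `gam z`
(and any number of translations). -/
def HNetSpec : Prop := ∃ (m W0 : ℕ) (N : NetProg ((Fin m → ZMod 2) ⊕ (Fin m → ZMod 2)) W0),
  2 ≤ m ∧ m ≤ 2 ^ 15 ∧ 0 < W0 ∧ W0 ≤ 2 ^ 60 ∧
  N.cost (Sum.elim (fun _ => 1) (fun _ => 0)) + 1 ≤ W0 * m ∧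
  ∀ (K : Type) [CommRing K] (hf : K) (A : Type) [AddCommGroup A] [Module K A]
    (Q : Type) [CommMonoid Q] (ρ : Q →* Module.End K A) (gam tau : (Fin m → ZMod 2) → Q),
    2 * hf = 1 → tau 0 = 1 → (∀ w w', tau (w + w') = tau w * tau w') →
    (∀ z, gam z * gam z = tau z) →
    (∀ a b d e, gam (a + b + d) * gam (a + b + e) * gam (a + d + e) * gam (b + d + e) =
      tau (a + b + d + e) * (gam a * gam b * gam d * gam e)) →
    ∀ xs : List A, xs.length = W0 →
      N.out (fun x => hf • x) (fun g x => ρ (Sum.elim gam tau g) x) xs =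
        xs.map fun x => ρ (∏ i, gam (Pi.single i 1)) x

/-- Execution of a straight-line program on the `W0` segments of length `n` of an array; `Rp x f`
says that the list `x` represents the value `f`. -/
def ExecSpec : Prop := ∀ (G : Type) (W0 : ℕ) (N : NetProg G W0) (tAdd tSub tHalf : Tm)
    (tGen : G → Tm), ∃ (t : Tm) (C : ℕ),
  ∀ (W : ℕ) (fn : Option Tm) (env : Env) (X : List ℕ) (n : ℕ) (A : Type) [AddCommGroup A]
    (hf : A → A) (ρ : G → A → A) (Rp : List ℕ → A → Prop) (κ : G → ℝ) (κ0 : ℝ) (xs : List A),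
    8 ≤ W → 0 ≤ κ0 → X.length = W0 * n → xs.length = W0 → (∀ x f, Rp x f → x.length = n) →
    (∀ w < W0, Rp (chunk n X w) (xs.getD w 0)) →
    (∀ x y f g, Rp x f → Rp y g → ∃ z, Rp z (f + g) ∧ Pv W fn (x :: y :: env) tAdd z κ0) →
    (∀ x y f g, Rp x f → Rp y g → ∃ z, Rp z (f - g) ∧ Pv W fn (x :: y :: env) tSub z κ0) →
    (∀ x f, Rp x f → ∃ z, Rp z (hf f) ∧ Pv W fn (x :: env) tHalf z κ0) →
    (∀ g i, Instr.gen g i ∈ N.prog → ∀ x f, Rp x f →
      ∃ z, Rp z (ρ g f) ∧ Pv W fn (x :: env) (tGen g) z (κ g)) →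
    ∃ Y, Y.length = W0 * n ∧ (∀ w < W0, Rp (chunk n Y w) ((N.out hf ρ xs).getD w 0)) ∧
      Pv W fn (X :: [n] :: env) t Y (N.cost κ + C * (κ0 + n + 1))

/-! ### words in elementary operations on `2 m` digits -/

/-- elementary operations on the digits `x i` (`Sum.inl i`) and `y j` (`Sum.inr j`) -/
inductive EOp (m : ℕ) : Type
  | add (i j : Fin m ⊕ Fin m) (c : ℕ)
  | neg (i : Fin m ⊕ Fin m)
  | mul (i : Fin m ⊕ Fin m) (c : ℕ)
  | div (i : Fin m ⊕ Fin m) (c : ℕ)
  | swap (i j : Fin m)

/-- significance of a digit: `y 0 < y 1 < … < x 0 < x 1 < …` -/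
def rank {m : ℕ} : Fin m ⊕ Fin m → ℕ
  | .inl i => m + i
  | .inr j => j

namespace EOp

variable {m : ℕ}

/-- a digit is only controlled by a more significant one; scalars are positive -/
def ok : EOp m → Prop
  | add i j _ => rank i < rank j
  | mul _ c => 0 < c
  | div _ c => 0 < c
  | _ => True

/-- the scalar of an operation is a unit modulo `M` -/
def unit (M : ℕ) : EOp m → Prop
  | mul _ c => Nat.Coprime c M
  | div _ c => Nat.Coprime c M
  | _ => True

/-- is the operation an interchange? -/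
def isSwap : EOp m → Bool
  | swap _ _ => true
  | _ => false

/-- the action on the digits -/
def sem (M : ℕ) : EOp m → (Fin m ⊕ Fin m → ZMod M) → (Fin m ⊕ Fin m → ZMod M)
  | add i j c, v => Function.update v i (v i + c * v j)
  | neg i, v => Function.update v i (-v i)
  | mul i c, v => Function.update v i (c * v i)
  | div i c, v => Function.update v i ((c : ZMod M)⁻¹ * v i)
  | swap i j, v => Function.update (Function.update v (.inl i) (v (.inr j))) (.inr j) (v (.inl i))

end EOp

/-- the address map of a word: executing the operations of `w` on an array, from left to right,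
reads the array through this map -/
def wsem {m : ℕ} (M : ℕ) (w : List (EOp m)) (v : Fin m ⊕ Fin m → ZMod M) :
    Fin m ⊕ Fin m → ZMod M := w.foldr (fun o v => o.sem M v) v

/-- `(x, y) ↦ (x + D⁻¹ A y, y)` -/
def shearM {m : ℕ} (M D : ℕ) (A : Matrix (Fin m) (Fin m) ℤ) (v : Fin m ⊕ Fin m → ZMod M) :
    Fin m ⊕ Fin m → ZMod M :=
  Sum.elim (fun i => v (.inl i) + (D : ZMod M)⁻¹ * ∑ j, (A i j : ZMod M) * v (.inr j))
    (fun j => v (.inr j))

/-- A shear of rank one is a word with at most one interchange; the full interchange is the shear by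
the identity between two words without interchange. -/
def SwapAlgSpec : Prop := ∀ (m D : ℕ), 0 < D →
  (∀ u v : Fin m → ℤ, ∃ w : List (EOp m), (∀ o ∈ w, o.ok) ∧ w.countP EOp.isSwap ≤ 1 ∧
    ∀ M : ℕ, (∀ o ∈ w, o.unit M) → Nat.Coprime D M →
      wsem M w = shearM M D (Matrix.vecMulVec u v)) ∧
  ∃ w1 w2 : List (EOp m), (∀ o ∈ w1 ++ w2, o.ok ∧ o.isSwap = false ∧ ∀ M, o.unit M) ∧
    ∀ M : ℕ, Nat.Coprime D M → ∀ v : Fin m ⊕ Fin m → ZMod M,
      wsem M w1 (shearM M D (D • (1 : Matrix (Fin m) (Fin m) ℤ)) (wsem M w2 v)) = v ∘ Sum.swap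

/-- the fast interchange of two fields of the same size -/
def SwapSpec : Prop := ∃ (t : Tm) (C c0 : ℕ), ∀ (W : ℕ) (X : List ℕ) (lo1 lo2 n : ℕ), 8 ≤ W →
  lo2 * n ∣ lo1 → lo1 * n ∣ X.length → 0 < X.length → lo1 * n * (W + 1) ^ c0 ≤ X.length →
  C * X.length < 2 ^ W →
  Does W t [X, [lo1], [lo2], [n]] (C * (X.length * ((n.size : ℝ) + 1) ^ tauE))
    (Pull X.length (swapDig lo1 lo2 n) X)

end Crest.Agent.R326
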