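import Crest.Agent.R326.ModQ

/-!
# Specifications, part B: fixed-point arithmetic, Hadamard layers, Fourier transforms, the product
-/

set_option autoImplicit false

namespace Crest.Agent.R326

open Finset

/-- cost of a product of two words -/
noncomputable def mu (W : ℕ) : ℝ := ((W : ℝ) + 1) ^ (3 / 5 : ℝ)

/-- `exp (2 π i m / M)` -/
noncomputable def ee (m : ℤ) (M : ℕ) : ℂ := Complex.exp (2 * Real.pi * Complex.I * m / M)

/-! ### fixed-point numbers: a residue codes a Gaussian integer close to `2 ^ p * z` -/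

/-- the residue `r` codes a Gaussian integer within `E` of `2 ^ p * z` -/
def Ap (h p r : ℕ) (z : ℂ) (E : ℝ) : Prop :=
  ∃ g : GaussianInt, (r : ZMod (Qm h)) = encG h g ∧ ‖(g : ℂ) - 2 ^ p * z‖ ≤ E

/-- level `e`: error and size at most `2 ^ e` -/
def Lv (h p e r : ℕ) (z : ℂ) : Prop := Ap h p r z (2 ^ e) ∧ ‖z‖ ≤ 2 ^ e

/-- the array `X` approximates `x` at level `e` at the addresses in `ok` -/
def App (h p e V : ℕ) (ok : ℕ → Prop) (X : List ℕ) (x : ℕ → ℂ) : Prop :=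
  X.length = V ∧ (∀ r ∈ X, r < Qm h) ∧ ∀ a < V, ok a → Lv h p e (X.getD a 0) (x a)

/-- `Y` is the image of `X` under the operator `G` modulo `Qm h`, at the addresses in `ok` -/
def ExQ (h V : ℕ) (ok : ℕ → Prop) (G : (ℕ → ZMod (Qm h)) → ℕ → ZMod (Qm h)) (X Y : List ℕ) :
    Prop :=
  Y.length = V ∧ (∀ r ∈ Y, r < Qm h) ∧ ∀ a < V, ok a → castL h Y a = G (castL h X) a

/-- the code of `2 ^ k * (1 + i)` -/
def offQ (h k : ℕ) : ℕ := 2 ^ k + 2 ^ k * 2 ^ h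

/-- product, divided by `2 ^ p` and rounded down in both coordinates -/
def mulRound (h p x y : ℕ) : ℕ :=
  ((x * y + offQ h (h - 1)) % Qm h % 2 ^ h / 2 ^ p +
    (x * y + offQ h (h - 1)) % Qm h / 2 ^ h / 2 ^ p * 2 ^ h +
    (Qm h - offQ h (h - 1 - p))) % Qm h

/-- real part, divided by `2 ^ p` and rounded to the nearest natural number -/
def roundRe (h p r : ℕ) : ℕ :=
  ((r + offQ h (h - 1)) % Qm h % 2 ^ h + 2 ^ (p - 1)) / 2 ^ p - 2 ^ (h - 1 - p)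

/-- Karatsuba's product -/
def KaraSpec : Prop := ∃ (t : Tm) (C : ℕ), ∀ (W x y k : ℕ), 8 ≤ W → x < 2 ^ k → y < 2 ^ k →
  2 * k + 8 ≤ W → Does W t [[x], [y], [k]] (C * mu W) (· = [x * y])

/-- product modulo `Qm h`, rounded product, rounding -/
def MulSpec : Prop := ∃ (tQ tR tE : Tm) (C : ℕ), ∀ (W x y h p : ℕ), 8 ≤ W → x < Qm h → y < Qm h →
  1 ≤ p → p + 1 ≤ h → 4 * h + 16 ≤ W →
  Does W tQ [[x], [y], [h]] (C * mu W) (· = [x * y % Qm h]) ∧
  Does W tR [[x], [y], [h], [p]] (C * mu W) (· = [mulRound h p x y]) ∧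
  Does W tE [[x], [h], [p]] C (· = [roundRe h p x])

/-- the table of the roots of unity of order `M` -/
def RootSpec : Prop := ∃ (t : Tm) (C c1 : ℕ), ∀ (W M h p : ℕ), 8 ≤ W → 8 ≤ M → 1 ≤ p →
  p + 4 ≤ h → 4 * h + 16 ≤ W →
  Does W t [[M], [h], [p]] (C * ((M : ℝ) + W + 1) ^ c1)
    fun Y => App h p 2 M (fun _ => True) Y fun m => ee m M

/-! ### square roots of translations -/

/-- `(1 + i) / 2` -/
def alQ (h : ℕ) : ZMod (Qm h) := hfQ h * (1 + IQ h)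
/-- `(1 - i) / 2` -/
def beQ (h : ℕ) : ZMod (Qm h) := hfQ h * (1 - IQ h)

/-- the square root of the translation `a ↦ a ^^^ μ` -/
def gamOp (h μ : ℕ) (x : ℕ → ZMod (Qm h)) : ℕ → ZMod (Qm h) :=
  fun a => alQ h * x a + beQ h * x (a ^^^ μ)

/-- the product of the operators `gamOp` for the bits `p0 + σ * j`, `j < l` -/
def gamS (h p0 σ : ℕ) : ℕ → (ℕ → ZMod (Qm h)) → ℕ → ZMod (Qm h)
  | 0, x => x
  | l + 1, x => gamOp h (2 ^ (p0 + σ * l)) (gamS h p0 σ l x)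

def GamSpec : Prop := ∃ (t : Tm) (C : ℕ), ∀ (W : ℕ) (X : List ℕ) (p h : ℕ), 8 ≤ W →
  2 ^ (p + 1) ∣ X.length → 0 < X.length → X.length < 2 ^ W → (∀ r ∈ X, r < Qm h) → 1 ≤ h →
  4 * h + 16 ≤ W →
  Does W t [X, [p], [h]] (C * (X.length + W + 1))
    (ExQ h X.length (fun _ => True) (gamOp h (2 ^ p)) X)

/-- The good addresses: the `l` auxiliary digits (base `2 ^ g`, from bit `lt` on) are not maximal,
and there is room for a carry above each of the selected bits `py + σ * j`. -/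
def okP (py σ l g lt a : ℕ) : Prop := ∀ j < l,
  dig (2 ^ (lt + g * j)) (2 ^ g) a + 1 < 2 ^ g ∧
    dig (2 ^ (py + σ * j + 1)) (2 ^ (σ - 1)) a + 2 ^ g ≤ 2 ^ (σ - 1)

/-- the mask of the packed exclusive or: all selected bits (`md = 1`), or those selected by the
control bits `pz + σ * j` of the address (`md = 0`) -/
def xmask (py pz σ l md a : ℕ) : ℕ :=
  ∑ j ∈ range l, (if md = 1 then 1 else dig (2 ^ (pz + σ * j)) 2 a) * 2 ^ (py + σ * j)

def PxorSpec : Prop := ∃ (t : Tm) (C c0 : ℕ),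
  ∀ (W : ℕ) (X : List ℕ) (py pz σ l g lt md : ℕ), 8 ≤ W → 1 ≤ l → 1 ≤ g → g + 2 ≤ σ →
  g * l ≤ py → py + σ * l ≤ lt → (md = 1 ∨ (py + σ * l ≤ pz ∧ pz + σ * l ≤ lt)) → pz ≤ W →
  2 ^ (lt + g * l) ∣ X.length → 2 ^ (lt + g * l) * (W + 1) ^ c0 ≤ X.length →
  C * X.length < 2 ^ W →
  Does W t [X, [py], [pz], [σ], [l], [g], [lt], [md]]
    (C * (X.length * ((g : ℝ) * l + 1) ^ tauE)) fun Y =>
      Y.length = X.length ∧ Sub X Y ∧ ∀ a < X.length, okP py σ l g lt a →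
        Y.getD a 0 = X.getD (a ^^^ xmask py pz σ l md a) 0

def HrecSpec : Prop := ∃ (t : Tm) (C c0 : ℕ),
  ∀ (W : ℕ) (X : List ℕ) (p0 σ l g lt h : ℕ), 8 ≤ W → 1 ≤ l → 1 ≤ g → g + 2 ≤ σ →
  g * l ≤ p0 → p0 + σ * l ≤ lt →
  2 ^ (lt + g * l) ∣ X.length → 2 ^ (lt + g * l) * (W + 1) ^ c0 ≤ X.length →
  C * X.length < 2 ^ W → (∀ r ∈ X, r < Qm h) → 1 ≤ h → 4 * h + 16 ≤ W →
  Does W t [X, [p0], [σ], [l], [g], [lt], [h]]
    (C * (X.length * (((g : ℝ) + 1) * (l : ℝ) ^ tauE)))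
    (ExQ h X.length (okP p0 σ l g lt) (gamS h p0 σ l) X)

/-- the matrix `!![1, -i; -i, 1]` -/
def CG (j k : ℕ) : GaussianInt := if j = k then 1 else ⟨0, -1⟩

/-- room for a carry above each selected bit but the last one -/
def okH (p0 σ a g b : ℕ) : Prop := ∀ j, j + 1 < a →
  dig (2 ^ (p0 + σ * j + 1)) (2 ^ (σ - 1)) b + 2 ^ g ≤ 2 ^ (σ - 1)

/-- cost per word of a layer of butterflies on `a` bits at distance about `K` -/
noncomputable def hcost (W K a g : ℕ) : ℝ :=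
  ((g : ℝ) + 1) * ((a : ℝ) + 1) ^ tauE + ((g : ℝ) * a + W.size) / K + mu W

/-- a layer of butterflies on the bits `p0 + σ * j`, `j < a` -/
def HselSpec : Prop := ∃ (t : Tm) (C c1 : ℕ),
  ∀ (W : ℕ) (X : List ℕ) (LV p0 σ a g h : ℕ), 8 ≤ W → X.length = 2 ^ LV → 1 ≤ a → 1 ≤ σ →
  p0 + σ * (a - 1) < LV → 2 * a + 2 ≤ 2 ^ g → g ≤ W → (a = 1 ∨ g + 2 ≤ σ) → σ ≤ W →
  C * X.length < 2 ^ W → (∀ r ∈ X, r < Qm h) → 2 ≤ h → 4 * h + 16 ≤ W →
  Does W t [X, [LV], [p0], [σ], [a], [g], [h]]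
    (C * (X.length * hcost W σ a g + ((W : ℝ) + 1) ^ c1))
    (ExQ h X.length (okH p0 σ a g) (liftS p0 σ 2 (fun _ j k => encG h (CG j k)) a) X)

/-! ### diagonal matrices and the other letters -/

/-- Multiplication by a tensor product of `a` diagonal matrices of order `2 ^ kn`, whose entries
are listed one after the other in `Tb`. -/
def DiagSpec : Prop := ∃ (t : Tm) (C : ℕ),
  ∀ (W : ℕ) (X Tb : List ℕ) (LV l0 σ kn a h p e δ : ℕ) (ok : ℕ → Prop) (x : ℕ → ℂ)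
    (φ : ℕ → ℕ → ℂ), 8 ≤ W → 1 ≤ a → 1 ≤ kn → kn ≤ σ → σ ≤ W → l0 + σ * (a - 1) + kn ≤ LV →
  LV < W → 1 ≤ p → 2 * p + e + (δ + 3) * a + 8 ≤ h → 4 * h + 16 ≤ W →
  App h p e (2 ^ LV) ok X x →
  App h p δ (a * 2 ^ kn) (fun _ => True) Tb (fun b => φ (b / 2 ^ kn) (b % 2 ^ kn)) →
  Does W t [X, Tb, [LV], [l0], [σ], [kn], [a], [h], [p]] (C * (2 ^ LV * mu W + W + 1))
    fun Y => App h p (e + (δ + 3) * a + 3) (2 ^ LV) ok Y
      (liftS l0 σ (2 ^ kn) (fun i => mdiag (φ i)) a x)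

/-- entrywise product -/
def ZipMulSpec : Prop := ∃ (t : Tm) (C : ℕ),
  ∀ (W : ℕ) (X Y : List ℕ) (V h p e1 e2 : ℕ) (ok : ℕ → Prop) (x y : ℕ → ℂ), 8 ≤ W → V < 2 ^ W →
  1 ≤ p → 2 * p + e1 + e2 + 4 ≤ h → 4 * h + 16 ≤ W → App h p e1 V ok X x → App h p e2 V ok Y y →
  Does W t [X, Y, [h], [p]] (C * (V * mu W + 1))
    fun Z => App h p (e1 + e2 + 3) V ok Z fun a => x a * y a

/-- The field of size `2 ^ (K + 1)` has four quarters.  The first `s` entries of the quarter `al`,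
times `c`, are added to the first `s` entries of the quarter `be`. -/
def shM {R : Type} [CommRing R] (K s al be : ℕ) (c : R) (j k : ℕ) : R :=
  (if j = k then 1 else 0) +
    if j / 2 ^ (K - 1) = be ∧ j % 2 ^ (K - 1) < s ∧ k = al * 2 ^ (K - 1) + j % 2 ^ (K - 1) then c
    else 0

/-- index negation modulo `s` in the quarter `1` -/
def negP (K s j : ℕ) : ℕ :=
  if 2 ^ (K - 1) + 1 ≤ j ∧ j < 2 ^ (K - 1) + s then 2 ^ K + s - j else j

/-- exchange of the two halves -/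
def rotP (K j : ℕ) : ℕ := (j + 2 ^ K) % 2 ^ (K + 1)

/-- `± 2 ^ e` -/
def sgn2 {R : Type} [CommRing R] (e sg : ℕ) : R := if sg = 0 then 2 ^ e else -2 ^ e

/-- the exact letters, applied to the `a` fields at the bits `l0 + (2 K - 2) * i` -/
def LetterSpec : Prop := ∃ (tS tN tR : Tm) (C : ℕ),
  ∀ (W : ℕ) (X ss : List ℕ) (LV l0 K a h : ℕ), 8 ≤ W → X.length = 2 ^ LV → LV < W → 4 ≤ K →
  1 ≤ a → l0 + (2 * K - 2) * (a - 1) + K + 1 ≤ LV → ss.length = a →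
  (∀ s ∈ ss, 1 ≤ s ∧ s ≤ 2 ^ (K - 1)) → (∀ r ∈ X, r < Qm h) → K + 1 ≤ h → 4 * h + 16 ≤ W →
  (∀ al be e sg, al < 4 → be < 4 → al ≠ be → e ≤ K + 1 → sg ≤ 1 →
    Does W tS [X, ss, [l0], [K], [a], [h], [al], [be], [e], [sg]]
      (C * ((a + 1) * (X.length + W + 1)))
      (ExQ h X.length (fun _ => True) (liftS l0 (2 * K - 2) (2 ^ (K + 1))
        (fun i => shM K (ss.getD i 0) al be (sgn2 e sg)) a) X)) ∧
  Does W tN [X, ss, [l0], [K], [a]] (C * ((a + 1) * (X.length + W + 1)))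
    (ExQ h X.length (fun _ => True) (liftS l0 (2 * K - 2) (2 ^ (K + 1))
      (fun i => mperm (negP K (ss.getD i 0))) a) X) ∧
  Does W tR [X, ss, [l0], [K], [a]] (C * ((a + 1) * (X.length + W + 1)))
    (ExQ h X.length (fun _ => True) (liftS l0 (2 * K - 2) (2 ^ (K + 1))
      (fun _ => mperm (rotP K)) a) X)

/-! ### the transforms of order `2 ^ K` -/

/-- reversal of the lowest `K` bits -/
def brev : ℕ → ℕ → ℕ
  | 0, _ => 0
  | K + 1, j => j % 2 * 2 ^ K + brev K (j / 2)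

/-- the Fourier matrix of order `2 ^ K` with rows in bit-reversed order, on both halves -/
noncomputable def FM (K j k : ℕ) : ℂ :=
  if j / 2 ^ K = k / 2 ^ K then ee (brev K (j % 2 ^ K) * (k % 2 ^ K) : ℕ) (2 ^ K) else 0

/-- its conjugate transpose -/
noncomputable def BM (K j k : ℕ) : ℂ :=
  if j / 2 ^ K = k / 2 ^ K then ee (-(brev K (k % 2 ^ K) * (j % 2 ^ K) : ℕ)) (2 ^ K) else 0

/-- The good addresses of a phase: the inactive bits between two active fields leave room. -/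
def okPh (l0 K a g b : ℕ) : Prop := ∀ i, i + 1 < a →
  dig (2 ^ (l0 + (2 * K - 2) * i + K + 1)) (2 ^ (K - 3)) b + 1 + 2 ^ g ≤ 2 ^ (K - 3)

/-- the numerical hypotheses of a phase -/
structure PhOK (C W LV l0 K a g h p e : ℕ) : Prop where
  hW : 8 ≤ W
  hK : 4 ≤ K
  ha : 1 ≤ a
  hLV : l0 + (2 * K - 2) * (a - 1) + K + 1 ≤ LV
  hg : 2 * a + 2 ≤ 2 ^ g
  hgW : g ≤ W
  hgK : a = 1 ∨ g + 4 ≤ 2 * K
  room : C * 2 ^ LV < 2 ^ W
  hp : C * K ≤ p
  lev : 2 * p + 2 * e + C * (K * (a + 1)) ≤ h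
  hh : 4 * h + 16 ≤ W

def FftSpec : Prop := ∃ (tF tB : Tm) (C c c1 : ℕ),
  ∀ (W : ℕ) (X Om : List ℕ) (LV l0 K a g h p e : ℕ) (x : ℕ → ℂ),
  PhOK C W LV l0 K a g h p e →
  App h p 2 (2 ^ K) (fun _ => True) Om (fun m => ee m (2 ^ K)) →
  App h p e (2 ^ LV) (okPh l0 K a g) X x →
  Does W tF [X, Om, [LV], [l0], [K], [a], [g], [h], [p]]
    (C * (2 ^ LV * (K * hcost W K a g) + ((2 : ℝ) ^ K + W + 1) ^ c1))
    (fun Y => App h p (e + c * (K * (a + 1))) (2 ^ LV) (okPh l0 K a g) Y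
      (liftS l0 (2 * K - 2) (2 ^ (K + 1)) (fun _ => FM K) a x)) ∧
  Does W tB [X, Om, [LV], [l0], [K], [a], [g], [h], [p]]
    (C * (2 ^ LV * (K * hcost W K a g) + ((2 : ℝ) ^ K + W + 1) ^ c1))
    (fun Y => App h p (e + c * (K * (a + 1))) (2 ^ LV) (okPh l0 K a g) Y
      (liftS l0 (2 * K - 2) (2 ^ (K + 1)) (fun _ => BM K) a x))

/-! ### the word for the transform of order `s` -/

/-- the chirp -/
noncomputable def chirp (s j : ℕ) : ℂ := ee (j ^ 2 : ℕ) (2 * s)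

/-- the kernel of the Toeplitz matrix, as a function on the residues modulo `2 ^ K` -/
noncomputable def kern (s K k : ℕ) : ℂ :=
  if k < s then (chirp s k)⁻¹ else if 2 ^ K - k < s then (chirp s (2 ^ K - k))⁻¹ else 0

/-- the eigenvalues of the shifted and scaled circulant matrix -/
noncomputable def eig (s K r : ℕ) : ℂ :=
  1 + (∑ k ∈ range (2 ^ K), ee (brev K r * k : ℕ) (2 ^ K) * kern s K k) / 2 ^ (K + 1)

/-- `u` on the first `s` entries of the quarter `0`, `v` on those of the quarter `1`, else `1` -/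
noncomputable def quart (s K : ℕ) (u v : ℕ → ℂ) (x : ℕ) : ℂ :=
  if x < s then u x else
    if 2 ^ (K - 1) ≤ x ∧ x < 2 ^ (K - 1) + s then v (x - 2 ^ (K - 1)) else 1

/-- the seven diagonal matrices -/
noncomputable def tabI (s K : ℕ) : ℕ → ℕ → ℂ
  | 0 => quart s K (chirp s) fun j => (chirp s j)⁻¹
  | 1 => quart s K (fun j => (chirp s j)⁻¹) (chirp s)
  | 2 => quart s K (chirp s) fun j => s * (chirp s j)⁻¹
  | 3 => quart s K (fun j => (chirp s j)⁻¹) fun j => chirp s j / s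
  | 4 => quart s K (fun _ => 1) fun _ => s
  | 5 => fun x => if x < 2 ^ K then 1 / 2 ^ K else eig s K (x - 2 ^ K) / 2 ^ K
  | _ => fun x => if x < 2 ^ K then 1 / 2 ^ K else (eig s K (x - 2 ^ K))⁻¹ / 2 ^ K

/-- the seven tables, one after the other -/
def TableSpec : Prop := ∃ (t : Tm) (C c c1 : ℕ), ∀ (W : ℕ) (Om : List ℕ) (s K h p : ℕ), 8 ≤ W →
  4 ≤ K → 4 ≤ s → s ≤ 2 ^ (K - 1) → C * 2 ^ K < 2 ^ W → C * K ≤ p → 2 * p + C * K ≤ h →
  4 * h + 16 ≤ W → App h p 2 (2 ^ K) (fun _ => True) Om (fun m => ee m (2 ^ K)) →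
  Does W t [Om, [s], [K], [h], [p]] (C * ((2 : ℝ) ^ K + W + 1) ^ c1)
    fun Y => App h p (c * K) (7 * 2 ^ (K + 1)) (fun _ => True) Y
      fun b => tabI s K (b / 2 ^ (K + 1)) (b % 2 ^ (K + 1))

/-- letters -/
inductive Let : Type
  | diag (t : ℕ)
  | fwd
  | bwd
  | shear (al be : ℕ) (big : Bool) (sg : ℕ)
  | neg
  | rot

/-- the matrix of a letter -/
noncomputable def Let.mat (s K : ℕ) : Let → ℕ → ℕ → ℂ
  | .diag t => mdiag (tabI s K t)
  | .fwd => FM K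
  | .bwd => BM K
  | .shear al be big sg => shM K s al be (sgn2 (if big then K + 1 else 0) sg)
  | .neg => mperm (negP K s)
  | .rot => mperm (rotP K)

/-- the matrix of a word, whose letters are applied from left to right -/
noncomputable def wmat (s K : ℕ) : List Let → ℕ → ℕ → ℂ
  | [] => mone
  | l :: w => mmul (2 ^ (K + 1)) (wmat s K w) (l.mat s K)

/-- `y += T x` through the dirty block `z` -/
def wShT : List Let :=
  [.shear 0 2 false 0, .fwd, .diag 5, .bwd, .shear 2 1 true 0, .fwd, .diag 6, .bwd,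
    .shear 0 2 false 1, .fwd, .diag 5, .bwd, .shear 2 1 true 1, .fwd, .diag 6, .bwd,
    .shear 0 1 true 1]
/-- `y += F x` -/
def wSh1 : List Let := [.diag 0] ++ wShT ++ [.diag 1]
/-- `y += F x / s` -/
def wSh2 : List Let := [.diag 2] ++ wShT ++ [.diag 3]
/-- `(x, y) ↦ (-y, x)` -/
def wJ : List Let := [.shear 0 1 false 0, .shear 1 0 false 1, .shear 0 1 false 0]
/-- `(x, y) ↦ (y, -x)` -/
def wJ' : List Let := [.shear 0 1 false 1, .shear 1 0 false 0, .shear 0 1 false 1]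
/-- `(x, y) ↦ (F x, F y)` -/
def wHalf : List Let :=
  [.neg] ++ wSh1 ++ [.neg] ++ wJ ++ wSh2 ++ wJ' ++ [.neg] ++ wSh1 ++ wJ' ++ [.diag 4]
/-- the transform on all four quarters -/
def wAll : List Let := wHalf ++ [.rot] ++ wHalf ++ [.rot]

/-- the Fourier matrix of order `s`, completed by the identity -/
noncomputable def Ft (s j k : ℕ) : ℂ :=
  if j < s ∧ k < s then ee (j * k : ℕ) s else if j = k then 1 else 0

def WordSpec : Prop := ∀ s K : ℕ, 4 ≤ K → 1 ≤ s → s ≤ 2 ^ (K - 1) →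
  MEq (2 ^ (K + 1)) (wmat s K wAll) (msub 1 (2 ^ (K - 1)) (Ft s))

/-- the transforms of orders `ss i` on the fields of `K - 1` bits at the bits `l0 + (2 K - 2) * i` -/
def PhaseSpec : Prop := ∃ (t : Tm) (C c c1 : ℕ),
  ∀ (W : ℕ) (X ss : List ℕ) (LV l0 K a g h p e : ℕ) (x : ℕ → ℂ),
  PhOK C W LV l0 K a g h p e → ss.length = a → (∀ s ∈ ss, 4 ≤ s ∧ s ≤ 2 ^ (K - 1)) →
  App h p e (2 ^ LV) (okPh l0 K a g) X x →
  Does W t [X, ss, [LV], [l0], [K], [a], [g], [h], [p]]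
    (C * (2 ^ LV * (K * hcost W K a g + a) + ((2 : ℝ) ^ K + W + 1) ^ c1))
    fun Y => App h p (e + c * (K * (a + 1))) (2 ^ LV) (okPh l0 K a g) Y
      (liftS l0 (2 * K - 2) (2 ^ (K - 1)) (fun i => Ft (ss.getD i 0)) a x)

/-! ### the layout given by the Chinese remainder theorem -/

/-- the fields hold digits below `ts i`, the top field a digit below `2 ^ j` -/
def valid (K j : ℕ) (ts : List ℕ) (a : ℕ) : Prop :=
  (∀ i < ts.length, dig (2 ^ ((K - 1) * i)) (2 ^ (K - 1)) a < ts.getD i 0) ∧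
    a / 2 ^ ((K - 1) * ts.length) < 2 ^ j

/-- the residue of `k` stored in the field `i` -/
def resid (j : ℕ) (ts : List ℕ) (i k : ℕ) : ℕ :=
  ((k : ZMod (ts.getD i 0)) * ((2 ^ j * (ts.drop (i + 1)).prod : ℕ) : ZMod (ts.getD i 0))⁻¹).val

/-- the address of the index `k` -/
def phi (K j : ℕ) (ts : List ℕ) (k : ℕ) : ℕ :=
  k % 2 ^ j * 2 ^ ((K - 1) * ts.length) + ∑ i ∈ range ts.length, resid j ts i k * 2 ^ ((K - 1) * i)

/-- the moduli are odd, pairwise coprime and fit in the fields -/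
structure TsOK (K : ℕ) (ts : List ℕ) : Prop where
  cop : ts.Pairwise Nat.Coprime
  odd : ∀ t ∈ ts, Nat.Coprime t 2
  le : ∀ t ∈ ts, 4 ≤ t ∧ t ≤ 2 ^ (K - 1)

def CrtSpec : Prop := ∃ (tT tF : Tm) (C c0 : ℕ), ∀ (W : ℕ) (X ts : List ℕ) (K j : ℕ), 8 ≤ W →
  4 ≤ K → K ≤ j + 1 → TsOK K ts → (W + 1) ^ c0 ≤ 2 ^ (K - 1) →
  C * 2 ^ ((K - 1) * ts.length + j + 2) < 2 ^ W →
  (X.length = 2 ^ j * ts.prod →
    Does W tT [X, ts, [K], [j]]
      (C * (2 ^ ((K - 1) * ts.length + j + 2) * ((ts.length + 1) * ((K : ℝ) + 1) ^ tauE + j)))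
      fun Y => Y.length = 2 ^ ((K - 1) * ts.length + j + 2) ∧
        (∀ k < 2 ^ j * ts.prod, Y.getD (phi K j ts k) 0 = X.getD k 0) ∧
        ∀ a, ¬valid K j ts a → Y.getD a 0 = 0) ∧
  (X.length = 2 ^ ((K - 1) * ts.length + j + 2) →
    Does W tF [X, ts, [K], [j]]
      (C * (2 ^ ((K - 1) * ts.length + j + 2) * ((ts.length + 1) * ((K : ℝ) + 1) ^ tauE + j)))
      fun Y => Y.length = 2 ^ j * ts.prod ∧
        ∀ k < 2 ^ j * ts.prod, Y.getD k 0 = X.getD (phi K j ts k) 0)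

/-- the transform on the even fields -/
noncomputable def dftE (K a : ℕ) (ts : List ℕ) : (ℕ → ℂ) → ℕ → ℂ :=
  liftS 0 (2 * K - 2) (2 ^ (K - 1)) (fun i => Ft (ts.getD (2 * i) 0)) a
/-- the transform on the odd fields -/
noncomputable def dftO (K a : ℕ) (ts : List ℕ) : (ℕ → ℂ) → ℕ → ℂ :=
  liftS (K - 1) (2 * K - 2) (2 ^ (K - 1)) (fun i => Ft (ts.getD (2 * i + 1) 0)) a
/-- the transform on the top field -/
noncomputable def dftT (K a j : ℕ) : (ℕ → ℂ) → ℕ → ℂ :=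
  lift (2 ^ ((K - 1) * (2 * a))) (2 ^ j) (Ft (2 ^ j))
/-- the whole transform -/
noncomputable def dftAll (K a j : ℕ) (ts : List ℕ) (x : ℕ → ℂ) : ℕ → ℂ :=
  dftT K a j (dftO K a ts (dftE K a ts x))

/-- `x` vanishes outside the valid addresses -/
def Supp (K j : ℕ) (ts : List ℕ) (x : ℕ → ℂ) : Prop := ∀ b, ¬valid K j ts b → x b = 0

def CrtMathSpec : Prop := ∀ (K a j : ℕ) (ts : List ℕ), 2 ≤ K → TsOK K ts → ts.length = 2 * a →
  (∀ k, valid K j ts (phi K j ts k)) ∧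
  (∀ b, valid K j ts b → b < 2 ^ ((K - 1) * ts.length + j) ∧
    ∃ k < 2 ^ j * ts.prod, phi K j ts k = b) ∧
  (∀ k < 2 ^ j * ts.prod, ∀ k' < 2 ^ j * ts.prod, phi K j ts k = phi K j ts k' → k = k') ∧
  (∀ x, Supp K j ts x → Supp K j ts (dftE K a ts x) ∧ Supp K j ts (dftO K a ts x) ∧
    Supp K j ts (dftT K a j x)) ∧
  ∃ ζ : ℂ, IsPrimitiveRoot ζ (2 ^ j * ts.prod) ∧ ∀ x, Supp K j ts x → ∀ k',
    dftAll K a j ts x (phi K j ts k') =
      ∑ k ∈ range (2 ^ j * ts.prod), x (phi K j ts k) * ζ ^ (k * k')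

/-- the numerical hypotheses of the whole transform -/
structure TrOK (C W K a j g h p e : ℕ) (ts : List ℕ) : Prop where
  hW : 8 ≤ W
  hK : 4 ≤ K
  ha : 1 ≤ a
  hj : K ≤ j + 1
  hts : TsOK K ts
  hlen : ts.length = 2 * a
  gap : ∀ t ∈ ts, t + 4 * 2 ^ g + 4 ≤ 2 ^ (K - 1)
  hg : 2 * a + 2 ≤ 2 ^ g
  hgW : g ≤ W
  room : C * 2 ^ ((K - 1) * (2 * a) + j + 2) < 2 ^ W
  hp : C * (j + 1) ≤ p
  lev : 2 * p + 2 * e + C * ((K - 1) * (2 * a) + j + 2) ≤ h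
  hh : 4 * h + 16 ≤ W

/-- cost per word of the whole transform -/
noncomputable def tcost (W K a j g : ℕ) : ℝ :=
  K * hcost W K a g + (j + 1) * hcost W (j + 1) 1 g + (a + 1) * ((K : ℝ) + 1) ^ tauE

def TransformSpec : Prop := ∃ (t : Tm) (C c c1 : ℕ),
  ∀ (W : ℕ) (X ts : List ℕ) (K a j g h p e : ℕ) (x : ℕ → ℂ),
  TrOK C W K a j g h p e ts → Supp K j ts x →
  App h p e (2 ^ ((K - 1) * (2 * a) + j + 2)) (fun _ => True) X x →
  Does W t [X, ts, [K], [a], [j], [g], [h], [p]]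
    (C * (2 ^ ((K - 1) * (2 * a) + j + 2) * tcost W K a j g + ((2 : ℝ) ^ (j + 1) + W + 1) ^ c1))
    fun Y => App h p (e + c * ((K - 1) * (2 * a) + j + 2)) (2 ^ ((K - 1) * (2 * a) + j + 2))
      (fun _ => True) Y (dftAll K a j ts x)

/-! ### the product -/

/-- the coefficients of the product of two polynomials -/
def convL (A B : List ℕ) : List ℕ :=
  (List.range (2 * A.length)).map fun k => ∑ i ∈ range (k + 1), A.getD i 0 * B.getD (k - i) 0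

def CoreSpec : Prop := ∃ (t : Tm) (C c0 c1 : ℕ),
  ∀ (W : ℕ) (A B ts : List ℕ) (K a j g h p b : ℕ), TrOK C W K a j g h p p ts →
  (W + 1) ^ c0 ≤ 2 ^ (K - 1) → C * (b + ((K - 1) * (2 * a) + j + 2)) ≤ p →
  A.length = B.length → 2 * A.length ≤ 2 ^ j * ts.prod → (∀ r ∈ A, r < 2 ^ b) →
  (∀ r ∈ B, r < 2 ^ b) →
  Does W t [A, B, ts, [K], [a], [j], [g], [h], [p]]
    (C * (2 ^ ((K - 1) * (2 * a) + j + 2) * tcost W K a j g + ((2 : ℝ) ^ (j + 1) + W + 1) ^ c1))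
    (· = convL A B)

/-- `d` odd and pairwise coprime numbers in `[base, base + T)` -/
def GreedySpec : Prop := ∃ (t : Tm) (C c1 : ℕ), ∀ (W base T d : ℕ), 8 ≤ W → 2 ≤ base →
  d * (W + 1) ^ 171 ≤ T → 2 * (base + T) ^ (d + 2) < 2 ^ W →
  Does W t [[base], [T], [d]] (C * ((base : ℝ) + T + d + W + 1) ^ c1) fun ts =>
    ts.length = d ∧ ts.Pairwise Nat.Coprime ∧ ∀ t ∈ ts, Nat.Coprime t 2 ∧ base ≤ t ∧ t < base + T

/-- the exponent of the product of polynomials -/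
noncomputable def tauC : ℝ := 1 - 1 / 2 ^ 110

/-- product of two polynomials with `N` coefficients of `b = 2 ^ β` bits, `b` comparable with the
logarithm of `N` -/
def ConvSpec : Prop := ∃ (t : Tm) (C cW β0 : ℕ), ∀ (A B : List ℕ) (β : ℕ), β0 ≤ β →
  A.length = B.length → 2 ^ β ≤ 4 * A.length.size → A.length.size ≤ 2 ^ β →
  (∀ r ∈ A, r < 2 ^ 2 ^ β) → (∀ r ∈ B, r < 2 ^ 2 ^ β) →
  4 ≤ cW ∧ Does (cW * 2 ^ β) t [A, B, [β]] (C * (A.length * ((2 : ℝ) ^ β) ^ tauC)) (· = convL A B)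

end Crest.Agent.R326
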