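import Crest.Agent.R326.SpecA

/-!
# The fast interchange, part A: coordinates of addresses, representation of arrays
-/

set_option autoImplicit false

namespace Crest.Agent.R326

namespace Swap

/-! ### `swapDig` -/

theorem mid_lt {G2 lo2 n h y r : ℕ} (hh : h < G2) (hy : y < n) (hr : r < lo2) :
    (h * n + y) * lo2 + r < G2 * (lo2 * n) := by
  have h1 : h * n + y + 1 ≤ G2 * n := by nlinarith
  have h2 : (h * n + y + 1) * lo2 ≤ G2 * n * lo2 := Nat.mul_le_mul_right _ h1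
  nlinarith

theorem swapDig_mk {lo1 G2 lo2 n h x y r : ℕ} (g : ℕ) (h1 : lo1 = G2 * (lo2 * n)) (hx : x < n)
    (hh : h < G2) (hy : y < n) (hr : r < lo2) :
    swapDig lo1 lo2 n ((g * n + x) * lo1 + ((h * n + y) * lo2 + r)) =
      (g * n + y) * lo1 + ((h * n + x) * lo2 + r) := by
  have e1 : ∀ x y, (g * n + x) * lo1 + ((h * n + y) * lo2 + r) =
      ((((g * n + x) * G2 + h) * n + y) * lo2 + r) := by
    intro x y; rw [h1]; ring
  have l1 : ∀ y, y < n → (h * n + y) * lo2 + r < lo1 := fun y hy => h1 ▸ mid_lt hh hy hr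
  unfold swapDig
  rw [dig_mk g hx (l1 y hy)]
  conv_lhs => rw [e1 x y]
  rw [dig_mk _ hy hr, setDig_mk _ _ hy hr, ← e1 x x, setDig_mk _ _ hx (l1 x hx)]

theorem exists_mk {lo1 G2 lo2 n : ℕ} (h1 : lo1 = G2 * (lo2 * n)) (h0 : 0 < lo1) (a : ℕ) :
    ∃ x h y r, x < n ∧ h < G2 ∧ y < n ∧ r < lo2 ∧
      a = (a / (lo1 * n) * n + x) * lo1 + ((h * n + y) * lo2 + r) := by
  have hlo2 : 0 < lo2 := Nat.pos_of_ne_zero (by rintro rfl; simp at h1; omega)
  have hn : 0 < n := Nat.pos_of_ne_zero (by rintro rfl; simp at h1; omega)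
  refine ⟨dig lo1 n a, a % lo1 / (lo2 * n), dig lo2 n (a % lo1), a % lo1 % lo2, dig_lt hn _ _, ?_,
    dig_lt hn _ _, Nat.mod_lt _ hlo2, ?_⟩
  · rw [Nat.div_lt_iff_lt_mul (by positivity), ← h1]
    exact Nat.mod_lt _ h0
  · rw [← addr_eq, ← addr_eq]

theorem swapDig_lt {lo1 lo2 n V a : ℕ} (h1 : lo2 * n ∣ lo1) (h2 : lo1 * n ∣ V) (ha : a < V) :
    swapDig lo1 lo2 n a < V := by
  have h3 : 0 < lo1 * n := Nat.pos_of_dvd_of_pos h2 (by omega)
  have hlo1 : 0 < lo1 := Nat.pos_of_mul_pos_right h3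
  have hn : 0 < n := Nat.pos_of_mul_pos_left h3
  have hlo2 : 0 < lo2 := Nat.pos_of_mul_pos_right (Nat.pos_of_dvd_of_pos h1 hlo1)
  exact setDig_lt hlo1 (dig_lt hn _ _) h2
    (setDig_lt hlo2 (dig_lt hn _ _) ((h1.mul_right _).trans h2) ha)

/-- a field is exchanged in two parts -/
theorem swapDig_split {lo1 lo2 L R : ℕ} (h1 : lo2 * (L * R) ∣ lo1) (h0 : 0 < lo1) (a : ℕ) :
    swapDig (lo1 * L) (lo2 * L) R (swapDig lo1 lo2 L a) = swapDig lo1 lo2 (L * R) a := by
  obtain ⟨G2, hG⟩ := h1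
  have hG' : lo1 = G2 * (lo2 * (L * R)) := by rw [hG]; ring
  obtain ⟨x, h, y, r, hx, hh, hy, hr, ha⟩ := exists_mk hG' h0 a
  generalize a / (lo1 * (L * R)) = g at ha
  have hLR : 0 < L * R := by omega
  have hL : 0 < L := Nat.pos_of_mul_pos_right hLR
  have hR : 0 < R := Nat.pos_of_mul_pos_left hLR
  obtain ⟨x1, x0, hx0, rfl⟩ : ∃ x1 x0, x0 < L ∧ x = x1 * L + x0 :=
    ⟨x / L, x % L, Nat.mod_lt _ hL, (Nat.div_add_mod' x L).symm⟩
  obtain ⟨y1, y0, hy0, rfl⟩ : ∃ y1 y0, y0 < L ∧ y = y1 * L + y0 :=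
    ⟨y / L, y % L, Nat.mod_lt _ hL, (Nat.div_add_mod' y L).symm⟩
  have hx1 : x1 < R := by
    by_contra hc
    have : R * L ≤ x1 * L := Nat.mul_le_mul_right _ (not_lt.1 hc)
    nlinarith
  have hy1 : y1 < R := by
    by_contra hc
    have : R * L ≤ y1 * L := Nat.mul_le_mul_right _ (not_lt.1 hc)
    nlinarith
  have e1 : swapDig lo1 lo2 L a =
      ((g * R + x1) * L + y0) * lo1 + (((h * R + y1) * L + x0) * lo2 + r) := by
    rw [← swapDig_mk (G2 := G2 * R) (g * R + x1) (by rw [hG]; ring) hx0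
      (by nlinarith : h * R + y1 < G2 * R) hy0 hr, ha]
    congr 1; ring
  have e2 := swapDig_mk (lo1 := lo1 * L) (G2 := L * G2) (lo2 := lo2 * L) (n := R)
    (h := y0 * G2 + h) (x := x1) (y := y1) (r := x0 * lo2 + r) g (by rw [hG]; ring) hx1
    (by nlinarith) hy1 (by nlinarith)
  have e3 := swapDig_mk g hG' hx hh hy hr
  rw [← ha] at e3
  rw [e1, e3]
  refine Eq.trans ?_ (e2.trans ?_)
  · congr 1; rw [hG]; ring
  · rw [hG]; ring

/-! ### coordinates -/

theorem digits_ext {M : ℕ} (m : ℕ) : ∀ x y : ℕ, x < M ^ m → y < M ^ m →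
    (∀ i < m, dig (M ^ i) M x = dig (M ^ i) M y) → x = y := by
  induction m with
  | zero => intro x y hx hy _; simp at hx hy; omega
  | succ m ih =>
    intro x y hx hy h
    have hM : 0 < M := Nat.pos_of_ne_zero (by rintro rfl; simp at hx)
    refine addr_ext (lo := M ^ m) (n := M) ?_ (h m (by omega)) ?_
    · rw [← pow_succ, Nat.div_eq_of_lt hx, Nat.div_eq_of_lt hy]
    · refine ih _ _ (Nat.mod_lt _ (by positivity)) (Nat.mod_lt _ (by positivity)) fun i hi => ?_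
      have hd : M ^ i * M ∣ M ^ m := by rw [← pow_succ]; exact pow_dvd_pow _ hi
      rw [dig_eq_mod, dig_eq_mod, Nat.mod_mod_of_dvd _ hd, Nat.mod_mod_of_dvd _ hd, ← dig_eq_mod,
        ← dig_eq_mod]
      exact h i (by omega)

/-- place value of a digit -/
def pos {m : ℕ} (lo1 lo2 M : ℕ) : Fin m ⊕ Fin m → ℕ
  | .inl i => lo1 * M ^ (i : ℕ)
  | .inr j => lo2 * M ^ (j : ℕ)

/-- abstract addresses -/
abbrev Co (m M : ℕ) : Type := (ℕ × ℕ × ℕ) × (Fin m ⊕ Fin m → ZMod M)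

/-- the coordinates of an address -/
def co (m lo1 lo2 M a : ℕ) : Co m M :=
  ((a / (lo1 * M ^ m), dig (lo2 * M ^ m) (lo1 / (lo2 * M ^ m)) a, a % lo2),
    fun i => (dig (pos lo1 lo2 M i) M a : ZMod M))

/-- the standing assumptions on the two fields -/
structure Fld (m lo1 lo2 M : ℕ) : Prop where
  pos1 : 0 < lo1
  posM : 0 < M
  dvd : lo2 * M ^ m ∣ lo1

namespace Fld

variable {m lo1 lo2 M : ℕ} (H : Fld m lo1 lo2 M)
include H

theorem pos2 : 0 < lo2 := Nat.pos_of_mul_pos_right (Nat.pos_of_dvd_of_pos H.dvd H.pos1)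

theorem pos_pos (i : Fin m ⊕ Fin m) : 0 < pos lo1 lo2 M i := by
  have := H.pos1; have := H.pos2; have := H.posM
  cases i <;> simp only [pos] <;> positivity

omit H in
theorem pow_dvd {i j : ℕ} (h : i < j) (c : ℕ) : c * M ^ i * M ∣ c * M ^ j := by
  rw [mul_assoc, ← pow_succ]; exact mul_dvd_mul_left _ (pow_dvd_pow _ h)

theorem pos_dvd {i j : Fin m ⊕ Fin m} (h : rank i < rank j) :
    pos lo1 lo2 M i * M ∣ pos lo1 lo2 M j := by
  rcases i with i | i <;> rcases j with j | j <;> simp only [rank, pos] at h ⊢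
  · exact pow_dvd (by omega) _
  · have := j.2; omega
  · exact ((pow_dvd i.2 _).trans H.dvd).mul_right _
  · exact pow_dvd h _

theorem pos_dvd_top (i : Fin m ⊕ Fin m) : pos lo1 lo2 M i * M ∣ lo1 * M ^ m := by
  rcases i with i | i <;> simp only [pos]
  · exact pow_dvd i.2 _
  · exact ((pow_dvd i.2 _).trans H.dvd).mul_right _

theorem lo2_dvd (i : Fin m ⊕ Fin m) : lo2 ∣ pos lo1 lo2 M i := by
  rcases i with i | i <;> simp only [pos]
  · exact ((Dvd.intro _ rfl).trans H.dvd).mul_right _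
  · exact Dvd.intro _ rfl

theorem mid_eq : lo2 * M ^ m * (lo1 / (lo2 * M ^ m)) = lo1 := Nat.mul_div_cancel' H.dvd

omit H in
theorem rank_inj {i j : Fin m ⊕ Fin m} (h : rank i = rank j) : i = j := by
  rcases i with i | i <;> rcases j with j | j <;> simp only [rank] at h
  · rw [Fin.ext (by omega : (i : ℕ) = j)]
  · have := j.2; omega
  · have := i.2; omega
  · rw [Fin.ext h]

theorem co_setDig (i : Fin m ⊕ Fin m) {k : ℕ} (hk : k < M) (a : ℕ) :
    co m lo1 lo2 M (setDig (pos lo1 lo2 M i) M a k) =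
      ((co m lo1 lo2 M a).1, Function.update (co m lo1 lo2 M a).2 i (k : ZMod M)) := by
  have hp := H.pos_pos i
  simp only [co]
  refine Prod.ext (Prod.ext ?_ (Prod.ext ?_ ?_)) ?_
  · exact setDig_div_of_dvd hp hk (H.pos_dvd_top i) a
  · rcases i with i | i
    · exact dig_setDig_low hp (by rw [H.mid_eq]; exact Dvd.intro _ rfl) _ _ _
    · exact dig_setDig_high hp hk (pow_dvd i.2 _) _ _
  · exact setDig_mod_of_dvd hp (H.lo2_dvd i) _ _ _
  · funext j
    by_cases hij : j = i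
    · subst hij
      simp only [Function.update_self]
      rw [dig_setDig hp hk]
    · simp only [Function.update_of_ne hij]
      rcases lt_or_gt_of_ne (fun h => hij (rank_inj h)) with h | h
      · rw [dig_setDig_low hp (H.pos_dvd h)]
      · rw [dig_setDig_high hp hk (H.pos_dvd h)]

omit H in
theorem dig_sub (lo : ℕ) (i : Fin m) (a : ℕ) :
    dig (lo * M ^ (i : ℕ)) M a = dig (M ^ (i : ℕ)) M (dig lo (M ^ m) a) := by
  rw [dig_dig (by simpa using pow_dvd i.2 1)]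

theorem co_swapDig (a : ℕ) :
    co m lo1 lo2 M (swapDig lo1 lo2 (M ^ m) a) =
      ((co m lo1 lo2 M a).1, (co m lo1 lo2 M a).2 ∘ Sum.swap) := by
  have h1 := H.pos1; have h2 := H.pos2; have hM := H.posM
  have hL : 0 < M ^ m := by positivity
  have k1 := dig_lt hL lo1 a
  have k2 := dig_lt hL lo2 a
  simp only [co, swapDig]
  refine Prod.ext (Prod.ext ?_ (Prod.ext ?_ ?_)) ?_
  · simp only []
    rw [setDig_div h1 k2, setDig_div_of_dvd h2 k1 (H.dvd.mul_right _)]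
  · simp only []
    rw [dig_setDig_low h1 (by rw [H.mid_eq]), dig_setDig_high h2 k1 dvd_rfl]
  · simp only []
    rw [setDig_mod_of_dvd h1 ((Dvd.intro _ rfl).trans H.dvd), setDig_mod h2]
  · funext j
    rcases j with j | j
    · simp only [Function.comp, Sum.swap_inl, pos]
      rw [dig_sub, dig_setDig h1 k2, ← dig_sub]
    · simp only [Function.comp, Sum.swap_inr, pos]
      rw [dig_sub, dig_setDig_low h1 H.dvd, dig_setDig h2 k1, ← dig_sub]

theorem co_inj : Function.Injective (co m lo1 lo2 M) := by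
  intro a b hab
  have hM := H.posM
  have hL : 0 < M ^ m := by positivity
  simp only [co, Prod.mk.injEq] at hab
  obtain ⟨⟨e1, e2, e3⟩, e4⟩ := hab
  have e5 : ∀ i, dig (pos lo1 lo2 M i) M a = dig (pos lo1 lo2 M i) M b := fun i => by
    have := (ZMod.natCast_eq_natCast_iff' _ _ _).1 (congrFun e4 i)
    rwa [Nat.mod_eq_of_lt (dig_lt hM _ _), Nat.mod_eq_of_lt (dig_lt hM _ _)] at this
  have e6 : dig lo1 (M ^ m) a = dig lo1 (M ^ m) b :=
    digits_ext m _ _ (dig_lt hL _ _) (dig_lt hL _ _) fun i hi => by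
      have := e5 (.inl ⟨i, hi⟩)
      simp only [pos] at this
      rwa [dig_sub lo1 ⟨i, hi⟩, dig_sub lo1 ⟨i, hi⟩] at this
  have e7 : dig lo2 (M ^ m) a = dig lo2 (M ^ m) b :=
    digits_ext m _ _ (dig_lt hL _ _) (dig_lt hL _ _) fun i hi => by
      have := e5 (.inr ⟨i, hi⟩)
      simp only [pos] at this
      rwa [dig_sub lo2 ⟨i, hi⟩, dig_sub lo2 ⟨i, hi⟩] at this
  refine addr_ext e1 e6 (addr_ext (lo := lo2) (n := M ^ m) ?_ ?_ ?_)
  · rwa [dig_eq_mod, dig_eq_mod, H.mid_eq] at e2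
  · rwa [dig_eq_mod, dig_eq_mod, Nat.mod_mod_of_dvd _ H.dvd, Nat.mod_mod_of_dvd _ H.dvd,
      ← dig_eq_mod, ← dig_eq_mod]
  · have hd : lo2 ∣ lo1 := (Dvd.intro _ rfl).trans H.dvd
    rwa [Nat.mod_mod_of_dvd _ hd, Nat.mod_mod_of_dvd _ hd]

theorem co_add {c : ℕ} (hc : lo1 * M ^ m ∣ c) (a : ℕ) :
    co m lo1 lo2 M (c + a) =
      ((c / (lo1 * M ^ m) + (co m lo1 lo2 M a).1.1, (co m lo1 lo2 M a).1.2),
        (co m lo1 lo2 M a).2) := by
  have h1 := H.pos1; have hM := H.posM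
  simp only [co]
  refine Prod.ext (Prod.ext ?_ (Prod.ext ?_ ?_)) ?_
  · exact Nat.add_div_of_dvd_right hc
  · exact dig_add_of_dvd (by rw [H.mid_eq]; exact (Dvd.intro _ rfl).trans hc) _
  · obtain ⟨d, hd⟩ : lo2 ∣ c :=
      ((Dvd.intro _ rfl).trans H.dvd).trans ((Dvd.intro _ rfl).trans hc)
    simp only []
    rw [hd, Nat.mul_add_mod]
  · funext i
    simp only []
    rw [dig_add_of_dvd ((H.pos_dvd_top i).trans hc)]

end Fld

/-! ### words as vectors over the field with two elements -/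

/-- the bits of a word -/
def bv (x : ℕ) : ℕ → ZMod 2 := fun i => if x.testBit i then 1 else 0

theorem bv_xor (x y : ℕ) : bv (x ^^^ y) = bv x + bv y := by
  funext i
  simp only [bv, Nat.testBit_xor, Pi.add_apply]
  cases x.testBit i <;> cases y.testBit i <;> decide

theorem bv_xor' (x y : ℕ) : bv (x ^^^ y) = bv x - bv y := by
  funext i
  simp only [bv, Nat.testBit_xor, Pi.sub_apply]
  cases x.testBit i <;> cases y.testBit i <;> decide

theorem bv_inj : Function.Injective bv := by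
  intro x y h
  refine Nat.eq_of_testBit_eq fun i => ?_
  have := congrFun h i
  simp only [bv] at this
  revert this
  cases x.testBit i <;> cases y.testBit i <;> decide

/-- the values of the network -/
abbrev Val (m M : ℕ) : Type := Co m M → ℕ → ZMod 2

/-- the array `x` of length `n` represents `f` -/
def Rp (m lo1 lo2 M n : ℕ) (x : List ℕ) (f : Val m M) : Prop :=
  x.length = n ∧ ∀ a < n, bv (x.getD a 0) = f (co m lo1 lo2 M a)

/-- `f` read through a map of the digits -/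
def act {m M : ℕ} (s : (Fin m ⊕ Fin m → ZMod M) → (Fin m ⊕ Fin m → ZMod M)) (f : Val m M) :
    Val m M := fun p => f (p.1, s p.2)

theorem Rp.pull {m lo1 lo2 M n : ℕ} {x z : List ℕ} {f : Val m M} {π : ℕ → ℕ}
    {s : (Fin m ⊕ Fin m → ZMod M) → (Fin m ⊕ Fin m → ZMod M)} (h : Rp m lo1 lo2 M n x f)
    (hz : Pull n π x z) (hπ : ∀ a < n, π a < n)
    (hs : ∀ a, co m lo1 lo2 M (π a) = ((co m lo1 lo2 M a).1, s (co m lo1 lo2 M a).2)) :
    Rp m lo1 lo2 M n z (act s f) :=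
  ⟨hz.1, fun a ha => by rw [hz.2 a ha, h.2 _ (hπ a ha), hs]; rfl⟩

theorem Fld.exists_rp {m lo1 lo2 M : ℕ} (H : Fld m lo1 lo2 M) (x : List ℕ) :
    ∃ f, Rp m lo1 lo2 M x.length x f :=
  ⟨fun p => bv (x.getD (Function.invFun (co m lo1 lo2 M) p) 0), rfl, fun a _ => by
    simp only [Function.leftInverse_invFun H.co_inj a]⟩

theorem Rp.swap {m lo1 lo2 M n : ℕ} (H : Fld m lo1 lo2 M) (hn : lo1 * M ^ m ∣ n) {x z : List ℕ}
    {f : Val m M} (h : Rp m lo1 lo2 M n x f)
    (hz : Rp m lo1 lo2 M n z (act (fun v => v ∘ Sum.swap) f)) :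
    Pull n (swapDig lo1 lo2 (M ^ m)) x z :=
  ⟨hz.1, fun a ha => bv_inj (by
    rw [hz.2 a ha, h.2 _ (swapDig_lt H.dvd hn ha), H.co_swapDig]; rfl)⟩

/-- the part of `f` seen from the segment that starts at group `c` -/
def shift {m M : ℕ} (c : ℕ) (f : Val m M) : Val m M := fun p => f ((c + p.1.1, p.1.2), p.2)

theorem Rp.chunk {m lo1 lo2 M n W0 : ℕ} (H : Fld m lo1 lo2 M) (hn : lo1 * M ^ m ∣ n) {x : List ℕ}
    {f : Val m M} (h : Rp m lo1 lo2 M (W0 * n) x f) {w : ℕ} (hw : w < W0) :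
    Rp m lo1 lo2 M n (chunk n x w) (shift (w * n / (lo1 * M ^ m)) f) := by
  refine ⟨chunk_length (by rw [h.1]; exact Nat.mul_le_mul_right _ hw), fun a ha => ?_⟩
  rw [chunk_getD _ _ _ ha, h.2 _ (by nlinarith), H.co_add (hn.mul_left _)]
  rfl

theorem Rp.of_chunk {m lo1 lo2 M n W0 : ℕ} (H : Fld m lo1 lo2 M) (hn : lo1 * M ^ m ∣ n)
    {x : List ℕ} {f : Val m M} (hx : x.length = W0 * n)
    (h : ∀ w < W0, Rp m lo1 lo2 M n (R326.chunk n x w) (shift (w * n / (lo1 * M ^ m)) f)) :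
    Rp m lo1 lo2 M (W0 * n) x f := by
  refine ⟨hx, fun a ha => ?_⟩
  have hn0 : 0 < n := Nat.pos_of_ne_zero (by rintro rfl; simp at ha)
  have h1 := (h (a / n) ((Nat.div_lt_iff_lt_mul hn0).2 ha)).2 (a % n) (Nat.mod_lt _ hn0)
  rw [chunk_getD _ _ _ (Nat.mod_lt _ hn0), Nat.div_add_mod'] at h1
  rw [h1]
  conv_rhs => rw [← Nat.div_add_mod' a n, H.co_add (hn.mul_left _)]
  rfl

theorem shearM_zero {m : ℕ} (M D : ℕ) (v : Fin m ⊕ Fin m → ZMod M) :
    shearM M D (0 : Matrix (Fin m) (Fin m) ℤ) v = v := by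
  funext i
  rcases i with i | i <;> simp [shearM]

theorem shearM_add {m : ℕ} (M D : ℕ) (A B : Matrix (Fin m) (Fin m) ℤ)
    (v : Fin m ⊕ Fin m → ZMod M) : shearM M D (A + B) v = shearM M D B (shearM M D A v) := by
  funext i
  rcases i with i | i
  · simp only [shearM, Sum.elim_inl, Sum.elim_inr, Matrix.add_apply, Int.cast_add, add_mul,
      Finset.sum_add_distrib]
    ring
  · simp [shearM]

/-- the operators of the shears -/
def rho (m M D : ℕ) :
    Multiplicative (Matrix (Fin m) (Fin m) ℤ) →* Module.End (ZMod 2) (Val m M) where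
  toFun B := LinearMap.funLeft (ZMod 2) (ℕ → ZMod 2)
    (fun p : Co m M => (p.1, shearM M D B.toAdd p.2))
  map_one' := by
    ext f p
    simp [shearM_zero]
  map_mul' A B := by
    ext f p
    simp [shearM_add]

theorem rho_apply (m M D : ℕ) (B : Matrix (Fin m) (Fin m) ℤ) (f : Val m M) :
    rho m M D (Multiplicative.ofAdd B) f = act (shearM M D B) f := rfl

theorem cost_const {G : Type} {W0 : ℕ} (N : NetProg G W0) (k : ℝ) :
    N.cost (fun _ => k) = k * N.cost fun _ => 1 := by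
  unfold NetProg.cost
  induction N.prog with
  | nil => simp
  | cons a l ih =>
    simp only [List.map_cons, List.sum_cons, ih]
    cases a <;> simp [Instr.cost, mul_add]

theorem lam_gap {m W0 : ℕ} (hm : 2 ≤ m) (hm' : m ≤ 2 ^ 15) (hW : 0 < W0) (hW' : W0 ≤ 2 ^ 60) :
    (W0 : ℝ) * m - 1 < W0 * (m : ℝ) ^ tauE := by
  have h1 : (0 : ℝ) < m := by positivity
  have h2 : (m : ℝ) ≤ 2 ^ 15 := by exact_mod_cast hm'
  have h3 : (W0 : ℝ) ≤ 2 ^ 60 := by exact_mod_cast hW'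
  have h3' : (0 : ℝ) < W0 := by positivity
  have h4 : Real.log m ≤ 2 ^ 15 := (Real.log_le_self h1.le).trans h2
  have h5 : 0 ≤ Real.log m := Real.log_nonneg (by exact_mod_cast (by omega : 1 ≤ m))
  have h6 : (m : ℝ) ^ tauE = m * Real.exp (-(Real.log m / 2 ^ 100)) := by
    rw [tauE, Real.rpow_def_of_pos h1, mul_sub, mul_one, sub_eq_add_neg, Real.exp_add,
      Real.exp_log h1]
    congr 2; ring
  have h7 := Real.add_one_le_exp (-(Real.log m / 2 ^ 100))
  have h8 : (W0 : ℝ) * m * Real.log m ≤ 2 ^ 60 * 2 ^ 15 * 2 ^ 15 := by gcongr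
  have h9 : (W0 : ℝ) * m * (-(Real.log m / 2 ^ 100) + 1) ≤
      W0 * m * Real.exp (-(Real.log m / 2 ^ 100)) := by gcongr
  rw [h6]
  nlinarith

end Swap

end Crest.Agent.R326
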