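import Crest.Agent.R326.SwapA

/-!
# The fast interchange, part B: programs for elementary operations and words
-/

set_option autoImplicit false

namespace Crest.Agent.R326

namespace Swap

/-- the recursive calls exchange a digit of the first field with a digit of the second field -/
def SelfHyp (W : ℕ) (body : Tm) (m lo1 lo2 M u n : ℕ) (κ : ℝ) : Prop :=
  ∀ (i j : Fin m) (x : List ℕ), x.length = n →
    ∃ z, Pull n (swapDig (lo1 * M ^ (i : ℕ)) (lo2 * M ^ (j : ℕ)) M) x z ∧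
      Ev W (some body) [[lo1 * M ^ (i : ℕ), lo2 * M ^ (j : ℕ), u] ++ x] body [x] z κ

/-- the standing assumptions on the sizes -/
structure Sz (W m lo1 lo2 M n C : ℕ) : Prop where
  hW : 8 ≤ W
  fld : Fld m lo1 lo2 M
  dvd : lo1 * M ^ m ∣ n
  pos : 0 < n
  lt : C * n < 2 ^ W
  big : (M + 1) * (W + 1) ≤ 2 * n

theorem Sz.mono {W m lo1 lo2 M n C C' : ℕ} (h : Sz W m lo1 lo2 M n C') (hC : C ≤ C') :
    Sz W m lo1 lo2 M n C :=
  ⟨h.hW, h.fld, h.dvd, h.pos, (Nat.mul_le_mul_right _ hC).trans_lt h.lt, h.big⟩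

theorem Sz.const_lt {W m lo1 lo2 M n C c : ℕ} (h : Sz W m lo1 lo2 M n C) (hc : c ≤ C) :
    c < 2 ^ W := by
  have := h.lt; have := h.pos; nlinarith

theorem Sz.mul_lt {W m lo1 lo2 M n C c : ℕ} (h : Sz W m lo1 lo2 M n C) (hc : c ≤ C) :
    c * n < 2 ^ W := (h.mono hc).lt

theorem Sz.n_lt {W m lo1 lo2 M n C : ℕ} (h : Sz W m lo1 lo2 M n C) (hc : 1 ≤ C) : n < 2 ^ W := by
  simpa using h.mul_lt hc

theorem Sz.bigR {W m lo1 lo2 M n C : ℕ} (h : Sz W m lo1 lo2 M n C) :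
    ((M : ℝ) + 1) * ((W : ℝ) + 1) ≤ 2 * n := by exact_mod_cast h.big

theorem Sz.wR {W m lo1 lo2 M n C : ℕ} (h : Sz W m lo1 lo2 M n C) : (W : ℝ) + 1 ≤ n := by
  have h1 := h.bigR
  have h2 : (1 : ℝ) ≤ M := by exact_mod_cast h.fld.posM
  have h3 : (0 : ℝ) ≤ W := by positivity
  nlinarith

theorem Sz.oneR {W m lo1 lo2 M n C : ℕ} (h : Sz W m lo1 lo2 M n C) : (1 : ℝ) ≤ n := by
  exact_mod_cast h.pos

theorem Sz.pos_dvd {W m lo1 lo2 M n C : ℕ} (h : Sz W m lo1 lo2 M n C) (i : Fin m ⊕ Fin m) :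
    Swap.pos lo1 lo2 M i * M ∣ n := (h.fld.pos_dvd_top i).trans h.dvd

/-- `t` reads arrays through the map `s` of the digits, with `k` recursive calls -/
def Trans (m : ℕ) (t : Tm) (C k : ℕ) (ok : ℕ → Prop)
    (s : ∀ M, (Fin m ⊕ Fin m → ZMod M) → (Fin m ⊕ Fin m → ZMod M)) : Prop :=
  ∀ (W : ℕ) (body : Tm) (env : Env) (x : List ℕ) (lo1 lo2 M u n : ℕ) (κ : ℝ) (f : Val m M),
    Sz W m lo1 lo2 M n C → ok M → 0 ≤ κ → (0 < k → SelfHyp W body m lo1 lo2 M u n κ) →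
    Rp m lo1 lo2 M n x f →
    ∃ z, Rp m lo1 lo2 M n z (act (s M) f) ∧
      Pv W (some body) (x :: [lo1] :: [lo2] :: [M] :: [u] :: env) t z (k * κ + C * n)

theorem Trans.mono {m t C k ok s C' k'} {ok' : ℕ → Prop}
    {s' : ∀ M, (Fin m ⊕ Fin m → ZMod M) → (Fin m ⊕ Fin m → ZMod M)} (h : Trans m t C k ok s)
    (hC : C ≤ C') (hk : k ≤ k') (hok : ∀ M, ok' M → ok M ∧ s M = s' M) :
    Trans m t C' k' ok' s' := by
  intro W body env x lo1 lo2 M u n κ f hs h1 h2 h3 h4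
  obtain ⟨z, h5, h6⟩ := h W body env x lo1 lo2 M u n κ f (hs.mono hC) (hok M h1).1 h2
    (fun hk0 => h3 (by omega)) h4
  refine ⟨z, (hok M h1).2 ▸ h5, h6.mono ?_⟩
  have a1 : (k : ℝ) ≤ k' := by exact_mod_cast hk
  have a2 : (C : ℝ) ≤ C' := by exact_mod_cast hC
  gcongr

/-- composition of two transformations of variable `0` -/
def seqT (a b : Tm) : Tm := .lett a (.skip 1 1 b)

theorem Pv.seqT {W fn e a b x y z} {c1 c2 : ℝ} (ha : Pv W fn (x :: e) a y c1)
    (hb : Pv W fn (y :: e) b z c2) :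
    Pv W fn (x :: e) (seqT a b) z (c1 + c2 + y.length + z.length + 1) :=
  Pv.lett ha (Ev.skip11 hb)

theorem Trans.seq {m a b C k ok s C' k' ok' s'} (ha : Trans m a C k ok s)
    (hb : Trans m b C' k' ok' s') :
    Trans m (seqT a b) (C + C' + 3) (k + k') (fun M => ok M ∧ ok' M) (fun M v => s M (s' M v)) := by
  intro W body env x lo1 lo2 M u n κ f hs h1 h2 h3 h4
  obtain ⟨y, h5, h6⟩ := ha W body env x lo1 lo2 M u n κ f (hs.mono (by omega)) h1.1 h2
    (fun hk0 => h3 (by omega)) h4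
  obtain ⟨z, h7, h8⟩ := hb W body env y lo1 lo2 M u n κ _ (hs.mono (by omega)) h1.2 h2
    (fun hk0 => h3 (by omega)) h5
  refine ⟨z, h7, (Pv.seqT h6 h8).mono ?_⟩
  have := hs.oneR
  rw [h5.1, h7.1]
  push_cast
  linarith

theorem Trans.id (m : ℕ) : Trans m (.var 0) 2 0 (fun _ => True) (fun _ v => v) := by
  intro W body env x lo1 lo2 M u n κ f hs _ _ _ h4
  refine ⟨x, h4, (Pv.var rfl).mono ?_⟩
  have := hs.oneR
  rw [h4.1]
  push_cast
  linarith

/-- the place value of a digit -/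
def posT {m : ℕ} : Fin m ⊕ Fin m → Tm
  | .inl i => .mul (.var 1) (.pow (.var 3) (.const i))
  | .inr j => .mul (.var 2) (.pow (.var 3) (.const j))

theorem posT_ev {W m lo1 lo2 M n C u : ℕ} {fn : Option Tm} {x : List ℕ} {env : Env}
    (hs : Sz W m lo1 lo2 M n C) (hC : m + 1 ≤ C) (i : Fin m ⊕ Fin m) :
    Pv W fn (x :: [lo1] :: [lo2] :: [M] :: [u] :: env) (posT i) [pos lo1 lo2 M i]
      (400 * (m + 1) * n) := by
  have hW := hs.hW
  have h1 : pos lo1 lo2 M i < 2 ^ W :=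
    (Nat.le_of_dvd hs.pos ((Dvd.intro _ rfl).trans (hs.pos_dvd i))).trans_lt (hs.n_lt (by omega))
  have h2 := hs.wR
  have h3 := hs.oneR
  have h4 := hs.fld.pos1
  have h5 := hs.fld.pos2
  have key : ∀ (j : Fin m) (lo v : ℕ), 0 < lo → lo * M ^ (j : ℕ) < 2 ^ W →
      (x :: [lo1] :: [lo2] :: [M] :: [u] :: env)[v]? = some [lo] →
      Pv W fn (x :: [lo1] :: [lo2] :: [M] :: [u] :: env)
        (.mul (.var v) (.pow (.var 3) (.const j))) [lo * M ^ (j : ℕ)] (400 * (m + 1) * n) := by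
    intro j lo v hlo hlt hv
    have hj : (j : ℕ) < 2 ^ W := hs.const_lt (by have := j.2; omega)
    refine (Pv.mul hW (Pv.varS hv) (Pv.pow hW (Pv.varS rfl) (Pv.const hj) hs.fld.posM
      (lt_of_le_of_lt (Nat.le_mul_of_pos_left _ hlo) hlt)) hlt).mono ?_
    have a1 : ((j : ℕ) : ℝ) ≤ m := by exact_mod_cast j.2.le
    have a2 : (0 : ℝ) ≤ m := by positivity
    have a3 : ((j : ℕ) : ℝ) * (W + 1) ≤ m * n := by gcongr
    nlinarith
  rcases i with i | i
  · exact key i lo1 1 h4 h1 rfl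
  · exact key i lo2 2 h5 h1 rfl

variable {m : ℕ}

theorem trans_add (hA : AddDigSpec) (i j : Fin m ⊕ Fin m) (c : ℕ) (hij : rank i < rank j) :
    ∃ t C, Trans m t C 0 (fun _ => True) (fun M => (EOp.add i j c).sem M) := by
  obtain ⟨t, C, h⟩ := hA
  refine ⟨.call t [.var 0, posT j, posT i, .var 3, .const c], 3 * C + 800 * (m + 1) + c + 30, ?_⟩
  intro W body env x lo1 lo2 M u n κ f hs _ _ _ h4
  obtain ⟨hx, -⟩ := id h4
  subst hx
  obtain ⟨z, h5, h6⟩ := h W x (pos lo1 lo2 M j) (pos lo1 lo2 M i) M c hs.hW (hs.fld.pos_dvd hij)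
    (hs.pos_dvd j) hs.pos (hs.mul_lt (by omega)) (some body)
    (x :: [lo1] :: [lo2] :: [M] :: [u] :: env)
  have hM := hs.fld.posM
  refine ⟨z, h4.pull h5 (fun a ha => setDig_lt (hs.fld.pos_pos i) (Nat.mod_lt _ hM)
    (hs.pos_dvd i) ha) fun a => ?_, ?_⟩
  · rw [hs.fld.co_setDig i (Nat.mod_lt _ hM)]
    simp [EOp.sem, co]
  · refine (Pv.call (Pvs.cons (Pv.var rfl) (Pvs.cons (posT_ev hs (by omega) j)
      (Pvs.cons (posT_ev hs (by omega) i) (Pvs.cons (Pv.varS rfl)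
        (Pvs.cons (Pv.const (hs.const_lt (by omega))) Pvs.nil))))) h6).mono ?_
    have a1 := hs.bigR
    have a2 := hs.oneR
    have a3 : (0 : ℝ) ≤ C := by positivity
    have a4 : (0 : ℝ) ≤ c := by positivity
    have a5 : (C : ℝ) * (x.length + (M + 1) * (W + 1)) ≤ C * (3 * x.length) := by
      gcongr; linarith
    simp only [List.length_cons, List.length_nil, h5.1]
    push_cast
    nlinarith

theorem trans_neg (hN : NegDigSpec) (i : Fin m ⊕ Fin m) :
    ∃ t C, Trans m t C 0 (fun _ => True) (fun M => (EOp.neg i).sem M) := by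
  obtain ⟨t, C, h⟩ := hN
  refine ⟨.call t [.var 0, posT i, .var 3], 3 * C + 400 * (m + 1) + 30, ?_⟩
  intro W body env x lo1 lo2 M u n κ f hs _ _ _ h4
  obtain ⟨hx, -⟩ := id h4
  subst hx
  obtain ⟨z, h5, h6⟩ := h W x (pos lo1 lo2 M i) M hs.hW
    (hs.pos_dvd i) hs.pos (hs.n_lt (by omega)) (some body)
    (x :: [lo1] :: [lo2] :: [M] :: [u] :: env)
  have hM := hs.fld.posM
  refine ⟨z, h4.pull h5 (fun a ha => setDig_lt (hs.fld.pos_pos i) (Nat.mod_lt _ hM)
    (hs.pos_dvd i) ha) fun a => ?_, ?_⟩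
  · rw [hs.fld.co_setDig i (Nat.mod_lt _ hM)]
    simp [EOp.sem, co, Nat.cast_sub (dig_lt hM _ _).le]
  · refine (Pv.call (Pvs.cons (Pv.var rfl) (Pvs.cons (posT_ev hs (by omega) i)
      (Pvs.cons (Pv.varS rfl) Pvs.nil))) h6).mono ?_
    have a1 := hs.wR
    have a2 := hs.oneR
    have a3 : (0 : ℝ) ≤ C := by positivity
    have a5 : (C : ℝ) * (x.length + W + 1) ≤ C * (3 * x.length) := by
      gcongr; linarith
    simp only [List.length_cons, List.length_nil, h5.1]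
    push_cast
    nlinarith

theorem trans_mul (hS : ScaleSpec) (i : Fin m ⊕ Fin m) (c : ℕ) (hc : 0 < c) :
    ∃ t C, Trans m t C 0 (fun M => Nat.Coprime c M) (fun M => (EOp.mul i c).sem M) := by
  obtain ⟨t, t', C, h⟩ := hS
  refine ⟨.call t [.var 0, posT i, .var 3, .const c],
    3 * (C * (c + 1)) + 400 * (m + 1) + c + 30, ?_⟩
  intro W body env x lo1 lo2 M u n κ f hs hcop _ _ h4
  obtain ⟨hx, -⟩ := id h4
  subst hx
  obtain ⟨z, h5, h6⟩ := (h W x (pos lo1 lo2 M i) M c hs.hW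
    (hs.pos_dvd i) hs.pos (hs.mul_lt (by omega)) hc hcop).1 (some body)
    (x :: [lo1] :: [lo2] :: [M] :: [u] :: env)
  have hM := hs.fld.posM
  refine ⟨z, h4.pull h5 (fun a ha => setDig_lt (hs.fld.pos_pos i) (Nat.mod_lt _ hM)
    (hs.pos_dvd i) ha) fun a => ?_, ?_⟩
  · rw [hs.fld.co_setDig i (Nat.mod_lt _ hM)]
    simp [EOp.sem, co]
  · refine (Pv.call (Pvs.cons (Pv.var rfl) (Pvs.cons (posT_ev hs (by omega) i)
      (Pvs.cons (Pv.varS rfl)
        (Pvs.cons (Pv.const (hs.const_lt (by omega))) Pvs.nil)))) h6).mono ?_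
    have a1 := hs.bigR
    have a2 := hs.oneR
    have a3 : (0 : ℝ) ≤ C := by positivity
    have a4 : (0 : ℝ) ≤ c := by positivity
    have a5 : (C : ℝ) * ((c + 1) * (x.length + (M + 1) * (W + 1))) ≤
        C * ((c + 1) * (3 * x.length)) := by
      gcongr; linarith
    simp only [List.length_cons, List.length_nil, h5.1]
    push_cast
    nlinarith

theorem trans_div (hS : ScaleSpec) (i : Fin m ⊕ Fin m) (c : ℕ) (hc : 0 < c) :
    ∃ t C, Trans m t C 0 (fun M => Nat.Coprime c M) (fun M => (EOp.div i c).sem M) := by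
  obtain ⟨t', t, C, h⟩ := hS
  refine ⟨.call t [.var 0, posT i, .var 3, .const c],
    3 * (C * (c + 1)) + 400 * (m + 1) + c + 30, ?_⟩
  intro W body env x lo1 lo2 M u n κ f hs hcop _ _ h4
  obtain ⟨hx, -⟩ := id h4
  subst hx
  obtain ⟨z, h5, h6⟩ := (h W x (pos lo1 lo2 M i) M c hs.hW
    (hs.pos_dvd i) hs.pos (hs.mul_lt (by omega)) hc hcop).2 (some body)
    (x :: [lo1] :: [lo2] :: [M] :: [u] :: env)
  have hM := hs.fld.posM
  have : NeZero M := ⟨hM.ne'⟩
  have h5' := h5 ((c : ZMod M)⁻¹).val (by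
    rw [← ZMod.natCast_eq_natCast_iff']
    simp [ZMod.coe_mul_inv_eq_one c hcop])
  refine ⟨z, h4.pull h5' (fun a ha => setDig_lt (hs.fld.pos_pos i) (Nat.mod_lt _ hM)
    (hs.pos_dvd i) ha) fun a => ?_, ?_⟩
  · rw [hs.fld.co_setDig i (Nat.mod_lt _ hM)]
    simp [EOp.sem, co]
  · refine (Pv.call (Pvs.cons (Pv.var rfl) (Pvs.cons (posT_ev hs (by omega) i)
      (Pvs.cons (Pv.varS rfl)
        (Pvs.cons (Pv.const (hs.const_lt (by omega))) Pvs.nil)))) h6).mono ?_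
    have a1 := hs.bigR
    have a2 := hs.oneR
    have a3 : (0 : ℝ) ≤ C := by positivity
    have a4 : (0 : ℝ) ≤ c := by positivity
    have a5 : (C : ℝ) * ((c + 1) * (x.length + (M + 1) * (W + 1))) ≤
        C * ((c + 1) * (3 * x.length)) := by
      gcongr; linarith
    simp only [List.length_cons, List.length_nil, h5'.1]
    push_cast
    nlinarith

theorem trans_swap (i j : Fin m) :
    ∃ t C, Trans m t C 1 (fun _ => True) (fun M => (EOp.swap i j).sem M) := by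
  refine ⟨.self (.cons (posT (.inl i)) (.cons (posT (.inr j)) (.cons (.var 4) (.var 0)))),
    800 * (m + 1) + 80, ?_⟩
  intro W body env x lo1 lo2 M u n κ f hs _ _ h3 h4
  obtain ⟨hx, -⟩ := id h4
  subst hx
  obtain ⟨z, h5, h6⟩ := h3 (by omega) i j x rfl
  have hM := hs.fld.posM
  have hd : pos lo1 lo2 M (.inr j) * M ∣ pos lo1 lo2 M (.inl i) :=
    hs.fld.pos_dvd (by have := j.2; simp only [rank]; omega)
  refine ⟨z, h4.pull h5 (fun a ha => swapDig_lt hd (hs.pos_dvd (.inl i)) ha) fun a => ?_, ?_⟩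
  · have e1 := hs.fld.co_setDig (.inl i) (dig_lt hM (lo2 * M ^ (j : ℕ)) a)
      (setDig (lo2 * M ^ (j : ℕ)) M a (dig (lo1 * M ^ (i : ℕ)) M a))
    have e2 := hs.fld.co_setDig (.inr j) (dig_lt hM (lo1 * M ^ (i : ℕ)) a) a
    simp only [pos] at e1 e2
    rw [swapDig, e1, e2]
    simp only [EOp.sem]
    rw [Function.update_comm (by simp)]
    rfl
  · refine (Pv.self (Pv.cons (posT_ev hs (by omega) (.inl i)) (Pv.cons
      (posT_ev hs (by omega) (.inr j)) (Pv.cons (Pv.varS rfl) (Pv.var rfl)))) h6).mono ?_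
    have a2 := hs.oneR
    simp only [List.length_cons, List.append_eq, List.nil_append, h5.1]
    push_cast
    nlinarith

theorem trans_op (hA : AddDigSpec) (hN : NegDigSpec) (hS : ScaleSpec) (o : EOp m) (ho : o.ok) :
    ∃ t C, Trans m t C (if o.isSwap then 1 else 0) (fun M => o.unit M) (fun M => o.sem M) := by
  cases o with
  | add i j c => exact trans_add hA i j c ho
  | neg i => exact trans_neg hN i
  | mul i c => exact trans_mul hS i c ho
  | div i c => exact trans_div hS i c ho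
  | swap i j => exact trans_swap i j

theorem trans_word (hA : AddDigSpec) (hN : NegDigSpec) (hS : ScaleSpec) (w : List (EOp m))
    (hw : ∀ o ∈ w, o.ok) :
    ∃ t C, Trans m t C (w.countP EOp.isSwap) (fun M => ∀ o ∈ w, o.unit M) (fun M => wsem M w) := by
  induction w with
  | nil => exact ⟨_, _, (Trans.id m).mono le_rfl le_rfl fun M _ => ⟨trivial, rfl⟩⟩
  | cons o w ih =>
    obtain ⟨t, C, h⟩ := trans_op hA hN hS o (hw o (by simp))
    obtain ⟨t', C', h'⟩ := ih fun o ho => hw o (by simp [ho])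
    refine ⟨_, _, (h.seq h').mono le_rfl ?_ fun M hM =>
      ⟨⟨hM o (by simp), fun o ho => hM o (by simp [ho])⟩, rfl⟩⟩
    rw [List.countP_cons]
    omega

/-- the scalar of an operation -/
def scal : EOp m → ℕ
  | .mul _ c => c
  | .div _ c => c
  | _ => 0

theorem coprime_pow {c q : ℕ} (hq : q.Prime) (h0 : 0 < c) (hc : c < q) (k : ℕ) :
    Nat.Coprime c (q ^ k) :=
  Nat.Coprime.pow_right k ((Nat.coprime_of_lt_prime h0.ne' hc hq).symm)

theorem unit_of_lt {o : EOp m} (ho : o.ok) {q : ℕ} (hq : q.Prime) (hc : scal o < q) (k : ℕ) :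
    o.unit (q ^ k) := by
  cases o with
  | mul i c => exact coprime_pow hq ho hc k
  | div i c => exact coprime_pow hq ho hc k
  | _ => trivial

theorem exists_bound {α : Type} (l : List α) (f : α → ℕ) : ∃ B, ∀ a ∈ l, f a ≤ B :=
  ⟨(l.map f).sum, fun _ ha => List.single_le_sum (fun _ _ => Nat.zero_le _) _
    (List.mem_map_of_mem ha)⟩

end Swap

end Crest.Agent.R326
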