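import Crest.Agent.R326.SwapB

/-!
# The fast interchange, part C: one step through the network; the recursion
-/

set_option autoImplicit false

namespace Crest.Agent.R326

namespace Swap

/-- word by word exclusive or -/
def xorT : Tm := .map2 (.len (.var 0)) (.var 0) (.var 1) (.xor (.var 0) (.var 1))

theorem xorT_ev {W : ℕ} {fn : Option Tm} {env : Env} {x y : List ℕ} {n : ℕ} (hW : 8 ≤ W)
    (hx : x.length = n) (hy : y.length = n) (h0 : 0 < n) (hn : n < 2 ^ W) :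
    Pv W fn (x :: y :: env) xorT ((List.range n).map fun i => x.getD i 0 ^^^ y.getD i 0)
      (300 * n) := by
  subst hx
  refine (Pv.map2 hW (Pv.len (Pv.var rfl) hn) (Pv.var rfl) (Pv.var rfl) le_rfl hy.ge
    (fun i _ => Pv.xor (Pv.varS rfl) (Pv.varS rfl))).mono ?_
  have : (1 : ℝ) ≤ x.length := by exact_mod_cast h0
  rw [hy]
  linarith

/-- one step: the interchange of two fields of size `M ^ m` by recursive calls for size `M` -/
def StepSpec : Prop := ∃ (m W0 q : ℕ) (t : Tm) (C : ℕ), 2 ≤ m ∧ m ≤ 2 ^ 15 ∧ 0 < W0 ∧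
    W0 ≤ 2 ^ 60 ∧ 2 ≤ q ∧
    ∀ (W : ℕ) (body : Tm) (env : Env) (x : List ℕ) (lo1 lo2 u n : ℕ) (κ : ℝ),
      Sz W m lo1 lo2 (q ^ u) n 1 → C * (W0 * n) < 2 ^ W → 0 ≤ κ →
      SelfHyp W body m lo1 lo2 (q ^ u) u n κ → x.length = W0 * n →
      ∃ z, Pull (W0 * n) (swapDig lo1 lo2 ((q ^ u) ^ m)) x z ∧
        Pv W (some body) (x :: [lo1] :: [lo2] :: [q ^ u] :: [u] :: env) t z
          (((W0 : ℝ) * m - 1) * κ + C * (W0 * n : ℕ))

theorem step_spec (hX : XNetSpec) (hE : ExecSpec) (hAlg : SwapAlgSpec) (hA : AddDigSpec)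
    (hN : NegDigSpec) (hS : ScaleSpec) : StepSpec := by
  obtain ⟨m, W0, D, N, hm, hm', hW0, hW0', hD, hcost, hnet⟩ := hX
  obtain ⟨hgen, w1, w2, hw, hfull⟩ := hAlg m D hD
  choose w hwok hwc hwsem using hgen
  have hT := fun g : (Fin m → ℤ) × (Fin m → ℤ) => trans_word hA hN hS (w g.1 g.2) (hwok g.1 g.2)
  choose tG CG hG using hT
  obtain ⟨B, hB⟩ := exists_bound N.prog fun ins => match ins with
    | .gen g _ => CG g
    | _ => 0
  have hB1 := fun g : (Fin m → ℤ) × (Fin m → ℤ) => exists_bound (w g.1 g.2) scal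
  choose SG hSG using hB1
  obtain ⟨B', hB'⟩ := exists_bound N.prog fun ins => match ins with
    | .gen g _ => SG g
    | _ => 0
  obtain ⟨q, hq, hqp⟩ := Nat.exists_infinite_primes (D + B' + 1)
  obtain ⟨t1, C1, h1⟩ := trans_word hA hN hS w1 fun o ho => (hw o (by simp [ho])).1
  obtain ⟨t2, C2, h2⟩ := trans_word hA hN hS w2 fun o ho => (hw o (by simp [ho])).1
  have z1 : w1.countP EOp.isSwap = 0 :=
    List.countP_eq_zero.2 fun o ho => by simp [(hw o (by simp [ho])).2.1]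
  have z2 : w2.countP EOp.isSwap = 0 :=
    List.countP_eq_zero.2 fun o ho => by simp [(hw o (by simp [ho])).2.1]
  rw [z1] at h1
  rw [z2] at h2
  obtain ⟨tE, CE, hEx⟩ := hE _ W0 N xorT xorT (.var 0) tG
  refine ⟨m, W0, q, seqT t1 (seqT (.call (.skip 2 1 tE)
    [.var 0, .div (.len (.var 0)) (.const W0)]) t2),
    C1 + C2 + B * m + B + 302 * CE + 800, hm, hm', hW0, hW0', hqp.two_le, ?_⟩
  intro W body env x lo1 lo2 u n κ hs hlt hκ hself hx
  generalize hM : q ^ u = M at *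
  have hW := hs.hW
  have hn := hs.pos
  have hle : n ≤ W0 * n := Nat.le_mul_of_pos_left _ hW0
  have hsV : Sz W m lo1 lo2 M (W0 * n) (C1 + C2 + B * m + B + 302 * CE + 800) :=
    ⟨hW, hs.fld, hs.dvd.mul_left _, by positivity, hlt, hs.big.trans (by omega)⟩
  have hsB : Sz W m lo1 lo2 M n B :=
    ⟨hW, hs.fld, hs.dvd, hn, lt_of_le_of_lt (Nat.mul_le_mul (by omega) hle) hlt, hs.big⟩
  have hDM : Nat.Coprime D M := hM ▸ coprime_pow hqp hD (by omega) u
  obtain ⟨f, hf⟩ := hs.fld.exists_rp x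
  rw [hx] at hf
  obtain ⟨x1, r1, e1⟩ := h1 W body env x lo1 lo2 M u _ 0 f (hsV.mono (by omega))
    (fun o ho => (hw o (by simp [ho])).2.2 M) le_rfl (fun h => absurd h (lt_irrefl 0)) hf
  have hnlt : n < 2 ^ W := hs.n_lt le_rfl
  have hnR := hs.oneR
  have hget : ∀ (F : ℕ → Val m M) (w : ℕ), w < W0 → ((List.range W0).map F).getD w 0 = F w :=
    fun F w hw => by simp [List.getD_eq_getElem?_getD, hw]
  obtain ⟨x2, l2, r2, e2⟩ := hEx W (some body) ([lo1] :: [lo2] :: [M] :: [u] :: env) x1 n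
    (Val m M) id
    (fun g x => rho m M D (Multiplicative.ofAdd (Matrix.vecMulVec g.1 g.2)) x)
    (Rp m lo1 lo2 M n) (fun _ => κ + B * n) (300 * n)
    ((List.range W0).map fun w => shift (w * n / (lo1 * M ^ m)) (act (wsem M w1) f))
    hW (by positivity) r1.1 (by simp) (fun _ _ h => h.1)
    (fun w hw => by rw [hget _ w hw]; exact r1.chunk hs.fld hs.dvd hw)
    (fun x y f g hf hg => ⟨_, ⟨by simp, fun a ha => by
      rw [getD_map_range _ ha, bv_xor, hf.2 a ha, hg.2 a ha]; rfl⟩,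
      xorT_ev hW hf.1 hg.1 hn hnlt⟩)
    (fun x y f g hf hg => ⟨_, ⟨by simp, fun a ha => by
      rw [getD_map_range _ ha, bv_xor', hf.2 a ha, hg.2 a ha]; rfl⟩,
      xorT_ev hW hf.1 hg.1 hn hnlt⟩)
    (fun x f hf => ⟨x, hf, (Pv.var rfl).mono (by rw [hf.1]; linarith)⟩)
    (fun g i hg x f hf => by
      have hu : ∀ o ∈ w g.1 g.2, o.unit M := fun o ho =>
        hM ▸ unit_of_lt (hwok _ _ o ho) hqp
          (by have := hSG g o ho; have := hB' _ hg; simp only at this; omega) u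
      have hb : CG g ≤ B := hB _ hg
      obtain ⟨z, h5, h6⟩ := ((hG g).mono hb (hwc g.1 g.2) fun M h => ⟨h, rfl⟩) W body env x lo1
        lo2 M u n κ f hsB hu hκ (fun _ => hself) hf
      refine ⟨z, ?_, h6.mono (by simp)⟩
      rw [rho_apply, ← hwsem g.1 g.2 M hu hDM]
      exact h5)
  rw [hnet _ _ _ (by simp), List.map_map] at r2
  have r2' : Rp m lo1 lo2 M (W0 * n) x2
      (act (shearM M D (D • (1 : Matrix (Fin m) (Fin m) ℤ))) (act (wsem M w1) f)) :=
    Rp.of_chunk hs.fld hs.dvd l2 fun w hw => by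
      have := r2 w hw
      rw [hget _ w hw] at this
      exact this
  obtain ⟨x3, r3, e3⟩ := h2 W body env x2 lo1 lo2 M u _ 0 _ (hsV.mono (by omega))
    (fun o ho => (hw o (by simp [ho])).2.2 M) le_rfl (fun h => absurd h (lt_irrefl 0)) r2'
  refine ⟨x3, Rp.swap hs.fld hsV.dvd hf ?_, ?_⟩
  · have : act (fun v => v ∘ Sum.swap) f = act (wsem M w2)
        (act (shearM M D (D • (1 : Matrix (Fin m) (Fin m) ℤ))) (act (wsem M w1) f)) := by
      funext p
      simp only [act]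
      rw [hfull M hDM]
    rw [this]
    exact r3
  · have hV : x1.length < 2 ^ W := by rw [r1.1]; exact hsV.n_lt (by omega)
    have hdiv : x1.length / W0 = n := by rw [r1.1, Nat.mul_div_cancel_left _ hW0]
    have hW0lt : W0 < 2 ^ W := by
      rw [r1.1] at hV
      exact lt_of_le_of_lt (Nat.le_mul_of_pos_right _ hn) hV
    have e2' : Pv W (some body)
        ([x1, [x1.length / W0]] ++ x1 :: [lo1] :: [lo2] :: [M] :: [u] :: env) (.skip 2 1 tE) x2 _ :=
      Ev.skip (A := [x1, [x1.length / W0]]) (B := [x1]) (A' := [x1, [x1.length / W0]]) rfl rfl rfl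
        (by rw [hdiv]; exact e2)
    refine (Pv.seqT e1 (Pv.seqT (Pv.call (Pvs.cons (Pv.var rfl) (Pvs.cons
      (Pv.div hW (Pv.len (Pv.var rfl) hV) (Pv.const hW0lt) hW0) Pvs.nil)) e2') e3)).mono ?_
    rw [cost_const]
    have a1 := hs.wR
    have a2 : (n : ℝ) ≤ (W0 * n : ℕ) := by exact_mod_cast hle
    have a3 : (κ + B * n) * N.cost (fun _ => 1) ≤ (κ + B * n) * (W0 * m - 1) :=
      mul_le_mul_of_nonneg_left (by linarith) (by positivity)
    have a4 : (CE : ℝ) * (300 * n + n + 1) ≤ CE * (302 * (W0 * n : ℕ)) := by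
      gcongr; linarith
    have a5 : (0 : ℝ) ≤ (B : ℝ) * n := by positivity
    have a6 : (0 : ℝ) ≤ (B : ℝ) * (W0 * n : ℕ) := by positivity
    simp only [List.length_cons, List.length_nil, r1.1, l2, r3.1]
    push_cast at a2 a4 a6 ⊢
    linarith

/-- the body of the recursion; the argument is `[lo1, lo2, u] ++ x` -/
def bodyT (m q : ℕ) (tS tN : Tm) : Tm := .unp 3 (.ifLt (.var 2) (.const m)
  (.call tS [.var 3, .var 0, .var 1, .pow (.const q) (.var 2)])
  (.lett (.div (.var 2) (.const m)) (.lett (.pow (.const q) (.var 0))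
    (.lett (.pow (.var 0) (.const m))
      (.call tN [.call tS [.var 6, .mul (.var 3) (.var 0), .mul (.var 4) (.var 0),
        .pow (.const q) (.mod (.var 5) (.const m))], .var 3, .var 4, .var 1, .var 2])))))

/-- the interchange of two fields of size `q ^ u` -/
def CoreSpec : Prop := ∃ (m W0 q : ℕ) (body : Tm) (C K : ℕ), 2 ≤ m ∧ 0 < W0 ∧ W0 ≤ 2 ^ 60 ∧
    2 ≤ q ∧ ∀ (W d u lo1 lo2 : ℕ) (x : List ℕ), 8 ≤ W → u < m ^ (d + 1) → lo2 * q ^ u ∣ lo1 →
      lo1 * q ^ u * W0 ^ d ∣ x.length → 0 < x.length → K * x.length < 2 ^ W →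
      W0 ^ d * (W + 1) ^ 2 ≤ x.length →
      ∃ z, Pull x.length (swapDig lo1 lo2 (q ^ u)) x z ∧
        Ev W (some body) [[lo1, lo2, u] ++ x] body [x] z (C * x.length * ((m : ℝ) ^ tauE) ^ d)

theorem exp_le {q u W : ℕ} (hq : 2 ≤ q) (h : q ^ u < 2 ^ W) : u ≤ W :=
  ((Nat.pow_lt_pow_iff_right (by norm_num : 1 < 2)).1
    ((Nat.pow_le_pow_left hq u).trans_lt h)).le

theorem big_aux {M W n : ℕ} (h1 : M ^ 2 ≤ n) (h2 : (W + 1) ^ 2 ≤ n) :
    (M + 1) * (W + 1) ≤ 2 * n := by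
  have h3 : M * (W + 1) ≤ n := by
    zify at *
    nlinarith [sq_nonneg ((M : ℤ) - (W + 1))]
  nlinarith

theorem core_spec (hSt : StepSpec) (hSN : SwapNaiveSpec) : CoreSpec := by
  obtain ⟨m, W0, q, tN, CN, hm, hm', hW0, hW0', hq, hN⟩ := hSt
  obtain ⟨tS, CS, hS⟩ := hSN
  have hgap := lam_gap hm hm' hW0 hW0'
  set lam : ℝ := (m : ℝ) ^ tauE with hlam
  have hlam1 : 1 ≤ lam := Real.one_le_rpow (by exact_mod_cast (by omega : 1 ≤ m))
    (by rw [tauE]; norm_num)
  obtain ⟨C1, hC1⟩ : ∃ C1 : ℕ, C1 = 2 * (CS * (q ^ m + 1)) + CN + 720 * m + 4000 := ⟨_, rfl⟩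
  obtain ⟨C, hC⟩ := exists_nat_ge (max (C1 : ℝ) (C1 * W0 / (W0 * lam - (W0 * m - 1))))
  have hC' : (C1 : ℝ) ≤ C := (le_max_left _ _).trans hC
  have hC'' : (C1 : ℝ) * W0 ≤ C * (W0 * lam - (W0 * m - 1)) := by
    rw [← div_le_iff₀ (by linarith)]
    exact (le_max_right _ _).trans hC
  refine ⟨m, W0, q, bodyT m q tS tN, C, CN + m + q, hm, hW0, hW0', hq, fun W d => ?_⟩
  have hq0 : 0 < q := by omega
  have hqm : ∀ r, r ≤ m → ((q ^ r : ℕ) : ℝ) ≤ (q ^ m : ℕ) := fun r hr => by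
    exact_mod_cast Nat.pow_le_pow_right hq0 hr
  have base : ∀ (d u lo1 lo2 : ℕ) (x : List ℕ), 8 ≤ W → u < m → lo2 * q ^ u ∣ lo1 →
      lo1 * q ^ u * W0 ^ d ∣ x.length → 0 < x.length → (CN + m + q) * x.length < 2 ^ W →
      W0 ^ d * (W + 1) ^ 2 ≤ x.length →
      ∃ z, Pull x.length (swapDig lo1 lo2 (q ^ u)) x z ∧
        Ev W (some (bodyT m q tS tN)) [[lo1, lo2, u] ++ x] (bodyT m q tS tN) [x] z
          (C * x.length * lam ^ d) := by
    intro d u lo1 lo2 x hW hu h1 h2 h0 hlt hbig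
    have h2' : lo1 * q ^ u ∣ x.length := (Dvd.intro _ rfl).trans h2
    have hV : x.length < 2 ^ W := (Nat.le_mul_of_pos_left _ (by omega)).trans_lt hlt
    have hmlt : m < 2 ^ W :=
      lt_of_le_of_lt (le_trans (by omega) (Nat.le_mul_of_pos_right _ h0)) hlt
    have hqlt : q < 2 ^ W :=
      lt_of_le_of_lt (le_trans (by omega) (Nat.le_mul_of_pos_right _ h0)) hlt
    have hQ : q ^ u < 2 ^ W := (Nat.le_of_dvd h0 ((Dvd.intro_left _ rfl).trans h2')).trans_lt hV
    obtain ⟨z, p1, e1⟩ := hS W x lo1 lo2 (q ^ u) hW h1 h2' h0 hV (some (bodyT m q tS tN))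
      [[lo1], [lo2], [u], x]
    refine ⟨z, p1, (Ev.unp [lo1, lo2, u] hW rfl (by norm_num)
      (Ev.ifLtT hW (Pv.varS rfl) (Pv.const hmlt) hu
        (Pv.call (Pvs.cons (Pv.var rfl) (Pvs.cons (Pv.varS rfl) (Pvs.cons (Pv.varS rfl)
          (Pvs.cons (Pv.pow hW (Pv.const hqlt) (Pv.varS rfl) hq0 hQ) Pvs.nil)))) e1))).mono ?_⟩
    have a0 : (W + 1) ^ 2 ≤ x.length :=
      le_trans (Nat.le_mul_of_pos_left _ (by positivity)) hbig
    have a1 : (W : ℝ) + 1 ≤ x.length := by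
      exact_mod_cast (Nat.le_self_pow two_ne_zero _).trans a0
    have a2 : (1 : ℝ) ≤ x.length := by exact_mod_cast h0
    have a3 : (u : ℝ) * (W + 1) ≤ m * x.length := by gcongr
    have a4 := hqm u hu.le
    have a5 : (CS : ℝ) * (((q ^ u : ℕ) + 1) * (x.length + W + 1)) ≤
        CS * (((q ^ m : ℕ) + 1) * (2 * x.length)) := by gcongr; linarith
    have a6 : (C1 : ℝ) * x.length ≤ C * x.length * lam ^ d := by
      have : 1 ≤ lam ^ d := one_le_pow₀ hlam1
      calc (C1 : ℝ) * x.length ≤ C * x.length * 1 := by rw [mul_one]; gcongr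
        _ ≤ _ := by gcongr
    refine le_trans ?_ a6
    have a7 : (0 : ℝ) ≤ (CN : ℝ) * x.length := by positivity
    have a8 : (0 : ℝ) ≤ (m : ℝ) * x.length := by positivity
    simp only [List.length_cons, List.length_nil, p1.1, hC1]
    push_cast at a5 ⊢
    linarith
  induction d with
  | zero => intro u lo1 lo2 x hW hu; exact base 0 u lo1 lo2 x hW (by simpa using hu)
  | succ d ih =>
    intro u lo1 lo2 x hW hu h1 h2 h0 hlt hbig
    by_cases hum : u < m
    · exact base _ u lo1 lo2 x hW hum h1 h2 h0 hlt hbig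
    have hm0 : 0 < m := by omega
    have h2' : lo1 * q ^ u ∣ x.length := (Dvd.intro _ rfl).trans h2
    have hV : x.length < 2 ^ W := (Nat.le_mul_of_pos_left _ (by omega)).trans_lt hlt
    have hmlt : m < 2 ^ W :=
      lt_of_le_of_lt (le_trans (by omega) (Nat.le_mul_of_pos_right _ h0)) hlt
    have hqlt : q < 2 ^ W :=
      lt_of_le_of_lt (le_trans (by omega) (Nat.le_mul_of_pos_right _ h0)) hlt
    have hlo1 : 0 < lo1 := Nat.pos_of_mul_pos_right (Nat.pos_of_dvd_of_pos h2' h0)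
    have hsplit : q ^ u = (q ^ (u / m)) ^ m * q ^ (u % m) := by
      rw [← pow_mul, ← pow_add, Nat.div_add_mod']
    have hu' : u / m < m ^ (d + 1) := by
      rw [Nat.div_lt_iff_lt_mul hm0, ← pow_succ]; exact hu
    obtain ⟨n, hn⟩ : W0 ∣ x.length :=
      ((dvd_pow_self W0 (by omega)).mul_left _).trans h2
    have hn0 : 0 < n := by rw [hn] at h0; exact Nat.pos_of_mul_pos_left h0
    have hnle : n ≤ x.length := by rw [hn]; exact Nat.le_mul_of_pos_left _ hW0
    have h3 : lo1 * q ^ u * W0 ^ d ∣ n := by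
      rw [hn, pow_succ, ← mul_assoc, mul_comm W0] at h2
      exact (Nat.mul_dvd_mul_iff_right hW0).1 h2
    have hbig' : W0 ^ d * (W + 1) ^ 2 ≤ n := by
      rw [hn, pow_succ, mul_comm _ W0, mul_assoc] at hbig
      exact Nat.le_of_mul_le_mul_left hbig hW0
    have a0 : (W + 1) ^ 2 ≤ n := le_trans (Nat.le_mul_of_pos_left _ (by positivity)) hbig'
    have hUle : u / m ≤ W := (Nat.div_le_self _ _).trans (exp_le hq
      ((Nat.le_of_dvd h0 ((Dvd.intro_left _ rfl).trans h2')).trans_lt hV))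
    have hRm := hqm (u % m) (Nat.mod_lt _ hm0).le
    have hrm : ((u % m : ℕ) : ℝ) ≤ m := by exact_mod_cast (Nat.mod_lt _ hm0).le
    have hMpos : 0 < q ^ (u / m) := by positivity
    have hR : q ^ (u % m) < 2 ^ W := by
      refine (Nat.le_of_dvd h0 (Dvd.dvd.trans ?_ h2')).trans_lt hV
      rw [hsplit, ← mul_assoc]; exact Dvd.intro_left _ rfl
    have hih := fun lo1 lo2 x => ih (u / m) lo1 lo2 x hW hu'
    have hNN := fun env x => hN W (bodyT m q tS tN) env x lo1 lo2 (u / m) n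
    generalize hM : q ^ (u / m) = M at *
    rw [hsplit] at h1 h2' h3
    have hfld : Fld m lo1 lo2 M := ⟨hlo1, hMpos, (mul_dvd_mul_left _ (Dvd.intro _ rfl)).trans h1⟩
    have hdn : lo1 * M ^ m * W0 ^ d ∣ n :=
      (mul_dvd_mul_right (mul_dvd_mul_left _ (Dvd.intro _ rfl)) _).trans h3
    have hdn' : lo1 * M ^ m ∣ n := (Dvd.intro _ rfl).trans hdn
    have hM2 : M ^ 2 ≤ n :=
      Nat.le_of_dvd hn0 ((pow_dvd_pow M hm).trans ((Dvd.intro_left _ rfl).trans hdn'))
    have hs : Sz W m lo1 lo2 M n 1 := ⟨hW, hfld, hdn', hn0, by omega, big_aux hM2 a0⟩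
    have hL1 : lo1 * M ^ m < 2 ^ W := (Nat.le_of_dvd hn0 hdn').trans_lt (by omega)
    have hL2 : lo2 * M ^ m < 2 ^ W :=
      ((Nat.le_of_dvd hlo1 hfld.dvd).trans (Nat.le_mul_of_pos_right _ (by positivity))).trans_lt hL1
    have hL : M ^ m < 2 ^ W := (Nat.le_mul_of_pos_left _ hlo1).trans_lt hL1
    have hMlt : M < 2 ^ W := (Nat.le_self_pow hm0.ne' M).trans_lt hL
    obtain ⟨x1, p1, e1⟩ := hS W x (lo1 * M ^ m) (lo2 * M ^ m) (q ^ (u % m)) hW
      (by rw [mul_assoc]; exact h1.mul_right _) (by rw [mul_assoc]; exact h2') h0 hV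
      (some (bodyT m q tS tN)) [[M ^ m], [M], [u / m], [lo1], [lo2], [u], x]
    obtain ⟨z, p2, e2⟩ := hNN [[M ^ m], [M], [u / m], [lo1], [lo2], [u], x] x1
      (C * n * lam ^ d) hs (lt_of_le_of_lt (Nat.mul_le_mul_right _ (by omega)) (hn ▸ hlt)) (by positivity)
      (fun i j y hy => by
        subst hy
        refine hih _ _ y (((Fld.pow_dvd j.2 _).trans hfld.dvd).mul_right _)
          ((mul_dvd_mul_right (Fld.pow_dvd i.2 _) _).trans hdn) hn0
          (lt_of_le_of_lt (Nat.mul_le_mul_left _ hnle) hlt) hbig') (by rw [p1.1, hn])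
    rw [← hn] at p2 e2
    refine ⟨z, ?_, ?_⟩
    · rw [hsplit]
      exact (p1.trans p2 fun a ha => swapDig_lt hfld.dvd (hdn'.trans (hn ▸ Dvd.intro_left _ rfl))
        ha).congr fun a _ => swapDig_split h1 hlo1 a
    · refine (Ev.unp [lo1, lo2, u] hW rfl (by norm_num)
        (Ev.ifLtF hW (Pv.varS rfl) (Pv.const hmlt) hum
          (Pv.lett (Pv.div hW (Pv.varS rfl) (Pv.const hmlt) hm0)
            (Pv.lett (v := [M]) ((Pv.pow hW (Pv.const hqlt) (Pv.varS rfl) hq0 (hM ▸ hMlt)).cast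
              (by rw [hM]) le_rfl)
              (Pv.lett (Pv.pow hW (Pv.varS rfl) (Pv.const hmlt) hMpos hL)
                (Pv.call (Pvs.cons
                  (Pv.call (Pvs.cons (Pv.var rfl)
                    (Pvs.cons (Pv.mul hW (Pv.varS rfl) (Pv.varS rfl) hL1)
                    (Pvs.cons (Pv.mul hW (Pv.varS rfl) (Pv.varS rfl) hL2)
                    (Pvs.cons (Pv.pow hW (Pv.const hqlt)
                      (Pv.mod hW (Pv.varS rfl) (Pv.const hmlt) hm0) hq0 hR) Pvs.nil)))) e1)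
                  (Pvs.cons (Pv.varS rfl) (Pvs.cons (Pv.varS rfl) (Pvs.cons (Pv.varS rfl)
                    (Pvs.cons (Pv.varS rfl) Pvs.nil))))) e2)))))).mono ?_
      have a1 : (W : ℝ) + 1 ≤ x.length := by
        exact_mod_cast ((Nat.le_self_pow two_ne_zero _).trans a0).trans hnle
      have a2 : (1 : ℝ) ≤ x.length := by exact_mod_cast h0
      have a3 : ((u % m : ℕ) : ℝ) * (W + 1) ≤ m * x.length := by gcongr
      have a3' : (m : ℝ) * (W + 1) ≤ m * x.length := by gcongr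
      have a4 : ((u / m : ℕ) : ℝ) * (W + 1) ≤ x.length := by
        have : u / m * (W + 1) ≤ x.length :=
          calc u / m * (W + 1) ≤ (W + 1) * (W + 1) := Nat.mul_le_mul_right _ (by omega)
            _ = (W + 1) ^ 2 := (sq _).symm
            _ ≤ _ := a0.trans hnle
        exact_mod_cast this
      have a5 : (CS : ℝ) * (((q ^ (u % m) : ℕ) + 1) * (x.length + W + 1)) ≤
          CS * (((q ^ m : ℕ) + 1) * (2 * x.length)) := by gcongr; linarith
      have a6 : ((W0 : ℝ) * m - 1) * (C * n * lam ^ d) + (C1 : ℝ) * x.length ≤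
          C * x.length * lam ^ (d + 1) := by
        have b1 : 1 ≤ lam ^ d := one_le_pow₀ hlam1
        have b2 : (0 : ℝ) ≤ n := by positivity
        have b3 : (C1 : ℝ) * W0 * n * 1 ≤ C * (W0 * lam - (W0 * m - 1)) * n * lam ^ d := by
          gcongr
        rw [hn, pow_succ]
        push_cast
        linarith
      refine le_trans ?_ a6
      simp only [List.length_cons, List.length_nil, p1.1, p2.1, hC1]
      generalize ((W0 : ℝ) * m - 1) * (C * n * lam ^ d) = κ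
      generalize u / m = u' at *
      generalize u % m = r at *
      have a8 : (0 : ℝ) ≤ (m : ℝ) * x.length := by positivity
      push_cast at a3 a3' a4 a5 ⊢
      linarith

end Swap

end Crest.Agent.R326
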