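import Crest.Agent.R326.SpecB
import Crest.Agent.R326.Base

/-!
# Top level, part A: lists of limbs
-/

set_option autoImplicit false

namespace Crest.Agent.R326

open Crest.LogicCS.IntMul

/-- the `m` lowest limbs of `b` bits of `P` -/
def digs (b : ℕ) : ℕ → ℕ → List ℕ
  | _, 0 => []
  | P, m + 1 => P % 2 ^ b :: digs b (P / 2 ^ b) m

@[simp] theorem digs_zero (b P : ℕ) : digs b P 0 = [] := rfl

theorem digs_succ (b P m : ℕ) : digs b P (m + 1) = P % 2 ^ b :: digs b (P / 2 ^ b) m := rfl

@[simp] theorem length_digs (b P m : ℕ) : (digs b P m).length = m := by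
  induction m generalizing P with
  | zero => rfl
  | succ m ih => simp [digs_succ, ih]

theorem bd_digs (b P m : ℕ) : Bd b (digs b P m) := by
  induction m generalizing P with
  | zero => simp
  | succ m ih => simp [digs_succ, ih, Nat.mod_lt]

theorem ofDigits_digs (b P m : ℕ) (h : P < 2 ^ (b * m)) :
    Nat.ofDigits (2 ^ b) (digs b P m) = P := by
  induction m generalizing P with
  | zero => simp at h; simp [h]
  | succ m ih =>
    rw [digs_succ, Nat.ofDigits_cons, ih]
    · exact Nat.mod_add_div _ _
    · rw [Nat.div_lt_iff_lt_mul (by positivity), ← pow_add]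
      rwa [Nat.mul_succ] at h

theorem take_digs (b P : ℕ) {k m : ℕ} (h : k ≤ m) : (digs b P m).take k = digs b P k := by
  induction k generalizing P m with
  | zero => simp
  | succ k ih =>
    obtain ⟨m, rfl⟩ : ∃ m', m = m' + 1 := ⟨m - 1, by omega⟩
    simp [digs_succ, ih _ (Nat.le_of_succ_le_succ h)]

theorem digs_one (P m : ℕ) :
    digs 1 P m = (List.range m).map fun i => (P.testBit i).toNat := by
  induction m generalizing P with
  | zero => rfl
  | succ m ih =>
    rw [digs_succ, ih, List.range_succ_eq_map, List.map_cons, List.map_map]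
    congr 1
    · rcases Nat.mod_two_eq_zero_or_one P with h | h <;> simp [Nat.testBit_zero, h]
    · refine List.map_congr_left fun i _ => ?_
      simp [Nat.testBit_succ]

theorem bitsW_toBits (k P : ℕ) : bitsW (toBits k P) = (digs 1 P k).reverse := by
  simp [bitsW, toBits, digs_one, List.map_reverse, Function.comp_def]

theorem bitsVal_concat (u : List Bool) (b : Bool) :
    bitsVal (u ++ [b]) = 2 * bitsVal u + b.toNat := by
  cases b <;> simp [bitsVal, List.foldl_append]

theorem bitsVal_lt (u : List Bool) : bitsVal u < 2 ^ u.length := by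
  induction u using List.reverseRecOn with
  | nil => simp [bitsVal]
  | append_singleton u b ih =>
    rw [bitsVal_concat, List.length_append, List.length_singleton, pow_succ]
    have := Bool.toNat_le b
    omega

theorem bitsW_reverse (u : List Bool) : bitsW u.reverse = digs 1 (bitsVal u) u.length := by
  induction u using List.reverseRecOn with
  | nil => rfl
  | append_singleton u b ih =>
    rw [bitsVal_concat, List.length_append, List.length_singleton, digs_succ, List.reverse_append]
    have := Bool.toNat_le b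
    have h1 : (2 * bitsVal u + b.toNat) % 2 ^ 1 = b.toNat := by omega
    have h2 : (2 * bitsVal u + b.toNat) / 2 ^ 1 = bitsVal u := by omega
    rw [h1, h2, ← ih]
    simp [bitsW]

/-- merging of neighbours -/
def packL (c : ℕ) : List ℕ → List ℕ
  | [] => []
  | [x] => [x + 0 * 2 ^ c]
  | x :: y :: r => (x + y * 2 ^ c) :: packL c r

theorem mod_two_mul (c P : ℕ) : P % 2 ^ c + P / 2 ^ c % 2 ^ c * 2 ^ c = P % 2 ^ (c + c) := by
  rw [pow_add, Nat.mod_mul]; ring

theorem packL_digs (c : ℕ) : ∀ (m P : ℕ), P < 2 ^ (c * m) →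
    packL c (digs c P m) = digs (c + c) P ((m + 1) / 2)
  | 0, _, _ => rfl
  | 1, P, h => by
    have h1 : P < 2 ^ c := by simpa using h
    have h2 : P < 2 ^ (c + c) := h1.trans_le (Nat.pow_le_pow_right (by norm_num) (by omega))
    simp [digs_succ, packL, Nat.mod_eq_of_lt h1, Nat.mod_eq_of_lt h2]
  | m + 2, P, h => by
    rw [show (m + 2 + 1) / 2 = (m + 1) / 2 + 1 by omega, digs_succ, digs_succ, digs_succ, packL,
      mod_two_mul, Nat.div_div_eq_div_mul, ← pow_add, packL_digs c m]
    rw [Nat.div_lt_iff_lt_mul (by positivity), ← pow_add]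
    rwa [show c * (m + 2) = c * m + (c + c) by ring] at h

/-- splitting of every word into two halves -/
def unpL (c : ℕ) : List ℕ → List ℕ
  | [] => []
  | z :: r => z % 2 ^ c :: z / 2 ^ c :: unpL c r

theorem unpL_digs (c m P : ℕ) : unpL c (digs (c + c) P m) = digs c P (2 * m) := by
  induction m generalizing P with
  | zero => rfl
  | succ m ih =>
    rw [show 2 * (m + 1) = 2 * m + 1 + 1 by ring, digs_succ, digs_succ, digs_succ, unpL, ih,
      Nat.div_div_eq_div_mul, ← pow_add, pow_add 2 c c, Nat.mod_mul_right_mod,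
      Nat.mod_mul_right_div_self]

/-- propagation of the carries -/
def carryL (b : ℕ) : ℕ → List ℕ → List ℕ
  | _, [] => []
  | s, z :: r => (z + s) % 2 ^ b :: carryL b ((z + s) / 2 ^ b) r

theorem carryL_eq (b s : ℕ) (Z : List ℕ) :
    carryL b s Z = digs b (s + Nat.ofDigits (2 ^ b) Z) Z.length := by
  induction Z generalizing s with
  | nil => rfl
  | cons z r ih =>
    rw [carryL, List.length_cons, digs_succ, ih, Nat.ofDigits_cons, ← add_assoc, add_comm s z,
      Nat.add_mul_mod_self_left, Nat.add_mul_div_left _ _ (by positivity)]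

theorem ofDigits_eq_sum (x : ℕ) (A : List ℕ) {m : ℕ} (h : A.length ≤ m) :
    Nat.ofDigits x A = ∑ i ∈ Finset.range m, A.getD i 0 * x ^ i := by
  induction A generalizing m with
  | nil => simp
  | cons a A ih =>
    obtain ⟨m, rfl⟩ : ∃ m', m = m' + 1 := ⟨m - 1, by simp at h; omega⟩
    rw [Finset.sum_range_succ', Nat.ofDigits_cons, ih (m := m) (by simpa using h), Finset.mul_sum]
    simp only [List.getD_cons_succ, List.getD_cons_zero, pow_zero, mul_one, pow_succ]
    rw [add_comm]
    congr 1
    exact Finset.sum_congr rfl fun i _ => by ring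

theorem length_convL (A B : List ℕ) : (convL A B).length = 2 * A.length := by simp [convL]

theorem ofDigits_convL (x : ℕ) (A B : List ℕ) (h : A.length = B.length) :
    Nat.ofDigits x (convL A B) = Nat.ofDigits x A * Nat.ofDigits x B := by
  rw [ofDigits_eq_sum x (convL A B) (length_convL A B).le,
    ofDigits_eq_sum x A (m := 2 * A.length) (by omega), Finset.sum_mul]
  have h1 : ∀ k ∈ Finset.range (2 * A.length), (convL A B).getD k 0 * x ^ k =
      ∑ i ∈ Finset.range (k + 1), A.getD i 0 * x ^ i * (B.getD (k - i) 0 * x ^ (k - i)) := by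
    intro k hk
    rw [convL, getD_map_range _ (Finset.mem_range.1 hk), Finset.sum_mul]
    refine Finset.sum_congr rfl fun i hi => ?_
    have : x ^ k = x ^ i * x ^ (k - i) := by
      rw [← pow_add]; congr 1; have := Finset.mem_range.1 hi; omega
    rw [this]; ring
  rw [Finset.sum_congr rfl h1,
    Finset.sum_range_diag_flip _ fun i j => A.getD i 0 * x ^ i * (B.getD j 0 * x ^ j)]
  refine Finset.sum_congr rfl fun i _ => ?_
  rw [← Finset.mul_sum]
  by_cases hi : i < A.length
  · rw [← ofDigits_eq_sum x B (by omega)]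
  · rw [List.getD_eq_default _ _ (by omega)]
    simp

theorem size_sq_le (n : ℕ) : n.size ^ 2 ≤ 4 * n := by
  have key : ∀ L : ℕ, (L + 1) ^ 2 ≤ 4 * 2 ^ L := by
    intro L
    induction L with
    | zero => norm_num
    | succ L ih =>
      have : L < 2 ^ L := Nat.lt_two_pow_self
      rw [pow_succ 2 L]
      nlinarith
  rcases Nat.eq_zero_or_pos n with rfl | hn
  · simp
  · have h1 : 0 < n.size := Nat.size_pos.2 hn
    have h2 : 2 ^ (n.size - 1) ≤ n := Nat.lt_size.1 (by omega)
    have h3 := key (n.size - 1)
    rw [show n.size - 1 + 1 = n.size by omega] at h3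
    omega

theorem two_pow_size_le (n : ℕ) : 2 ^ n.size ≤ 2 * n + 1 := by
  rcases Nat.eq_zero_or_pos n with rfl | hn
  · simp
  · have h1 : 0 < n.size := Nat.size_pos.2 hn
    have h2 : 2 ^ (n.size - 1) ≤ n := Nat.lt_size.1 (by omega)
    have : 2 ^ n.size = 2 * 2 ^ (n.size - 1) := by rw [← pow_succ']; congr 1; omega
    omega

theorem size_le_self (n : ℕ) : n.size ≤ n := Nat.size_le.2 Nat.lt_two_pow_self

end Crest.Agent.R326
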