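import Crest.Agent.R326.TopA

/-!
# Top level, part B: the size-sensitive rules with real costs, and the single passes
-/

set_option autoImplicit false

namespace Crest.Agent.R326

variable {W : ℕ} {fn : Option Tm}

/-- the size-sensitive semantics with a real bound on the cost -/
def EvR (fn : Option Tm) (e : Env) (t : Tm) (e' : Env) (v : List ℕ) (c : ℝ) : Prop :=
  ∃ n : ℕ, (n : ℝ) ≤ c ∧ EvB fn e t e' v n

theorem EvR.mono {e t e' v} {c c' : ℝ} (h : EvR fn e t e' v c) (hc : c ≤ c') :
    EvR fn e t e' v c' := by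
  obtain ⟨n, hn, h⟩ := h
  exact ⟨n, hn.trans hc, h⟩

theorem EvR.cast {e t e' e'' v v'} {c c' : ℝ} (h : EvR fn e t e' v c) (he : e' = e'')
    (hv : v = v') (hc : c ≤ c') : EvR fn e t e'' v' c' := by
  subst he hv; exact h.mono hc

theorem Ev.toR {e t e' v} {c : ℝ} (h : Ev W fn e t e' v c) (hb : BdE W e) :
    EvR fn e t e' v (c * ((W : ℝ) + 1)) := (h hb).2.2

theorem EvR.var {e : Env} {i x} (h : e[i]? = some x) : EvR fn e (.var i) e x ((sz x : ℝ) + 1) :=
  ⟨_, by push_cast; exact le_rfl, EvB.var h⟩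

theorem EvR.lett {e a b e1 v v' e2 r} {c1 c2 : ℝ} (ha : EvR fn e a e1 v c1)
    (hb : EvR fn (v :: e1) b (v' :: e2) r c2) :
    EvR fn e (.lett a b) e2 r (c1 + c2 + sz v' + sz r + 1) := by
  obtain ⟨n, hn, h1⟩ := ha
  obtain ⟨m, hm, h2⟩ := hb
  exact ⟨_, by push_cast; linarith, EvB.lett h1 h2⟩

theorem EvR.skip {j k a} {A B C A' C' : Env} {v} {c : ℝ} (h1 : A.length = j) (h2 : B.length = k)
    (h3 : A'.length = j) (h : EvR fn (A ++ C) a (A' ++ C') v c) :
    EvR fn (A ++ (B ++ C)) (.skip j k a) (A' ++ (B ++ C')) v c := by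
  obtain ⟨n, hn, h⟩ := h
  exact ⟨n, hn, EvB.skip h1 h2 h3 h⟩

theorem EvR.seq {e a b e1 e2 v r} {c1 c2 : ℝ} (ha : EvR fn e a e1 v c1)
    (hb : EvR fn e1 b e2 r c2) : EvR fn e (.seq a b) e2 r (c1 + c2 + sz v + sz r + 1) :=
  EvR.lett ha (EvR.skip (A := []) (B := [v]) (A' := []) rfl rfl rfl hb)

theorem EvR.iteT {e t a b e1 e2 vc v} {c1 c2 : ℝ} (ht : EvR fn e t e1 vc c1)
    (hc : vc.headD 0 ≠ 0) (ha : EvR fn e1 a e2 v c2) :
    EvR fn e (.ite t a b) e2 v (c1 + c2 + sz vc + 1) := by
  obtain ⟨n, hn, h1⟩ := ht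
  obtain ⟨m, hm, h2⟩ := ha
  exact ⟨_, by push_cast; linarith, EvB.iteT h1 hc h2⟩

theorem EvR.iteF {e t a b e1 e2 vc v} {c1 c2 : ℝ} (ht : EvR fn e t e1 vc c1)
    (hc : vc.headD 0 = 0) (ha : EvR fn e1 b e2 v c2) :
    EvR fn e (.ite t a b) e2 v (c1 + c2 + sz vc + 1) := by
  obtain ⟨n, hn, h1⟩ := ht
  obtain ⟨m, hm, h2⟩ := ha
  exact ⟨_, by push_cast; linarith, EvB.iteF h1 hc h2⟩

theorem EvR.whN {e : Env} {i a} (h : e[i]? = some []) : EvR fn e (.wh i a) e [] 1 :=
  ⟨_, by simp, EvB.whN h⟩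

theorem EvR.whC {e : Env} {i a y x e1 e2} {c1 c2 : ℝ} (h : e[i]? = some (y :: x))
    (ha : EvR fn e a e1 [] c1) (hw : EvR fn e1 (.wh i a) e2 [] c2) :
    EvR fn e (.wh i a) e2 [] (c1 + c2 + 1) := by
  obtain ⟨n, hn, h1⟩ := ha
  obtain ⟨m, hm, h2⟩ := hw
  exact ⟨_, by push_cast; simp; linarith, EvB.whC h h1 h2⟩

/-! ### the binary length of the length of a list, in unary -/

/-- every second word is moved from variable `1` to variable `0` -/
def halfW : Tm := .wh 1 (.seq (.pop 1) (.push 0 (.pop 1)))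

theorem halfW_ev {e : Env} : ∀ (x acc : List ℕ), ∃ acc' : List ℕ,
    acc'.length = acc.length + x.length / 2 ∧
      Ev W fn (acc :: x :: e) halfW (acc' :: [] :: e) [] (10 * x.length + 1)
  | [], acc => ⟨acc, by simp, (Ev.whN rfl).mono (by simp)⟩
  | [a], acc => ⟨acc, by simp, by
      refine (Ev.whC (y := a) (x := []) rfl (Ev.seq (Ev.pop (x := [a]) rfl)
        (Ev.push (Ev.pop (x := []) rfl) rfl)) (Ev.whN rfl)).cast rfl rfl |>.mono ?_
      norm_num⟩
  | a :: b :: x, acc => by
    obtain ⟨acc', h1, h2⟩ := halfW_ev x (b :: acc)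
    refine ⟨acc', by simp only [List.length_cons] at h1 ⊢; omega, ?_⟩
    refine (Ev.whC (y := a) (x := b :: x) rfl (Ev.seq (Ev.pop (x := a :: b :: x) rfl)
      (Ev.push (Ev.pop (x := b :: x) rfl) rfl)) h2).mono ?_
    simp; linarith

/-- loop of `sizeU` -/
def sizeW : Tm :=
  .wh 1 (.seq (.set 1 (.lett .nil (.skip 1 1 (.seq halfW (.var 0))))) (.push 0 (.const 0)))

theorem sizeW_ev {e : Env} (m : ℕ) : ∀ (x : List ℕ) (k : ℕ), x.length ≤ m →
    Ev W fn (List.replicate k 0 :: x :: e) sizeW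
      (List.replicate (k + x.length.size) 0 :: [] :: e) [] (60 * x.length + 1) := by
  induction m with
  | zero =>
    intro x k h
    obtain rfl : x = [] := List.length_eq_zero_iff.1 (by omega)
    exact (Ev.whN rfl).mono (by simp)
  | succ m ih =>
    intro x k h
    rcases x with _ | ⟨a, x⟩
    · exact (Ev.whN rfl).mono (by simp)
    obtain ⟨y, h1, h2⟩ := halfW_ev (W := W) (fn := fn) (e := e) (a :: x) []
    simp only [List.length_nil, zero_add] at h1
    have h3 := ih y (k + 1) (by rw [h1]; omega)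
    have h4 := size_half (x := (a :: x).length) (by simp)
    have hb : Ev W fn (List.replicate k 0 :: (a :: x) :: e)
        (.seq (.set 1 (.lett .nil (.skip 1 1 (.seq halfW (.var 0))))) (.push 0 (.const 0)))
        (List.replicate (k + 1) 0 :: y :: e) [] _ :=
      Ev.seq (Ev.set (Ev.lett Ev.nil (Ev.skip11 (Ev.seq h2 (Ev.var rfl)))) rfl)
        (Ev.push (Ev.const (by positivity)) rfl)
    refine (Ev.whC (y := a) (x := x) rfl hb h3).cast
      (by rw [h1, ← h4, add_assoc, add_comm 1]) rfl |>.mono ?_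
    have h5 : (2 * y.length : ℝ) ≤ x.length + 1 := by
      have : 2 * y.length ≤ x.length + 1 := by rw [h1, List.length_cons]; omega
      exact_mod_cast this
    have h6 : (0 : ℝ) ≤ x.length := by positivity
    simp; linarith

/-- the binary length of the length of `a`, in unary -/
def Tm.sizeU (a : Tm) : Tm := .lett a (.lett .nil (.seq sizeW (.var 0)))

theorem Pv.sizeU {e a x} {c : ℝ} (ha : Pv W fn e a x c) :
    Pv W fn e (.sizeU a) (List.replicate x.length.size 0) (c + 65 * x.length + 6) := by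
  have h1 := sizeW_ev (W := W) (fn := fn) (e := e) _ x 0 le_rfl
  rw [zero_add] at h1
  refine (Ev.lett ha (Ev.lett Ev.nil (Ev.seq h1 (Ev.var rfl)))).mono ?_
  have : (x.length.size : ℝ) ≤ x.length := by exact_mod_cast size_le_self _
  simp; linarith

/-! ### packing -/

/-- one pass of merging; environment `acc :: cnt :: [c] :: X` -/
def packW : Tm := .wh 3 (.push 0 (.bin .add (.pop 3) (.bin .shl (.pop 3) (.var 2))))

theorem packW_ev {e : Env} {cnt : List ℕ} {c : ℕ} (hW : c + c ≤ W) :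
    ∀ (X acc : List ℕ), Bd c X →
      Ev W fn (acc :: cnt :: [c] :: X :: e) packW
        (((packL c X).reverse ++ acc) :: cnt :: [c] :: [] :: e) [] (20 * X.length + 1)
  | [], acc, _ => (Ev.whN rfl).mono (by simp)
  | [a], acc, h => by
    have ha : a < 2 ^ W :=
      (h a (by simp)).trans_le (Nat.pow_le_pow_right (by norm_num) (by omega))
    refine (Ev.whC (y := a) (x := []) rfl (Ev.push (Ev.bin (op := .add) (Ev.pop (x := [a]) rfl)
      (Ev.bin (op := .shl) (Ev.pop (x := []) rfl) (Ev.var (x := [c]) rfl)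
        (fun _ _ => by simp [Op.ev]) (by simp [Op.extra]; omega))
      (fun _ _ => by simpa [Op.ev] using ha) (Nat.zero_le _)) rfl) (Ev.whN rfl)).cast rfl rfl
      |>.mono ?_
    norm_num
  | a :: b :: X, acc, h => by
    simp only [bd_cons] at h
    have h1 : a + b * 2 ^ c < 2 ^ W := by
      refine lt_of_lt_of_le ?_ (Nat.pow_le_pow_right (by norm_num) hW)
      rw [pow_add]
      nlinarith [h.1, h.2.1]
    have h2 := packW_ev (e := e) (cnt := cnt) hW X ((a + b * 2 ^ c) :: acc) h.2.2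
    refine (Ev.whC (y := a) (x := b :: X) rfl (Ev.push (Ev.bin (op := .add)
      (Ev.pop (x := a :: b :: X) rfl)
      (Ev.bin (op := .shl) (Ev.pop (x := b :: X) rfl) (Ev.var (x := [c]) rfl)
        (fun _ _ => by simp only [Op.ev]; simp; omega) (by simp [Op.extra]; omega))
      (fun _ _ => by simpa [Op.ev] using h1) (Nat.zero_le _)) rfl) h2).cast
        (by simp [packL]) rfl |>.mono ?_
    simp; linarith

/-- body of the loop over the passes; environment `cnt :: [c] :: X` -/
def packB : Tm := .seq (.pop 0) (.seq (.set 2 (.lett .nil (.seq packW (.rev (.var 0)))))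
  (.set 1 (.add (.var 1) (.var 1))))

theorem length_packL_le (c : ℕ) : ∀ X : List ℕ, (packL c X).length ≤ X.length
  | [] => le_rfl
  | [_] => le_rfl
  | _ :: _ :: X => by have := length_packL_le c X; simp [packL]; omega

theorem packB_ev {cnt X : List ℕ} {z c : ℕ} (hW : c + c ≤ W) (hX : Bd c X) :
    Ev W fn [z :: cnt, [c], X] packB [cnt, [c + c], packL c X] [] (40 * X.length + 30) := by
  have h1 := packW_ev (W := W) (fn := fn) (e := []) (cnt := cnt) hW X [] hX
  rw [List.append_nil] at h1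
  have h2 : c + c < 2 ^ W := Nat.lt_two_pow_self.trans_le (Nat.pow_le_pow_right (by norm_num) hW)
  refine (Ev.seq (Ev.pop (x := z :: cnt) rfl) (Ev.seq (Ev.set (Ev.lett Ev.nil
    (Ev.seq h1 (Ev.rev (Ev.var rfl)))) rfl)
    (Ev.set (Ev.add (Pv.varS rfl) (Pv.varS rfl) h2) rfl))).cast (by simp) rfl |>.mono ?_
  have : ((packL c X).length : ℝ) ≤ X.length := by exact_mod_cast length_packL_le c X
  have h6 : (0 : ℝ) ≤ X.length := by positivity
  simp; linarith

/-- the length after `r` passes -/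
def cl : ℕ → ℕ → ℕ
  | 0, m => m
  | r + 1, m => cl r ((m + 1) / 2)

theorem le_cl (r m : ℕ) : m ≤ 2 ^ r * cl r m := by
  induction r generalizing m with
  | zero => simp [cl]
  | succ r ih =>
    have := ih ((m + 1) / 2)
    rw [cl, pow_succ, mul_right_comm]
    omega

theorem cl_lt (r m : ℕ) : 2 ^ r * cl r m < m + 2 ^ r := by
  induction r generalizing m with
  | zero => simp [cl]
  | succ r ih =>
    have := ih ((m + 1) / 2)
    rw [cl, pow_succ, mul_right_comm]
    omega

theorem bd_replicate (W k : ℕ) : Bd W (List.replicate k 0) := fun a ha => by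
  rw [List.eq_of_mem_replicate ha]; positivity

theorem packAll_ev (n b P : ℕ) (r : ℕ) : ∀ c m : ℕ, 1 ≤ c → c * m ≤ n + c → c * 2 ^ r ≤ b →
    P < 2 ^ (c * m) →
    EvR fn [List.replicate r 0, [c], digs c P m] (.wh 0 packB)
      [[], [c * 2 ^ r], digs (c * 2 ^ r) P (cl r m)] [] (r * (130 * (n + b)) + 1) := by
  induction r with
  | zero => intro c m _ _ _ _; exact (EvR.whN rfl).cast (by simp [cl]) rfl (by simp)
  | succ r ih =>
    intro c m h1 h2 h3 h4
    have h5 : (c + c) * ((m + 1) / 2) ≤ c * m + c := by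
      have : 2 * ((m + 1) / 2) ≤ m + 1 := by omega
      nlinarith
    have h6 : c * m ≤ (c + c) * ((m + 1) / 2) := by
      have : m ≤ 2 * ((m + 1) / 2) := by omega
      nlinarith
    have h7 : (c + c) * 2 ^ r = c * 2 ^ (r + 1) := by ring
    have h8 := ih (c + c) ((m + 1) / 2) (by omega) (by omega) (by omega)
      (h4.trans_le (Nat.pow_le_pow_right (by norm_num) h6))
    have h9 := (packB_ev (W := c + c) (fn := fn) (cnt := List.replicate r 0) (z := 0) le_rfl
      (bd_digs c P m)).toR (by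
        have : c < 2 ^ (c + c) :=
          Nat.lt_two_pow_self.trans_le (Nat.pow_le_pow_right (by norm_num) (by omega))
        simp [bd_replicate, this, (bd_digs c P m).mono (Nat.le_add_right c c)])
    rw [packL_digs c m P h4] at h9
    refine (EvR.whC (y := 0) (x := List.replicate r 0) rfl h9 h8).cast (by rw [h7]; rfl) rfl ?_
    have h10 : c + c ≤ b := by
      have : 1 ≤ 2 ^ r := Nat.one_le_two_pow
      nlinarith
    have h11 : (40 * m + 30) * (c + c + 1) + 1 ≤ 130 * (n + b) := by nlinarith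
    have h12 : ((40 * m + 30) * (c + c + 1) + 1 : ℝ) ≤ 130 * (n + b) := by exact_mod_cast h11
    simp only [length_digs]
    push_cast
    linarith

/-! ### unpacking -/

/-- one pass of splitting; environment `acc :: cnt :: [c] :: X` -/
def unpW : Tm := .wh 3 (.lett (.pop 3)
  (.seq (.push 1 (.low (.var 0) (.var 3))) (.push 1 (.shr (.var 0) (.var 3)))))

theorem unpW_ev {e : Env} {cnt : List ℕ} {c : ℕ} (hW : c ≤ W) (X : List ℕ) :
    ∀ acc : List ℕ, Ev W fn (acc :: cnt :: [c] :: X :: e) unpW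
      (((unpL c X).reverse ++ acc) :: cnt :: [c] :: [] :: e) [] (60 * X.length + 1) := by
  induction X with
  | nil => exact fun acc => (Ev.whN rfl).mono (by simp)
  | cons z X ih =>
    intro acc
    refine (Ev.whC (y := z) (x := X) rfl (Ev.lett (Ev.pop (x := z :: X) rfl)
      (Ev.seq (Ev.push (Pv.low (Pv.varS rfl) (Pv.varS rfl) hW) rfl)
        (Ev.push (Pv.shr (Pv.varS rfl) (Pv.varS rfl) hW) rfl)))
      (ih (z / 2 ^ c :: z % 2 ^ c :: acc))).cast (by simp [unpL]) rfl |>.mono ?_
    simp; linarith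

/-- body of the loop over the passes; environment `cnt :: [c] :: X` -/
def unpB : Tm := .seq (.pop 0) (.seq (.set 1 (.shr (.var 1) (.const 1)))
  (.set 2 (.lett .nil (.seq unpW (.rev (.var 0))))))

theorem length_unpL (c : ℕ) (X : List ℕ) : (unpL c X).length = 2 * X.length := by
  induction X with
  | nil => rfl
  | cons z X ih => simp [unpL, ih]; ring

theorem unpB_ev {cnt X : List ℕ} {z c : ℕ} (hW : c ≤ W) (hW1 : 1 ≤ W) :
    Ev W fn [z :: cnt, [c + c], X] unpB [cnt, [c], unpL c X] [] (90 * X.length + 30) := by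
  have h1 := unpW_ev (W := W) (fn := fn) (e := []) (cnt := cnt) hW X []
  rw [List.append_nil] at h1
  have h2 : (c + c) / 2 ^ 1 = c := by omega
  have h3 : Ev W fn [cnt, [c + c], X] (.set 1 (.shr (.var 1) (.const 1))) [cnt, [c], X] [] 12 :=
    (Ev.set (Pv.shr (Pv.varS rfl) (Pv.const (Nat.one_lt_two_pow (by omega))) hW1) rfl).cast
      (by rw [h2]; rfl) rfl |>.mono (by norm_num)
  refine (Ev.seq (Ev.pop (x := z :: cnt) rfl) (Ev.seq h3 (Ev.set (Ev.lett Ev.nil
    (Ev.seq h1 (Ev.rev (Ev.var rfl)))) rfl))).cast (by simp) rfl |>.mono ?_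
  have h6 : (0 : ℝ) ≤ X.length := by positivity
  simp [length_unpL]; linarith

theorem unpAll_ev (S P : ℕ) (r : ℕ) : ∀ m : ℕ, 2 ^ r * (m + 1) ≤ S →
    EvR fn [List.replicate r 0, [2 ^ r], digs (2 ^ r) P m] (.wh 0 unpB)
      [[], [1], digs 1 P (2 ^ r * m)] [] (r * (190 * S) + 1) := by
  induction r with
  | zero => intro m _; exact (EvR.whN rfl).cast (by simp) rfl (by simp)
  | succ r ih =>
    intro m h1
    have h0 : 1 ≤ 2 ^ r := Nat.one_le_two_pow
    have h2 : 2 ^ (r + 1) = 2 ^ r + 2 ^ r := by ring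
    rw [h2] at h1 ⊢
    generalize hc : 2 ^ r = c at *
    have h8 := ih (2 * m) (by nlinarith)
    have h9 := (unpB_ev (W := c + c) (fn := fn) (cnt := List.replicate r 0) (z := 0)
      (X := digs (c + c) P m) (Nat.le_add_right c c) (by omega)).toR (by
        simp [bd_replicate, bd_digs, Nat.lt_two_pow_self])
    rw [unpL_digs] at h9
    refine (EvR.whC (y := 0) (x := List.replicate r 0) rfl h9 h8).cast
      (by rw [show c * (2 * m) = (c + c) * m by ring]) rfl ?_
    have h11 : (90 * m + 30) * (c + c + 1) + 1 ≤ 190 * S := by nlinarith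
    have h12 : ((90 * m + 30) * (c + c + 1) + 1 : ℝ) ≤ 190 * S := by exact_mod_cast h11
    simp only [length_digs]
    push_cast
    linarith

/-- a loop on a counter, a parameter and a list; the `k` variables of the environment are hidden -/
def Tm.loop3 (cnt c x : Tm) (k : ℕ) (body : Tm) : Tm :=
  .lett x (.lett (.skip 0 1 c) (.lett (.skip 0 2 cnt) (.skip 3 k (.seq (.wh 0 body) (.var 2)))))

theorem EvR.loop3 {e : Env} {cnt c x body k U V X V' X'} {c1 c2 c3 c4 : ℝ} (hk : e.length = k)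
    (h1 : EvR fn e cnt e U c1) (h2 : EvR fn e c e V c2) (h3 : EvR fn e x e X c3)
    (h4 : EvR fn [U, V, X] (.wh 0 body) [[], V', X'] [] c4) :
    EvR fn e (.loop3 cnt c x k body) e X' (c1 + c2 + c3 + c4 + sz V' + 6 * sz X' + 5) := by
  have h5 := EvR.skip (fn := fn) (A := [U, V, X]) (B := e) (C := []) (A' := [[], V', X'])
    (C' := []) rfl hk rfl (EvR.seq h4 (EvR.var (i := 2) (x := X') rfl))
  rw [List.append_nil] at h5
  refine (EvR.lett h3 (EvR.lett (EvR.skip (A := []) (B := [X]) (A' := []) rfl rfl rfl h2)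
    (EvR.lett (EvR.skip (A := []) (B := [V, X]) (A' := []) rfl rfl rfl h1) h5))).mono ?_
  simp; linarith

/-! ### carries -/

/-- environment `[carry] :: acc :: Z :: [b]` -/
def carryW : Tm := .wh 2 (.lett (.add (.pop 2) (.var 0))
  (.seq (.push 2 (.low (.var 0) (.var 4))) (.set 1 (.shr (.var 0) (.var 4)))))

theorem carryW_ev {e : Env} {b V : ℕ} (hb : 1 ≤ b) (hbW : b ≤ W) (hV : V + 1 ≤ W) (Z : List ℕ) :
    ∀ (s : ℕ) (acc : List ℕ), Bd V Z → s < 2 ^ V → ∃ s',
      Ev W fn ([s] :: acc :: Z :: [b] :: e) carryW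
        ([s'] :: ((carryL b s Z).reverse ++ acc) :: [] :: [b] :: e) [] (70 * Z.length + 1) := by
  induction Z with
  | nil => exact fun s acc _ _ => ⟨s, (Ev.whN rfl).mono (by simp)⟩
  | cons z Z ih =>
    intro s acc hZ hs
    simp only [bd_cons] at hZ
    have h1 : z + s < 2 ^ (V + 1) := by rw [pow_succ]; omega
    have h2 : (z + s) / 2 ^ b < 2 ^ V := by
      rw [Nat.div_lt_iff_lt_mul (by positivity), ← pow_add]
      exact h1.trans_le (Nat.pow_le_pow_right (by norm_num) (by omega))
    obtain ⟨s', h3⟩ := ih _ ((z + s) % 2 ^ b :: acc) hZ.2 h2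
    refine ⟨s', (Ev.whC (y := z) (x := Z) rfl (Ev.lett (Ev.add (Ev.pop (x := z :: Z) rfl)
      (Pv.varS rfl) (h1.trans_le (Nat.pow_le_pow_right (by norm_num) hV)))
      (Ev.seq (Ev.push (Pv.low (Pv.varS rfl) (Pv.varS rfl) hbW) rfl)
        (Ev.set (Pv.shr (Pv.varS rfl) (Pv.varS rfl) hbW) rfl))) h3).cast
        (by simp [carryL]) rfl |>.mono ?_⟩
    simp; linarith

/-- the carry pass; environment `Z :: [b]` -/
def carryT : Tm := .lett .nil (.lett (.const 0) (.seq carryW (.rev (.var 1))))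

theorem carryT_ev {e : Env} {b V : ℕ} (hb : 1 ≤ b) (hbW : b ≤ W) (hV : V + 1 ≤ W) {Z : List ℕ}
    (hZ : Bd V Z) : Ev W fn (Z :: [b] :: e) carryT ([] :: [b] :: e)
      (digs b (Nat.ofDigits (2 ^ b) Z) Z.length) (90 * Z.length + 20) := by
  obtain ⟨s', h⟩ := carryW_ev (W := W) (fn := fn) (e := e) hb hbW hV Z 0 [] hZ (by positivity)
  rw [List.append_nil, carryL_eq, zero_add] at h
  refine (Ev.lett Ev.nil (Ev.lett (Ev.const (by positivity))
    (Ev.seq h (Ev.rev (Ev.var rfl))))).cast rfl (by simp) |>.mono ?_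
  have h6 : (0 : ℝ) ≤ Z.length := by positivity
  simp; linarith

/-! ### the output -/

theorem mv2_ev {v : List ℕ} (u : List ℕ) : ∀ acc R : List ℕ,
    Ev W fn [acc, R, u, v] (.wh 2 (.seq (.pop 2) (.push 0 (.pop 1))))
      [(R.take u.length).reverse ++ acc, R.drop u.length, [], v] [] (10 * u.length + 1) := by
  induction u with
  | nil => exact fun acc R => (Ev.whN rfl).mono (by simp)
  | cons a u ih =>
    intro acc R
    refine (Ev.whC (y := a) (x := u) rfl (Ev.seq (Ev.pop (x := a :: u) rfl)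
      (Ev.push (Ev.pop (x := R) rfl) rfl)) (ih ((R.take 1).reverse ++ acc) R.tail)).cast
      ?_ rfl |>.mono ?_
    · cases R <;> simp
    · have : ((R.take 1).length : ℝ) ≤ 1 := by exact_mod_cast List.length_take_le 1 R
      simp only [List.length_cons, List.length_nil, List.take_succ_cons, List.take_zero]
      push_cast
      linarith

theorem mv3_ev {u : List ℕ} (v : List ℕ) : ∀ acc R : List ℕ,
    Ev W fn [acc, R, u, v] (.wh 3 (.seq (.pop 3) (.push 0 (.pop 1))))
      [(R.take v.length).reverse ++ acc, R.drop v.length, u, []] [] (10 * v.length + 1) := by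
  induction v with
  | nil => exact fun acc R => (Ev.whN rfl).mono (by simp)
  | cons a v ih =>
    intro acc R
    refine (Ev.whC (y := a) (x := v) rfl (Ev.seq (Ev.pop (x := a :: v) rfl)
      (Ev.push (Ev.pop (x := R) rfl) rfl)) (ih ((R.take 1).reverse ++ acc) R.tail)).cast
      ?_ rfl |>.mono ?_
    · cases R <;> simp
    · have : ((R.take 1).length : ℝ) ≤ 1 := by exact_mod_cast List.length_take_le 1 R
      simp only [List.length_cons, List.length_nil, List.take_succ_cons, List.take_zero]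
      push_cast
      linarith

/-- environment `[R, u, v]`: as many words of `R` as `u` and `v` have together, reversed -/
def outT : Tm := .lett .nil (.seq (.wh 2 (.seq (.pop 2) (.push 0 (.pop 1))))
  (.seq (.wh 3 (.seq (.pop 3) (.push 0 (.pop 1)))) (.var 0)))

theorem outT_ev (R u v : List ℕ) : Ev W fn [R, u, v] outT
    [R.drop (u.length + v.length), [], []] (R.take (u.length + v.length)).reverse
    (20 * (u.length + v.length) + 10) := by
  refine (Ev.lett Ev.nil (Ev.seq (mv2_ev u [] R) (Ev.seq (mv3_ev v _ _) (Ev.var rfl)))).cast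
    (by simp) (by simp [List.take_add]) |>.mono ?_
  have h1 : ((R.take u.length).length : ℝ) ≤ u.length := by
    exact_mod_cast List.length_take_le _ R
  have h2 : (((R.drop u.length).take v.length).length : ℝ) ≤ v.length := by
    exact_mod_cast List.length_take_le _ _
  have h3 : (0 : ℝ) ≤ u.length := by positivity
  have h4 : (0 : ℝ) ≤ v.length := by positivity
  simp only [List.length_append, List.length_reverse, List.length_nil]
  push_cast
  linarith

end Crest.Agent.R326
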