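import Crest.Agent.R326.SpecB

/-!
# The word for the transform of order `s`, part A: vectors, characters, the operators `F`, `B`
-/

set_option autoImplicit false

namespace Crest.Agent.R326
namespace Word

open Finset

/-- matrix times vector -/
noncomputable def mv (n : ℕ) (M : ℕ → ℕ → ℂ) (v : ℕ → ℂ) : ℕ → ℂ :=
  fun j => ∑ k ∈ range n, M j k * v k

/-- equality of the first `n` entries -/
def EqN (n : ℕ) (u v : ℕ → ℂ) : Prop := ∀ j < n, u j = v j

theorem EqN.refl (n : ℕ) (u : ℕ → ℂ) : EqN n u u := fun _ _ => rfl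

theorem EqN.symm {n : ℕ} {u v : ℕ → ℂ} (h : EqN n u v) : EqN n v u :=
  fun j hj => (h j hj).symm

theorem EqN.trans {n : ℕ} {u v w : ℕ → ℂ} (h : EqN n u v) (h' : EqN n v w) : EqN n u w :=
  fun j hj => (h j hj).trans (h' j hj)

theorem mv_congr {n : ℕ} (M : ℕ → ℕ → ℂ) {u v : ℕ → ℂ} (h : EqN n u v) : mv n M u = mv n M v := by
  funext j
  exact sum_congr rfl fun k hk => by rw [h k (mem_range.1 hk)]

theorem mv_mmul (n : ℕ) (M N : ℕ → ℕ → ℂ) (v : ℕ → ℂ) :
    mv n (mmul n M N) v = mv n M (mv n N v) := by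
  funext j
  simp only [mv, mmul, sum_mul, mul_sum]
  rw [sum_comm]
  exact sum_congr rfl fun l _ => sum_congr rfl fun k _ => by ring

theorem mv_mdiag {n j : ℕ} (hj : j < n) (d v : ℕ → ℂ) : mv n (mdiag d) v j = d j * v j := by
  simp only [mv, mdiag, ite_mul, zero_mul]
  rw [sum_ite_eq, if_pos (mem_range.2 hj)]

theorem mv_mone {n j : ℕ} (hj : j < n) (v : ℕ → ℂ) : mv n mone v j = v j :=
  (mv_mdiag hj (fun _ => 1) v).trans (one_mul _)

theorem mv_mperm {n j : ℕ} {π : ℕ → ℕ} (hj : π j < n) (v : ℕ → ℂ) :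
    mv n (mperm π) v j = v (π j) := by
  simp only [mv, mperm, ite_mul, zero_mul, one_mul]
  rw [sum_ite_eq', if_pos (mem_range.2 hj)]

theorem mv_single {n k : ℕ} (hk : k < n) (M : ℕ → ℕ → ℂ) (j : ℕ) :
    mv n M (fun i => if i = k then 1 else 0) j = M j k := by
  simp only [mv, mul_ite, mul_one, mul_zero]
  rw [sum_ite_eq', if_pos (mem_range.2 hk)]

/-- the action of a word on a vector -/
noncomputable def act (s K : ℕ) : List Let → (ℕ → ℂ) → ℕ → ℂ
  | [], v => v
  | l :: w, v => act s K w (mv (2 ^ (K + 1)) (l.mat s K) v)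

theorem mv_wmat (s K : ℕ) (w : List Let) (v : ℕ → ℂ) :
    EqN (2 ^ (K + 1)) (mv (2 ^ (K + 1)) (wmat s K w) v) (act s K w v) := by
  induction w generalizing v with
  | nil => exact fun j hj => mv_mone hj v
  | cons l w ih =>
    rw [wmat, mv_mmul, act]
    exact ih _

theorem act_congr (s K : ℕ) (w : List Let) {u v : ℕ → ℂ} (h : EqN (2 ^ (K + 1)) u v) :
    EqN (2 ^ (K + 1)) (act s K w u) (act s K w v) := by
  cases w with
  | nil => exact h
  | cons l w => rw [act, act, mv_congr _ h]; exact EqN.refl _ _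

theorem act_append (s K : ℕ) (w w' : List Let) (v : ℕ → ℂ) :
    act s K (w ++ w') v = act s K w' (act s K w v) := by
  induction w generalizing v with
  | nil => rfl
  | cons l w ih => rw [List.cons_append, act, act, ih]

/-! ### characters -/

theorem ee_add (m m' : ℤ) (M : ℕ) : ee (m + m') M = ee m M * ee m' M := by
  unfold ee
  rw [← Complex.exp_add]
  congr 1
  push_cast
  ring

theorem ee_zero (M : ℕ) : ee 0 M = 1 := by simp [ee]

theorem ee_ne_zero (m : ℤ) (M : ℕ) : ee m M ≠ 0 := Complex.exp_ne_zero _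

theorem ee_neg (m : ℤ) (M : ℕ) : ee (-m) M = (ee m M)⁻¹ := by
  have h := ee_add (-m) m M
  rw [neg_add_cancel, ee_zero] at h
  exact eq_inv_of_mul_eq_one_left h.symm

theorem norm_ee (m : ℤ) (M : ℕ) : ‖ee m M‖ = 1 := by
  unfold ee
  have : (2 * Real.pi * Complex.I * m / M : ℂ) = ((2 * Real.pi * m / M : ℝ) : ℂ) * Complex.I := by
    push_cast; ring
  rw [this, Complex.norm_exp_ofReal_mul_I]

theorem ee_nat_mul (r : ℕ) (d : ℤ) (M : ℕ) : ee (r * d) M = ee d M ^ r := by
  induction r with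
  | zero => simp [ee_zero]
  | succ r ih => rw [pow_succ, ← ih, ← ee_add]; congr 1; push_cast; ring

theorem ee_eq_one_iff {M : ℕ} (hM : 0 < M) (d : ℤ) : ee d M = 1 ↔ (M : ℤ) ∣ d := by
  unfold ee
  have hM' : (M : ℂ) ≠ 0 := by exact_mod_cast hM.ne'
  have hpi : (2 * Real.pi * Complex.I : ℂ) ≠ 0 := Complex.two_pi_I_ne_zero
  rw [Complex.exp_eq_one_iff]
  constructor
  · rintro ⟨n, hn⟩
    refine ⟨n, ?_⟩
    have h1 : (d : ℂ) = M * n := by
      field_simp at hn
      exact hn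
    exact_mod_cast h1
  · rintro ⟨n, rfl⟩
    refine ⟨n, ?_⟩
    push_cast
    field_simp

theorem sum_ee {M : ℕ} (hM : 0 < M) (d : ℤ) :
    ∑ r ∈ range M, ee (r * d) M = if (M : ℤ) ∣ d then (M : ℂ) else 0 := by
  simp only [ee_nat_mul]
  split_ifs with h
  · rw [(ee_eq_one_iff hM d).2 h]; simp
  · have h1 : ee d M ≠ 1 := fun h1 => h ((ee_eq_one_iff hM d).1 h1)
    rw [geom_sum_eq h1, ← ee_nat_mul, (ee_eq_one_iff hM _).2 (Dvd.intro _ rfl)]
    simp

theorem dvd_sub_iff_eq {M a b : ℕ} (ha : a < M) (hb : b < M) :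
    (M : ℤ) ∣ (a : ℤ) - b ↔ a = b := by
  constructor
  · intro h
    have := Int.eq_zero_of_abs_lt_dvd h (by rw [abs_lt]; constructor <;> omega)
    omega
  · rintro rfl; simp

/-! ### bit reversal -/

theorem brev_lt (K j : ℕ) : brev K j < 2 ^ K := by
  induction K generalizing j with
  | zero => simp [brev]
  | succ K ih =>
    have h1 := ih (j / 2)
    have h2 : j % 2 < 2 := Nat.mod_lt _ (by norm_num)
    rw [brev, pow_succ]
    rcases (by omega : j % 2 = 0 ∨ j % 2 = 1) with h | h <;> rw [h] <;> omega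

theorem brev_inj {K j j' : ℕ} (hj : j < 2 ^ K) (hj' : j' < 2 ^ K) (h : brev K j = brev K j') :
    j = j' := by
  induction K generalizing j j' with
  | zero => omega
  | succ K ih =>
    have h1 := brev_lt K (j / 2)
    have h2 := brev_lt K (j' / 2)
    rw [brev, brev] at h
    rw [pow_succ] at hj hj'
    have h3 : j % 2 = j' % 2 ∧ brev K (j / 2) = brev K (j' / 2) := by
      rcases (by omega : j % 2 = 0 ∨ j % 2 = 1) with h4 | h4 <;>
        rcases (by omega : j' % 2 = 0 ∨ j' % 2 = 1) with h5 | h5 <;> rw [h4, h5] at h ⊢ <;> omega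
    have h4 := ih (by omega) (by omega) h3.2
    omega

theorem sum_brev (K : ℕ) (f : ℕ → ℂ) :
    ∑ r ∈ range (2 ^ K), f (brev K r) = ∑ r ∈ range (2 ^ K), f r := by
  have hinj : Set.InjOn (brev K) (range (2 ^ K) : Finset ℕ) := fun j hj j' hj' h =>
    brev_inj (by simpa using hj) (by simpa using hj') h
  have him : (range (2 ^ K)).image (brev K) = range (2 ^ K) := by
    apply eq_of_subset_of_card_le
    · intro r hr
      obtain ⟨j, -, rfl⟩ := mem_image.1 hr
      exact mem_range.2 (brev_lt _ _)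
    · rw [card_image_of_injOn hinj]
  rw [← sum_image (f := f) hinj, him]

theorem sum_ee_brev (K : ℕ) (d : ℤ) :
    ∑ r ∈ range (2 ^ K), ee (brev K r * d) (2 ^ K) =
      if ((2 ^ K : ℕ) : ℤ) ∣ d then (2 ^ K : ℂ) else 0 := by
  rw [sum_brev K fun r => ee (r * d) (2 ^ K), sum_ee (by positivity)]
  simp

/-! ### the transforms of order `2 ^ K` -/

/-- forward transform -/
noncomputable def Fo (K : ℕ) (z : ℕ → ℂ) : ℕ → ℂ :=
  fun r => ∑ k ∈ range (2 ^ K), ee (brev K r * k) (2 ^ K) * z k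

/-- backward transform -/
noncomputable def Bo (K : ℕ) (w : ℕ → ℂ) : ℕ → ℂ :=
  fun j => ∑ r ∈ range (2 ^ K), ee (-(brev K r * j)) (2 ^ K) * w r

theorem Fo_congr {K : ℕ} {u v : ℕ → ℂ} (h : EqN (2 ^ K) u v) : Fo K u = Fo K v := by
  funext j
  exact sum_congr rfl fun k hk => by rw [h k (mem_range.1 hk)]

theorem Bo_congr {K : ℕ} {u v : ℕ → ℂ} (h : EqN (2 ^ K) u v) : Bo K u = Bo K v := by
  funext j
  exact sum_congr rfl fun k hk => by rw [h k (mem_range.1 hk)]

theorem Bo_Fo {K j : ℕ} (hj : j < 2 ^ K) (z : ℕ → ℂ) : Bo K (Fo K z) j = 2 ^ K * z j := by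
  simp only [Bo, Fo, mul_sum]
  rw [sum_comm]
  have h1 : ∀ k ∈ range (2 ^ K), ∑ r ∈ range (2 ^ K),
      ee (-(brev K r * j)) (2 ^ K) * (ee (brev K r * k) (2 ^ K) * z k) =
      if k = j then 2 ^ K * z k else 0 := by
    intro k hk
    have h2 : ∀ r, ee (-(brev K r * j)) (2 ^ K) * (ee (brev K r * k) (2 ^ K) * z k) =
        ee (brev K r * ((k : ℤ) - j)) (2 ^ K) * z k := by
      intro r
      rw [← mul_assoc, ← ee_add]
      congr 2; ring
    simp only [h2]
    rw [← sum_mul, sum_ee_brev, if_congr (dvd_sub_iff_eq (mem_range.1 hk) hj) rfl rfl]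
    split_ifs <;> simp
  rw [sum_congr rfl h1, sum_ite_eq', if_pos (mem_range.2 hj)]

theorem Fo_Bo {K r : ℕ} (hr : r < 2 ^ K) (w : ℕ → ℂ) : Fo K (Bo K w) r = 2 ^ K * w r := by
  simp only [Bo, Fo, mul_sum]
  rw [sum_comm]
  have h1 : ∀ r' ∈ range (2 ^ K), ∑ k ∈ range (2 ^ K),
      ee (brev K r * k) (2 ^ K) * (ee (-(brev K r' * k)) (2 ^ K) * w r') =
      if r' = r then 2 ^ K * w r' else 0 := by
    intro r' hr'
    have h2 : ∀ k : ℕ, ee (brev K r * k) (2 ^ K) * (ee (-(brev K r' * k)) (2 ^ K) * w r') =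
        ee (k * ((brev K r : ℤ) - brev K r')) (2 ^ K) * w r' := by
      intro k
      rw [← mul_assoc, ← ee_add]
      congr 2; ring
    simp only [h2]
    rw [← sum_mul, sum_ee (by positivity),
      if_congr (dvd_sub_iff_eq (brev_lt _ _) (brev_lt _ _)) rfl rfl]
    by_cases h : r' = r
    · subst h; simp
    · rw [if_neg h, if_neg fun h' => h (brev_inj (mem_range.1 hr') hr h'.symm), zero_mul]
  rw [sum_congr rfl h1, sum_ite_eq', if_pos (mem_range.2 hr)]

theorem Bo_smul (K : ℕ) (c : ℂ) (w : ℕ → ℂ) (j : ℕ) :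
    Bo K (fun r => c * w r) j = c * Bo K w j := by
  simp only [Bo, mul_sum]
  exact sum_congr rfl fun r _ => by ring

/-- conjugation of a diagonal matrix by the transform -/
noncomputable def Cj (K : ℕ) (d z : ℕ → ℂ) : ℕ → ℂ := Bo K fun r => d r / 2 ^ K * Fo K z r

theorem Cj_congr {K : ℕ} (d : ℕ → ℂ) {u v : ℕ → ℂ} (h : EqN (2 ^ K) u v) :
    Cj K d u = Cj K d v := by
  unfold Cj; rw [Fo_congr h]

theorem Cj_one {K j : ℕ} (hj : j < 2 ^ K) (z : ℕ → ℂ) : Cj K (fun _ => 1) z j = z j := by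
  unfold Cj
  rw [Bo_smul, Bo_Fo hj]
  field_simp

theorem Cj_Cj (K : ℕ) (d d' z : ℕ → ℂ) :
    Cj K d (Cj K d' z) = Cj K (fun r => d r * d' r) z := by
  unfold Cj
  apply Bo_congr
  intro r hr
  simp only [Fo_Bo hr]
  field_simp

theorem Cj_add (K : ℕ) (d u v : ℕ → ℂ) (j : ℕ) :
    Cj K d (fun k => u k + v k) j = Cj K d u j + Cj K d v j := by
  simp only [Cj, Bo, Fo, mul_add, sum_add_distrib]

theorem norm_chirp (s j : ℕ) : ‖chirp s j‖ = 1 := norm_ee _ _

theorem chirp_ne_zero (s j : ℕ) : chirp s j ≠ 0 := ee_ne_zero _ _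

theorem norm_kern_le (s K k : ℕ) : ‖kern s K k‖ ≤ 1 := by
  unfold kern
  split_ifs <;> simp [norm_chirp]

theorem eig_ne_zero (s K r : ℕ) : eig s K r ≠ 0 := by
  unfold eig
  intro h
  have h1 : ‖∑ k ∈ range (2 ^ K), ee (brev K r * k : ℕ) (2 ^ K) * kern s K k‖ ≤ 2 ^ K := by
    refine (norm_sum_le _ _).trans ?_
    refine (sum_le_card_nsmul _ _ 1 fun k _ => ?_).trans (by simp)
    rw [norm_mul, norm_ee, one_mul]
    exact norm_kern_le _ _ _
  have h2 : ∑ k ∈ range (2 ^ K), ee (brev K r * k : ℕ) (2 ^ K) * kern s K k = -2 ^ (K + 1) := by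
    have h3 : (2 : ℂ) ^ (K + 1) ≠ 0 := pow_ne_zero _ two_ne_zero
    field_simp at h
    linear_combination h
  rw [h2, norm_neg, norm_pow, Complex.norm_two, pow_succ] at h1
  have : (0 : ℝ) < 2 ^ K := by positivity
  linarith

theorem Cj_inv_Cj {s K : ℕ} (z : ℕ → ℂ) :
    EqN (2 ^ K) (Cj K (fun r => (eig s K r)⁻¹) (Cj K (eig s K) z)) z := by
  intro j hj
  rw [Cj_Cj]
  simp only [inv_mul_cancel₀ (eig_ne_zero s K _)]
  exact Cj_one hj z

/-- the Toeplitz matrix -/
noncomputable def To (s : ℕ) (x : ℕ → ℂ) : ℕ → ℂ :=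
  fun j => ∑ k ∈ range s, (chirp s (if k ≤ j then j - k else k - j))⁻¹ * x k

/-- the first `s` entries, completed by zeros -/
noncomputable def ext0 (s : ℕ) (x : ℕ → ℂ) : ℕ → ℂ := fun k => if k < s then x k else 0

theorem Cj_eig_ext0 {s K j : ℕ} (hs : 2 * s ≤ 2 ^ K) (hj : j < s) (x : ℕ → ℂ) :
    Cj K (eig s K) (ext0 s x) j = x j + To s x j / 2 ^ (K + 1) := by
  have hjK : j < 2 ^ K := by omega
  have h0 : Cj K (eig s K) (ext0 s x) j = Cj K (fun _ => 1) (ext0 s x) j +
      (∑ r ∈ range (2 ^ K), ∑ m ∈ range (2 ^ K), ∑ k ∈ range (2 ^ K),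
        ee (brev K r * ((m : ℤ) + k - j)) (2 ^ K) * (kern s K m * ext0 s x k)) /
          (2 ^ K * 2 ^ (K + 1)) := by
    simp only [Cj, Bo, eig, sum_div, ← sum_add_distrib]
    refine sum_congr rfl fun r _ => ?_
    have h1 : ∑ m ∈ range (2 ^ K), ∑ k ∈ range (2 ^ K),
        ee (brev K r * ((m : ℤ) + k - j)) (2 ^ K) * (kern s K m * ext0 s x k) /
          (2 ^ K * 2 ^ (K + 1)) =
        ee (-(brev K r * j)) (2 ^ K) * ((∑ m ∈ range (2 ^ K),
          ee (brev K r * m : ℕ) (2 ^ K) * kern s K m / 2 ^ (K + 1)) / 2 ^ K * Fo K (ext0 s x) r) := by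
      simp only [Fo, sum_div, sum_mul, mul_sum]
      rw [sum_comm]
      refine sum_congr rfl fun k _ => sum_congr rfl fun m _ => ?_
      have h2 : ee (brev K r * ((m : ℤ) + k - j)) (2 ^ K) = ee (-(brev K r * j)) (2 ^ K) *
          (ee (brev K r * m : ℕ) (2 ^ K) * ee (brev K r * k) (2 ^ K)) := by
        rw [← ee_add, ← ee_add]; congr 1; push_cast; ring
      rw [h2]
      field_simp
    rw [h1]
    ring
  rw [h0, Cj_one hjK]
  have h3 : ∑ r ∈ range (2 ^ K), ∑ m ∈ range (2 ^ K), ∑ k ∈ range (2 ^ K),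
      ee (brev K r * ((m : ℤ) + k - j)) (2 ^ K) * (kern s K m * ext0 s x k) = 2 ^ K * To s x j := by
    rw [sum_comm]
    simp only [sum_comm (s := range (2 ^ K)) (t := range (2 ^ K))
      (f := fun r k => ee (brev K r * (_ + (k : ℕ) - j)) (2 ^ K) * (kern s K _ * ext0 s x k)),
      ← sum_mul, sum_ee_brev]
    rw [sum_comm, To, mul_sum, ← sum_subset (s₁ := range s) (range_subset_range.2 (by omega))]
    · refine sum_congr rfl fun k hk => ?_
      have hk' := mem_range.1 hk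
      have h4 : ∀ m ∈ range (2 ^ K), (if ((2 ^ K : ℕ) : ℤ) ∣ (m : ℤ) + k - j then (2 ^ K : ℂ) else 0) *
          (kern s K m * ext0 s x k) =
          if m = (if k ≤ j then j - k else 2 ^ K - (k - j)) then
            2 ^ K * (kern s K m * ext0 s x k) else 0 := by
        intro m hm
        have hm' := mem_range.1 hm
        have h5 : ((2 ^ K : ℕ) : ℤ) ∣ (m : ℤ) + k - j ↔
            m = (if k ≤ j then j - k else 2 ^ K - (k - j)) := by
          split_ifs with h6
          · rw [← dvd_sub_iff_eq hm' (by omega)]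
            congr! 1; push_cast [h6]; ring
          · rw [← dvd_sub_iff_eq hm' (by omega), ← dvd_sub_left (dvd_refl ((2 ^ K : ℕ) : ℤ))]
            congr! 1
            rw [Nat.cast_sub (by omega), Nat.cast_sub (by omega)]; ring
        rw [ite_mul, zero_mul]
        exact if_congr h5 rfl rfl
      rw [sum_congr rfl h4, sum_ite_eq', if_pos (mem_range.2 (by split_ifs <;> omega))]
      congr 2
      · unfold kern
        split_ifs with h6 h7 h8 h9 h10
        · rfl
        · omega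
        · omega
        · omega
        · congr 2; omega
        · omega
      · simp [ext0, hk']
    · intro k _ hk
      simp [ext0, show ¬k < s from fun h => hk (mem_range.2 h)]
  rw [h3]
  congr 1
  · simp [ext0, hj]
  · field_simp

end Word
end Crest.Agent.R326
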