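import Crest.Agent.R326.WordA

/-!
# The word for the transform of order `s`, part B: the action of the letters
-/

set_option autoImplicit false

namespace Crest.Agent.R326
namespace Word

open Finset

theorem two_pow_eq {K : ℕ} (hK : 1 ≤ K) : 2 ^ K = 2 * 2 ^ (K - 1) := by
  obtain ⟨K, rfl⟩ : ∃ K', K = K' + 1 := ⟨K - 1, by omega⟩
  rw [pow_succ, Nat.add_sub_cancel, mul_comm]

theorem div_mod_iff {Q s be j : ℕ} (hs : s ≤ Q) (hQ : 0 < Q) :
    (j / Q = be ∧ j % Q < s) ↔ (be * Q ≤ j ∧ j < be * Q + s) := by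
  have h1 := Nat.div_add_mod' j Q
  have h2 := Nat.mod_lt j hQ
  constructor
  · rintro ⟨rfl, h⟩; omega
  · rintro ⟨h3, h4⟩
    have h5 : j / Q = be := by
      rw [Nat.div_eq_iff hQ]; omega
    subst h5
    exact ⟨rfl, by omega⟩

theorem mv_shM {K s al be j : ℕ} (hK : 1 ≤ K) (hs : s ≤ 2 ^ (K - 1)) (hal : al < 4)
    (hj : j < 2 ^ (K + 1)) (c : ℂ) (v : ℕ → ℂ) :
    mv (2 ^ (K + 1)) (shM K s al be c) v j = v j +
      if be * 2 ^ (K - 1) ≤ j ∧ j < be * 2 ^ (K - 1) + s then
        c * v (al * 2 ^ (K - 1) + (j - be * 2 ^ (K - 1))) else 0 := by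
  have hQ : 0 < 2 ^ (K - 1) := by positivity
  have h2 := two_pow_eq hK
  simp only [mv, shM, add_mul, sum_add_distrib, ite_mul, one_mul, zero_mul]
  rw [sum_ite_eq, if_pos (mem_range.2 hj)]
  congr 1
  split_ifs with h
  · have h3 := (div_mod_iff hs hQ).2 h
    have h4 : j % 2 ^ (K - 1) = j - be * 2 ^ (K - 1) := by
      have h5 := Nat.div_add_mod' j (2 ^ (K - 1))
      rw [h3.1] at h5
      omega
    have h6 : al * 2 ^ (K - 1) ≤ 3 * 2 ^ (K - 1) := Nat.mul_le_mul_right _ (by omega)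
    simp only [h3.1, h3.2, true_and]
    rw [sum_ite_eq', if_pos (mem_range.2 (by omega)), h4]
  · refine sum_eq_zero fun k _ => if_neg fun h' => h ((div_mod_iff hs hQ).1 ⟨h'.1, h'.2.1⟩)

theorem sum_range_two_pow_succ (K : ℕ) (f : ℕ → ℂ) :
    ∑ k ∈ range (2 ^ (K + 1)), f k = ∑ k ∈ range (2 ^ K), f k + ∑ k ∈ range (2 ^ K), f (2 ^ K + k) := by
  rw [pow_succ, mul_two, sum_range_add]

theorem mv_FM_low {K j : ℕ} (hj : j < 2 ^ K) (v : ℕ → ℂ) :
    mv (2 ^ (K + 1)) (FM K) v j = Fo K v j := by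
  rw [mv, sum_range_two_pow_succ, Fo, ← add_zero (∑ k ∈ range (2 ^ K), ee _ _ * v k)]
  congr 1
  · refine sum_congr rfl fun k hk => ?_
    have hk' := mem_range.1 hk
    rw [FM, Nat.div_eq_of_lt hj, Nat.div_eq_of_lt hk', if_pos rfl, Nat.mod_eq_of_lt hj,
      Nat.mod_eq_of_lt hk', Nat.cast_mul]
  · refine sum_eq_zero fun k _ => ?_
    rw [FM, Nat.div_eq_of_lt hj, Nat.add_div_left _ (by positivity),
      if_neg (Nat.succ_ne_zero _).symm, zero_mul]

theorem mv_FM_high {K j : ℕ} (hj : j < 2 ^ K) (v : ℕ → ℂ) :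
    mv (2 ^ (K + 1)) (FM K) v (2 ^ K + j) = Fo K (fun k => v (2 ^ K + k)) j := by
  rw [mv, sum_range_two_pow_succ, Fo, ← zero_add (∑ k ∈ range (2 ^ K), ee _ _ * v (2 ^ K + k))]
  congr 1
  · refine sum_eq_zero fun k hk => ?_
    rw [FM, Nat.div_eq_of_lt (mem_range.1 hk), Nat.add_div_left _ (by positivity),
      if_neg (Nat.succ_ne_zero _), zero_mul]
  · refine sum_congr rfl fun k hk => ?_
    have hk' := mem_range.1 hk
    rw [FM, Nat.add_div_left _ (by positivity), Nat.add_div_left _ (by positivity),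
      Nat.div_eq_of_lt hj, Nat.div_eq_of_lt hk', if_pos rfl, Nat.add_mod_left, Nat.add_mod_left,
      Nat.mod_eq_of_lt hj, Nat.mod_eq_of_lt hk', Nat.cast_mul]

theorem mv_BM_low {K j : ℕ} (hj : j < 2 ^ K) (v : ℕ → ℂ) :
    mv (2 ^ (K + 1)) (BM K) v j = Bo K v j := by
  rw [mv, sum_range_two_pow_succ, Bo, ← add_zero (∑ k ∈ range (2 ^ K), ee _ _ * v k)]
  congr 1
  · refine sum_congr rfl fun k hk => ?_
    have hk' := mem_range.1 hk
    rw [BM, Nat.div_eq_of_lt hj, Nat.div_eq_of_lt hk', if_pos rfl, Nat.mod_eq_of_lt hj,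
      Nat.mod_eq_of_lt hk', Nat.cast_mul]
  · refine sum_eq_zero fun k _ => ?_
    rw [BM, Nat.div_eq_of_lt hj, Nat.add_div_left _ (by positivity),
      if_neg (Nat.succ_ne_zero _).symm, zero_mul]

theorem mv_BM_high {K j : ℕ} (hj : j < 2 ^ K) (v : ℕ → ℂ) :
    mv (2 ^ (K + 1)) (BM K) v (2 ^ K + j) = Bo K (fun k => v (2 ^ K + k)) j := by
  rw [mv, sum_range_two_pow_succ, Bo, ← zero_add (∑ k ∈ range (2 ^ K), ee _ _ * v (2 ^ K + k))]
  congr 1
  · refine sum_eq_zero fun k hk => ?_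
    rw [BM, Nat.div_eq_of_lt (mem_range.1 hk), Nat.add_div_left _ (by positivity),
      if_neg (Nat.succ_ne_zero _), zero_mul]
  · refine sum_congr rfl fun k hk => ?_
    have hk' := mem_range.1 hk
    rw [BM, Nat.add_div_left _ (by positivity), Nat.add_div_left _ (by positivity),
      Nat.div_eq_of_lt hj, Nat.div_eq_of_lt hk', if_pos rfl, Nat.add_mod_left, Nat.add_mod_left,
      Nat.mod_eq_of_lt hj, Nat.mod_eq_of_lt hk', Nat.cast_mul]

theorem act_conj {s K t : ℕ} {d : ℕ → ℂ}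
    (ht : tabI s K t = fun x => if x < 2 ^ K then 1 / 2 ^ K else d (x - 2 ^ K) / 2 ^ K)
    (v : ℕ → ℂ) :
    EqN (2 ^ (K + 1)) (act s K [.fwd, .diag t, .bwd] v)
      fun j => if j < 2 ^ K then v j else Cj K d (fun k => v (2 ^ K + k)) (j - 2 ^ K) := by
  intro j hj
  simp only [act, Let.mat]
  split_ifs with h
  · rw [mv_BM_low h, ← Cj_one h v, Cj]
    refine congrFun (Bo_congr fun r hr => ?_) _
    rw [mv_mdiag (by omega), mv_FM_low hr, ht]
    simp only [hr, if_true]
  · obtain ⟨j, rfl⟩ : ∃ j', j = 2 ^ K + j' := ⟨j - 2 ^ K, by omega⟩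
    rw [mv_BM_high (by omega), Nat.add_sub_cancel_left, Cj]
    refine congrFun (Bo_congr fun r hr => ?_) _
    rw [mv_mdiag (by omega), mv_FM_high hr, ht]
    simp only [Nat.add_sub_cancel_left, show ¬2 ^ K + r < 2 ^ K by omega, if_false]

/-! ### vectors given by blocks -/

/-- the vector with blocks `x`, `y`, padding `r` and second half `z` -/
noncomputable def build (s K : ℕ) (x y r z : ℕ → ℂ) : ℕ → ℂ := fun j =>
  if j < s then x j else
    if 2 ^ (K - 1) ≤ j ∧ j < 2 ^ (K - 1) + s then y (j - 2 ^ (K - 1)) else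
      if j < 2 ^ K then r j else z (j - 2 ^ K)

theorem build_congr {s K : ℕ} {x y z x' y' z' : ℕ → ℂ} (hx : EqN s x x') (hy : EqN s y y')
    (hz : EqN (2 ^ K) z z') (r : ℕ → ℂ) :
    EqN (2 ^ (K + 1)) (build s K x y r z) (build s K x' y' r z') := by
  intro j hj
  unfold build
  split_ifs with h1 h2 h3
  · exact hx _ h1
  · exact hy _ (by omega)
  · rfl
  · exact hz _ (by omega)

section blocks

variable {s K : ℕ}

theorem build_x {i : ℕ} (hi : i < s) (x y r z : ℕ → ℂ) : build s K x y r z i = x i := by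
  simp [build, hi]

theorem build_y (hs : s ≤ 2 ^ (K - 1)) {i : ℕ} (hi : i < s) (x y r z : ℕ → ℂ) :
    build s K x y r z (2 ^ (K - 1) + i) = y i := by
  unfold build
  rw [if_neg (by omega), if_pos (by omega), Nat.add_sub_cancel_left]

theorem build_z (hK : 1 ≤ K) (hs : s ≤ 2 ^ (K - 1)) (i : ℕ) (x y r z : ℕ → ℂ) :
    build s K x y r z (2 ^ K + i) = z i := by
  have := two_pow_eq hK
  unfold build
  rw [if_neg (by omega), if_neg (by omega), if_neg (by omega), Nat.add_sub_cancel_left]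

/-- the word `w` maps the blocks `x, y, z` to `x', y', z'` and keeps the padding -/
def Step (s K : ℕ) (w : List Let) (x y z x' y' z' : ℕ → ℂ) : Prop :=
  ∀ r, EqN (2 ^ (K + 1)) (act s K w (build s K x y r z)) (build s K x' y' r z')

theorem Step.append {w w' : List Let} {x y z x' y' z' x'' y'' z'' : ℕ → ℂ}
    (h : Step s K w x y z x' y' z') (h' : Step s K w' x' y' z' x'' y'' z'') :
    Step s K (w ++ w') x y z x'' y'' z'' := fun r => by
  rw [act_append]
  exact (act_congr s K w' (h r)).trans (h' r)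

theorem Step.congr {w : List Let} {x y z x' y' z' x'' y'' z'' : ℕ → ℂ}
    (h : Step s K w x y z x' y' z') (hx : EqN s x' x'') (hy : EqN s y' y'')
    (hz : EqN (2 ^ K) z' z'') : Step s K w x y z x'' y'' z'' :=
  fun r => (h r).trans (build_congr hx hy hz r)

theorem step_diag {t : ℕ} {u v : ℕ → ℂ}
    (ht : tabI s K t = quart s K u v) (x y z : ℕ → ℂ) :
    Step s K [.diag t] x y z (fun i => u i * x i) (fun i => v i * y i) z := by
  intro r j hj
  simp only [act, Let.mat]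
  rw [mv_mdiag hj, ht]
  unfold quart build
  split_ifs <;> simp

theorem step_conj (hK : 1 ≤ K) (hs : s ≤ 2 ^ (K - 1)) {t : ℕ} {d : ℕ → ℂ}
    (ht : tabI s K t = fun x => if x < 2 ^ K then 1 / 2 ^ K else d (x - 2 ^ K) / 2 ^ K)
    (x y z : ℕ → ℂ) : Step s K [.fwd, .diag t, .bwd] x y z x y (Cj K d z) := by
  intro r j hj
  have := two_pow_eq hK
  rw [act_conj ht _ j hj]
  simp only [build_z hK hs]
  unfold build
  split_ifs <;> first | rfl | omega

theorem step_01 (hK : 1 ≤ K) (hs : s ≤ 2 ^ (K - 1)) (big : Bool) (sg : ℕ) (x y z : ℕ → ℂ) :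
    Step s K [.shear 0 1 big sg] x y z x
      (fun i => y i + sgn2 (if big then K + 1 else 0) sg * x i) z := by
  intro r j hj
  have := two_pow_eq hK
  simp only [act, Let.mat]
  generalize (sgn2 (if big then K + 1 else 0) sg : ℂ) = c
  rw [mv_shM hK hs (by norm_num) hj]
  simp only [zero_mul, one_mul, zero_add]
  split_ifs with h
  · obtain ⟨i, rfl⟩ : ∃ i, j = 2 ^ (K - 1) + i := ⟨j - 2 ^ (K - 1), by omega⟩
    have hi : i < s := by omega
    rw [Nat.add_sub_cancel_left, build_y hs hi, build_y hs hi, build_x hi]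
  · rw [add_zero]
    unfold build
    rw [if_neg h, if_neg h]

theorem step_10 (hK : 1 ≤ K) (hs : s ≤ 2 ^ (K - 1)) (big : Bool) (sg : ℕ) (x y z : ℕ → ℂ) :
    Step s K [.shear 1 0 big sg] x y z
      (fun i => x i + sgn2 (if big then K + 1 else 0) sg * y i) y z := by
  intro r j hj
  have := two_pow_eq hK
  simp only [act, Let.mat]
  generalize (sgn2 (if big then K + 1 else 0) sg : ℂ) = c
  rw [mv_shM hK hs (by norm_num) hj]
  simp only [zero_mul, one_mul, zero_add, zero_le, true_and, Nat.sub_zero]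
  split_ifs with h
  · rw [build_y hs h, build_x h, build_x h]
  · rw [add_zero]
    unfold build
    rw [if_neg h, if_neg h]

theorem step_02 (hK : 1 ≤ K) (hs : s ≤ 2 ^ (K - 1)) (big : Bool) (sg : ℕ) (x y z : ℕ → ℂ) :
    Step s K [.shear 0 2 big sg] x y z x y
      (fun i => z i + sgn2 (if big then K + 1 else 0) sg * ext0 s x i) := by
  intro r j hj
  have h2 := two_pow_eq hK
  simp only [act, Let.mat]
  generalize (sgn2 (if big then K + 1 else 0) sg : ℂ) = c
  rw [mv_shM hK hs (by norm_num) hj, ← h2]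
  simp only [zero_mul, zero_add]
  split_ifs with h
  · obtain ⟨i, rfl⟩ : ∃ i, j = 2 ^ K + i := ⟨j - 2 ^ K, by omega⟩
    have hi : i < s := by omega
    rw [Nat.add_sub_cancel_left, build_z hK hs, build_z hK hs, build_x hi]
    simp [ext0, hi]
  · rw [add_zero]
    unfold build
    split_ifs with h3 h4 h5
    · rfl
    · rfl
    · rfl
    · simp [ext0, show ¬j - 2 ^ K < s by omega]

theorem step_21 (hK : 1 ≤ K) (hs : s ≤ 2 ^ (K - 1)) (big : Bool) (sg : ℕ) (x y z : ℕ → ℂ) :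
    Step s K [.shear 2 1 big sg] x y z x
      (fun i => y i + sgn2 (if big then K + 1 else 0) sg * z i) z := by
  intro r j hj
  have h2 := two_pow_eq hK
  simp only [act, Let.mat]
  generalize (sgn2 (if big then K + 1 else 0) sg : ℂ) = c
  rw [mv_shM hK hs (by norm_num) hj, ← h2]
  simp only [one_mul]
  split_ifs with h
  · obtain ⟨i, rfl⟩ : ∃ i, j = 2 ^ (K - 1) + i := ⟨j - 2 ^ (K - 1), by omega⟩
    have hi : i < s := by omega
    rw [Nat.add_sub_cancel_left, build_y hs hi, build_y hs hi, build_z hK hs]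
  · rw [add_zero]
    unfold build
    rw [if_neg h, if_neg h]

/-- index negation modulo `s` -/
def ng (s i : ℕ) : ℕ := if i = 0 then 0 else s - i

theorem step_neg (hK : 1 ≤ K) (hs : s ≤ 2 ^ (K - 1)) (x y z : ℕ → ℂ) :
    Step s K [.neg] x y z x (fun i => y (ng s i)) z := by
  intro r j hj
  have h2 := two_pow_eq hK
  simp only [act, Let.mat]
  rw [mv_mperm (by unfold negP; split_ifs <;> omega)]
  unfold negP
  split_ifs with h
  · obtain ⟨i, rfl⟩ : ∃ i, j = 2 ^ (K - 1) + i := ⟨j - 2 ^ (K - 1), by omega⟩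
    have hi : i < s := by omega
    rw [show 2 ^ K + s - (2 ^ (K - 1) + i) = 2 ^ (K - 1) + (s - i) by omega,
      build_y hs (by omega), build_y hs hi, ng, if_neg (by omega)]
  · unfold build
    split_ifs with h3 h4 h5
    · rfl
    · rw [show j - 2 ^ (K - 1) = 0 by omega]; rfl
    · rfl
    · rfl

end blocks

end Word
end Crest.Agent.R326
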